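import Vale.Agent.P073.H31.PlNew2

/-!
# P073, H31, METRIC: the PEEL theorem
-/

set_option linter.unusedSectionVars false

open Set Metric Topology Filter

namespace P073.H31

open P073.H339 P073.GB200 P073.H341

variable {E : Type*} [NormedAddCommGroup E] [NormedSpace ℝ E]
variable {N k : ℕ} {A : ℕ → ArcD} {col : ℕ → Bool} {C B : Set E} {fn : ℕ → E → ℝ}
  {γ : ℝ × ℝ → E}

theorem PLc.smulc {G F : Type*} [NormedAddCommGroup G] [NormedSpace ℝ G] [NormedAddCommGroup F]
    [NormedSpace ℝ F] {f : G → ℝ} (hf : PLc f) (c : F) : PLc (fun x => f x • c) :=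
  ⟨hf.c.smul continuous_const, hf.k.linear_comp (LinearMap.toSpanSingleton ℝ F c)⟩

/-- the filled part over the lens -/
def FilD (N k : ℕ) (C C₂ : Set E) (fn : ℕ → E → ℝ) : Set (E × (Fin N → ℝ)) :=
  {v | v ∈ Fil N (k + 1) C fn ∧ v.1 ∈ C₂}

/-- the unit vector of the last band -/
noncomputable def ev (E : Type*) [NormedAddCommGroup E] {N : ℕ} (e : Fin N) : E × (Fin N → ℝ) :=
  (0, Pi.single e 1)

theorem ev_self {e : Fin N} : (ev E e).2 e = 1 := by
  show (Pi.single e (1:ℝ) : Fin N → ℝ) e = 1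
  exact Pi.single_eq_same e 1

theorem ev_ne {e i : Fin N} (h : i ≠ e) : (ev E e).2 i = 0 := by
  show (Pi.single e (1:ℝ) : Fin N → ℝ) i = 0
  exact Pi.single_eq_of_ne h 1

namespace Stp

variable {B₁ B₂ C₁ C₂ : Set E} (H : Stp k A col C B fn γ B₁ B₂ C₁ C₂)

include H

/-- the map over the layer -/
theorem exists_M (hkN : k + 1 ≤ N) {L : ConHomeo (D0 (A k)) (Fil N k C₂ fn)}
    (hL : LOut N k A C₂ (Sa C fn k) fn γ L) :
    ∃ M : ConHomeo (FD (A k)) (FilD N k C C₂ fn),
      ∀ w, M.toFun w = L.toFun w.1 + w.2 • ev E (⟨k, hkN⟩ : Fin N) := by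
  have g := H.gk
  set e : Fin N := ⟨k, hkN⟩ with he
  set c := ev E e with hc
  have hFDk : ConicalSet (FD (A k)) := (LC g).conicalSet_right
  have hLe : ∀ x ∈ D0 (A k), (L.toFun x).2 e = 0 := fun x hx => by
    rw [hL.z x hx e, if_neg (lt_irrefl k)]
  have ine : ∀ i : Fin N, (i : ℕ) ≠ k → i ≠ e := fun i hi h => hi (by rw [h])
  have m1 : MapsTo (fun w : (ℝ × ℝ) × ℝ => w.1) (FD (A k)) (D0 (A k)) := fun w hw => hw.1
  have m2 : MapsTo (fun v : E × (Fin N → ℝ) => v - v.2 e • c) (FilD N k C C₂ fn)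
      (Fil N k C₂ fn) := by
    intro v hv
    have e1 : (v - v.2 e • c).1 = v.1 := by
      show v.1 - v.2 e • (0 : E) = v.1
      rw [smul_zero, sub_zero]
    have e2 : ∀ i, i ≠ e → (v - v.2 e • c).2 i = v.2 i := fun i hi => by
      show v.2 i - v.2 e • c.2 i = v.2 i
      rw [hc, ev_ne hi, smul_zero, sub_zero]
    have e3 : (v - v.2 e • c).2 e = 0 := by
      show v.2 e - v.2 e • c.2 e = 0
      rw [hc, ev_self, smul_eq_mul, mul_one, sub_self]
    refine ⟨by rw [e1]; exact hv.2, fun i => ?_⟩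
    rw [e1]
    by_cases hi : i = e
    · rw [hi, e3]
      exact ⟨⟨le_rfl, zero_le_one⟩, fun _ _ => rfl, fun h => absurd h (lt_irrefl k), fun _ => rfl⟩
    · rw [e2 i hi]
      have hik : (i : ℕ) ≠ k := fun h => hi (Fin.ext h)
      obtain ⟨f1, f2, f3, f4⟩ := hv.1.2 i
      exact ⟨f1, fun h => f2 (by omega), fun h => f3 (by omega), fun h => f4 (by omega)⟩
  have pv : PLc (fun v : E × (Fin N → ℝ) => v - v.2 e • c) := by
    have h1 : PLc (fun v : E × (Fin N → ℝ) => v.2 e) :=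
      ⟨(continuous_apply e).comp continuous_snd,
        (PLc.id.snd (F := E) (G := Fin N → ℝ)).k.linear_comp (LinearMap.proj (R := ℝ)
          (φ := fun _ : Fin N => ℝ) e)⟩
    exact PLc.id.sub (h1.smulc c)
  have pe : Continuous (fun v : E × (Fin N → ℝ) => v.2 e) :=
    (continuous_apply e).comp continuous_snd
  refine ⟨
    { toFun := fun w => L.toFun w.1 + w.2 • c
      invFun := fun v => (L.invFun (v - v.2 e • c), v.2 e)
      mapsTo := ?_
      mapsTo_inv := ?_
      left_inv := ?_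
      right_inv := ?_
      cont := (L.cont.comp continuousOn_fst m1).add
        ((continuous_snd.smul continuous_const).continuousOn)
      cont_inv := (L.cont_inv.comp (pv.contOn _) m2).prodMk pe.continuousOn
      conical := ?_ }, fun w => rfl⟩
  · rintro ⟨x, z⟩ ⟨hx, hz0, hz1, hz⟩
    simp only at hx hz0 hz1 hz
    have hv := L.mapsTo hx
    have e1 : (L.toFun x + z • c).1 = (L.toFun x).1 := by
      show (L.toFun x).1 + z • (0 : E) = _
      rw [smul_zero, add_zero]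
    have e2 : ∀ i, i ≠ e → (L.toFun x + z • c).2 i = (L.toFun x).2 i := fun i hi => by
      show (L.toFun x).2 i + z • c.2 i = _
      rw [hc, ev_ne hi, smul_zero, add_zero]
    have e3 : (L.toFun x + z • c).2 e = z := by
      show (L.toFun x).2 e + z • c.2 e = z
      rw [hLe x hx, hc, ev_self, smul_eq_mul, mul_one, zero_add]
    have hC2 : (L.toFun x).1 ∈ C₂ := hv.1
    refine ⟨⟨?_, fun i => ?_⟩, ?_⟩
    · show (L.toFun x + z • c).1 ∈ C
      rw [e1]; exact H.C₂C hC2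
    · show _ ∧ _
      simp only
      rw [e1]
      by_cases hi : i = e
      · rw [hi, e3]
        refine ⟨⟨hz0, hz1⟩, fun _ h => ?_, fun _ h => ?_, fun h => absurd h (by
          show ¬ k + 1 ≤ k; omega)⟩
        · exact absurd ((H.mem₂ (H.C₂C hC2)).1 hC2) (not_le.2 h)
        · apply hz
          refine lt_of_le_of_ne hx.2.2.2 fun h1 => ?_
          have : x ∈ gD (A k) := ⟨hx.1, hx.2.1, h1⟩
          exact h.ne' ((hL.S x hx).2 this).2
      · rw [e2 i hi]
        have hik : (i : ℕ) ≠ k := fun h => hi (Fin.ext h)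
        obtain ⟨f1, f2, f3, f4⟩ := hv.2 i
        exact ⟨f1, fun h => f2 (by omega), fun h => f3 (by omega), fun h => f4 (by omega)⟩
    · show (L.toFun x + z • c).1 ∈ C₂
      rw [e1]; exact hC2
  · intro v hv
    have h1 := m2 hv
    have h2 := L.mapsTo_inv h1
    obtain ⟨f1, f2, f3, f4⟩ := hv.1.2 e
    refine ⟨h2, f1.1, f1.2, fun h => f3 (by show k < k + 1; omega) ?_⟩
    have h3 : L.invFun (v - v.2 e • c) ∉ gD (A k) := fun h4 => h.ne h4.2.2
    have h4 : (L.toFun (L.invFun (v - v.2 e • c))).1 = v.1 := by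
      rw [L.right_inv h1]
      show v.1 - v.2 e • (0 : E) = v.1
      rw [smul_zero, sub_zero]
    have h5 : v.1 ∉ Sa C fn k := fun h6 => h3 ((hL.S _ h2).1 (by rw [h4]; exact h6))
    exact H.pos v.1 hv.2 h5
  · rintro ⟨x, z⟩ hw
    have hx : x ∈ D0 (A k) := hw.1
    have e3 : (L.toFun x + z • c).2 e = z := by
      show (L.toFun x).2 e + z • c.2 e = z
      rw [hLe x hx, hc, ev_self, smul_eq_mul, mul_one, zero_add]
    show (L.invFun (L.toFun x + z • c - (L.toFun x + z • c).2 e • c), (L.toFun x + z • c).2 e) = _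
    rw [e3, add_sub_cancel_right, L.left_inv hx]
  · intro v hv
    show L.toFun (L.invFun (v - v.2 e • c)) + v.2 e • c = v
    rw [L.right_inv (m2 hv), sub_add_cancel]
  · exact (L.conical.comp (PLc.id.fst.kOn hFDk) m1 (PLc.id.fst.contOn _)).add
      ((PLc.id.snd.smulc c).kOn hFDk)

/-- **one step** -/
theorem step {ws : ℝ} (h0 : 0 < ws) (hkN : k + 1 ≤ N)
    (IH : ∀ γ' : ℝ × ℝ → E, Pat k A col C₁ (B₁ ∪ Sa C fn k) fn γ' →
      ∃ Φ : ConHomeo Rct (Fil N k C₁ fn),
        (∀ x ∈ Rct, ∀ i : Fin N, (Φ.toFun x).2 i = md ws A k i x.1 x.2) ∧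
        (∀ x ∈ bR, (Φ.toFun x).1 = γ' x)) :
    ∃ Φ : ConHomeo Rct (Fil N (k + 1) C fn),
      (∀ x ∈ Rct, ∀ i : Fin N, (Φ.toFun x).2 i = md ws A (k + 1) i x.1 x.2) ∧
      (∀ x ∈ bR, (Φ.toFun x).1 = γ x) := by
  have g := H.gk
  obtain ⟨L, hL⟩ := H.exists_L (N := N) (by omega)
  obtain ⟨Φ₁, Φz, Φb⟩ := IH _ (H.new_pat hL)
  obtain ⟨M, hM⟩ := H.exists_M hkN hL
  set e : Fin N := ⟨k, hkN⟩ with he
  have hA : ∀ i < k + 1, 0 < (A i).om := fun i hi => (H.P.pos.good i hi).om0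
  have hA' : ∀ i < k, 0 < (A i).om := fun i hi => hA i (by omega)
  set h := hh ws A k with hh'
  have hp : 0 < h := hh_pos h0 hA
  have h2 : 2 * h < 1 := two_hh_lt h0 hA
  let h₁ : ConHomeo (Qr h (A k)) (Fil N k C₁ fn) := (psiQ hp h2 (A k)).trans Φ₁
  let h₂ : ConHomeo (Hh h (A k)) (FilD N k C C₂ fn) := (psiH hp (A k)).trans ((LC g).trans M)
  have e₁ : ∀ x, h₁.toFun x = Φ₁.toFun (x.1, chi h ((A k).lam x.1) x.2) := fun x => rfl
  have e₂ : ∀ x, h₂.toFun x = L.toFun (ff (A k) (x.1, (1 - x.2) / h), yy (A k) (x.1, (1 - x.2) / h)) +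
      zz (A k) (x.1, (1 - x.2) / h) • ev E e := fun x => hM _
  have HhR : Hh h (A k) ⊆ Rct := by
    rw [← Rct_eq hp h2 g]; exact subset_union_right
  have hy : ∀ x ∈ Hh h (A k), (x.1, (1 - x.2) / h) ∈ Hy (A k) := fun x hx =>
    (psiH hp (A k)).mapsTo hx
  have dD : ∀ x ∈ Hh h (A k), (ff (A k) (x.1, (1 - x.2) / h), yy (A k) (x.1, (1 - x.2) / h)) ∈
      D0 (A k) := fun x hx => (lc_all g (hy x hx)).1.1
  -- components of `h₂`
  have f1 : ∀ x, (h₂.toFun x).1 = (L.toFun (ff (A k) (x.1, (1 - x.2) / h),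
      yy (A k) (x.1, (1 - x.2) / h))).1 := fun x => by
    rw [e₂]
    show _ + _ • (0 : E) = _
    rw [smul_zero, add_zero]
  have f2 : ∀ x ∈ Hh h (A k), ∀ i : Fin N, (h₂.toFun x).2 i =
      if (i : ℕ) < k then (A i).sig x.1 else if i = e then zz (A k) (x.1, (1 - x.2) / h) else 0 := by
    intro x hx i
    rw [e₂]
    show (L.toFun (ff (A k) (x.1, (1 - x.2) / h), yy (A k) (x.1, (1 - x.2) / h))).2 i +
      zz (A k) (x.1, (1 - x.2) / h) • (ev E e).2 i = _
    rw [hL.z _ (dD x hx) i]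
    split_ifs with c1 c2
    · have : i ≠ e := fun hie => by rw [hie] at c1; exact lt_irrefl k c1
      rw [ev_ne this, smul_zero, add_zero]
      exact H.P.pos.sig_ff c1 (hy x hx)
    · rw [c2, ev_self, smul_eq_mul, mul_one, zero_add]
    · rw [ev_ne c2, smul_zero, add_zero]
  -- closedness
  have cHh : IsCompact (Hh h (A k)) := isCompact_Rct.of_isClosed_subset (isClosed_Hh _ _) HhR
  have cF1 : IsClosed (Fil N k C₁ fn) := (Φ₁.isCompact_right isCompact_Rct).isClosed
  have cF2 : IsClosed (FilD N k C C₂ fn) := (h₂.isCompact_right cHh).isClosed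
  -- agreement
  have hag : EqOn h₁.toFun h₂.toFun (Qr h (A k) ∩ Hh h (A k)) := by
    rintro x hx
    obtain ⟨q1, q2, q3, q4⟩ := QH_inter.1 hx
    have ey : (1 - x.2) / h = (A k).lam x.1 := by
      rw [q4]; field_simp; ring
    have echi : chi h ((A k).lam x.1) x.2 = 1 :=
      chi_of_ge hp h2 (ArcD.lam_le_two _) q4.ge
    have hX : ((x.1, 1) : ℝ × ℝ) ∈ X2 (A k) := ⟨⟨q2, q3⟩, rfl⟩
    have hbR := X2_bR g hX
    obtain ⟨b1, b2⟩ := ff_bot g q2 q3
    refine Prod.ext ?_ ?_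
    · rw [f1, e₁, echi, Φb _ hbR, H.new2 hL hX, ey, b1]; rfl
    · funext i
      rw [f2 x hx.2 i, e₁, echi, Φz _ hbR.1 i, ey, b2]
      split_ifs with c1 c2
      · exact md_top h0 hA' c1 x.1
      · exact md_of_le ws A (by rw [c2]) x.1 1
      · exact md_of_le ws A (by omega) x.1 1
  have himg : Fil N k C₁ fn ∩ FilD N k C C₂ fn ⊆ h₁.toFun '' (Qr h (A k) ∩ Hh h (A k)) := by
    rintro v ⟨hv1, hv2⟩
    set x := h₂.invFun v with hx
    have hxH : x ∈ Hh h (A k) := h₂.mapsTo_inv hv2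
    have hxv : h₂.toFun x = v := h₂.right_inv hv2
    have hz : zz (A k) (x.1, (1 - x.2) / h) = 0 := by
      have h3 := f2 x hxH e
      rw [if_neg (lt_irrefl k), if_pos rfl, hxv] at h3
      rw [← h3]
      exact (hv1.2 e).2.2.2 le_rfl
    have hle : (A k).lam x.1 ≤ (1 - x.2) / h := by
      by_contra hc
      rw [not_le] at hc
      have : 0 < zz (A k) (x.1, (1 - x.2) / h) :=
        lt_max_of_lt_right (lt_min one_pos (sub_pos.2 hc))
      exact this.ne' hz
    have hQ : x ∈ Qr h (A k) ∩ Hh h (A k) := by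
      refine ⟨⟨HhR hxH, ?_⟩, hxH⟩
      rw [le_div_iff₀ hp] at hle
      linarith
    exact ⟨x, hQ, by rw [hag hQ, hxv]⟩
  have eX : Qr h (A k) ∪ Hh h (A k) = Rct := Rct_eq hp h2 g
  have eY : Fil N k C₁ fn ∪ FilD N k C C₂ fn = Fil N (k + 1) C fn := by
    ext v
    constructor
    · rintro (hv | hv)
      · refine ⟨H.C₁C hv.1, fun i => ?_⟩
        obtain ⟨f1, f2, f3, f4⟩ := hv.2 i
        refine ⟨f1, fun h3 h4 => ?_, fun h3 h4 => ?_, fun h3 => f4 (by omega)⟩
        · by_cases hi : (i : ℕ) < k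
          · exact f2 hi h4
          · exact f4 (by omega)
        · by_cases hi : (i : ℕ) < k
          · exact f3 hi h4
          · have hi' : (i : ℕ) = k := by omega
            rw [hi'] at h4
            exact absurd ((H.mem₁ (H.C₁C hv.1)).1 hv.1) (not_le.2 h4)
      · exact hv.1
    · intro hv
      by_cases hc : v.1 ∈ C₂
      · exact Or.inr ⟨hv, hc⟩
      · left
        have hneg : fn k v.1 < 0 := by
          by_contra h3
          exact hc ((H.mem₂ hv.1).2 (not_lt.1 h3))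
        refine ⟨(H.mem₁ hv.1).2 hneg.le, fun i => ?_⟩
        obtain ⟨f1, f2, f3, f4⟩ := hv.2 i
        refine ⟨f1, fun h3 => f2 (by omega), fun h3 => f3 (by omega), fun h3 => ?_⟩
        by_cases hi : (i : ℕ) = k
        · exact f2 (by omega) (by rw [hi]; exact hneg)
        · exact f4 (by omega)
  let Φ := (ConHomeo.glue h₁ h₂ (isClosed_Qr _ _) (isClosed_Hh _ _) cF1 cF2 hag himg).cast eX eY
  have g1 : EqOn Φ.toFun h₁.toFun (Qr h (A k)) :=
    ConHomeo.glue_left h₁ h₂ (isClosed_Qr _ _) (isClosed_Hh _ _) cF1 cF2 hag himg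
  have g2 : EqOn Φ.toFun h₂.toFun (Hh h (A k)) :=
    ConHomeo.glue_right h₁ h₂ (isClosed_Qr _ _) (isClosed_Hh _ _) cF1 cF2 hag himg
  refine ⟨Φ, ?_, ?_⟩
  · intro x hx i
    have hx' := hx
    rw [← eX] at hx'
    rcases hx' with hQ | hH
    · have hQR : (x.1, chi h ((A k).lam x.1) x.2) ∈ Rct := (psiQ hp h2 (A k)).mapsTo hQ
      rw [g1 hQ, e₁, Φz _ hQR i]
      by_cases hi : (i : ℕ) = k
      · rw [hi, md_of_le ws A le_rfl, md_last]
        exact (zl_of_le hp hQ.2).symm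
      · rw [md_succ ws A hi]
    · rw [g2 hH, f2 x hH i]
      have echi : chi h ((A k).lam x.1) x.2 = 1 :=
        chi_of_ge hp h2 (ArcD.lam_le_two _) hH.2.2.2
      split_ifs with c1 c2
      · rw [md_succ ws A (by omega), ← hh', echi, md_top h0 hA' c1]
      · rw [c2]
        show zz (A k) (x.1, (1 - x.2) / h) = md ws A (k + 1) k x.1 x.2
        rw [md_last]; rfl
      · have : k + 1 ≤ (i : ℕ) := by
          have : (i : ℕ) ≠ k := fun h3 => c2 (Fin.ext h3)
          omega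
        exact (md_of_le ws A this x.1 x.2).symm
  · intro x hx
    have hx' := hx
    rw [← bR_cases g] at hx'
    rcases hx' with hX | hX
    · have hlam : (A k).lam x.1 = 0 ∨ x.2 = 0 := by
        rcases hX.2 with h3 | h3 | h3
        · exact Or.inl (g.lam_zero_left h3)
        · exact Or.inl (g.lam_zero_right h3)
        · exact Or.inr h3
      have hl0 := ArcD.lam_nonneg (A := A k) x.1
      have hl2 := ArcD.lam_le_two (A := A k) x.1
      have hQ : x ∈ Qr h (A k) := by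
        refine ⟨hx.1, ?_⟩
        rcases hlam with h3 | h3
        · rw [h3, mul_zero, sub_zero]; exact hx.1.2.2
        · rw [h3]; nlinarith
      have echi : chi h ((A k).lam x.1) x.2 = x.2 := by
        have k0 : 0 ≤ x.2 := hx.1.2.1
        have k1 : x.2 ≤ 1 := hx.1.2.2
        rcases hlam with h3 | h3
        · have hle : x.2 ≤ x.2 / (1 - 2 * h) := by
            rw [le_div_iff₀ (by linarith)]; nlinarith
          rw [h3]; unfold chi
          rw [mul_zero, add_zero, min_eq_left hle, min_eq_right k1]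
        · rw [h3]; exact chi_zero hp.le hl0
      rw [g1 hQ, e₁, echi]
      show (Φ₁.toFun x).1 = γ x
      rw [Φb x hx, H.new1 hL hX]
    · have hH : x ∈ Hh h (A k) := by
        refine ⟨hX.1.1, hX.1.2, hx.1.2.2, ?_⟩
        have h3 : x.2 = 1 := hX.2
        have := mul_nonneg hp.le (ArcD.lam_nonneg (A := A k) x.1)
        rw [h3]; linarith
      have h3 : x.2 = 1 := hX.2
      have ey : (1 - x.2) / h = 0 := by rw [h3, sub_self, zero_div]
      have xe : x = (x.1, 1) := Prod.ext rfl h3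
      rw [g2 hH, f1, ey]
      obtain ⟨t1, t2⟩ := ff_top g hX.1.1 hX.1.2
      rw [t1]
      have hw := g.w0; have hw' := g.w0'
      rcases t2 with ⟨t3, t4⟩ | ⟨t3, t4⟩ | ⟨t3, t4, t5⟩
      · rw [t4, hL.top _ ⟨le_rfl, g.pqs.le⟩, xe]
        refine H.P.fib' (j := (k, false)) (by show k < k + 1; omega) H.ps_mem ?_
        simp only [lf, rt, Bool.false_eq_true, if_false, mem_Icc]
        exact ⟨hX.1.1, t3⟩
      · rw [t4, hL.top _ ⟨g.pqs.le, le_rfl⟩, xe]
        refine H.P.fib' (j := (k, true)) (by show k < k + 1; omega) H.qs_mem ?_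
        simp only [lf, rt, if_true, mem_Icc]
        exact ⟨t3, hX.1.2⟩
      · rw [t5, hL.top _ ⟨t3, t4⟩, ← xe]

end Stp

/-- **the PEEL theorem** -/
theorem peel (N : ℕ) (A : ℕ → ArcD) (col : ℕ → Bool) (fn : ℕ → E → ℝ) {ws : ℝ} (h0 : 0 < ws) :
    ∀ (k : ℕ), k ≤ N → ∀ (C B : Set E) (γ : ℝ × ℝ → E), Pat k A col C B fn γ →
      ∃ Φ : ConHomeo Rct (Fil N k C fn),
        (∀ x ∈ Rct, ∀ i : Fin N, (Φ.toFun x).2 i = md ws A k i x.1 x.2) ∧
        (∀ x ∈ bR, (Φ.toFun x).1 = γ x) := by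
  intro k
  induction k with
  | zero =>
    intro _ C B γ hP
    have hinj : InjOn γ bR := by
      intro x hx y hy h
      rcases hP.γf x hx y hy h with h1 | ⟨i, hi, _⟩
      · exact h1
      · exact absurd hi (Nat.not_lt_zero i)
    obtain ⟨Φ, h1, _⟩ := conBall_Rct.exists_extend hP.hC
      (ConHomeo.ofCompact isCompact_bR γ hP.γc hinj hP.γk hP.γi)
    have hne : bR.Nonempty := ⟨_, zero_bR⟩
    have e1 : (ConHomeo.ofCompact isCompact_bR γ hP.γc hinj hP.γk hP.γi).toFun = γ := by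
      unfold ConHomeo.ofCompact
      rw [dif_pos hne]
    rw [e1] at h1
    refine ⟨
      { toFun := fun x => (Φ.toFun x, 0)
        invFun := fun v => Φ.invFun v.1
        mapsTo := fun x hx => ⟨Φ.mapsTo hx, fun i => ⟨⟨le_rfl, zero_le_one⟩, fun _ _ => rfl,
          fun h => absurd h (Nat.not_lt_zero _), fun _ => rfl⟩⟩
        mapsTo_inv := fun v hv => Φ.mapsTo_inv hv.1
        left_inv := fun x hx => Φ.left_inv hx
        right_inv := fun v hv => Prod.ext (Φ.right_inv hv.1)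
          (funext fun i => ((hv.2 i).2.2.2 (Nat.zero_le _)).symm)
        cont := Φ.cont.prodMk continuousOn_const
        cont_inv := Φ.cont_inv.comp continuousOn_fst fun v hv => hv.1
        conical := Φ.conical.prodMk (conicalOn_const 0 Φ.conicalSet_left) }, ?_, ?_⟩
    · intro x _ i; rfl
    · intro x hx; exact h1 hx
  | succ k ih =>
    intro hkN C B γ hP
    obtain ⟨B₁, B₂, C₁, C₂, hc, hn, hp⟩ := hP.cut
    have H : Stp k A col C B fn γ B₁ B₂ C₁ C₂ := ⟨hP, hc, hn, hp⟩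
    exact H.step h0 hkN fun γ' hP' => ih (by omega) C₁ _ γ' hP'

theorem peelP : PeelP E := fun N k A col C B fn γ _ws hkN h0 hP => peel N A col fn h0 k hkN C B γ hP

end P073.H31
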