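import Vale.Agent.P073.H31.PlLens

/-!
# P073, H31, METRIC: one step of the model rectangle: `Rct = Qr ∪ Hh`
-/

open Set Metric Topology Filter

namespace P073.H31

/-- below the layer -/
def Qr (h : ℝ) (A : ArcD) : Set (ℝ × ℝ) := {x | x ∈ Rct ∧ x.2 ≤ 1 - h * A.lam x.1}

/-- the layer -/
def Hh (h : ℝ) (A : ArcD) : Set (ℝ × ℝ) :=
  {x | A.p ≤ x.1 ∧ x.1 ≤ A.q ∧ x.2 ≤ 1 ∧ 1 - h * A.lam x.1 ≤ x.2}

theorem locCone_Rct : LocCone Rct := by
  have h1 : PLc (fun x : ℝ × ℝ => x.1) := PLc.id.fst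
  have h2 : PLc (fun x : ℝ × ℝ => x.2) := PLc.id.snd
  have := (((PLc.const 0).locCone_le h1).inter (h1.locCone_le (PLc.const 1))).inter
    (((PLc.const 0).locCone_le h2).inter (h2.locCone_le (PLc.const 1)))
  have e : Rct = ({x : ℝ × ℝ | 0 ≤ x.1} ∩ {x | x.1 ≤ 1}) ∩ ({x | 0 ≤ x.2} ∩ {x | x.2 ≤ 1}) := rfl
  rw [e]; exact this

theorem locCone_bR : LocCone bR := by
  have h1 : PLc (fun x : ℝ × ℝ => x.1) := PLc.id.fst
  have h2 : PLc (fun x : ℝ × ℝ => x.2) := PLc.id.snd
  have := locCone_Rct.inter ((h1.locCone_eq (PLc.const 0)).union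
    ((h1.locCone_eq (PLc.const 1)).union ((h2.locCone_eq (PLc.const 0)).union
      (h2.locCone_eq (PLc.const 1)))))
  exact this

theorem isCompact_Rct : IsCompact Rct := isCompact_Icc.prod isCompact_Icc

theorem isClosed_bR : IsClosed bR := by
  refine isCompact_Rct.isClosed.inter ?_
  exact (isClosed_eq continuous_fst continuous_const).union
    ((isClosed_eq continuous_fst continuous_const).union
      ((isClosed_eq continuous_snd continuous_const).union
        (isClosed_eq continuous_snd continuous_const)))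

theorem isCompact_bR : IsCompact bR := isCompact_Rct.of_isClosed_subset isClosed_bR fun _ h => h.1

theorem mem_Rct {a t : ℝ} : (a, t) ∈ Rct ↔ (0 ≤ a ∧ a ≤ 1) ∧ 0 ≤ t ∧ t ≤ 1 := Iff.rfl

theorem locCone_Qr (h : ℝ) (A : ArcD) : LocCone (Qr h A) := by
  have h1 : PLc (fun x : ℝ × ℝ => x.1) := PLc.id.fst
  have h2 : PLc (fun x : ℝ × ℝ => x.2) := PLc.id.snd
  exact locCone_Rct.inter (h2.locCone_le ((PLc.const 1).sub ((h1.lam A).cmul h)))

theorem locCone_Hh (h : ℝ) (A : ArcD) : LocCone (Hh h A) := by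
  have h1 : PLc (fun x : ℝ × ℝ => x.1) := PLc.id.fst
  have h2 : PLc (fun x : ℝ × ℝ => x.2) := PLc.id.snd
  exact ((PLc.const A.p).locCone_le h1).inter ((h1.locCone_le (PLc.const A.q)).inter
    ((h2.locCone_le (PLc.const 1)).inter (((PLc.const 1).sub ((h1.lam A).cmul h)).locCone_le h2)))

theorem isClosed_Qr (h : ℝ) (A : ArcD) : IsClosed (Qr h A) := by
  have h1 : PLc (fun x : ℝ × ℝ => x.1) := PLc.id.fst
  exact isCompact_Rct.isClosed.inter (isClosed_le continuous_snd
    ((PLc.const 1).sub ((h1.lam A).cmul h)).c)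

theorem isClosed_Hh (h : ℝ) (A : ArcD) : IsClosed (Hh h A) := by
  have h1 : PLc (fun x : ℝ × ℝ => x.1) := PLc.id.fst
  exact (isClosed_le continuous_const continuous_fst).inter
    ((isClosed_le continuous_fst continuous_const).inter
      ((isClosed_le continuous_snd continuous_const).inter
        (isClosed_le ((PLc.const 1).sub ((h1.lam A).cmul h)).c continuous_snd)))

theorem PLc.chi (h : ℝ) (A : ArcD) : PLc (fun x : ℝ × ℝ => chi h (A.lam x.1) x.2) := by
  have h1 : PLc (fun x : ℝ × ℝ => x.1) := PLc.id.fst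
  have h2 : PLc (fun x : ℝ × ℝ => x.2) := PLc.id.snd
  exact (PLc.const 1).min ((h2.add ((h1.lam A).cmul h)).min (h2.divc _))

variable {h : ℝ} {A : ArcD}

/-- the homeomorphism `Qr → Rct` -/
noncomputable def psiQ (h0 : 0 < h) (h1 : 2 * h < 1) (A : ArcD) : ConHomeo (Qr h A) Rct :=
  mkCon (f := fun x : ℝ × ℝ => (x.1, chi h (A.lam x.1) x.2))
    (g := fun x : ℝ × ℝ => (x.1, max (x.2 - h * A.lam x.1) ((1 - 2 * h) * x.2)))
    (PLc.id.fst.prodMk (PLc.chi h A))
    (PLc.id.fst.prodMk ((PLc.id.snd.sub ((PLc.id.fst.lam A).cmul h)).max (PLc.id.snd.cmul _)))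
    (locCone_Qr h A).conicalSet
    (by
      rintro ⟨a, t⟩ ⟨⟨ha, ht⟩, h2⟩
      exact ⟨ha, chi_nonneg h0.le h1 (ArcD.lam_nonneg a) ht.1, chi_le_one _ _ _⟩)
    (by
      rintro ⟨a, s⟩ ⟨ha, hs⟩
      simp only at hs
      have l0 := ArcD.lam_nonneg (A := A) a
      have l2 := ArcD.lam_le_two (A := A) a
      have h3 : (1 - 2 * h) * s ≤ 1 - h * A.lam a := by nlinarith [hs.1, hs.2]
      have h4 : s - h * A.lam a ≤ 1 - h * A.lam a := by linarith [hs.2]
      have h5 : 0 ≤ (1 - 2 * h) * s := mul_nonneg (by linarith) hs.1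
      refine ⟨⟨ha, h5.trans (le_max_right _ _), (max_le h4 h3).trans ?_⟩, max_le h4 h3⟩
      have := mul_nonneg h0.le l0
      linarith)
    (by
      rintro ⟨a, t⟩ ⟨⟨ha, ht⟩, h2⟩
      simp only at h2 ht ⊢
      rw [chi_of_le h2]
      refine Prod.ext rfl ?_
      simp only
      have hp : 0 < 1 - 2 * h := by linarith
      rcases le_total (t + h * A.lam a) (t / (1 - 2 * h)) with c | c
      · rw [min_eq_left c]
        have : (1 - 2 * h) * (t + h * A.lam a) ≤ t := by
          have := mul_le_mul_of_nonneg_left c hp.le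
          rwa [mul_div_cancel₀ _ hp.ne'] at this
        rw [max_eq_left (by linarith)]; ring
      · rw [min_eq_right c]
        have e : (1 - 2 * h) * (t / (1 - 2 * h)) = t := by field_simp
        rw [e, max_eq_right (by linarith)])
    (by
      rintro ⟨a, s⟩ ⟨ha, hs⟩
      simp only at hs ⊢
      have l0 := ArcD.lam_nonneg (A := A) a
      have l2 := ArcD.lam_le_two (A := A) a
      have h3 : (1 - 2 * h) * s ≤ 1 - h * A.lam a := by nlinarith [hs.1, hs.2]
      have h4 : s - h * A.lam a ≤ 1 - h * A.lam a := by linarith [hs.2]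
      refine Prod.ext rfl ?_
      simp only
      rw [chi_of_le (max_le h4 h3)]
      have hp : 0 < 1 - 2 * h := by linarith
      rcases le_total (s - h * A.lam a) ((1 - 2 * h) * s) with c | c
      · rw [max_eq_right c]
        have e : (1 - 2 * h) * s / (1 - 2 * h) = s := by field_simp
        rw [e, min_eq_right (by linarith)]
      · rw [max_eq_left c]
        have : s ≤ (s - h * A.lam a) / (1 - 2 * h) := by
          rw [le_div_iff₀ hp]; linarith
        rw [min_eq_left (by linarith)]; ring)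

/-- the layer in the coordinates `(a, y)` -/
noncomputable def psiH (h0 : 0 < h) (A : ArcD) : ConHomeo (Hh h A) (Hy A) :=
  mkCon (f := fun x : ℝ × ℝ => (x.1, (1 - x.2) / h))
    (g := fun x : ℝ × ℝ => (x.1, 1 - h * x.2))
    (PLc.id.fst.prodMk (((PLc.const 1).sub PLc.id.snd).divc h))
    (PLc.id.fst.prodMk ((PLc.const 1).sub (PLc.id.snd.cmul h)))
    (locCone_Hh h A).conicalSet
    (by
      rintro ⟨a, t⟩ ⟨h1, h2, h3, h4⟩
      simp only at h1 h2 h3 h4
      refine ⟨h1, h2, div_nonneg (by linarith) h0.le, ?_⟩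
      simp only
      rw [div_le_iff₀ h0]; linarith)
    (by
      rintro ⟨a, y⟩ ⟨h1, h2, h3, h4⟩
      simp only at h1 h2 h3 h4
      refine ⟨h1, h2, ?_, ?_⟩
      · simp only; nlinarith
      · simp only; nlinarith)
    (by
      rintro ⟨a, t⟩ _
      refine Prod.ext rfl ?_
      simp only; field_simp; ring)
    (by
      rintro ⟨a, y⟩ _
      refine Prod.ext rfl ?_
      simp only; field_simp; ring)

theorem lam_ne_zero_mem (hA : A.Good) {a : ℝ} (ha : A.lam a ≠ 0) : A.p < a ∧ a < A.q := by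
  constructor
  · by_contra hc
    exact ha (hA.lam_zero_left (not_lt.1 hc))
  · by_contra hc
    exact ha (hA.lam_zero_right (not_lt.1 hc))

theorem Rct_eq (h0 : 0 < h) (h1 : 2 * h < 1) (hA : A.Good) : Qr h A ∪ Hh h A = Rct := by
  ext ⟨a, t⟩
  constructor
  · rintro (⟨h2, _⟩ | ⟨h2, h3, h4, h5⟩)
    · exact h2
    · simp only at h2 h3 h4 h5
      have l2 := ArcD.lam_le_two (A := A) a
      refine ⟨⟨?_, ?_⟩, ?_, h4⟩
      · exact hA.p0.le.trans h2
      · exact h3.trans hA.q1.le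
      · show 0 ≤ t
        nlinarith
  · intro h2
    rcases le_total t (1 - h * A.lam a) with c | c
    · exact Or.inl ⟨h2, c⟩
    · by_cases hl : A.lam a = 0
      · left
        refine ⟨h2, ?_⟩
        show t ≤ 1 - h * A.lam a
        rw [hl, mul_zero, sub_zero]; exact h2.2.2
      · obtain ⟨h3, h4⟩ := lam_ne_zero_mem hA hl
        exact Or.inr ⟨h3.le, h4.le, h2.2.2, c⟩

theorem QH_inter {x : ℝ × ℝ} : x ∈ Qr h A ∩ Hh h A ↔
    x ∈ Rct ∧ A.p ≤ x.1 ∧ x.1 ≤ A.q ∧ x.2 = 1 - h * A.lam x.1 := by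
  constructor
  · rintro ⟨⟨h1, h2⟩, h3, h4, h5, h6⟩
    exact ⟨h1, h3, h4, le_antisymm h2 h6⟩
  · rintro ⟨h1, h2, h3, h4⟩
    exact ⟨⟨h1, h4.le⟩, h2, h3, h1.2.2, h4.ge⟩

end P073.H31
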