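import Vale.Agent.P073.H341.Extend
import Vale.Agent.P073.H31.PlStep

/-!
# P073, H31, METRIC: explicit discs (rectangle, lens, left parts of the lens)
-/

open Set Metric Topology Filter

namespace P073.H31

open P073.H339 P073.GB200 P073.H341

/-! ### frontiers -/

theorem mem_closure_line {S : Set (ℝ × ℝ)} {x v : ℝ × ℝ} (h : ∀ ε : ℝ, 0 < ε → x + ε • v ∈ S) :
    x ∈ closure S := by
  have h1 : Tendsto (fun ε : ℝ => x + ε • v) (𝓝[>] 0) (𝓝 x) := by
    have : Continuous (fun ε : ℝ => x + ε • v) := by fun_prop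
    have h2 := this.tendsto 0
    simp only [zero_smul, add_zero] at h2
    exact h2.mono_left nhdsWithin_le_nhds
  exact mem_closure_of_tendsto h1 (eventually_nhdsWithin_of_forall fun ε hε => h ε hε)

theorem frontier_graph {u : ℝ → ℝ} (hu : Continuous u) :
    frontier {x : ℝ × ℝ | x.2 ≤ u x.1} = {x | x.2 = u x.1} := by
  apply Subset.antisymm
  · exact frontier_le_subset_eq continuous_snd (hu.comp continuous_fst)
  · intro x hx
    have hx' : x.2 = u x.1 := hx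
    rw [frontier_eq_closure_inter_closure]
    refine ⟨subset_closure hx'.le, mem_closure_line (v := (0, 1)) fun ε hε => ?_⟩
    show ¬ (x + ε • ((0:ℝ), (1:ℝ))).2 ≤ u (x + ε • ((0:ℝ), (1:ℝ))).1
    simp only [Prod.smul_mk, smul_eq_mul, mul_zero, mul_one, Prod.snd_add, Prod.fst_add, add_zero]
    rw [hx']; linarith

theorem frontier_left (c : ℝ) : frontier {x : ℝ × ℝ | x.1 ≤ c} = {x | x.1 = c} := by
  apply Subset.antisymm
  · exact frontier_le_subset_eq continuous_fst continuous_const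
  · intro x hx
    have hx' : x.1 = c := hx
    rw [frontier_eq_closure_inter_closure]
    refine ⟨subset_closure hx'.le, mem_closure_line (v := (1, 0)) fun ε hε => ?_⟩
    show ¬ (x + ε • ((1:ℝ), (0:ℝ))).1 ≤ c
    simp only [Prod.smul_mk, smul_eq_mul, mul_zero, mul_one, Prod.fst_add]
    rw [hx']; linarith

/-! ### rectangles -/

def rect (a b c d : ℝ) : Set (ℝ × ℝ) := Icc a b ×ˢ Icc c d

def brect (a b c d : ℝ) : Set (ℝ × ℝ) :=
  {x | x ∈ rect a b c d ∧ (x.1 = a ∨ x.1 = b ∨ x.2 = c ∨ x.2 = d)}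

theorem mem_closedBall_pr {x : ℝ × ℝ} : x ∈ closedBall (0 : ℝ × ℝ) 1 ↔
    (-1 ≤ x.1 ∧ x.1 ≤ 1) ∧ (-1 ≤ x.2 ∧ x.2 ≤ 1) := by
  rw [mem_closedBall_zero_iff, Prod.norm_def, max_le_iff, Real.norm_eq_abs, Real.norm_eq_abs,
    abs_le, abs_le]

theorem mem_sphere_pr {x : ℝ × ℝ} : x ∈ sphere (0 : ℝ × ℝ) 1 ↔
    x ∈ closedBall (0 : ℝ × ℝ) 1 ∧ (x.1 = -1 ∨ x.1 = 1 ∨ x.2 = -1 ∨ x.2 = 1) := by
  rw [mem_sphere_zero_iff_norm, mem_closedBall_zero_iff, Prod.norm_def, Real.norm_eq_abs,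
    Real.norm_eq_abs]
  constructor
  · intro h
    refine ⟨h.le, ?_⟩
    rcases le_total |x.1| |x.2| with c | c
    · rw [max_eq_right c] at h
      rcases abs_cases x.2 with ⟨h1, _⟩ | ⟨h1, _⟩
      · right; right; right; linarith
      · right; right; left; linarith
    · rw [max_eq_left c] at h
      rcases abs_cases x.1 with ⟨h1, _⟩ | ⟨h1, _⟩
      · right; left; linarith
      · left; linarith
  · rintro ⟨h, h'⟩
    apply le_antisymm h
    rcases h' with h' | h' | h' | h' <;> rw [h'] <;> simp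

theorem conBall_rect {a b c d : ℝ} (hab : a < b) (hcd : c < d) :
    ConBall 2 (rect a b c d) (brect a b c d) := by
  have h1 : 0 < b - a := by linarith
  have h2 : 0 < d - c := by linarith
  have hf : PLc (fun x : ℝ × ℝ => ((a + b) / 2 + (b - a) / 2 * x.1,
      (c + d) / 2 + (d - c) / 2 * x.2)) :=
    ((PLc.const _).add (PLc.id.fst.cmul _)).prodMk ((PLc.const _).add (PLc.id.snd.cmul _))
  have hg : PLc (fun x : ℝ × ℝ => ((x.1 - (a + b) / 2) / ((b - a) / 2),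
      (x.2 - (c + d) / 2) / ((d - c) / 2))) :=
    ((PLc.id.fst.sub (PLc.const _)).divc _).prodMk ((PLc.id.snd.sub (PLc.const _)).divc _)
  let Φ : ConHomeo (closedBall (0 : ℝ × ℝ) 1) (rect a b c d) :=
    mkCon hf hg (Convex.conicalSet (convex_closedBall _ _))
      (by
        rintro ⟨x, y⟩ hx
        rw [mem_closedBall_pr] at hx
        obtain ⟨⟨k1, k2⟩, k3, k4⟩ := hx
        simp only at k1 k2 k3 k4
        refine ⟨⟨?_, ?_⟩, ?_, ?_⟩ <;> simp only <;> nlinarith)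
      (by
        rintro ⟨x, y⟩ ⟨⟨k1, k2⟩, k3, k4⟩
        simp only at k1 k2 k3 k4
        rw [mem_closedBall_pr]
        refine ⟨⟨?_, ?_⟩, ?_, ?_⟩ <;> simp only
        · rw [le_div_iff₀ (by linarith)]; linarith
        · rw [div_le_iff₀ (by linarith)]; linarith
        · rw [le_div_iff₀ (by linarith)]; linarith
        · rw [div_le_iff₀ (by linarith)]; linarith)
      (by
        rintro ⟨x, y⟩ _
        refine Prod.ext ?_ ?_ <;> simp only <;> field_simp <;> ring)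
      (by
        rintro ⟨x, y⟩ _
        refine Prod.ext ?_ ?_ <;> simp only <;> field_simp <;> ring)
  have hb := (P073.H339.conBall_std).image Φ Subset.rfl
  rw [Φ.image_eq] at hb
  have e : Φ.toFun '' sphere 0 1 = brect a b c d := by
    ext x
    constructor
    · rintro ⟨y, hy, rfl⟩
      have hy' := mem_sphere_pr.1 hy
      refine ⟨Φ.mapsTo hy'.1, ?_⟩
      show ((a + b) / 2 + (b - a) / 2 * y.1 = a ∨ (a + b) / 2 + (b - a) / 2 * y.1 = b ∨
        (c + d) / 2 + (d - c) / 2 * y.2 = c ∨ (c + d) / 2 + (d - c) / 2 * y.2 = d)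
      rcases hy'.2 with h | h | h | h <;> rw [h]
      · left; ring
      · right; left; ring
      · right; right; left; ring
      · right; right; right; ring
    · rintro ⟨hx, hx'⟩
      refine ⟨Φ.invFun x, mem_sphere_pr.2 ⟨Φ.mapsTo_inv hx, ?_⟩, Φ.right_inv hx⟩
      show ((x.1 - (a + b) / 2) / ((b - a) / 2) = -1 ∨ (x.1 - (a + b) / 2) / ((b - a) / 2) = 1 ∨
        (x.2 - (c + d) / 2) / ((d - c) / 2) = -1 ∨ (x.2 - (c + d) / 2) / ((d - c) / 2) = 1)
      rcases hx' with h | h | h | h <;> rw [h]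
      · left; field_simp; ring
      · right; left; field_simp; ring
      · right; right; left; field_simp; ring
      · right; right; right; field_simp; ring
  rwa [e] at hb

theorem conBall_Rct : ConBall 2 Rct bR := conBall_rect zero_lt_one zero_lt_one

/-! ### the lens -/

/-- upper side of the lens (the side `y = 0`) -/
def tD (A : ArcD) : Set (ℝ × ℝ) := Icc (A.p + A.w) (A.q - A.w') ×ˢ {0}

/-- the graph side of the lens -/
def gD (A : ArcD) : Set (ℝ × ℝ) := {x | A.p + A.w ≤ x.1 ∧ x.1 ≤ A.q - A.w' ∧ x.2 = uu A x.1}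

variable {A : ArcD}

theorem continuous_uu (A : ArcD) : Continuous (uu A) := (PLc.id.uu A).c

theorem ArcD.Good.pqs (h : A.Good) : A.p + A.w < A.q - A.w' := by
  have := h.pq; have := h.w0; have := h.w0'; linarith

theorem uu_p (h : A.Good) : uu A (A.p + A.w) = 0 := by
  rw [uu_left h (by linarith [h.w0]), gL_eq h (by linarith [h.w0]), sub_self, zero_div]

theorem uu_q (h : A.Good) : uu A (A.q - A.w') = 0 := by
  rw [uu_right h (by linarith [h.w0']), gR_eq h (by linarith [h.w0']), sub_self, zero_div]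

theorem uu_zero_iff (h : A.Good) {b : ℝ} (h1 : A.p + A.w ≤ b) (h2 : b ≤ A.q - A.w') :
    uu A b = 0 ↔ b = A.p + A.w ∨ b = A.q - A.w' := by
  constructor
  · intro h0
    by_contra hc
    push Not at hc
    exact (uu_pos h (lt_of_le_of_ne h1 (Ne.symm hc.1)) (lt_of_le_of_ne h2 hc.2)).ne' h0
  · rintro (rfl | rfl)
    · exact uu_p h
    · exact uu_q h

theorem isArc_tD (h : A.Good) : IsArc (tD A) (A.p + A.w, 0) (A.q - A.w', 0) := by
  have := isArc_segment (p := ((A.p + A.w, 0) : ℝ × ℝ)) (q := (A.q - A.w', 0)) (by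
    intro h'
    exact h.pqs.ne (Prod.ext_iff.1 h').1)
  have e : segment ℝ ((A.p + A.w, 0) : ℝ × ℝ) (A.q - A.w', 0) = tD A := by
    ext ⟨x, y⟩
    rw [mem_hseg h.pqs.le]
    simp [tD, and_assoc]
  rwa [e] at this

theorem isArc_gD (h : A.Good) : IsArc (gD A) (A.p + A.w, 0) (A.q - A.w', 0) := by
  let φ : ConHomeo (Icc (A.p + A.w) (A.q - A.w')) (gD A) :=
    mkCon (f := fun b : ℝ => (b, uu A b)) (g := fun x : ℝ × ℝ => x.1)
      (PLc.id.prodMk (PLc.id.uu A)) PLc.id.fst (Convex.conicalSet (convex_Icc _ _))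
      (fun b hb => ⟨hb.1, hb.2, rfl⟩) (fun x hx => ⟨hx.1, hx.2.1⟩) (fun b _ => rfl)
      (fun x hx => Prod.ext rfl hx.2.2.symm)
  refine IsArc.of_param h.pqs φ ?_ ?_
  · show ((A.p + A.w, uu A (A.p + A.w)) : ℝ × ℝ) = _
    rw [uu_p h]
  · show ((A.q - A.w', uu A (A.q - A.w')) : ℝ × ℝ) = _
    rw [uu_q h]

theorem conBall_D0 (h : A.Good) : ConBall 2 (D0 A) (tD A ∪ gD A) := by
  have hR := conBall_rect (c := 0) (d := 2) h.pqs two_pos
  have hA : IsClosed {x : ℝ × ℝ | x.2 ≤ uu A x.1} :=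
    isClosed_le continuous_snd ((continuous_uu A).comp continuous_fst)
  have hfr := frontier_graph (continuous_uu A)
  have e1 : rect (A.p + A.w) (A.q - A.w') 0 2 ∩ {x : ℝ × ℝ | x.2 ≤ uu A x.1} = D0 A := by
    ext ⟨x, y⟩
    constructor
    · rintro ⟨⟨h1, h2⟩, h3⟩
      exact ⟨h1.1, h1.2, h2.1, h3⟩
    · rintro ⟨h1, h2, h3, h4⟩
      exact ⟨⟨⟨h1, h2⟩, h3, h4.trans ((uu_le_one _).trans one_le_two)⟩, h4⟩
  have e2 : rect (A.p + A.w) (A.q - A.w') 0 2 ∩ frontier {x : ℝ × ℝ | x.2 ≤ uu A x.1} = gD A := by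
    rw [hfr]
    ext ⟨x, y⟩
    constructor
    · rintro ⟨⟨h1, h2⟩, h3⟩
      exact ⟨h1.1, h1.2, h3⟩
    · rintro ⟨h1, h2, h3⟩
      simp only at h1 h2 h3
      refine ⟨⟨⟨h1, h2⟩, ?_, ?_⟩, h3⟩
      · show 0 ≤ y
        rw [h3]; exact uu_nonneg h h1 h2
      · show y ≤ 2
        rw [h3]; exact (uu_le_one _).trans one_le_two
  have e3 : brect (A.p + A.w) (A.q - A.w') 0 2 ∩ frontier {x : ℝ × ℝ | x.2 ≤ uu A x.1} =
      {(A.p + A.w, 0), (A.q - A.w', 0)} := by
    rw [hfr]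
    ext ⟨x, y⟩
    constructor
    · rintro ⟨⟨⟨h1, h2⟩, h3⟩, h4⟩
      simp only [mem_ofPred_eq, mem_Icc] at h1 h2 h3 h4
      have hz : uu A x = 0 := by
        rcases h3 with h3 | h3 | h3 | h3
        · rw [h3]; exact uu_p h
        · rw [h3]; exact uu_q h
        · rw [← h4, h3]
        · have := uu_le_one (A := A) x
          rw [← h4, h3] at this
          linarith
      rw [hz] at h4
      rcases (uu_zero_iff h h1.1 h1.2).1 hz with h5 | h5
      · left; rw [h5, h4]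
      · right; rw [h5, h4]; rfl
    · rintro (h1 | h1)
      · obtain ⟨rfl, rfl⟩ := Prod.ext_iff.1 h1
        exact ⟨⟨⟨⟨le_rfl, h.pqs.le⟩, le_rfl, zero_le_two⟩, Or.inl rfl⟩, (uu_p h).symm⟩
      · obtain ⟨rfl, rfl⟩ := Prod.ext_iff.1 h1
        exact ⟨⟨⟨⟨h.pqs.le, le_rfl⟩, le_rfl, zero_le_two⟩, Or.inr (Or.inl rfl)⟩, (uu_q h).symm⟩
  have hD : ConBall 1 (rect (A.p + A.w) (A.q - A.w') 0 2 ∩ frontier {x : ℝ × ℝ | x.2 ≤ uu A x.1})
      (brect (A.p + A.w) (A.q - A.w') 0 2 ∩ frontier {x : ℝ × ℝ | x.2 ≤ uu A x.1}) := by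
    rw [e2, e3]
    exact isArc_iff_conBall.1 (isArc_gD h)
  have hin : (rect (A.p + A.w) (A.q - A.w') 0 2 ∩ interior {x : ℝ × ℝ | x.2 ≤ uu A x.1}).Nonempty := by
    have hm : A.p + A.w < (A.p + A.w + (A.q - A.w')) / 2 := by linarith [h.pqs]
    have hm' : (A.p + A.w + (A.q - A.w')) / 2 < A.q - A.w' := by linarith [h.pqs]
    refine ⟨((A.p + A.w + (A.q - A.w')) / 2, 0), ⟨⟨hm.le, hm'.le⟩, le_rfl, zero_le_two⟩, ?_⟩
    refine mem_interior.2 ⟨{x : ℝ × ℝ | x.2 < uu A x.1}, fun x (hx : x.2 < uu A x.1) => hx.le,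
      isOpen_lt continuous_snd ((continuous_uu A).comp continuous_fst), uu_pos h hm hm'⟩
  have hout : (rect (A.p + A.w) (A.q - A.w') 0 2 \ {x : ℝ × ℝ | x.2 ≤ uu A x.1}).Nonempty := by
    refine ⟨(A.p + A.w, 2), ⟨⟨le_rfl, h.pqs.le⟩, zero_le_two, le_rfl⟩, ?_⟩
    show ¬ (2:ℝ) ≤ uu A (A.p + A.w)
    rw [uu_p h]; norm_num
  have := (inOut_two hR hA hD hin hout).1
  rw [e1, e2] at this
  have e4 : brect (A.p + A.w) (A.q - A.w') 0 2 ∩ {x : ℝ × ℝ | x.2 ≤ uu A x.1} ∪ gD A =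
      tD A ∪ gD A := by
    ext ⟨x, y⟩
    constructor
    · rintro (⟨⟨⟨h1, h2⟩, h3⟩, h4⟩ | h1)
      · simp only [mem_ofPred_eq, mem_Icc] at h1 h2 h3 h4
        left
        refine ⟨h1, ?_⟩
        show y = 0
        apply le_antisymm _ h2.1
        rcases h3 with h3 | h3 | h3 | h3
        · rwa [h3, uu_p h] at h4
        · rwa [h3, uu_q h] at h4
        · exact h3.le
        · exfalso
          have := uu_le_one (A := A) x
          rw [h3] at h4
          linarith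
      · exact Or.inr h1
    · rintro (⟨h1, h2⟩ | h1)
      · have h2' : y = 0 := h2
        subst h2'
        left
        exact ⟨⟨⟨h1, le_rfl, zero_le_two⟩, Or.inr (Or.inr (Or.inl rfl))⟩, uu_nonneg h h1.1 h1.2⟩
      · exact Or.inr h1
  rwa [e4] at this

/-! ### the left parts of the lens -/

/-- left part -/
def Rc (A : ArcD) (c : ℝ) : Set (ℝ × ℝ) := {x | x ∈ D0 A ∧ x.1 ≤ c}

/-- vertical segment -/
def Vc (A : ArcD) (c : ℝ) : Set (ℝ × ℝ) := {x | x ∈ D0 A ∧ x.1 = c}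

theorem tD_sub (h : A.Good) : tD A ⊆ D0 A := subset_union_left.trans (conBall_D0 h).1
theorem gD_sub (h : A.Good) : gD A ⊆ D0 A := subset_union_right.trans (conBall_D0 h).1

theorem mem_Vc {c : ℝ} (h1 : A.p + A.w ≤ c) (h2 : c ≤ A.q - A.w') {x : ℝ × ℝ} :
    x ∈ Vc A c ↔ x.1 = c ∧ 0 ≤ x.2 ∧ x.2 ≤ uu A c := by
  constructor
  · rintro ⟨⟨_, _, h5, h6⟩, rfl⟩
    exact ⟨rfl, h5, h6⟩
  · rintro ⟨rfl, h3, h4⟩
    exact ⟨⟨h1, h2, h3, h4⟩, rfl⟩

theorem isArc_Vc (h : A.Good) {c : ℝ} (h1 : A.p + A.w < c) (h2 : c < A.q - A.w') :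
    IsArc (Vc A c) (c, 0) (c, uu A c) := by
  have hp := uu_pos h h1 h2
  have := isArc_segment (p := ((c, 0) : ℝ × ℝ)) (q := (c, uu A c)) (by
    intro h'
    exact hp.ne (Prod.ext_iff.1 h').2)
  have e : segment ℝ ((c, 0) : ℝ × ℝ) (c, uu A c) = Vc A c := by
    ext ⟨x, y⟩
    rw [mem_vseg hp.le, mem_Vc h1.le h2.le]
  rwa [e] at this

theorem Rc_all (A : ArcD) : Rc A (A.q - A.w') = D0 A := by
  ext x
  exact ⟨fun h => h.1, fun h => ⟨h, h.2.1⟩⟩

/-- boundary of the left part -/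
def bRc (A : ArcD) (c : ℝ) : Set (ℝ × ℝ) := ((tD A ∪ gD A) ∩ {x | x.1 ≤ c}) ∪ Vc A c

theorem Vc_q (h : A.Good) : Vc A (A.q - A.w') = {(A.q - A.w', 0)} := by
  ext ⟨x, y⟩
  rw [mem_Vc h.pqs.le le_rfl, uu_q h]
  constructor
  · rintro ⟨h1, h2, h3⟩
    simp only at h1 h2 h3
    rw [h1, le_antisymm h3 h2]; rfl
  · intro h1
    obtain ⟨rfl, rfl⟩ := Prod.ext_iff.1 h1
    exact ⟨rfl, le_rfl, le_rfl⟩

theorem conBall_Rc (h : A.Good) {c : ℝ} (h1 : A.p + A.w < c) (h2 : c ≤ A.q - A.w') :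
    ConBall 2 (Rc A c) (bRc A c) := by
  rcases h2.lt_or_eq with h2 | h2
  · have hA : IsClosed {x : ℝ × ℝ | x.1 ≤ c} := isClosed_le continuous_fst continuous_const
    have hfr := frontier_left c
    have e2 : D0 A ∩ frontier {x : ℝ × ℝ | x.1 ≤ c} = Vc A c := by rw [hfr]; rfl
    have e3 : (tD A ∪ gD A) ∩ frontier {x : ℝ × ℝ | x.1 ≤ c} = {(c, 0), (c, uu A c)} := by
      rw [hfr]
      ext ⟨x, y⟩
      constructor
      · rintro ⟨h3 | h3, h4⟩
        · have h4' : x = c := h4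
          have h3' : y = 0 := h3.2
          left; rw [h4', h3']
        · have h4' : x = c := h4
          have h3' : y = uu A x := h3.2.2
          right; rw [h3', h4']; rfl
      · rintro (h3 | h3)
        · rw [h3]
          exact ⟨Or.inl ⟨⟨h1.le, h2.le⟩, rfl⟩, rfl⟩
        · have h3' : (x, y) = (c, uu A c) := h3
          rw [h3']
          exact ⟨Or.inr ⟨h1.le, h2.le, rfl⟩, rfl⟩
    have hD : ConBall 1 (D0 A ∩ frontier {x : ℝ × ℝ | x.1 ≤ c})
        ((tD A ∪ gD A) ∩ frontier {x : ℝ × ℝ | x.1 ≤ c}) := by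
      rw [e2, e3]; exact isArc_iff_conBall.1 (isArc_Vc h h1 h2)
    have hin : (D0 A ∩ interior {x : ℝ × ℝ | x.1 ≤ c}).Nonempty := by
      refine ⟨(A.p + A.w, 0), tD_sub h ⟨⟨le_rfl, h.pqs.le⟩, rfl⟩, ?_⟩
      exact mem_interior.2 ⟨{x : ℝ × ℝ | x.1 < c}, fun x (hx : x.1 < c) => hx.le,
        isOpen_lt continuous_fst continuous_const, h1⟩
    have hout : (D0 A \ {x : ℝ × ℝ | x.1 ≤ c}).Nonempty :=
      ⟨(A.q - A.w', 0), tD_sub h ⟨⟨h.pqs.le, le_rfl⟩, rfl⟩, not_le.2 h2⟩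
    have := (inOut_two (conBall_D0 h) hA hD hin hout).1
    rw [e2] at this
    exact this
  · subst h2
    rw [Rc_all]
    have e : bRc A (A.q - A.w') = tD A ∪ gD A := by
      rw [bRc, Vc_q h]
      ext x
      constructor
      · rintro (⟨h3, _⟩ | h3)
        · exact h3
        · have h3' : x = (A.q - A.w', 0) := h3
          left; rw [h3']; exact ⟨⟨h.pqs.le, le_rfl⟩, rfl⟩
      · intro h3
        left
        refine ⟨h3, ?_⟩
        rcases h3 with h3 | h3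
        · exact h3.1.2
        · exact h3.2.1
    rw [e]; exact conBall_D0 h

end P073.H31
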