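import Vale.Agent.P073.H31.FHface
import Vale.Agent.P073.H345.RoundP
import Vale.Agent.P073.H950.Adapt5

/-!
# P073, H31, SHARP-WRAP2: **ROUND P with the sharp face maps on `Y`**
-/

set_option linter.unusedSectionVars false

open Set Metric Topology Filter MeasureTheory
open scoped ENNReal

namespace P073.FW31

open _root_.P073 _root_.P073.Net _root_.P073.PA691 _root_.P073.H236 _root_.P073.H579
  _root_.P073.H345
open Vale.Agent.P073.St (V)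
open Vale.Agent.P073.SQ (ev cube)
open Vale.Agent.P073.H471 Vale.Agent.P073.H267 Vale.Agent.P073.H267.Geo
open Vale.Agent.P073.H805 (RIn ROut)
open Vale.Agent.P073.H73 (Mesh sqr)
open Vale.Agent.P073.H193 (Edges Cyc edges)
open Vale.Agent.P073.H304 (IsEdge)
open Vale.Agent.P073.H155 (vv)
open Vale.Agent.P073.H669 (PLv)
open Vale.Agent.P073.H581 (TileAt ImgAt)

/-- the edges of a mesh are its interface edges -/
theorem edges_isEdge {Ω : Set V} (M : Mesh Ω) (p q : V) (h : IsEdge M (p, q)) :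
    ∃ e : (edges M).ε, (edges M).seg e = segment ℝ p q := by
  rcases _root_.P073.H950.isEdge_iff.1 h with h1 | h1
  · exact ⟨⟨(p, q), h1⟩, rfl⟩
  · exact ⟨⟨(q, p), h1⟩, segment_symm ℝ q p⟩

open Classical in
/-- the factor of the cone inequality: `q = 1` off `Y` -/
noncomputable def qY {ι : Type*} (K : ℝ) (Y : Set ι) (k : ι) : ℝ := if k ∈ Y then DK K / 156 else 1

theorem one_le_qY {ι : Type*} (K : ℝ) (Y : Set ι) (k : ι) : 1 ≤ qY K Y k := by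
  unfold qY
  split_ifs
  · rw [le_div_iff₀ (by norm_num)]
    linarith [DK_ge K]
  · exact le_rfl

theorem qY_le {ι : Type*} (K : ℝ) (Y : Set ι) (k : ι) : qY K Y k ≤ DK K / 156 := by
  unfold qY
  split_ifs
  · exact le_rfl
  · rw [le_div_iff₀ (by norm_num)]
    linarith [DK_ge K]

theorem qY_off {ι : Type*} (K : ℝ) {Y : Set ι} {k : ι} (hk : k ∉ Y) : qY K Y k = 1 := if_neg hk

/-- the hypothesis `hGF` of `H142.cone_round_q` with `q = qY` -/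
theorem GFY.coneQ {ζ : Type*} {Ω Λ : Set V} {M : Mesh Ω} {E : Edges M} {h : ConHomeo Ω Λ}
    {Ak : ζ → M.κ → Prop} {LP : ζ → Fin 3 → Finset ℝ} {loP hiP omP : ζ → Fin 3 → ℝ → ℝ}
    {La We : E.ε → ℝ} {O : M.κ → V} {r0 R : M.κ → ℝ} {Y : Set M.κ} {K e β ρ : ℝ}
    (hr0 : ∀ k, 0 < r0 k) (hR : ∀ k, 0 ≤ R k) (hLa0 : ∀ e, 0 ≤ La e) (hWe0 : ∀ e, 0 ≤ We e)
    (k : M.κ) (Φ : V → V) (H : GFY E h Ak LP loP hiP omP La We O r0 R Y K e β ρ k Φ) (s : ζ)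
    (hs : Ak s k) (i : E.ε) (hi : E.seg i ⊆ M.F k) :
    ∀ x ∈ coneSetAt (O k) (E.seg i), ∀ y ∈ coneSetAt (O k) (E.seg i),
    bandD (LP s) (loP s) (hiP s) (omP s) (Φ x) (Φ y) ≤
      qY K Y k * (156 * (1 + R k / r0 k) *
        (La i + (∑ e ∈ (E.fin_face k).toFinset, We e) / r0 k)) * ‖x - y‖ :=
  fun _ hx _ hy => H.cone (one_le_qY K Y k) (fun hk => by rw [qY, if_pos hk]) (hr0 k) (hR k) hLa0
    hWe0 hs hi hx hy

/-- **ROUND P** with the face maps `GFY`, sharp on the nearly monotone faces of `Y` -/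
theorem exists_roundP_Y {η₀ : ℝ} {Ω Λ : Set V} {w : V} {ρ : V → ℝ} {M : Mesh Ω}
    {h h1 : ConHomeo Ω Λ} {P : Set M.ι} {K : BoxCx Λ w} (D : KIn η₀ w ρ M h P)
    (C : Cells ρ w K) {E : Edges M} {O : M.κ → V} {LaT : E.ε → ℝ} {Lf : M.κ → E.ε → ℝ}
    {Lam1 : M.κ → ℝ} {sl : TBx K → Finset (ℝ × ℝ)}
    (HT : T3Out (D.G C) M E h h1 (ωT η₀ C) O LaT Lf Lam1 sl) (hends : Ends (D.G C) sl)
    (htile : TileAt ρ w M P h.toFun h1.toFun) (himg : ImgAt M P h.toFun h1.toFun)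
    {η : ℝ} {τ : Type*} {A : τ → Set V} {Cs : Set ℝ} {εE : E.ε → ℝ} {μ δ : K.S → ℝ}
    (L : PLv (D.G C) E h1 P sl η A Cs εE μ δ) {La : E.ε → ℝ}
    (hLaT0 : ∀ e, 0 ≤ LaT e)
    (hLa : ∀ e, laE E (We3 L) e ≤ La e) (hLaT : ∀ e, 16 * LaT e ≤ La e)
    (Cy : ∀ k, Cyc E k) {O' : M.κ → V} {r0 Rr : M.κ → ℝ}
    (hS : ∀ k, P073.H155.Star ((Cy k).n + 1) (vv (Cy k)) (O' k) (r0 k) (Rr k) (M.F k))
    (hIE : ∀ p q, IsEdge M (p, q) → ∃ e : E.ε, E.seg e = segment ℝ p q)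
    {m Ks es βs ρs : ℝ} (hm0 : 0 < m) (hm1 : m < 1 / 4) (hKs : 0 < Ks) (hρs : ρs ≤ 1 / 2)
    (hSF : SpecSharpFace m Ks es βs ρs) (Y : Set M.κ) :
    ∃ (κ₀ κ₁ : V → V) (h2 h3 : ConHomeo Ω Λ), RPOut (D.G C) M E P L.lev h1 κ₀ κ₁ h2
      (GEP E h2 (AkP (D.G C) M h1 univ) L.lev.kP L.lev.lv L.lev.loP L.lev.hiP L.lev.omP La
        fun _ => m)
      (GFY E h2 (AkP (D.G C) M h1 univ) L.lev.lv L.lev.loP L.lev.hiP L.lev.omP La (We3 L) O' r0
        Rr Y Ks es βs ρs)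
      h3 := by
  have HR : RIn (D.G C) M h1 P univ L.lev.lv E := by
    refine Vale.Agent.P073.H805.rin_of D C HT himg ?_ L.win ?_ L.reg1 L.reg2
    · intro i hi x hx q hq
      obtain ⟨m, z, h3, h4, -⟩ := Vale.Agent.P073.H267.tile_of C q
      rw [h4] at hq ⊢
      exact htile i hi x hx m z h3 hq
    · intro s l hl t ht b hb
      refine L.hns s l hl t ht b ?_
      cases b with
      | inl e => exact hb
      | inr H => exact hb
  exact exists_roundP D C HT hends htile himg L (mu := fun _ => m)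
    (fun _ => ⟨hm0, hm1.le⟩) hLaT0 hLa hLaT
    (fun h2 => GFY E h2 (AkP (D.G C) M h1 univ) L.lev.lv L.lev.loP L.lev.hiP L.lev.omP La
      (We3 L) O' r0 Rr Y Ks es βs ρs)
    fun h2 κ₀ κ₁ HO i₀ i₁ => hfaceY (pact_P L.lev HR HO (β := false) i₀ i₁) Cy hS hIE hKs hρs hSF
      (fun _ _ _ _ => rfl) hLa (We3_nonneg L) (hWe_plv L HO)

end P073.FW31
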