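import Vale.Agent.P073.H31.SK4
import Vale.Agent.P073.H267.K3St2
import Vale.Agent.P073.H669.PCnt

/-!
# P073, H31, `K3C`, **[FACES3]**, part 2: the sharp clauses over the stages of ROUND P

`S3.pact`, `S3.pos3`, `S3.plw`: the inputs of `tv_act1` and `face_act1`; `cnt3`: the number of the
crossing points of `h2` on an edge of a peeled face; `tv_plate3`: the sharp clause for one edge.
-/

set_option linter.unusedSectionVars false

open Set Metric Topology Filter MeasureTheory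
open scoped ENNReal

namespace Vale.Agent.P073.H31.K3

open _root_.P073 _root_.P073.Net _root_.P073.PA691 _root_.P073.H236 _root_.P073.H579
open _root_.P073.H142
open _root_.P073.H345 (PK PB_sub_PK PLev tg)
open _root_.P073.H880.RP
open _root_.P073.FW31
open _root_.P073.Croft (varIn onS cross levs)
open Vale.Agent.P073.St (V)
open Vale.Agent.P073.SQ (ev)
open Vale.Agent.P073.H471 Vale.Agent.P073.H267 Vale.Agent.P073.H926
open Vale.Agent.P073.H267.K3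
open Vale.Agent.P073.H73 (Mesh onSeg sqr)
open Vale.Agent.P073.H193 (Edges edges)
open Vale.Agent.P073.H304 (Nb Zmax IsEdge)
open Vale.Agent.P073.H239 (tv)

variable {c₀ n δ : ℝ} {j : ℕ} {Ω Λ : Set V} {v w : V} {ρ : V → ℝ} {M : Mesh Ω}
  {h : ConHomeo Ω Λ} {J₀ J : Set (ℕ × (Fin 3 → ℤ))} {P Z : Set M.ι} {K : BoxCx Λ w}
  {D : KIn3 c₀ n j δ v w ρ M h J₀ J P Z} {C : Cells ρ w K} {C₀ μT : ℝ}
  {X : S1 D C C₀ μT} {Y₂ : S2 X} {Ys : Set M.κ} {sc : Sharp} {s : K.S} {k : M.κ}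

/-! ### the stages -/

section stages

variable (Y₃ : S3 Y₂ Ys sc)

theorem pact : PAct M (edges M) Y₂.h2 (Y₃.κ true ∘ Y₃.κ false) Λ
    ((D.dat C).PkS (D.G C) X.h1) Y₃.Lt.kP Y₂.L.lv Y₃.Lt.loP Y₃.Lt.hiP Y₃.Lt.omP :=
  Y₂.ex.ex.pact3 (β := false) (Y₃.ins.isQ false) (Y₃.ins.isQ true)

/-- **position of the peeled faces after the insertion** -/
theorem pos3 (hk : (D.dat C).PkS (D.G C) X.h1 s k) {x : V} (hx : x ∈ M.F k) :
    Y₃.h3.toFun x ∈ (D.G C).PB (15 / 16) s ∧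
      |Y₃.h3.toFun x (K.nrm s) - K.slo s (K.nrm s)| < (D.B C).τ s / 2 := by
  have h4 : Y₃.h3.toFun x ∈ Pre (Y₃.κ true ∘ Y₃.κ false) Λ Y₂.h2 (M.F k) := by
    rw [← Y₃.ins.out.img_face]; exact mem_image_of_mem _ hx
  have h5 := ((pact Y₃).zone s k hk).z2 _ h4.1 h4.2
  obtain ⟨y, hy, hyx⟩ := h4.2
  obtain ⟨-, h6, h7⟩ := Y₂.ex.ex.near s k hk y hy
  rw [hyx, h5] at h6 h7
  have h8 : prodK (Y₃.Lt.kP s) (Y₃.h3.toFun x) (K.nrm s) = Y₃.h3.toFun x (K.nrm s) := by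
    show Y₃.Lt.kP s (K.nrm s) _ = _
    rw [PLev.kP_nrm]; rfl
  rw [h8] at h7
  exact ⟨(PLev.prodK_mem_PB (by norm_num)).1 h6, h7⟩

theorem pos3' (hk : (D.dat C).PkS (D.G C) X.h1 s k) {x : V} (hx : x ∈ M.F k) :
    Y₃.h3.toFun x ∈ (D.G C).PB (7 / 8) s :=
  Vale.Agent.P073.H805.PB_mono (by norm_num) s (pos3 Y₃ hk hx).1

/-- **position of the peeled faces after the staircases** -/
theorem pos4 (hk : (D.dat C).PkS (D.G C) X.h1 s k) {x : V} (hx : x ∈ M.F k) :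
    PS.map Y₃.T3 (Y₃.h3.toFun x) ∈ (D.G C).PB (7 / 8) s ∧
      |PS.map Y₃.T3 (Y₃.h3.toFun x) (K.nrm s) - K.slo s (K.nrm s)| < (D.B C).τ s := by
  have h1 := pos3' Y₃ hk hx
  have h2 := (D.B C).τ_pos s
  refine ⟨PS3.mem_PB (s := (⟨s, hk.1⟩ : (D.dat C).S₀)) Y₃.ps le_rfl (by norm_num) h1, ?_⟩
  have h3 := PS3.nrm (s := (⟨s, hk.1⟩ : (D.dat C).S₀)) Y₃.ps h1
  have h3' : PS.map Y₃.T3 (Y₃.h3.toFun x) (K.nrm s) = Y₃.h3.toFun x (K.nrm s) := h3
  rw [h3']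
  have := (pos3 Y₃ hk hx).2
  linarith

/-- **the staircases on a plate** -/
theorem plw (hs : s ∈ (D.dat C).S₀) {om0 θ : ℝ} (hom : ∀ β, Y₂.L.om s β = om0)
    (hθ : ∀ β, (Y₃.F β).e ⟨s, hs⟩ ≤ θ * Y₃.c s β) :
    PlW (D.G C) s (Y₃.Lt.kP s) (Y₂.L.lv s) (Y₃.Lt.loP s) (Y₃.Lt.hiP s) (Y₃.Lt.omP s) om0 θ
      (PS.map Y₃.T3) := by
  have h1 := plw_of_ps3 (s := (⟨s, hs⟩ : (D.dat C).S₀)) Y₃.ps (om0 := om0) (θ := θ) hom hθ
  have h2 : Y₃.Lt.lv s = Y₂.L.lv s := funext fun j => thinL_lv s j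
  rwa [h2] at h1

end stages

/-! ### the crossing points -/

/-- **[CNT3]**: the crossing points of `h2` on an edge of a peeled face -/
theorem cnt3 (Y₂ : S2 X) {e : (edges M).ε}
    (he : EAct (edges M) ((D.dat C).PkS (D.G C) X.h1) s e)
    (hoff : EqOn X.h1.toFun h.toFun ((edges M).seg e)) {om0 A εe : ℝ} (hom0 : 0 ≤ om0)
    (hεe : 0 ≤ εe)
    (hcr : ∀ β, ENNReal.ofReal om0 *
      cnt (Y₂.L.crP (edges M) X.h1 (fun q => PK (D.G C) q.1) e (s, β)) ≤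
      ENNReal.ofReal A * varIn (onS X.h1.toFun ((edges M).a e) ((edges M).b e)) (tg s β)
        (PK (D.G C) s) 0 1 + ENNReal.ofReal εe) (Y : Finset V)
    (hY : ∀ x ∈ Y, CrsPt ((edges M).a e) ((edges M).b e) Y₂.h2.toFun (Y₂.L.lv s) x) :
    ENNReal.ofReal (om0 * Y.card) ≤ ENNReal.ofReal A *
      tv h.toFun ((edges M).a e, (edges M).b e) (Finset.univ.erase (K.nrm s)) +
        ENNReal.ofReal (2 * εe) := by
  have hcard := Y₂.ex.ex.encard_crs (P := fun q => PK (D.G C) q.1)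
    (fun e => by
      obtain ⟨i, hi⟩ := Y₂.ex.fam (.inr (.inl e))
      exact ⟨i, hi.symm⟩)
    (fun s _ s' _ hne => (Geo.disjoint_PB (G := D.G C) (by norm_num : (1:ℝ) / 2 ≤ 15 / 16)
      hne.symm).mono_right ((D.PE_sub_PB C s').trans
        (Vale.Agent.P073.H805.PB_mono (by norm_num) s')))
    (fun s _ => PB_sub_PK (by norm_num) s) he Y hY
  rw [Set.encard_coe_eq_coe_finsetCard] at hcard
  have hcnt : (Y.card : ℝ≥0∞) ≤
      cnt (Y₂.L.crP (edges M) X.h1 (fun q => PK (D.G C) q.1) e (s, true)) +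
        cnt (Y₂.L.crP (edges M) X.h1 (fun q => PK (D.G C) q.1) e (s, false)) := by
    unfold cnt
    exact_mod_cast hcard
  have hone : ∀ β, ENNReal.ofReal om0 *
      cnt (Y₂.L.crP (edges M) X.h1 (fun q => PK (D.G C) q.1) e (s, β)) ≤
      ENNReal.ofReal A *
        eVariationOn (fun t => onSeg h.toFun ((edges M).a e, (edges M).b e) t (tg s β))
          (Icc 0 1) + ENNReal.ofReal εe := by
    intro β
    refine (hcr β).trans (add_le_add (mul_le_mul' le_rfl ?_) le_rfl)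
    refine (H581.varIn_le_evar zero_le_one
      (Croft.conicalOn_onS X.h1.conical ((edges M).seg_sub_Ω e)) (tg s β)
      (H669.PK_convex (D.G C) s)).trans (le_of_eq ?_)
    refine eVariationOn.congr fun t ht => ?_
    have h1 : (edges M).a e + t • ((edges M).b e - (edges M).a e) ∈ (edges M).seg e :=
      Croft.onS_mem ht
    show X.h1.toFun ((edges M).a e + t • ((edges M).b e - (edges M).a e)) (tg s β) =
      h.toFun ((edges M).a e + t • ((edges M).b e - (edges M).a e)) (tg s β)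
    rw [hoff h1]
  calc ENNReal.ofReal (om0 * Y.card)
      = ENNReal.ofReal om0 * (Y.card : ℝ≥0∞) := by
        rw [ENNReal.ofReal_mul hom0, ENNReal.ofReal_natCast]
    _ ≤ ENNReal.ofReal om0 *
        (cnt (Y₂.L.crP (edges M) X.h1 (fun q => PK (D.G C) q.1) e (s, true)) +
          cnt (Y₂.L.crP (edges M) X.h1 (fun q => PK (D.G C) q.1) e (s, false))) :=
        mul_le_mul_right hcnt _
    _ = _ := mul_add _ _ _
    _ ≤ _ := add_le_add (hone true) (hone false)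
    _ = ENNReal.ofReal A * tv h.toFun ((edges M).a e, (edges M).b e)
          (Finset.univ.erase (K.nrm s)) + (ENNReal.ofReal εe + ENNReal.ofReal εe) := by
        rw [H669.PLv.tv_eq, mul_add]
        exact add_add_add_comm _ _ _ _
    _ = _ := by rw [← ENNReal.ofReal_add hεe hεe, two_mul]

/-! ### one edge -/

/-- **the sharp clause for one edge in a plate**, from the `l1` estimate of the map `g` -/
theorem tv_plate3 (Y₃ : S3 Y₂ Ys sc) (hk : (D.dat C).PkS (D.G C) X.h1 s k)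
    {e : (edges M).ε} (he : (edges M).seg e ⊆ M.F k)
    (hown : OwnE (edges M) ((D.dat C).PkS (D.G C) X.h1) e)
    (hoff : EqOn X.h1.toFun h.toFun ((edges M).seg e)) {om0 θ : ℝ}
    (hom : ∀ β, Y₂.L.om s β = om0) (hθ : ∀ β, (Y₃.F β).e ⟨s, hk.1⟩ ≤ θ * Y₃.c s β)
    {g : V → V} {μs τ : ℝ} (hμs : 0 ≤ μs) (hτ : 0 ≤ τ)
    (HL : L1Est (D.G C) s ((edges M).seg e) μs τ (fun x => PS.map Y₃.T3 (Y₃.h3.toFun x)) g)
    {Lam : ℝ} (hLam0 : 0 ≤ Lam) (hLam : ∀ x ∈ (edges M).seg e, ∀ y ∈ (edges M).seg e,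
      ‖Y₃.h3.toFun x - Y₃.h3.toFun y‖ ≤ Lam * ‖x - y‖)
    {A εe : ℝ} (hεe : 0 ≤ εe)
    (hcr : ∀ β, ENNReal.ofReal om0 *
      cnt (Y₂.L.crP (edges M) X.h1 (fun q => PK (D.G C) q.1) e (s, β)) ≤
      ENNReal.ofReal A * varIn (onS X.h1.toFun ((edges M).a e) ((edges M).b e)) (tg s β)
        (PK (D.G C) s) 0 1 + ENNReal.ofReal εe)
    {c ε' : ℝ} (hc : (1 + μs) * A ≤ 1 + c)
    (hε' : (1 + μs) * (2 * εe) +
      ((1 + μs) * (2 * (θ * Lam)) + τ) * ‖(edges M).b e - (edges M).a e‖ ≤ ε') :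
    tv g ((edges M).a e, (edges M).b e) Finset.univ ≤ ENNReal.ofReal (1 + c) *
      tv h.toFun ((edges M).a e, (edges M).b e) (Finset.univ.erase (K.nrm s)) +
        ENNReal.ofReal ε' := by
  have H := plw Y₃ hk.1 hom hθ
  obtain ⟨Xf, hX, h1⟩ := tv_act1 (pact Y₃) Y₃.ins.out.toOut2 H ⟨s, hk⟩ hk he hown hμs HL
    (fun x hx => pos3' Y₃ hk (he hx)) hLam (p := (edges M).a e) (q := (edges M).b e) rfl
  have h2 := cnt3 Y₂ ⟨k, hk, he⟩ hoff H.pos.le hεe hcr Xf fun x hx => (hX x).1 hx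
  refine h1.trans ?_
  have h3 : 0 ≤ 1 + μs := by linarith
  set q := ((1 + μs) * (2 * (θ * Lam)) + τ) * ‖(edges M).b e - (edges M).a e‖ with hq
  calc ENNReal.ofReal ((1 + μs) * (om0 * Xf.card) + q)
      ≤ ENNReal.ofReal ((1 + μs) * (om0 * Xf.card)) + ENNReal.ofReal q :=
        ENNReal.ofReal_add_le
    _ = ENNReal.ofReal (1 + μs) * ENNReal.ofReal (om0 * Xf.card) + ENNReal.ofReal q := by
        rw [ENNReal.ofReal_mul h3]
    _ ≤ ENNReal.ofReal (1 + μs) * (ENNReal.ofReal A *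
          tv h.toFun ((edges M).a e, (edges M).b e) (Finset.univ.erase (K.nrm s)) +
          ENNReal.ofReal (2 * εe)) + ENNReal.ofReal q :=
        add_le_add (mul_le_mul' le_rfl h2) le_rfl
    _ = ENNReal.ofReal ((1 + μs) * A) *
          tv h.toFun ((edges M).a e, (edges M).b e) (Finset.univ.erase (K.nrm s)) +
          (ENNReal.ofReal ((1 + μs) * (2 * εe)) + ENNReal.ofReal q) := by
        rw [mul_add, ← mul_assoc, ← ENNReal.ofReal_mul h3, ← ENNReal.ofReal_mul h3, add_assoc]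
    _ ≤ _ := by
        refine add_le_add (mul_le_mul' (ENNReal.ofReal_le_ofReal hc) le_rfl) ?_
        have hθ0 := H.θ0
        have hq0 : 0 ≤ q := by positivity
        rw [← ENNReal.ofReal_add (by positivity) hq0]
        exact ENNReal.ofReal_le_ofReal hε'

/-! ### one face -/

/-- **the numbers of the sharp faces**; `r`: error of the sides; `ν`: the soft errors -/
structure FNum1 (p μ r : ℝ) (sc : Sharp) (ν : ℝ) : Prop where
  m0 : 0 < sc.m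
  m1 : sc.m < 1 / 4
  K0 : 0 < sc.K
  ρ0 : 0 < sc.ρ
  ρ1 : sc.ρ ≤ 1 / 2
  ν0 : 0 < ν
  ν_le : ν ≤ sc.ρ / 64
  r0 : 0 < r
  r_le : r ≤ sc.ρ / 32
  sf : SpecSharpFace sc.m sc.K sc.e sc.β sc.ρ
  face : ∃ r₀ μ₀, r ≤ r₀ ∧ 5 * ν ≤ μ₀ ∧ _root_.P073.H761.SE.FaceC1 p μ r₀ sc.K sc.e sc.β μ₀

/-- **the numbers exist**: `m`, `K`, `e`, `β`, `ρ` after `μ`, then `r`, `ν` -/
theorem exists_fnum1 {p : ℝ} (hp : 1 ≤ p) {μ : ℝ} (hμ : 0 < μ) :
    ∃ (sc : Sharp) (r ν : ℝ), FNum1 p μ r sc ν := by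
  obtain ⟨e, he0, he1, r₀, hr0, hr1, H⟩ := _root_.P073.H761.SE.exists_face1 hp hμ
  obtain ⟨m, hm0, hm1, K, hK, HS⟩ := sharpFace he0
  obtain ⟨β, hβ, μ₀, hμ₀, H⟩ := H K hK
  obtain ⟨ρ, hρ0, hρ1, HS⟩ := HS β hβ
  have hν : 0 < min (μ₀ / 5) (ρ / 64) := lt_min (by positivity) (by positivity)
  refine ⟨⟨m, K, e, β, ρ⟩, min r₀ (ρ / 32), min (μ₀ / 5) (ρ / 64), hm0, hm1, hK, hρ0, hρ1,
    hν, min_le_right _ _, lt_min hr0 (by positivity), min_le_right _ _, HS, r₀, μ₀,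
    min_le_left _ _, ?_, H⟩
  have := min_le_left (μ₀ / 5) (ρ / 64)
  linarith

/-- the length of a side -/
theorem norm_side {x : V} {i : Fin 3} {σ : ℝ} (hσ : 0 < σ) :
    ‖x + (2 * σ) • (ev i : V) - x‖ = 2 * σ := by
  rw [add_sub_cancel_left, norm_smul, norm_ev31, mul_one, Real.norm_eq_abs,
    abs_of_pos (by linarith)]

/-- **the sharp clause for one face**: `g` the last map (`L1Est`), `q` the map before the hooks
(`LocEst`) -/
theorem face3 (Y₃ : S3 Y₂ Ys sc) {p μ r ν : ℝ} (N : FNum1 p μ r sc ν)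
    (hk : (D.dat C).PkS (D.G C) X.h1 s k) (hkY : k ∈ Ys)
    (hown : ∀ e, (edges M).seg e ⊆ M.F k → OwnE (edges M) ((D.dat C).PkS (D.G C) X.h1) e)
    (hoff : EqOn X.h1.toFun h.toFun (M.F k)) {a : V} {σ : ℝ} (hσ : 0 < σ)
    (hF : M.F k = sqr a (K.nrm s) σ) {om0 θ : ℝ}
    (hom : ∀ β, Y₂.L.om s β = om0) (hθ : ∀ β, (Y₃.F β).e ⟨s, hk.1⟩ ≤ θ * Y₃.c s β)
    {g q : V → V} {μs μs' τ τ' : ℝ} (hμs : 0 ≤ μs) (hμs1 : μs ≤ ν) (hμs' : 0 ≤ μs')
    (hμs1' : μs' ≤ ν) (hτ : 0 ≤ τ) (hτ1 : τ ≤ ν) (hτ' : 0 ≤ τ') (hτ1' : τ' ≤ ν)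
    (HLq : LocEst (D.G C) s (M.F k) μs' τ' (fun x => PS.map Y₃.T3 (Y₃.h3.toFun x)) q)
    (HLg : L1Est (D.G C) s (M.F k) μs τ (fun x => PS.map Y₃.T3 (Y₃.h3.toFun x)) g)
    {Lam : ℝ} (hLam : ∀ x ∈ M.F k, ∀ y ∈ M.F k,
      ‖Y₃.h3.toFun x - Y₃.h3.toFun y‖ ≤ Lam * ‖x - y‖)
    (hθL : θ * Lam ≤ ν) (hsm : om0 ≤ sc.ρ / 4 * (2 * σ))
    {A : ℝ} {εE : (edges M).ε → ℝ} (hA0 : 0 ≤ A) (hA : A ≤ 1 + sc.ρ / 64)
    (hεE0 : ∀ e, 0 ≤ εE e) (hεE : ∀ e, (edges M).seg e ⊆ M.F k →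
      2 * εE e ≤ sc.ρ / 64 * ‖(edges M).b e - (edges M).a e‖)
    (hcr : ∀ e, (edges M).seg e ⊆ M.F k → ∀ β, ENNReal.ofReal om0 *
      cnt (Y₂.L.crP (edges M) X.h1 (fun q => PK (D.G C) q.1) e (s, β)) ≤
      ENNReal.ofReal A * varIn (onS X.h1.toFun ((edges M).a e) ((edges M).b e)) (tg s β)
        (PK (D.G C) s) 0 1 + ENNReal.ofReal (εE e)) {ε : ℝ} (hε : 0 ≤ ε)
    (hside : ∀ i, i ≠ K.nrm s → ∀ x : V, x ∈ sqr a (K.nrm s) σ →
      x + (2 * σ) • ev i ∈ sqr a (K.nrm s) σ →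
      (∀ j, j ≠ i → j ≠ K.nrm s → |x j - a j| = σ) →
      IsEdge M (x, x + (2 * σ) • ev i) ∧ H212.MonSide r σ g i x ∧ H212.MonSide r σ q i x ∧
      tv h.toFun (x, x + (2 * σ) • ev i) (Finset.univ.erase (K.nrm s)) ≤
        ENNReal.ofReal ((1 + r) * (2 * σ))) :
    H239.faceI p g a (K.nrm s) σ ≤ ENNReal.ofReal ((μ + ε) * σ ^ 3) := by
  have H := plw Y₃ hk.1 hom hθ
  obtain ⟨r₀, μ₀, hr₀, hμ₀, hfc⟩ := N.face
  have hρ0 := N.ρ0
  have hρ1 := N.ρ1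
  have hν0 := N.ν0
  have hν1 := N.ν_le
  have hr0 := N.r0
  have hr1 := N.r_le
  have hIE : ∀ p q, IsEdge M (p, q) → ∃ e : (edges M).ε, (edges M).seg e = segment ℝ p q :=
    fun p q hpq => by
      obtain ⟨e, he, -⟩ := H212.exists_edge hpq
      exact ⟨e, he⟩
  refine face_act1 (La := Y₃.La) (μs := μs) (μs' := μs') (τ := τ) (τ' := τ') (g' := q) (pact Y₃)
    Y₃.ins.out.toOut2 hIE H ⟨s, hk⟩ hk hkY hown hσ hF hfc hρ0 hρ1 hr0.le hr₀ (by linarith) hμs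
    (by linarith) (by linarith) hμs' (by linarith) (by linarith) hμ₀ hε hτ hτ1 hτ' hτ1' HLq HLg
    (fun x hx => pos3' Y₃ hk hx) hLam hθL hsm (fun i x hx => ?_) fun i hi x hx hx' hxj => ?_
  · obtain ⟨h1, -, h3, h4⟩ := hside i hx.1 x hx.2.1 hx.2.2.1 hx.2.2.2
    refine ⟨h1, h3.1, fun Y' hY' => ?_⟩
    obtain ⟨e, he, htv⟩ := H212.exists_edge h1
    have heF : (edges M).seg e ⊆ M.F k := by
      rw [he, hF]
      exact (convex_sqr31 a (K.nrm s) σ).segment_subset hx.2.1 hx.2.2.1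
    have h5 := cnt3 Y₂ ⟨k, hk, heF⟩ (hoff.mono heF) H.pos.le (hεE0 e) (hcr e heF) Y'
      fun y hy => (crsPt_of_seg (he : segment ℝ ((edges M).a e) ((edges M).b e) = _) y).1
        (hY' y hy)
    rw [← htv] at h5
    have hlen : ‖(edges M).b e - (edges M).a e‖ = 2 * σ := by
      rcases seg_ends (he : segment ℝ ((edges M).a e) ((edges M).b e) = _) with ⟨e1, e2⟩ | ⟨e1, e2⟩
      · rw [e1, e2, norm_side hσ]
      · rw [e1, e2, norm_sub_rev, norm_side hσ]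
    have h6 := hεE e heF
    rw [hlen] at h6
    have h7 : ENNReal.ofReal (om0 * Y'.card) ≤
        ENNReal.ofReal ((A * (1 + r) + sc.ρ / 64) * (2 * σ)) := by
      refine h5.trans ?_
      calc ENNReal.ofReal A * tv h.toFun (x, x + (2 * σ) • ev i) (Finset.univ.erase (K.nrm s)) +
            ENNReal.ofReal (2 * εE e)
          ≤ ENNReal.ofReal A * ENNReal.ofReal ((1 + r) * (2 * σ)) +
            ENNReal.ofReal (sc.ρ / 64 * (2 * σ)) :=
            add_le_add (mul_le_mul' le_rfl h4) (ENNReal.ofReal_le_ofReal h6)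
        _ = _ := by
            rw [← ENNReal.ofReal_mul hA0, ← ENNReal.ofReal_add (by positivity) (by positivity)]
            congr 1
            ring
    have h8 := (ENNReal.ofReal_le_ofReal_iff (by positivity)).1 h7
    refine h8.trans (mul_le_mul_of_nonneg_right ?_ (by positivity))
    have h9 : A * (1 + r) ≤ (1 + sc.ρ / 64) * (1 + sc.ρ / 32) :=
      mul_le_mul hA (by linarith) (by linarith) (by linarith)
    nlinarith
  · obtain ⟨-, h2, -, -⟩ := hside i hi x hx hx' hxj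
    exact h2

end Vale.Agent.P073.H31.K3
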