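import Mathlib

/-!
# P073, H31, METRIC: the model functions on the rectangle

`lam` is the trapezoid function of an arc, `md k i` the band coordinate of the arc `i` in the
model with `k` arcs.  The weighted sums of the increments are controlled (`vert`, `horiz`).
-/

open Set

namespace P073.H31

/-- clamp to `[0,1]` -/
noncomputable def cl1 (x : ℝ) : ℝ := max 0 (min 1 x)

theorem cl1_nonneg (x : ℝ) : 0 ≤ cl1 x := le_max_left _ _

theorem cl1_le_one (x : ℝ) : cl1 x ≤ 1 := max_le zero_le_one (min_le_left _ _)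

theorem cl1_eq_zero {x : ℝ} (h : x ≤ 0) : cl1 x = 0 :=
  max_eq_left ((min_le_right _ _).trans h)

theorem cl1_eq_one {x : ℝ} (h : 1 ≤ x) : cl1 x = 1 := by
  rw [cl1, min_eq_left h, max_eq_right zero_le_one]

theorem cl1_eq_self {x : ℝ} (h0 : 0 ≤ x) (h1 : x ≤ 1) : cl1 x = x := by
  rw [cl1, min_eq_right h1, max_eq_right h0]

theorem abs_max_sub_max_le_abs' (a b c : ℝ) : |max a b - max a c| ≤ |b - c| := by
  have := abs_max_sub_max_le_max a b a c
  simpa using this

theorem abs_min_sub_min_le_abs' (a b c : ℝ) : |min a b - min a c| ≤ |b - c| := by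
  have := abs_min_sub_min_le_max a b a c
  simpa using this

theorem abs_cl1_sub_le (x y : ℝ) : |cl1 x - cl1 y| ≤ |x - y| :=
  (abs_max_sub_max_le_abs' _ _ _).trans (abs_min_sub_min_le_abs' _ _ _)

theorem cl1_mono {x y : ℝ} (h : x ≤ y) : cl1 x ≤ cl1 y := by
  unfold cl1; gcongr

/-- data of an arc: the positions `p < q` of its end points, the widths `w`, `w'` of the two
collars, the weight `om` -/
structure ArcD where
  p : ℝ
  q : ℝ
  w : ℝ
  w' : ℝ
  om : ℝ

/-- admissible data -/
structure ArcD.Good (A : ArcD) : Prop where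
  w0 : 0 < A.w
  w0' : 0 < A.w'
  om0 : 0 < A.om
  pq : A.p + 2 * A.w ≤ A.q - 2 * A.w'
  p0 : 0 < A.p
  q1 : A.q < 1

/-- left and right ramps -/
noncomputable def ArcD.xL (A : ArcD) (a : ℝ) : ℝ := min 2 ((a - A.p) / A.w)
noncomputable def ArcD.xR (A : ArcD) (a : ℝ) : ℝ := min 2 ((A.q - a) / A.w')

/-- the trapezoid function -/
noncomputable def ArcD.lam (A : ArcD) (a : ℝ) : ℝ := max 0 (min (A.xL a) (A.xR a))

/-- boundary values of the band coordinate -/
noncomputable def ArcD.sig (A : ArcD) (a : ℝ) : ℝ := cl1 (A.lam a)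

namespace ArcD

variable {A : ArcD}

theorem Good.pltq (h : A.Good) : A.p < A.q := by
  have := h.w0; have := h.w0'; have := h.pq; linarith

theorem lam_nonneg (a : ℝ) : 0 ≤ A.lam a := le_max_left _ _

theorem lam_le_two (a : ℝ) : A.lam a ≤ 2 :=
  max_le zero_le_two ((min_le_left _ _).trans (min_le_left _ _))

theorem Good.lam_zero_left (h : A.Good) {a : ℝ} (ha : a ≤ A.p) : A.lam a = 0 := by
  apply max_eq_left
  refine (min_le_left _ _).trans ((min_le_right _ _).trans ?_)
  exact div_nonpos_of_nonpos_of_nonneg (by linarith) h.w0.le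

theorem Good.lam_zero_right (h : A.Good) {a : ℝ} (ha : A.q ≤ a) : A.lam a = 0 := by
  apply max_eq_left
  refine (min_le_right _ _).trans ((min_le_right _ _).trans ?_)
  exact div_nonpos_of_nonpos_of_nonneg (by linarith) h.w0'.le

theorem Good.xR_two (h : A.Good) {a : ℝ} (ha : a ≤ A.q - 2 * A.w') : A.xR a = 2 := by
  apply min_eq_left
  rw [le_div_iff₀ h.w0']; linarith

theorem Good.xL_two (h : A.Good) {a : ℝ} (ha : A.p + 2 * A.w ≤ a) : A.xL a = 2 := by
  apply min_eq_left
  rw [le_div_iff₀ h.w0]; linarith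

theorem Good.xL_eq (h : A.Good) {a : ℝ} (ha : a ≤ A.p + 2 * A.w) : A.xL a = (a - A.p) / A.w := by
  apply min_eq_right
  rw [div_le_iff₀ h.w0]; linarith

theorem Good.xR_eq (h : A.Good) {a : ℝ} (ha : A.q - 2 * A.w' ≤ a) :
    A.xR a = (A.q - a) / A.w' := by
  apply min_eq_right
  rw [div_le_iff₀ h.w0']; linarith

theorem Good.lam_left (h : A.Good) {a : ℝ} (h0 : A.p ≤ a) (ha : a ≤ A.p + 2 * A.w) :
    A.lam a = (a - A.p) / A.w := by
  have h1 := h.xL_eq ha
  have h2 := h.xR_two (a := a) (by linarith [h.pq])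
  have h3 : (a - A.p) / A.w ≤ 2 := by rw [div_le_iff₀ h.w0]; linarith
  rw [lam, h1, h2, min_eq_left h3, max_eq_right (div_nonneg (by linarith) h.w0.le)]

theorem Good.lam_right (h : A.Good) {a : ℝ} (h0 : a ≤ A.q) (ha : A.q - 2 * A.w' ≤ a) :
    A.lam a = (A.q - a) / A.w' := by
  have h1 := h.xR_eq ha
  have h2 := h.xL_two (a := a) (by linarith [h.pq])
  have h3 : (A.q - a) / A.w' ≤ 2 := by rw [div_le_iff₀ h.w0']; linarith
  rw [lam, h1, h2, min_eq_right h3, max_eq_right (div_nonneg (by linarith) h.w0'.le)]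

theorem Good.lam_mid (h : A.Good) {a : ℝ} (h0 : A.p + 2 * A.w ≤ a) (h1 : a ≤ A.q - 2 * A.w') :
    A.lam a = 2 := by
  rw [lam, h.xL_two h0, h.xR_two h1, min_self, max_eq_right zero_le_two]

theorem Good.lam_pos (h : A.Good) {a : ℝ} (h0 : A.p < a) (h1 : a < A.q) : 0 < A.lam a := by
  refine lt_max_of_lt_right (lt_min (lt_min two_pos ?_) (lt_min two_pos ?_))
  · exact div_pos (by linarith) h.w0
  · exact div_pos (by linarith) h.w0'

end ArcD

/-! ### One step -/

/-- weights -/
noncomputable def Wt (ws : ℝ) (A : ℕ → ArcD) (k : ℕ) : ℝ := ws + ∑ i ∈ Finset.range k, (A i).om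

/-- half thickness of the layer -/
noncomputable def hh (ws : ℝ) (A : ℕ → ArcD) (k : ℕ) : ℝ := (A k).om / (2 * Wt ws A (k + 1))

/-- the vertical reparametrisation -/
noncomputable def chi (h l t : ℝ) : ℝ := min 1 (min (t + h * l) (t / (1 - 2 * h)))

/-- the band coordinate of the last arc -/
noncomputable def zl (h l t : ℝ) : ℝ := cl1 (l - (1 - t) / h)

/-- the model functions -/
noncomputable def md (ws : ℝ) (A : ℕ → ArcD) : ℕ → ℕ → ℝ → ℝ → ℝ
  | 0, _, _, _ => 0
  | k + 1, i, a, t => if i = k then zl (hh ws A k) ((A k).lam a) t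
      else md ws A k i a (chi (hh ws A k) ((A k).lam a) t)

theorem md_zero (ws : ℝ) (A : ℕ → ArcD) (i : ℕ) (a t : ℝ) : md ws A 0 i a t = 0 := rfl

theorem md_last (ws : ℝ) (A : ℕ → ArcD) (k : ℕ) (a t : ℝ) :
    md ws A (k + 1) k a t = zl (hh ws A k) ((A k).lam a) t := by
  simp [md]

theorem md_succ (ws : ℝ) (A : ℕ → ArcD) {k i : ℕ} (hi : i ≠ k) (a t : ℝ) :
    md ws A (k + 1) i a t = md ws A k i a (chi (hh ws A k) ((A k).lam a) t) := by
  simp [md, hi]

theorem md_of_le (ws : ℝ) (A : ℕ → ArcD) : ∀ {k i : ℕ}, k ≤ i → ∀ a t : ℝ, md ws A k i a t = 0 := by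
  intro k
  induction k with
  | zero => intro i _ a t; rfl
  | succ k ih =>
    intro i hi a t
    rw [md_succ ws A (by omega)]
    exact ih (by omega) _ _

theorem md_nonneg (ws : ℝ) (A : ℕ → ArcD) : ∀ (k i : ℕ) (a t : ℝ), 0 ≤ md ws A k i a t := by
  intro k
  induction k with
  | zero => intro i a t; exact le_rfl
  | succ k ih =>
    intro i a t
    by_cases hi : i = k
    · subst hi; rw [md_last]; exact cl1_nonneg _
    · rw [md_succ ws A hi]; exact ih _ _ _

theorem md_le_one (ws : ℝ) (A : ℕ → ArcD) : ∀ (k i : ℕ) (a t : ℝ), md ws A k i a t ≤ 1 := by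
  intro k
  induction k with
  | zero => intro i a t; exact zero_le_one
  | succ k ih =>
    intro i a t
    by_cases hi : i = k
    · subst hi; rw [md_last]; exact cl1_le_one _
    · rw [md_succ ws A hi]; exact ih _ _ _

theorem chi_one {h l : ℝ} (h0 : 0 ≤ h) (h1 : 2 * h < 1) (hl : 0 ≤ l) : chi h l 1 = 1 := by
  apply min_eq_left
  refine le_min (by nlinarith) ?_
  rw [le_div_iff₀ (by linarith)]; linarith

theorem chi_le_one (h l t : ℝ) : chi h l t ≤ 1 := min_le_left _ _

theorem chi_zero {h l : ℝ} (h0 : 0 ≤ h) (hl : 0 ≤ l) : chi h l 0 = 0 := by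
  unfold chi
  rw [zero_add, zero_div, min_eq_right (mul_nonneg h0 hl), min_eq_right zero_le_one]

theorem chi_nonneg {h l t : ℝ} (h0 : 0 ≤ h) (h1 : 2 * h < 1) (hl : 0 ≤ l) (ht : 0 ≤ t) :
    0 ≤ chi h l t :=
  le_min zero_le_one (le_min (by positivity) (div_nonneg ht (by linarith)))

/-- `t ≤ 1 - h l`: below the graph -/
theorem zl_of_le {h l t : ℝ} (h0 : 0 < h) (ht : t ≤ 1 - h * l) : zl h l t = 0 := by
  apply cl1_eq_zero
  rw [sub_nonpos, le_div_iff₀ h0]; linarith

/-- above the graph `chi = 1` -/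
theorem chi_of_ge {h l t : ℝ} (h0 : 0 < h) (h1 : 2 * h < 1) (hl2 : l ≤ 2)
    (ht : 1 - h * l ≤ t) : chi h l t = 1 := by
  apply min_eq_left
  refine le_min (by linarith) ?_
  rw [le_div_iff₀ (by linarith)]
  nlinarith

theorem chi_of_le {h l t : ℝ} (ht : t ≤ 1 - h * l) :
    chi h l t = min (t + h * l) (t / (1 - 2 * h)) := by
  apply min_eq_right
  exact (min_le_left _ _).trans (by linarith)

theorem abs_max_add_abs_min (g t t' : ℝ) :
    |max g t' - max g t| + |min g t' - min g t| = |t' - t| := by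
  rcases le_total g t with h1 | h1 <;> rcases le_total g t' with h2 | h2
  · rw [max_eq_right h1, max_eq_right h2, min_eq_left h1, min_eq_left h2]; simp
  · rw [max_eq_right h1, max_eq_left h2, min_eq_left h1, min_eq_right h2]
    rw [abs_of_nonpos (by linarith), abs_of_nonpos (by linarith), abs_of_nonpos (by linarith)]
    ring
  · rw [max_eq_left h1, max_eq_right h2, min_eq_right h1, min_eq_left h2]
    rw [abs_of_nonneg (by linarith), abs_of_nonneg (by linarith), abs_of_nonneg (by linarith)]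
    ring
  · rw [max_eq_left h1, max_eq_left h2, min_eq_right h1, min_eq_right h2]; simp

/-- the vertical estimate of one step -/
theorem step_vert {h l t t' : ℝ} (h0 : 0 < h) (h1 : 2 * h < 1) (hl2 : l ≤ 2) (hl0 : 0 ≤ l) :
    h * |zl h l t' - zl h l t| + (1 - 2 * h) * |chi h l t' - chi h l t| ≤ |t' - t| := by
  set g := 1 - h * l with hg
  have hz : ∀ s, zl h l s = zl h l (max g s) := by
    intro s
    rcases le_total g s with hs | hs
    · rw [max_eq_right hs]
    · rw [max_eq_left hs, zl_of_le h0 hs, zl_of_le h0 le_rfl]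
  have hc : ∀ s, chi h l s = chi h l (min g s) := by
    intro s
    rcases le_total g s with hs | hs
    · rw [min_eq_left hs, chi_of_ge h0 h1 hl2 hs, chi_of_ge h0 h1 hl2 le_rfl]
    · rw [min_eq_right hs]
  have e1 : h * |zl h l t' - zl h l t| ≤ |max g t' - max g t| := by
    rw [hz t', hz t]
    have := abs_cl1_sub_le (l - (1 - max g t') / h) (l - (1 - max g t) / h)
    have e : l - (1 - max g t') / h - (l - (1 - max g t) / h) = (max g t' - max g t) / h := by
      field_simp; ring
    rw [e, abs_div, abs_of_pos h0] at this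
    calc h * |zl h l (max g t') - zl h l (max g t)| ≤ h * (|max g t' - max g t| / h) := by
          exact mul_le_mul_of_nonneg_left this h0.le
      _ = |max g t' - max g t| := by field_simp
  have e2 : (1 - 2 * h) * |chi h l t' - chi h l t| ≤ |min g t' - min g t| := by
    rw [hc t', hc t]
    generalize min g t' = s'
    generalize min g t = s
    have hpos : 0 < 1 - 2 * h := by linarith
    have a1 := abs_min_sub_min_le_abs' 1 (min (s' + h * l) (s' / (1 - 2 * h)))
      (min (s + h * l) (s / (1 - 2 * h)))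
    have a2 := abs_min_sub_min_le_max (s' + h * l) (s' / (1 - 2 * h)) (s + h * l)
      (s / (1 - 2 * h))
    have a3 : |s' + h * l - (s + h * l)| ≤ |s' - s| / (1 - 2 * h) := by
      rw [add_sub_add_right_eq_sub, le_div_iff₀ hpos]
      nlinarith [abs_nonneg (s' - s)]
    have a4 : |s' / (1 - 2 * h) - s / (1 - 2 * h)| = |s' - s| / (1 - 2 * h) := by
      rw [← sub_div, abs_div, abs_of_pos hpos]
    have a5 : |chi h l s' - chi h l s| ≤ |s' - s| / (1 - 2 * h) :=
      a1.trans (a2.trans (max_le a3 a4.le))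
    calc (1 - 2 * h) * |chi h l s' - chi h l s| ≤ (1 - 2 * h) * (|s' - s| / (1 - 2 * h)) :=
          mul_le_mul_of_nonneg_left a5 hpos.le
      _ = |s' - s| := by field_simp
  linarith [abs_max_add_abs_min g t t']

/-- the horizontal estimates of one step -/
theorem step_chi_horiz {h l l' t : ℝ} (h0 : 0 ≤ h) : |chi h l t - chi h l' t| ≤ h * |l - l'| := by
  refine (abs_min_sub_min_le_abs' _ _ _).trans ?_
  have := abs_min_sub_min_le_max (t + h * l) (t / (1 - 2 * h)) (t + h * l') (t / (1 - 2 * h))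
  rw [sub_self, abs_zero] at this
  refine this.trans (max_le ?_ (by positivity))
  rw [add_sub_add_left_eq_sub, ← mul_sub, abs_mul, abs_of_nonneg h0]

theorem step_zl_horiz {h l l' t : ℝ} : |zl h l t - zl h l' t| ≤ |l - l'| := by
  refine (abs_cl1_sub_le _ _).trans ?_
  rw [sub_sub_sub_cancel_right]

/-! ### The weighted estimates -/

section weights

variable {ws : ℝ} {A : ℕ → ArcD}

theorem Wt_succ (k : ℕ) : Wt ws A (k + 1) = Wt ws A k + (A k).om := by
  rw [Wt, Wt, Finset.sum_range_succ, add_assoc]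

theorem Wt_pos (h0 : 0 < ws) {k : ℕ} (hA : ∀ i < k, 0 < (A i).om) : 0 < Wt ws A k := by
  have : 0 ≤ ∑ i ∈ Finset.range k, (A i).om :=
    Finset.sum_nonneg fun i hi => (hA i (Finset.mem_range.1 hi)).le
  rw [Wt]; linarith

theorem hh_pos (h0 : 0 < ws) {k : ℕ} (hA : ∀ i < k + 1, 0 < (A i).om) : 0 < hh ws A k :=
  div_pos (hA k (Nat.lt_succ_self k)) (mul_pos two_pos (Wt_pos h0 hA))

theorem one_sub_hh (h0 : 0 < ws) {k : ℕ} (hA : ∀ i < k + 1, 0 < (A i).om) :
    1 - 2 * hh ws A k = Wt ws A k / Wt ws A (k + 1) := by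
  have := Wt_pos h0 hA
  rw [hh, Wt_succ] at *
  field_simp
  ring

theorem two_hh_lt (h0 : 0 < ws) {k : ℕ} (hA : ∀ i < k + 1, 0 < (A i).om) :
    2 * hh ws A k < 1 := by
  have h1 := one_sub_hh h0 hA
  have h2 : 0 < Wt ws A k / Wt ws A (k + 1) :=
    div_pos (Wt_pos h0 fun i hi => hA i (by omega)) (Wt_pos h0 hA)
  linarith

/-- boundary values on the top side -/
theorem md_top (h0 : 0 < ws) : ∀ {k : ℕ}, (∀ i < k, 0 < (A i).om) → ∀ {i : ℕ}, i < k → ∀ a,
    md ws A k i a 1 = (A i).sig a := by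
  intro k
  induction k with
  | zero => intro _ i hi; omega
  | succ k ih =>
    intro hA i hi a
    by_cases hik : i = k
    · subst hik
      rw [md_last, zl, sub_self, zero_div, sub_zero]; rfl
    · rw [md_succ ws A hik, chi_one (hh_pos h0 hA).le (two_hh_lt h0 hA) (ArcD.lam_nonneg a)]
      exact ih (fun j hj => hA j (by omega)) (by omega) a

/-- boundary values on the bottom side -/
theorem md_bot (h0 : 0 < ws) : ∀ {k : ℕ}, (∀ i < k, 0 < (A i).om) → ∀ (i : ℕ) (a : ℝ),
    md ws A k i a 0 = 0 := by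
  intro k
  induction k with
  | zero => intro _ i a; rfl
  | succ k ih =>
    intro hA i a
    by_cases hik : i = k
    · subst hik
      rw [md_last]
      apply zl_of_le (hh_pos h0 hA)
      have h1 := two_hh_lt h0 hA
      have h2 := ArcD.lam_le_two (A := A i) a
      have h3 := ArcD.lam_nonneg (A := A i) a
      nlinarith [hh_pos h0 hA]
    · rw [md_succ ws A hik, chi_zero (hh_pos h0 hA).le (ArcD.lam_nonneg a)]
      exact ih (fun j hj => hA j (by omega)) _ _

/-- outside of the interval of the arc -/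
theorem md_off (h0 : 0 < ws) : ∀ {k : ℕ}, (∀ i < k, 0 < (A i).om) → ∀ {i : ℕ} {a : ℝ},
    (A i).lam a = 0 → ∀ t ≤ 1, md ws A k i a t = 0 := by
  intro k
  induction k with
  | zero => intro _ i a _ t _; rfl
  | succ k ih =>
    intro hA i a ha t ht
    by_cases hik : i = k
    · subst hik
      rw [md_last]
      apply zl_of_le (hh_pos h0 hA)
      rw [ha]; linarith
    · rw [md_succ ws A hik]
      exact ih (fun j hj => hA j (by omega)) ha _ (chi_le_one _ _ _)

/-- **the vertical estimate** -/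
theorem vert (h0 : 0 < ws) : ∀ {k : ℕ}, (∀ i < k, 0 < (A i).om) → ∀ a t t' : ℝ,
    ∑ i ∈ Finset.range k, (A i).om * |md ws A k i a t - md ws A k i a t'| ≤
      2 * Wt ws A k * |t - t'| := by
  intro k
  induction k with
  | zero =>
    intro _ a t t'
    simp only [Finset.range_zero, Finset.sum_empty]
    have : 0 < Wt ws A 0 := Wt_pos h0 (by simp)
    positivity
  | succ k ih =>
    intro hA a t t'
    have hA' : ∀ i < k, 0 < (A i).om := fun j hj => hA j (by omega)
    rw [Finset.sum_range_succ, md_last, md_last]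
    set h := hh ws A k with hh'
    have hpos := hh_pos h0 hA
    have hlt := two_hh_lt h0 hA
    have e : ∑ i ∈ Finset.range k, (A i).om * |md ws A (k + 1) i a t - md ws A (k + 1) i a t'| =
        ∑ i ∈ Finset.range k, (A i).om * |md ws A k i a (chi h ((A k).lam a) t) -
          md ws A k i a (chi h ((A k).lam a) t')| := by
      refine Finset.sum_congr rfl fun i hi => ?_
      rw [md_succ ws A (Finset.mem_range.1 hi).ne, md_succ ws A (Finset.mem_range.1 hi).ne]
    rw [e]
    have h1 := ih hA' a (chi h ((A k).lam a) t) (chi h ((A k).lam a) t')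
    have h2 := step_vert (t := t') (t' := t) hpos hlt (ArcD.lam_le_two (A := A k) a)
      (ArcD.lam_nonneg a)
    have hW := Wt_pos h0 hA
    have hW' := Wt_pos h0 hA'
    have e1 : (A k).om = 2 * Wt ws A (k + 1) * h := by
      rw [hh', hh]; field_simp
    have e2 : 2 * Wt ws A k = 2 * Wt ws A (k + 1) * (1 - 2 * h) := by
      rw [hh', one_sub_hh h0 hA]; field_simp
    have h3 := mul_le_mul_of_nonneg_left h2 (mul_pos two_pos hW).le
    rw [e2] at h1
    rw [e1]
    have e3 : ∀ x y : ℝ, 2 * Wt ws A (k + 1) * (h * x + (1 - 2 * h) * y) =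
        2 * Wt ws A (k + 1) * h * x + 2 * Wt ws A (k + 1) * (1 - 2 * h) * y := by
      intro x y; ring
    rw [e3] at h3
    linarith

/-- **the horizontal estimate** -/
theorem horiz (h0 : 0 < ws) : ∀ {k : ℕ}, (∀ i < k, 0 < (A i).om) → ∀ a a' t : ℝ,
    ∑ i ∈ Finset.range k, (A i).om * |md ws A k i a t - md ws A k i a' t| ≤
      2 * ∑ i ∈ Finset.range k, (A i).om * |(A i).lam a - (A i).lam a'| := by
  intro k
  induction k with
  | zero => intro _ a a' t; simp
  | succ k ih =>
    intro hA a a' t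
    have hA' : ∀ i < k, 0 < (A i).om := fun j hj => hA j (by omega)
    rw [Finset.sum_range_succ, md_last, md_last, Finset.sum_range_succ]
    set h := hh ws A k with hh'
    have hpos := hh_pos h0 hA
    have hlt := two_hh_lt h0 hA
    set l := (A k).lam a
    set l' := (A k).lam a'
    have e : ∑ i ∈ Finset.range k, (A i).om * |md ws A (k + 1) i a t - md ws A (k + 1) i a' t| ≤
        ∑ i ∈ Finset.range k, (A i).om * |md ws A k i a (chi h l t) - md ws A k i a' (chi h l t)| +
        ∑ i ∈ Finset.range k, (A i).om * |md ws A k i a' (chi h l t) -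
          md ws A k i a' (chi h l' t)| := by
      rw [← Finset.sum_add_distrib]
      refine Finset.sum_le_sum fun i hi => ?_
      rw [md_succ ws A (Finset.mem_range.1 hi).ne, md_succ ws A (Finset.mem_range.1 hi).ne,
        ← mul_add]
      refine mul_le_mul_of_nonneg_left ?_ (hA' i (Finset.mem_range.1 hi)).le
      exact abs_sub_le _ _ _
    have h1 := ih hA' a a' (chi h l t)
    have h2 := vert h0 hA' a' (chi h l t) (chi h l' t)
    have h3 := step_chi_horiz (l := l) (l' := l') (t := t) hpos.le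
    have h4 := step_zl_horiz (h := h) (l := l) (l' := l') (t := t)
    have hW := Wt_pos h0 hA
    have hW' := Wt_pos h0 hA'
    have hom := hA k (Nat.lt_succ_self k)
    have h5 : 2 * Wt ws A k * |chi h l t - chi h l' t| ≤ (A k).om * |l - l'| := by
      have e1 : (A k).om = 2 * Wt ws A (k + 1) * h := by
        rw [hh', hh]; field_simp
      have e2 : Wt ws A k ≤ Wt ws A (k + 1) := by rw [Wt_succ]; linarith
      calc 2 * Wt ws A k * |chi h l t - chi h l' t| ≤ 2 * Wt ws A (k + 1) * (h * |l - l'|) := by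
            gcongr
        _ = (A k).om * |l - l'| := by rw [e1]; ring
    have h6 : (A k).om * |zl h l t - zl h l' t| ≤ (A k).om * |l - l'| :=
      mul_le_mul_of_nonneg_left h4 hom.le
    linarith

end weights

end P073.H31
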