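import Vale.Agent.P073.H341.Fam
import Vale.Agent.P073.H31.PlMod

/-!
# P073, H31, METRIC: thin patterns in a disc, filled sets, the statement of the PEEL theorem
-/

open Set Metric Topology Filter

namespace P073.H31


variable {E : Type*} [NormedAddCommGroup E] [NormedSpace ℝ E]

/-- the model rectangle -/
def Rct : Set (ℝ × ℝ) := Icc 0 1 ×ˢ Icc 0 1

/-- its boundary -/
def bR : Set (ℝ × ℝ) := {x | x ∈ Rct ∧ (x.1 = 0 ∨ x.1 = 1 ∨ x.2 = 0 ∨ x.2 = 1)}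

/-- left boundary interval of an arc (on the top side `t = 1`) -/
def IL (A : ArcD) : Set (ℝ × ℝ) := Icc A.p (A.p + A.w) ×ˢ {1}

/-- right boundary interval of an arc -/
def IR (A : ArcD) : Set (ℝ × ℝ) := Icc (A.q - A.w') A.q ×ˢ {1}

/-- the thin arc `i` -/
def Sa (C : Set E) (fn : ℕ → E → ℝ) (i : ℕ) : Set E := {x | x ∈ C ∧ fn i x = 0}

/-- position data of `k` arcs: the boundary intervals are pairwise disjoint, the doubled interval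
of the arc `j` does not meet the boundary intervals of the arcs `i < j`; the order is such that an
arc is never nested inside a later one -/
structure Pos (k : ℕ) (A : ℕ → ArcD) : Prop where
  good : ∀ i < k, (A i).Good
  disj : ∀ i < k, ∀ j < k, i ≠ j → Disjoint (IL (A i)) (IL (A j)) ∧ Disjoint (IR (A i)) (IR (A j)) ∧
    Disjoint (IL (A i)) (IR (A j))
  gap : ∀ j < k, ∀ i < j,
    ∀ a, ((A j).p ≤ a ∧ a ≤ (A j).p + 2 * (A j).w) ∨ ((A j).q - 2 * (A j).w' ≤ a ∧ a ≤ (A j).q) →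
      ¬ ((A i).p ≤ a ∧ a ≤ (A i).p + (A i).w) ∧ ¬ ((A i).q - (A i).w' ≤ a ∧ a ≤ (A i).q)
  ord : ∀ j < k, ∀ i < j, ¬ ((A j).p < (A i).p ∧ (A i).q < (A j).q)

/-- the arcs `i` and `j` are linked -/
def Lnk (A B : ArcD) : Prop :=
  (A.p < B.p ∧ B.p < A.q ∧ A.q < B.q) ∨ (B.p < A.p ∧ A.p < B.q ∧ B.q < A.q)

/-- a thin pattern of `k` arcs in the disc `(C, B)`, with thick boundary parametrisation `γ` -/
structure Pat (k : ℕ) (A : ℕ → ArcD) (col : ℕ → Bool) (C B : Set E) (fn : ℕ → E → ℝ)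
    (γ : ℝ × ℝ → E) : Prop where
  pos : Pos k A
  hC : ConBall 2 C B
  hfn : ∀ i < k, ContinuousOn (fn i) C
  hS : ∀ i < k, ConBall 1 (Sa C fn i) (Sa C fn i ∩ B)
  γc : ContinuousOn γ bR
  γk : ConicalOn γ bR
  γi : γ '' bR = B
  γf : ∀ x ∈ bR, ∀ y ∈ bR, γ x = γ y → x = y ∨ ∃ i < k, (x ∈ IL (A i) ∧ y ∈ IL (A i)) ∨
    (x ∈ IR (A i) ∧ y ∈ IR (A i))
  γL : ∀ i < k, ∀ x ∈ IL (A i), γ x = γ ((A i).p, 1)
  γR : ∀ i < k, ∀ x ∈ IR (A i), γ x = γ ((A i).q, 1)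
  zp : ∀ i < k, fn i (γ ((A i).p, 1)) = 0
  zq : ∀ i < k, fn i (γ ((A i).q, 1)) = 0
  pos_in : ∀ i < k, ∀ a, (A i).p + (A i).w < a → a < (A i).q - (A i).w' → 0 < fn i (γ (a, 1))
  neg_out : ∀ i < k, ∀ x ∈ bR, (x.2 = 1 → x.1 < (A i).p ∨ (A i).q < x.1) → fn i (γ x) < 0
  sub : ∀ i < k, ∀ j < k, i ≠ j → (Sa C fn i ∩ Sa C fn j).Subsingleton
  dis : ∀ i < k, ∀ j < k, i ≠ j → col i = col j → Disjoint (Sa C fn i) (Sa C fn j)
  link : ∀ i < k, ∀ j < k, i ≠ j → (Sa C fn i ∩ Sa C fn j).Nonempty → Lnk (A i) (A j)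

/-- the filled set: over a point of the arc `i` the coordinate `i` is free in `[0,1]` -/
def Fil (N k : ℕ) (C : Set E) (fn : ℕ → E → ℝ) : Set (E × (Fin N → ℝ)) :=
  {x | x.1 ∈ C ∧ ∀ i : Fin N, (0 ≤ x.2 i ∧ x.2 i ≤ 1) ∧ ((i : ℕ) < k → fn i x.1 < 0 → x.2 i = 0) ∧
    ((i : ℕ) < k → 0 < fn i x.1 → x.2 i = 1) ∧ (k ≤ i → x.2 i = 0)}

/-- the statement of the PEEL theorem -/
def PeelP (E : Type*) [NormedAddCommGroup E] [NormedSpace ℝ E] : Prop :=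
  ∀ (N k : ℕ) (A : ℕ → ArcD) (col : ℕ → Bool) (C B : Set E) (fn : ℕ → E → ℝ) (γ : ℝ × ℝ → E)
    (ws : ℝ), k ≤ N → 0 < ws → Pat k A col C B fn γ →
    ∃ Φ : ConHomeo Rct (Fil N k C fn),
      (∀ x ∈ Rct, ∀ i : Fin N, (Φ.toFun x).2 i = md ws A k i x.1 x.2) ∧
      (∀ x ∈ bR, (Φ.toFun x).1 = γ x)

end P073.H31
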