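import Vale.Agent.P073.H31.ShStep

/-!
# P073, H31, SHARP2: change of the boundary chart, of the inside of the arcs and of their order
-/

set_option linter.unusedSectionVars false

open Set Metric Topology Filter

namespace P073.H31

open P073.H339 P073.GB200 P073.H341

variable {E : Type*} [NormedAddCommGroup E] [NormedSpace ℝ E]
variable {N k : ℕ} {A A' : ℕ → ArcD} {col : ℕ → Bool} {C B : Set E} {fn : ℕ → E → ℝ}
  {γ : ℝ × ℝ → E}

/-- the inside of an arc on the boundary of the rectangle -/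
def InT (A : ArcD) : Set (ℝ × ℝ) := {x | x.2 = 1 ∧ A.p + A.w < x.1 ∧ x.1 < A.q - A.w'}

/-- the outside -/
def OutT (A : ArcD) : Set (ℝ × ℝ) := {x | x ∈ bR ∧ (x.2 = 1 → x.1 < A.p ∨ A.q < x.1)}

/-- a change of the chart of the boundary: the new arc `i` is the old arc `σ i`, with inside and
outside exchanged if `f i` -/
structure ReC (k : ℕ) (A A' : ℕ → ArcD) (σ : Equiv.Perm ℕ) (f : ℕ → Bool)
    (ρ : ConHomeo bR bR) : Prop where
  σk : ∀ i, σ i < k ↔ i < k
  pos : Pos k A'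
  L : ∀ i < k, MapsTo ρ.toFun (IL (A' i)) (if f i then IR (A (σ i)) else IL (A (σ i)))
  R : ∀ i < k, MapsTo ρ.toFun (IR (A' i)) (if f i then IL (A (σ i)) else IR (A (σ i)))
  I : ∀ i < k, MapsTo ρ.toFun (InT (A' i)) (if f i then OutT (A (σ i)) else InT (A (σ i)))
  O : ∀ i < k, MapsTo ρ.toFun (OutT (A' i)) (if f i then InT (A (σ i)) else OutT (A (σ i)))
  link : ∀ i < k, ∀ j < k, i ≠ j → Lnk (A (σ i)) (A (σ j)) → Lnk (A' i) (A' j)

/-- the four parts of the boundary -/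
theorem part4 {A : ArcD} (_ : A.Good) {x : ℝ × ℝ} (hx : x ∈ bR) :
    x ∈ IL A ∨ x ∈ IR A ∨ x ∈ InT A ∨ x ∈ OutT A := by
  by_cases h2 : x.2 = 1
  · rcases lt_or_ge x.1 A.p with h | h
    · exact Or.inr (Or.inr (Or.inr ⟨hx, fun _ => Or.inl h⟩))
    rcases le_or_gt x.1 (A.p + A.w) with h3 | h3
    · exact Or.inl ⟨⟨h, h3⟩, h2⟩
    rcases lt_or_ge x.1 (A.q - A.w') with h4 | h4
    · exact Or.inr (Or.inr (Or.inl ⟨h2, h3, h4⟩))
    rcases le_or_gt x.1 A.q with h5 | h5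
    · exact Or.inr (Or.inl ⟨⟨h4, h5⟩, h2⟩)
    · exact Or.inr (Or.inr (Or.inr ⟨hx, fun _ => Or.inr h5⟩))
  · exact Or.inr (Or.inr (Or.inr ⟨hx, fun h => absurd h h2⟩))

theorem not_LR {A : ArcD} (g : A.Good) {x : ℝ × ℝ} (h1 : x ∈ IL A) (h2 : x ∈ IR A) : False := by
  have e1 : x.1 ≤ A.p + A.w := h1.1.2
  have e2 : A.q - A.w' ≤ x.1 := h2.1.1
  have := g.pqs
  linarith

theorem not_LI {A : ArcD} {x : ℝ × ℝ} (h1 : x ∈ IL A) (h2 : x ∈ InT A) : False :=
  absurd h1.1.2 (not_le.2 h2.2.1)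

theorem not_RI {A : ArcD} {x : ℝ × ℝ} (h1 : x ∈ IR A) (h2 : x ∈ InT A) : False :=
  absurd h1.1.1 (not_le.2 h2.2.2)

theorem not_LO {A : ArcD} (g : A.Good) {x : ℝ × ℝ} (h1 : x ∈ IL A) (h2 : x ∈ OutT A) : False := by
  have e1 : A.p ≤ x.1 := h1.1.1
  have e2 : x.1 ≤ A.p + A.w := h1.1.2
  have := g.pqs
  have := g.w0'
  rcases h2.2 h1.2 with h | h <;> linarith

theorem not_RO {A : ArcD} (g : A.Good) {x : ℝ × ℝ} (h1 : x ∈ IR A) (h2 : x ∈ OutT A) : False := by
  have e1 : A.q - A.w' ≤ x.1 := h1.1.1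
  have e2 : x.1 ≤ A.q := h1.1.2
  have := g.pqs
  have := g.w0
  rcases h2.2 h1.2 with h | h <;> linarith

theorem not_IO {A : ArcD} (g : A.Good) {x : ℝ × ℝ} (h1 : x ∈ InT A) (h2 : x ∈ OutT A) : False := by
  have e1 := h1.2.1
  have e2 := h1.2.2
  have := g.w0
  have := g.w0'
  rcases h2.2 h1.1 with h | h <;> linarith

theorem IL_bR {A : ArcD} (g : A.Good) {x : ℝ × ℝ} (h : x ∈ IL A) : x ∈ bR := by
  have e1 : A.p ≤ x.1 := h.1.1
  have e2 : x.1 ≤ A.p + A.w := h.1.2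
  have h2 : x.2 = 1 := h.2
  have := g.pqs; have := g.p0; have := g.q1; have := g.w0'
  have hx : x = (x.1, 1) := Prod.ext rfl h2
  rw [hx]; exact top_bR (by linarith) (by linarith)

theorem IR_bR {A : ArcD} (g : A.Good) {x : ℝ × ℝ} (h : x ∈ IR A) : x ∈ bR := by
  have e1 : A.q - A.w' ≤ x.1 := h.1.1
  have e2 : x.1 ≤ A.q := h.1.2
  have h2 : x.2 = 1 := h.2
  have := g.pqs; have := g.p0; have := g.q1; have := g.w0
  have hx : x = (x.1, 1) := Prod.ext rfl h2
  rw [hx]; exact top_bR (by linarith) (by linarith)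

namespace ReC

variable {σ : Equiv.Perm ℕ} {f : ℕ → Bool} {ρ : ConHomeo bR bR} (H : ReC k A A' σ f ρ)
include H

theorem σs {i : ℕ} (hi : i < k) : σ i < k := (H.σk i).2 hi

theorem σs' {i : ℕ} (hi : i < k) : σ.symm i < k := by
  rw [← H.σk, Equiv.apply_symm_apply]; exact hi

/-- points over the left interval of an old arc -/
theorem L' (hA : Pos k A) {i : ℕ} (hi : i < k) {x : ℝ × ℝ} (hx : x ∈ bR)
    (h : ρ.toFun x ∈ IL (A (σ i))) : if f i then x ∈ IR (A' i) else x ∈ IL (A' i) := by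
  have g := H.pos.good i hi
  have g' := hA.good _ (H.σs hi)
  have hL := H.L i hi
  have hR := H.R i hi
  have hI := H.I i hi
  have hO := H.O i hi
  cases hf : f i
  · rw [hf] at hL hR hI hO
    simp only [Bool.false_eq_true, if_false] at hL hR hI hO ⊢
    rcases part4 g hx with c | c | c | c
    · exact c
    · exact absurd (hR c) fun h' => not_LR g' h h'
    · exact absurd (hI c) fun h' => not_LI h h'
    · exact absurd (hO c) fun h' => not_LO g' h h'
  · rw [hf] at hL hR hI hO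
    simp only [if_true] at hL hR hI hO ⊢
    rcases part4 g hx with c | c | c | c
    · exact absurd (hL c) fun h' => not_LR g' h h'
    · exact c
    · exact absurd (hI c) fun h' => not_LO g' h h'
    · exact absurd (hO c) fun h' => not_LI h h'

theorem R' (hA : Pos k A) {i : ℕ} (hi : i < k) {x : ℝ × ℝ} (hx : x ∈ bR)
    (h : ρ.toFun x ∈ IR (A (σ i))) : if f i then x ∈ IL (A' i) else x ∈ IR (A' i) := by
  have g := H.pos.good i hi
  have g' := hA.good _ (H.σs hi)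
  have hL := H.L i hi
  have hR := H.R i hi
  have hI := H.I i hi
  have hO := H.O i hi
  cases hf : f i
  · rw [hf] at hL hR hI hO
    simp only [Bool.false_eq_true, if_false] at hL hR hI hO ⊢
    rcases part4 g hx with c | c | c | c
    · exact absurd (hL c) fun h' => not_LR g' h' h
    · exact c
    · exact absurd (hI c) fun h' => not_RI h h'
    · exact absurd (hO c) fun h' => not_RO g' h h'
  · rw [hf] at hL hR hI hO
    simp only [if_true] at hL hR hI hO ⊢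
    rcases part4 g hx with c | c | c | c
    · exact c
    · exact absurd (hR c) fun h' => not_LR g' h' h
    · exact absurd (hI c) fun h' => not_RO g' h h'
    · exact absurd (hO c) fun h' => not_RI h h'

end ReC

/-- the functions of the arcs in the new chart -/
def fnR (σ : Equiv.Perm ℕ) (f : ℕ → Bool) (fn : ℕ → E → ℝ) (i : ℕ) (x : E) : ℝ :=
  if f i then - fn (σ i) x else fn (σ i) x

theorem fnR_zero {σ : Equiv.Perm ℕ} {f : ℕ → Bool} {i : ℕ} {x : E} :
    fnR σ f fn i x = 0 ↔ fn (σ i) x = 0 := by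
  unfold fnR
  split_ifs
  · exact neg_eq_zero
  · exact Iff.rfl

theorem Sa_fnR {σ : Equiv.Perm ℕ} {f : ℕ → Bool} {i : ℕ} : Sa C (fnR σ f fn) i = Sa C fn (σ i) := by
  ext x
  show (x ∈ C ∧ fnR σ f fn i x = 0) ↔ (x ∈ C ∧ fn (σ i) x = 0)
  rw [fnR_zero]

/-- **[ROT] a pattern in another chart of the boundary, with another order of the arcs** -/
theorem Pat.rechart (hP : Pat k A col C B fn γ) {σ : Equiv.Perm ℕ} {f : ℕ → Bool}
    {ρ : ConHomeo bR bR} (H : ReC k A A' σ f ρ) :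
    Pat k A' (col ∘ σ) C B (fnR σ f fn) (γ ∘ ρ.toFun) := by
  have gL : ∀ i < k, ∀ x ∈ IL (A' i), ∀ y ∈ IL (A' i), γ (ρ.toFun x) = γ (ρ.toFun y) := by
    intro i hi x hx y hy
    have h1 := H.L i hi hx
    have h2 := H.L i hi hy
    split_ifs at h1 h2
    · rw [hP.γR _ (H.σs hi) _ h1, hP.γR _ (H.σs hi) _ h2]
    · rw [hP.γL _ (H.σs hi) _ h1, hP.γL _ (H.σs hi) _ h2]
  have gR : ∀ i < k, ∀ x ∈ IR (A' i), ∀ y ∈ IR (A' i), γ (ρ.toFun x) = γ (ρ.toFun y) := by
    intro i hi x hx y hy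
    have h1 := H.R i hi hx
    have h2 := H.R i hi hy
    split_ifs at h1 h2
    · rw [hP.γL _ (H.σs hi) _ h1, hP.γL _ (H.σs hi) _ h2]
    · rw [hP.γR _ (H.σs hi) _ h1, hP.γR _ (H.σs hi) _ h2]
  have mp : ∀ i < k, ((A' i).p, 1) ∈ IL (A' i) := fun i hi =>
    ⟨⟨le_rfl, by show (A' i).p ≤ _; have := (H.pos.good i hi).w0; linarith⟩, rfl⟩
  have mq : ∀ i < k, ((A' i).q, 1) ∈ IR (A' i) := fun i hi =>
    ⟨⟨by show _ ≤ (A' i).q; have := (H.pos.good i hi).w0'; linarith, le_rfl⟩, rfl⟩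
  have zL : ∀ i < k, ∀ x ∈ IL (A i), fn i (γ x) = 0 := fun i hi x hx => by
    rw [hP.γL i hi x hx]; exact hP.zp i hi
  have zR : ∀ i < k, ∀ x ∈ IR (A i), fn i (γ x) = 0 := fun i hi x hx => by
    rw [hP.γR i hi x hx]; exact hP.zq i hi
  constructor
  · exact H.pos
  · exact hP.hC
  · intro i hi
    have := hP.hfn _ (H.σs hi)
    unfold fnR
    split_ifs
    · exact this.neg
    · exact this
  · intro i hi
    rw [Sa_fnR]; exact hP.hS _ (H.σs hi)
  · exact hP.γc.comp ρ.cont ρ.mapsTo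
  · exact hP.γk.comp ρ.conical ρ.mapsTo ρ.cont
  · rw [image_comp, ρ.image_eq, hP.γi]
  · intro x hx y hy hxy
    rcases hP.γf _ (ρ.mapsTo hx) _ (ρ.mapsTo hy) hxy with h | ⟨i, hi, h⟩
    · exact Or.inl (ρ.injOn hx hy h)
    · right
      set j := σ.symm i with hj
      have hjk : j < k := H.σs' hi
      have hij : i = σ j := (Equiv.apply_symm_apply _ _).symm
      rw [hij] at h
      refine ⟨j, hjk, ?_⟩
      rcases h with ⟨h1, h2⟩ | ⟨h1, h2⟩
      · have k1 := H.L' hP.pos hjk hx h1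
        have k2 := H.L' hP.pos hjk hy h2
        split_ifs at k1 k2
        · exact Or.inr ⟨k1, k2⟩
        · exact Or.inl ⟨k1, k2⟩
      · have k1 := H.R' hP.pos hjk hx h1
        have k2 := H.R' hP.pos hjk hy h2
        split_ifs at k1 k2
        · exact Or.inl ⟨k1, k2⟩
        · exact Or.inr ⟨k1, k2⟩
  · exact fun i hi x hx => gL i hi x hx _ (mp i hi)
  · exact fun i hi x hx => gR i hi x hx _ (mq i hi)
  · intro i hi
    rw [fnR_zero]
    have h1 := H.L i hi (mp i hi)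
    split_ifs at h1
    · exact zR _ (H.σs hi) _ h1
    · exact zL _ (H.σs hi) _ h1
  · intro i hi
    rw [fnR_zero]
    have h1 := H.R i hi (mq i hi)
    split_ifs at h1
    · exact zL _ (H.σs hi) _ h1
    · exact zR _ (H.σs hi) _ h1
  · intro i hi a h1 h2
    have h3 := H.I i hi (show ((a, 1) : ℝ × ℝ) ∈ InT (A' i) from ⟨rfl, h1, h2⟩)
    unfold fnR
    split_ifs at h3 ⊢
    · exact neg_pos.2 (hP.neg_out _ (H.σs hi) _ h3.1 h3.2)
    · have h4 := hP.pos_in _ (H.σs hi) _ h3.2.1 h3.2.2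
      have h5 : (((ρ.toFun (a, 1)).1, 1) : ℝ × ℝ) = ρ.toFun (a, 1) := Prod.ext rfl h3.1.symm
      rw [h5] at h4
      exact h4
  · intro i hi x hx h1
    have h3 := H.O i hi (show x ∈ OutT (A' i) from ⟨hx, h1⟩)
    unfold fnR
    split_ifs at h3 ⊢
    · have h4 := hP.pos_in _ (H.σs hi) _ h3.2.1 h3.2.2
      have h5 : (((ρ.toFun x).1, 1) : ℝ × ℝ) = ρ.toFun x := Prod.ext rfl h3.1.symm
      rw [h5] at h4
      exact neg_neg_of_pos h4
    · exact hP.neg_out _ (H.σs hi) _ h3.1 h3.2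
  · intro i hi j hj hij
    rw [Sa_fnR, Sa_fnR]
    exact hP.sub _ (H.σs hi) _ (H.σs hj) fun h => hij (σ.injective h)
  · intro i hi j hj hij hc
    rw [Sa_fnR, Sa_fnR]
    exact hP.dis _ (H.σs hi) _ (H.σs hj) (fun h => hij (σ.injective h)) hc
  · intro i hi j hj hij hne
    rw [Sa_fnR, Sa_fnR] at hne
    exact H.link i hi j hj hij
      (hP.link _ (H.σs hi) _ (H.σs hj) (fun h => hij (σ.injective h)) hne)

/-! ### The filled sets -/

/-- band coordinates of the old pattern from those of the new one -/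
noncomputable def reZ {G : Type*} (k : ℕ) (σ : Equiv.Perm ℕ) (f : ℕ → Bool) (z : ℕ → G → ℝ)
    (j : ℕ) (x : G) : ℝ :=
  if j < k then (if f (σ.symm j) then 1 - z (σ.symm j) x else z (σ.symm j) x) else 0

/-- coordinate change of the filled sets, new to old -/
noncomputable def filB (N k : ℕ) (σ : Equiv.Perm ℕ) (f : ℕ → Bool) (v : E × (Fin N → ℝ)) :
    E × (Fin N → ℝ) :=
  (v.1, fun j => if h : (j : ℕ) < k ∧ σ.symm j < N then
    (if f (σ.symm j) then 1 - v.2 ⟨σ.symm j, h.2⟩ else v.2 ⟨σ.symm j, h.2⟩) else 0)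

/-- old to new -/
noncomputable def filF (N k : ℕ) (σ : Equiv.Perm ℕ) (f : ℕ → Bool) (v : E × (Fin N → ℝ)) :
    E × (Fin N → ℝ) :=
  (v.1, fun i => if h : (i : ℕ) < k ∧ σ i < N then
    (if f i then 1 - v.2 ⟨σ i, h.2⟩ else v.2 ⟨σ i, h.2⟩) else 0)

theorem plc_coord (j : Fin N) : PLc (fun v : E × (Fin N → ℝ) => v.2 j) :=
  ⟨(continuous_apply j).comp continuous_snd,
    (PLc.id.snd (F := E) (G := Fin N → ℝ)).k.linear_comp (LinearMap.proj (R := ℝ)
      (φ := fun _ : Fin N => ℝ) j)⟩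

theorem plc_filB (N k : ℕ) (σ : Equiv.Perm ℕ) (f : ℕ → Bool) : PLc (filB (E := E) N k σ f) := by
  refine PLc.id.fst.prodMk (PLc.pi fun j => ?_)
  by_cases h : (j : ℕ) < k ∧ σ.symm j < N
  · simp only [h, and_self, dite_true]
    by_cases hf : f (σ.symm j) = true
    · simp only [hf, if_true]
      exact (PLc.const 1).sub (plc_coord _)
    · simp only [hf]
      exact plc_coord _
  · simp only [h, dite_false]
    exact PLc.const 0

theorem plc_filF (N k : ℕ) (σ : Equiv.Perm ℕ) (f : ℕ → Bool) : PLc (filF (E := E) N k σ f) := by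
  refine PLc.id.fst.prodMk (PLc.pi fun j => ?_)
  by_cases h : (j : ℕ) < k ∧ σ j < N
  · simp only [h, and_self, dite_true]
    by_cases hf : f j = true
    · simp only [hf, if_true]
      exact (PLc.const 1).sub (plc_coord _)
    · simp only [hf]
      exact plc_coord _
  · simp only [h, dite_false]
    exact PLc.const 0

/-- the filled sets of a pattern in two charts -/
theorem exists_filR (hkN : k ≤ N) {σ : Equiv.Perm ℕ} (hσ : ∀ i, σ i < k ↔ i < k) (f : ℕ → Bool)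
    (hk : ConicalSet (Fil N k C (fnR σ f fn))) :
    ∃ T : ConHomeo (Fil N k C (fnR σ f fn)) (Fil N k C fn), ∀ v, T.toFun v = filB N k σ f v := by
  have s1 : ∀ i < k, σ i < k := fun i hi => (hσ i).2 hi
  have s2 : ∀ i < k, σ.symm i < k := fun i hi => by
    rw [← hσ, Equiv.apply_symm_apply]; exact hi
  refine ⟨mkCon (f := filB N k σ f) (g := filF N k σ f) (plc_filB N k σ f) (plc_filF N k σ f) hk
    ?_ ?_ ?_ ?_, fun v => rfl⟩
  · intro v hv
    refine ⟨hv.1, fun j => ?_⟩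
    show _ ∧ ((j : ℕ) < k → fn j v.1 < 0 → _) ∧ ((j : ℕ) < k → 0 < fn j v.1 → _) ∧ _
    by_cases hj : (j : ℕ) < k
    · have hd : (j : ℕ) < k ∧ σ.symm j < N := ⟨hj, (s2 _ hj).trans_le hkN⟩
      have e : (filB N k σ f v).2 j = if f (σ.symm j) then 1 - v.2 ⟨σ.symm j, hd.2⟩
          else v.2 ⟨σ.symm j, hd.2⟩ := by
        show (if h : (j : ℕ) < k ∧ σ.symm j < N then _ else _) = _
        rw [dif_pos hd]
      obtain ⟨c1, c2, c3, c4⟩ := hv.2 ⟨σ.symm j, hd.2⟩
      simp only [fnR, Equiv.apply_symm_apply] at c2 c3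
      rw [e]
      split_ifs with hf
      · rw [if_pos hf] at c2 c3
        refine ⟨⟨by linarith [c1.2], by linarith [c1.1]⟩, fun _ h => ?_, fun _ h => ?_,
          fun h => absurd hj (not_lt.2 h)⟩
        · rw [c3 (s2 _ hj) (neg_pos.2 h)]; ring
        · rw [c2 (s2 _ hj) (neg_neg_of_pos h)]; ring
      · rw [if_neg hf] at c2 c3
        exact ⟨c1, fun _ h => c2 (s2 _ hj) h, fun _ h => c3 (s2 _ hj) h,
          fun h => absurd hj (not_lt.2 h)⟩
    · have e : (filB N k σ f v).2 j = 0 := by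
        show (if h : (j : ℕ) < k ∧ σ.symm j < N then _ else _) = _
        rw [dif_neg fun h => hj h.1]
      rw [e]
      exact ⟨⟨le_rfl, zero_le_one⟩, fun h => absurd h hj, fun h => absurd h hj, fun _ => rfl⟩
  · intro v hv
    refine ⟨hv.1, fun j => ?_⟩
    show _ ∧ ((j : ℕ) < k → fnR σ f fn j v.1 < 0 → _) ∧ ((j : ℕ) < k → 0 < fnR σ f fn j v.1 → _) ∧ _
    by_cases hj : (j : ℕ) < k
    · have hd : (j : ℕ) < k ∧ σ j < N := ⟨hj, (s1 _ hj).trans_le hkN⟩
      have e : (filF N k σ f v).2 j = if f j then 1 - v.2 ⟨σ j, hd.2⟩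
          else v.2 ⟨σ j, hd.2⟩ := by
        show (if h : (j : ℕ) < k ∧ σ j < N then _ else _) = _
        rw [dif_pos hd]
      obtain ⟨c1, c2, c3, c4⟩ := hv.2 ⟨σ j, hd.2⟩
      rw [e]
      unfold fnR
      split_ifs with hf
      · refine ⟨⟨by linarith [c1.2], by linarith [c1.1]⟩, fun _ h => ?_, fun _ h => ?_,
          fun h => absurd hj (not_lt.2 h)⟩
        · rw [c3 (s1 _ hj) (by linarith : 0 < fn (σ j) v.1)]; ring
        · rw [c2 (s1 _ hj) (by linarith : fn (σ j) v.1 < 0)]; ring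
      · exact ⟨c1, fun _ h => c2 (s1 _ hj) h, fun _ h => c3 (s1 _ hj) h,
          fun h => absurd hj (not_lt.2 h)⟩
    · have e : (filF N k σ f v).2 j = 0 := by
        show (if h : (j : ℕ) < k ∧ σ j < N then _ else _) = _
        rw [dif_neg fun h => hj h.1]
      rw [e]
      exact ⟨⟨le_rfl, zero_le_one⟩, fun h => absurd h hj, fun h => absurd h hj, fun _ => rfl⟩
  · intro v hv
    refine Prod.ext rfl (funext fun i => ?_)
    show (if h : (i : ℕ) < k ∧ σ i < N then (if f i then 1 - (filB N k σ f v).2 ⟨σ i, h.2⟩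
      else (filB N k σ f v).2 ⟨σ i, h.2⟩) else 0) = v.2 i
    by_cases hi : (i : ℕ) < k
    · have hd : (i : ℕ) < k ∧ σ i < N := ⟨hi, (s1 _ hi).trans_le hkN⟩
      rw [dif_pos hd]
      have hd2 : σ i < k ∧ σ.symm (σ i) < N := by
        rw [Equiv.symm_apply_apply]; exact ⟨s1 _ hi, i.2⟩
      have e : (filB N k σ f v).2 ⟨σ i, hd.2⟩ = if f i then 1 - v.2 i else v.2 i := by
        show (if h : σ i < k ∧ σ.symm (σ i) < N then (if f (σ.symm (σ i)) then
          1 - v.2 ⟨σ.symm (σ i), h.2⟩ else v.2 ⟨σ.symm (σ i), h.2⟩) else 0) = _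
        rw [dif_pos hd2]
        have e1 : (⟨σ.symm (σ i), hd2.2⟩ : Fin N) = i := Fin.ext (Equiv.symm_apply_apply _ _)
        rw [e1, Equiv.symm_apply_apply]
      rw [e]
      split_ifs <;> ring
    · rw [dif_neg fun h => hi h.1]
      exact ((hv.2 i).2.2.2 (not_lt.1 hi)).symm
  · intro v hv
    refine Prod.ext rfl (funext fun j => ?_)
    show (if h : (j : ℕ) < k ∧ σ.symm j < N then (if f (σ.symm j) then
      1 - (filF N k σ f v).2 ⟨σ.symm j, h.2⟩ else (filF N k σ f v).2 ⟨σ.symm j, h.2⟩) else 0) =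
        v.2 j
    by_cases hj : (j : ℕ) < k
    · have hd : (j : ℕ) < k ∧ σ.symm j < N := ⟨hj, (s2 _ hj).trans_le hkN⟩
      rw [dif_pos hd]
      have hd2 : σ.symm j < k ∧ σ (σ.symm j) < N := by
        rw [Equiv.apply_symm_apply]; exact ⟨s2 _ hj, j.2⟩
      have e : (filF N k σ f v).2 ⟨σ.symm j, hd.2⟩ = if f (σ.symm j) then 1 - v.2 j else v.2 j := by
        show (if h : σ.symm j < k ∧ σ (σ.symm j) < N then (if f (σ.symm j) then
          1 - v.2 ⟨σ (σ.symm j), h.2⟩ else v.2 ⟨σ (σ.symm j), h.2⟩) else 0) = _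
        rw [dif_pos hd2]
        have e1 : (⟨σ (σ.symm j), hd2.2⟩ : Fin N) = j := Fin.ext (Equiv.apply_symm_apply _ _)
        rw [e1]
      rw [e]
      split_ifs <;> ring
    · rw [dif_neg fun h => hj h.1]
      exact ((hv.2 j).2.2.2 (not_lt.1 hj)).symm

/-- **[ROT] transport of a thick drawing to another chart** -/
theorem exists_rechart {G : Type*} [NormedAddCommGroup G] [NormedSpace ℝ G] {M : Set G}
    (hkN : k ≤ N) {σ : Equiv.Perm ℕ} (hσ : ∀ i, σ i < k ↔ i < k) {f : ℕ → Bool}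
    (Φ : ConHomeo M (Fil N k C (fnR σ f fn))) {z : ℕ → G → ℝ}
    (hz : ∀ x ∈ M, ∀ i : Fin N, (Φ.toFun x).2 i = z i x) :
    ∃ Ψ : ConHomeo M (Fil N k C fn), (∀ x ∈ M, ∀ i : Fin N, (Ψ.toFun x).2 i = reZ k σ f z i x) ∧
      ∀ x, (Ψ.toFun x).1 = (Φ.toFun x).1 := by
  obtain ⟨T, hT⟩ := exists_filR (fn := fn) hkN hσ f Φ.conicalSet_right
  refine ⟨Φ.trans T, fun x hx j => ?_, fun x => ?_⟩
  · show (T.toFun (Φ.toFun x)).2 j = _
    rw [hT]
    show (if h : (j : ℕ) < k ∧ σ.symm j < N then (if f (σ.symm j) then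
      1 - (Φ.toFun x).2 ⟨σ.symm j, h.2⟩ else (Φ.toFun x).2 ⟨σ.symm j, h.2⟩) else 0) = _
    unfold reZ
    by_cases hj : (j : ℕ) < k
    · have hd : (j : ℕ) < k ∧ σ.symm j < N := by
        refine ⟨hj, lt_of_lt_of_le ?_ hkN⟩
        rw [← hσ, Equiv.apply_symm_apply]; exact hj
      rw [dif_pos hd, if_pos hj, hz x hx]
    · rw [dif_neg fun h => hj h.1, if_neg hj]
  · show (T.toFun (Φ.toFun x)).1 = _
    rw [hT]; rfl

end P073.H31
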