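import Vale.Agent.P073.H582.Rows3

/-!
# P073, H31: [ROWS2] of block H582 with the exact constants
-/

namespace P073.H31

open MeasureTheory Set Filter Topology Metric
open Vale.Agent.P073
open Vale.Agent.P073.St (V)
open Vale.Agent.P073.SQ (ev cube)
open Vale.Agent.P073.H73 (sqr onSeg)
open Vale.Agent.P073.H239 (tv faceI)
open Vale.Agent.P073.H582
open scoped ENNReal NNReal

variable {g : V → V} {a : V} {l : Fin 3} {σ : ℝ}

/-- **[ROWS2]** with the exact constants (the proof is that of `P073.H582.faceI_le`) -/
theorem faceI_le_fine {p : ℝ} (hp : 1 ≤ p) (hσ : 0 < σ) {B : Set V} (hB : MeasurableSet B)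
    {C e r β : ℝ} (hC : 0 ≤ C) (he : 0 ≤ e) (he1 : e ≤ 1) (hr : 0 ≤ r) (hr1 : r ≤ 1)
    (hβ : 0 ≤ β)
    (h1 : ∀ x ∈ sqr a l σ, ∀ᶠ y in 𝓝[sqr a l σ] x, ∀ j, j ≠ l → |g y j - g x j| ≤ C * ‖y - x‖)
    (h2 : ∀ x ∈ sqr a l σ, x ∉ B → ∀ᶠ y in 𝓝[sqr a l σ] x, ∀ j, j ≠ l →
      |g y j - g x j| ≤ (1 + e) * |y j - x j| + e * ‖y - x‖)
    (h3 : ∀ x ∈ sqr a l σ, ∀ᶠ y in 𝓝[sqr a l σ] x, |g y l - g x l| ≤ e * ‖y - x‖)
    (hside : ∀ i, i ≠ l → ∀ x : V, x ∈ sqr a l σ → x + (2 * σ) • ev i ∈ sqr a l σ →
      (∀ j, j ≠ i → j ≠ l → |x j - a j| = σ) →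
      (1 - r) * (2 * σ) ≤ g (x + (2 * σ) • ev i) i - g x i ∧
      tv g (x, x + (2 * σ) • ev i) Finset.univ ≤ ENNReal.ofReal ((1 + r) * (2 * σ)))
    (hvol : volume {x : V | x ∈ cube a σ ∧ Function.update x l (a l) ∈ B} ≤
      ENNReal.ofReal (β * σ ^ 3)) :
    faceI p g a l σ ≤ ENNReal.ofReal ((16 * (4 ^ (p - 1) * (4 * e + 5 * r) + 2 * e) +
      2 * (4 ^ (p - 1) * C + (C + 1) ^ p + 2 * C ^ p) * β) * σ ^ 3) := by
  have hp0 : 0 < p := by linarith
  -- continuity
  have hgc : ContinuousOn g (sqr a l σ) := by
    intro x hx
    rw [ContinuousWithinAt, tendsto_iff_norm_sub_tendsto_zero]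
    have hlim : Tendsto (fun y => (C + e) * ‖y - x‖) (𝓝[sqr a l σ] x) (𝓝 0) := by
      have h4 : Tendsto (fun y : V => (C + e) * ‖y - x‖) (𝓝 x) (𝓝 ((C + e) * ‖x - x‖)) := by
        apply Continuous.tendsto
        fun_prop
      rw [sub_self, norm_zero, mul_zero] at h4
      exact h4.mono_left nhdsWithin_le_nhds
    refine squeeze_zero' (Eventually.of_forall fun _ => norm_nonneg _) ?_ hlim
    filter_upwards [h1 x hx, h3 x hx] with y hy1 hy3
    refine (pi_norm_le_iff_of_nonneg (by positivity)).2 fun k => ?_
    rw [Real.norm_eq_abs]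
    have hn := norm_nonneg (y - x)
    by_cases hk : k = l
    · subst hk
      refine hy3.trans ?_
      nlinarith
    · refine (hy1 k hk).trans ?_
      nlinarith
  set gc : V → V := fun x => g (toSq a l σ x) with hgc'
  have hgcc : Continuous gc := hgc.comp_continuous (continuous_toSq a l σ) fun x => toSq_mem hσ.le x
  -- one direction
  have key : ∀ i, i ≠ l → ∫⁻ x in cube a σ,
      ENNReal.ofReal (‖lineDeriv ℝ g (Function.update x l (a l)) (ev i) - ev i‖ ^ p) ≤
        ENNReal.ofReal ((4 ^ (p - 1) * (4 * e + 5 * r) + 2 * e) * (2 * σ) ^ 3) +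
          ENNReal.ofReal (4 ^ (p - 1) * C + (C + 1) ^ p + 2 * C ^ p) *
            ENNReal.ofReal (β * σ ^ 3) := by
    intro i hi
    obtain ⟨j, hji, hjl, hk3⟩ := exists_third hi
    set c₁ : ℝ := 4 ^ (p - 1) * (4 * e + 5 * r) + 2 * e with hc₁
    have hc₁0 : 0 ≤ c₁ := by positivity
    set K : ℝ := 4 ^ (p - 1) * C + (C + 1) ^ p + 2 * C ^ p with hK
    have hK0 : 0 ≤ K := by positivity
    set B' : Set V := {x : V | Function.update x l (a l) ∈ B} with hB'
    have hup : Measurable fun x : V => Function.update x l (a l) :=
      (continuous_id.update l continuous_const).measurable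
    have hB'm : MeasurableSet B' := hup hB
    have hOm : MeasurableSet (ocube a σ) := measurableSet_ocube a σ
    set G : V → ℝ≥0∞ := (ocube a σ).indicator fun x =>
      ENNReal.ofReal (‖lineDeriv ℝ gc (Function.update x l (a l)) (ev i) - ev i‖ ^ p) with hG
    set R : V → ℝ≥0∞ := (ocube a σ).indicator fun x =>
      ENNReal.ofReal c₁ + ENNReal.ofReal K * B'.indicator (1 : V → ℝ≥0∞) x with hR
    have hGm : Measurable G := by
      refine Measurable.indicator ?_ hOm
      have h4 : Measurable fun x : V => lineDeriv ℝ gc (Function.update x l (a l)) (ev i) :=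
        (measurable_lineDeriv (𝕜 := ℝ) (v := (ev i : V)) hgcc).comp hup
      exact (((h4.sub measurable_const).norm).pow_const p).ennreal_ofReal
    have hone : Measurable (1 : V → ℝ≥0∞) := measurable_one
    have hone1 : Measurable (1 : ℝ → ℝ≥0∞) := measurable_one
    have hRm : Measurable R := by
      refine Measurable.indicator ?_ hOm
      exact measurable_const.add (measurable_const.mul (hone.indicator hB'm))
    have hrows : ∀ x : V, ∫⁻ s : ℝ, G (Function.update x i s) ≤
        ∫⁻ s : ℝ, R (Function.update x i s) := by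
      intro x
      by_cases hx : ∀ k, k ≠ i → |x k - a k| < σ
      swap
      · have h0 : ∀ s, G (Function.update x i s) = 0 := by
          intro s
          rw [hG, indicator_of_notMem]
          intro hmem
          apply hx
          intro k hk
          have := hmem k
          rwa [Function.update_of_ne hk] at this
        simp only [h0, lintegral_zero]
        exact zero_le
      have hx' : ∀ k, k ≠ i → k ≠ l → |x k - a k| ≤ σ := fun k hk _ => (hx k hk).le
      set α : ℝ := a i - σ with hα
      set α' : ℝ := a i + σ with hα'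
      have hαα : α < α' := by linarith
      have hlen : α' - α = 2 * σ := by rw [hα, hα']; ring
      have hmem : ∀ s, Function.update x i s ∈ ocube a σ ↔ s ∈ Ioo α α' := by
        intro s
        constructor
        · intro h4
          have h5 := abs_lt.1 (h4 i)
          rw [Function.update_self] at h5
          exact ⟨by linarith, by linarith⟩
        · intro h4 k
          by_cases hk : k = i
          · subst hk
            rw [Function.update_self, abs_lt]
            constructor <;> linarith [h4.1, h4.2]
          · rw [Function.update_of_ne hk]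
            exact hx k hk
      set φ : Fin 3 → ℝ → ℝ := fun k s => g (rp a l i x s) k with hφ
      set b : Set ℝ := (rp a l i x) ⁻¹' B with hb
      have hbm : MeasurableSet b := (continuous_rp a l i x).measurable hB
      -- local bounds
      have hloc1 : ∀ k, k ≠ l → ∀ s ∈ Icc α α', ∀ᶠ t in 𝓝[Icc α α'] s,
          |φ k t - φ k s| ≤ C * |t - s| := by
        intro k hk s hs
        have h4 := local_row hi hσ.le hx' hs (h1 _ (rp_mem hi hσ.le hx' hs))
        filter_upwards [h4] with t ht
        have := ht k hk
        rwa [norm_rp_sub] at this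
      have hloc3 : ∀ s ∈ Icc α α', ∀ᶠ t in 𝓝[Icc α α'] s, |φ l t - φ l s| ≤ e * |t - s| := by
        intro s hs
        have h4 := local_row hi hσ.le hx' hs (h3 _ (rp_mem hi hσ.le hx' hs))
        filter_upwards [h4] with t ht
        rwa [norm_rp_sub] at ht
      have hloc2 : ∀ s ∈ Icc α α', s ∉ b → ∀ᶠ t in 𝓝[Icc α α'] s,
          |φ i t - φ i s| ≤ (1 + 2 * e) * |t - s| ∧ |φ j t - φ j s| ≤ e * |t - s| := by
        intro s hs hsb
        have h4 := local_row hi hσ.le hx' hs (h2 _ (rp_mem hi hσ.le hx' hs) hsb)
        filter_upwards [h4] with t ht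
        have h5 := ht i hi
        have h6 := ht j hjl
        rw [norm_rp_sub] at h5 h6
        have e1 : rp a l i x t i - rp a l i x s i = t - s := by simp [rp]
        have e2 : rp a l i x t j - rp a l i x s j = 0 := by simp [rp, hji]
        rw [e1] at h5
        rw [e2, abs_zero, mul_zero, zero_add] at h6
        exact ⟨by linarith, h6⟩
      set Cn : ℝ≥0 := ⟨C, hC⟩ with hCn
      have hLip : ∀ k, k ≠ l → LipschitzOnWith Cn (φ k) (Icc α α') := fun k hk =>
        lipschitzOn_of_local (hloc1 k hk)
      have hLipl : LipschitzOnWith ⟨e, he⟩ (φ l) (Icc α α') := lipschitzOn_of_local hloc3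
      have hdC : ∀ k, k ≠ l → ∀ s ∈ Ioo α α', |deriv (φ k) s| ≤ C := fun k hk s hs =>
        abs_deriv_le_of_local hC hs (hloc1 k hk s (Ioo_subset_Icc_self hs))
      have hdl : ∀ s ∈ Ioo α α', |deriv (φ l) s| ≤ e := fun s hs =>
        abs_deriv_le_of_local he hs (hloc3 s (Ioo_subset_Icc_self hs))
      have hdi : ∀ s ∈ Ioo α α', s ∉ b → |deriv (φ i) s| ≤ 1 + 2 * e := fun s hs hsb =>
        abs_deriv_le_of_local (by positivity) hs
          ((hloc2 s (Ioo_subset_Icc_self hs) hsb).mono fun t ht => ht.1)
      have hdj : ∀ s ∈ Ioo α α', s ∉ b → |deriv (φ j) s| ≤ e := fun s hs hsb =>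
        abs_deriv_le_of_local he hs
          ((hloc2 s (Ioo_subset_Icc_self hs) hsb).mono fun t ht => ht.2)
      -- net displacement
      have hnet : (1 - 5 * r) * (α' - α) ≤ φ i α' - φ i α := by
        have h4 := row_net hr hr1 hσ hside hi (x := rp a l i x (a i))
          (rp_mem hi hσ.le hx' ⟨by linarith, by linarith⟩)
        rw [hlen]
        have e1 : ∀ s, Function.update (rp a l i x (a i)) i s = rp a l i x s := fun s => by
          simp [rp]
        rw [e1, e1] at h4
        exact h4
      -- almost everywhere differentiable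
      have hae : ∀ᵐ s : ℝ, ∀ k, s ∈ Ioo α α' → DifferentiableAt ℝ (φ k) s := by
        rw [ae_all_iff]
        intro k
        have h4 : ∃ D : ℝ≥0, LipschitzOnWith D (φ k) (Icc α α') := by
          by_cases hk : k = l
          · subst hk; exact ⟨_, hLipl⟩
          · exact ⟨_, hLip k hk⟩
        obtain ⟨D, hD⟩ := h4
        have h5 : AbsolutelyContinuousOnInterval (φ k) α α' :=
          LipschitzOnWith.absolutelyContinuousOnInterval (K := D) (by rwa [uIcc_of_le hαα.le])
        filter_upwards [h5.ae_differentiableAt] with s hs hsI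
        exact hs (by rw [uIcc_of_le hαα.le]; exact Ioo_subset_Icc_self hsI)
      -- the left hand side
      have hGrow : ∀ᵐ s : ℝ, G (Function.update x i s) ≤ (Ioo α α').indicator (fun s =>
          ENNReal.ofReal (|deriv (φ i) s - 1| ^ p) + (ENNReal.ofReal (|deriv (φ j) s| ^ p) +
            ENNReal.ofReal (|deriv (φ l) s| ^ p))) s := by
        filter_upwards [hae] with s hs
        by_cases hsI : s ∈ Ioo α α'
        swap
        · rw [hG, indicator_of_notMem (fun h => hsI ((hmem s).1 h))]
          exact zero_le
        rw [hG, indicator_of_mem ((hmem s).2 hsI), indicator_of_mem hsI, rp_eq hi]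
        -- replace `gc` by `g`
        have e1 : lineDeriv ℝ gc (rp a l i x s) (ev i) = lineDeriv ℝ g (rp a l i x s) (ev i) := by
          unfold lineDeriv
          refine Filter.EventuallyEq.deriv_eq ?_
          have h4 : ∀ᶠ t : ℝ in 𝓝 0, s + t ∈ Ioo α α' := by
            have h5 : Tendsto (fun t : ℝ => s + t) (𝓝 0) (𝓝 (s + 0)) :=
              (continuous_const.add continuous_id).tendsto 0
            rw [add_zero] at h5
            exact h5.eventually (Ioo_mem_nhds hsI.1 hsI.2)
          filter_upwards [h4] with t ht
          show g (toSq a l σ (rp a l i x s + t • ev i)) = g (rp a l i x s + t • ev i)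
          rw [← rp_add, toSq_of_mem (rp_mem hi hσ.le hx' (Ioo_subset_Icc_self ht))]
        rw [e1]
        have e2 : ∀ k, (fun t : ℝ => g (rp a l i x s + t • ev i) k) = fun t => φ k (s + t) := by
          intro k
          funext t
          show _ = g (rp a l i x (s + t)) k
          rw [rp_add]
        have hd0 : ∀ k, DifferentiableAt ℝ (fun t : ℝ => g (rp a l i x s + t • ev i) k) 0 := by
          intro k
          rw [e2]
          have h4 : DifferentiableAt ℝ (φ k) (s + 0) := by rw [add_zero]; exact hs k hsI
          exact h4.comp (0 : ℝ) ((differentiableAt_const s).add differentiableAt_id)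
        have e3 : ∀ k, deriv (fun t : ℝ => g (rp a l i x s + t • ev i) k) 0 = deriv (φ k) s := by
          intro k
          rw [e2, deriv_comp_const_add, add_zero]
        refine (norm_lineDeriv_sub_le hp0.le hd0).trans (le_of_eq ?_)
        simp only [e3]
        have e4 : (Finset.univ : Finset (Fin 3)) = {i, j, l} := by
          ext k
          simp only [Finset.mem_univ, Finset.mem_insert, Finset.mem_singleton, true_iff]
          exact hk3 k
        rw [e4, Finset.sum_insert (by simp [hji.symm, hi]), Finset.sum_pair hjl]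
        simp [ev, hji, hi.symm]
      have hLHS : ∫⁻ s : ℝ, G (Function.update x i s) ≤
          (∫⁻ s in Ioo α α', ENNReal.ofReal (|deriv (φ i) s - 1| ^ p)) +
            ((∫⁻ s in Ioo α α', ENNReal.ofReal (|deriv (φ j) s| ^ p)) +
              ∫⁻ s in Ioo α α', ENNReal.ofReal (|deriv (φ l) s| ^ p)) := by
        refine (lintegral_mono_ae hGrow).trans (le_of_eq ?_)
        have hm : ∀ k, Measurable (deriv (φ k)) := fun k => measurable_deriv _
        have m1 : Measurable fun s => ENNReal.ofReal (|deriv (φ i) s - 1| ^ p) :=
          ((((hm i).sub measurable_const).norm).pow_const p).ennreal_ofReal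
        have m2 : ∀ k, Measurable fun s => ENNReal.ofReal (|deriv (φ k) s| ^ p) := fun k =>
          (((hm k).norm).pow_const p).ennreal_ofReal
        rw [lintegral_indicator measurableSet_Ioo, lintegral_add_left m1, lintegral_add_left (m2 j)]
      have r1 := row_le hp hαα (C := Cn) he he1 (δ := 5 * r) (by positivity) (hLip i hi) hbm hdi
        hnet
      have r2 := row_small hp hαα hC he he1 (hdC j hjl) hbm hdj
      have r3 := row_small hp hαα he he he1 hdl (b := ∅) MeasurableSet.empty
        (fun s hs _ => hdl s hs)
      rw [inter_empty, measure_empty, mul_zero, add_zero] at r3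
      -- the right hand side
      have hRHS : ∫⁻ s : ℝ, R (Function.update x i s) =
          ENNReal.ofReal c₁ * ENNReal.ofReal (α' - α) +
            ENNReal.ofReal K * volume (Ioo α α' ∩ b) := by
        have e1 : (fun s => R (Function.update x i s)) = (Ioo α α').indicator fun s =>
            ENNReal.ofReal c₁ + ENNReal.ofReal K * b.indicator (1 : ℝ → ℝ≥0∞) s := by
          funext s
          by_cases hsI : s ∈ Ioo α α'
          · rw [hR, indicator_of_mem ((hmem s).2 hsI), indicator_of_mem hsI]
            have e2 : (Function.update x i s ∈ B') ↔ s ∈ b := by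
              show Function.update (Function.update x i s) l (a l) ∈ B ↔ rp a l i x s ∈ B
              rw [rp_eq hi]
            congr 2
            by_cases hsb : s ∈ b
            · rw [indicator_of_mem hsb, indicator_of_mem (e2.2 hsb)]; rfl
            · rw [indicator_of_notMem hsb, indicator_of_notMem (fun h => hsb (e2.1 h))]
          · rw [hR, indicator_of_notMem (fun h => hsI ((hmem s).1 h)), indicator_of_notMem hsI]
        rw [e1, lintegral_indicator measurableSet_Ioo, lintegral_add_left measurable_const,
          setLIntegral_const, Real.volume_Ioo,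
          lintegral_const_mul _ (hone1.indicator hbm)]
        congr 2
        rw [lintegral_indicator_one hbm, Measure.restrict_apply hbm, inter_comm]
      rw [hRHS]
      refine (hLHS.trans (add_le_add r1 (add_le_add r2 r3))).trans ?_
      have hd0 : 0 ≤ α' - α := by linarith
      have hCn' : (Cn : ℝ) = C := rfl
      rw [hCn']
      calc ENNReal.ofReal (4 ^ (p - 1) * (4 * e + 5 * r) * (α' - α)) +
            ENNReal.ofReal (4 ^ (p - 1) * C + (C + 1) ^ p) * volume (Ioo α α' ∩ b) +
            (ENNReal.ofReal (e * (α' - α)) + ENNReal.ofReal (C ^ p) * volume (Ioo α α' ∩ b) +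
              ENNReal.ofReal (e * (α' - α)))
          = (ENNReal.ofReal (4 ^ (p - 1) * (4 * e + 5 * r) * (α' - α)) +
              ENNReal.ofReal (e * (α' - α)) + ENNReal.ofReal (e * (α' - α))) +
            (ENNReal.ofReal (4 ^ (p - 1) * C + (C + 1) ^ p) + ENNReal.ofReal (C ^ p)) *
              volume (Ioo α α' ∩ b) := by ring
        _ ≤ ENNReal.ofReal c₁ * ENNReal.ofReal (α' - α) +
            ENNReal.ofReal K * volume (Ioo α α' ∩ b) := by
            refine add_le_add (le_of_eq ?_) (mul_le_mul_left ?_ _)
            · rw [← ENNReal.ofReal_mul hc₁0, ← ENNReal.ofReal_add (by positivity) (by positivity),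
                ← ENNReal.ofReal_add (by positivity) (by positivity)]
              congr 1
              rw [hc₁]; ring
            · rw [← ENNReal.ofReal_add (by positivity) (by positivity)]
              refine ENNReal.ofReal_le_ofReal ?_
              have : 0 ≤ C ^ p := by positivity
              rw [hK]; linarith
    have hfin := lintegral_le_of_rows hGm hRm i hrows
    -- the left hand side
    have eL : ∫⁻ x in cube a σ,
        ENNReal.ofReal (‖lineDeriv ℝ g (Function.update x l (a l)) (ev i) - ev i‖ ^ p) =
          ∫⁻ x, G x := by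
      rw [hG, lintegral_indicator hOm, ← setLIntegral_congr (ocube_ae a σ)]
      refine setLIntegral_congr_fun hOm fun x hx => ?_
      have e1 : lineDeriv ℝ gc (Function.update x l (a l)) (ev i) =
          lineDeriv ℝ g (Function.update x l (a l)) (ev i) := by
        unfold lineDeriv
        refine Filter.EventuallyEq.deriv_eq ?_
        have h4 : ∀ᶠ t : ℝ in 𝓝 0, |x i + t - a i| < σ := by
          have h5 : Tendsto (fun t : ℝ => |x i + t - a i|) (𝓝 0) (𝓝 (|x i + 0 - a i|)) := by
            apply Continuous.tendsto
            fun_prop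
          rw [add_zero] at h5
          exact h5.eventually (gt_mem_nhds (hx i))
        filter_upwards [h4] with t ht
        show g (toSq a l σ _) = g _
        rw [toSq_of_mem]
        refine ⟨by simp [ev, hi.symm], fun k => ?_⟩
        by_cases hk : k = i
        · subst hk
          simpa [ev, hi] using ht.le
        · by_cases hkl : k = l
          · subst hkl; simp [ev, hk, hσ.le]
          · have : (Function.update x l (a l) + t • (ev i : V)) k = x k := by
              simp [ev, hk, hkl]
            rw [this]
            exact (hx k).le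
      show ENNReal.ofReal (‖lineDeriv ℝ g (Function.update x l (a l)) (ev i) - ev i‖ ^ p) = _
      rw [e1]
    have eR : ∫⁻ x, R x ≤ ENNReal.ofReal c₁ * ENNReal.ofReal ((2 * σ) ^ 3) +
        ENNReal.ofReal K * ENNReal.ofReal (β * σ ^ 3) := by
      rw [hR, lintegral_indicator hOm, lintegral_add_left measurable_const, setLIntegral_const,
        volume_ocube hσ.le, lintegral_const_mul _ (hone.indicator hB'm),
        lintegral_indicator_one hB'm, Measure.restrict_apply hB'm]
      gcongr
      refine le_trans (measure_mono fun x hx => ?_) hvol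
      exact ⟨fun k => (hx.2 k).le, hx.1⟩
    rw [eL]
    refine hfin.trans (eR.trans (le_of_eq ?_))
    rw [← ENNReal.ofReal_mul hc₁0]
  -- both directions
  unfold faceI
  refine (Finset.sum_le_sum fun i hi => key i (Finset.ne_of_mem_erase hi)).trans ?_
  rw [Finset.sum_const, Finset.card_erase_of_mem (Finset.mem_univ l), Finset.card_univ,
    Fintype.card_fin, ← ENNReal.ofReal_mul (by positivity),
    ← ENNReal.ofReal_add (by positivity) (by positivity), nsmul_eq_mul]
  have e2 : ((3 - 1 : ℕ) : ℝ≥0∞) = ENNReal.ofReal 2 := by norm_num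
  rw [e2, ← ENNReal.ofReal_mul (by norm_num)]
  refine ENNReal.ofReal_le_ofReal ?_
  exact le_of_eq (by ring)

end P073.H31
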