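import Vale.Agent.P073.H579.ActP
import Vale.Agent.P073.H237.SharpE
import Vale.Agent.P073.H237.SharpDefs2
import Vale.Agent.P073.H31.Rows4

/-!
# P073, H31, SHARP-WRAP2: definitions

* `CoreOut`: metric form of the result of the core (unit square `Rct`, chart `κ` with base corner
  `(0,0)`);
* `bandJ`: the distance of the bands of one coordinate;
* `ShFace`: the sharp clause for the map of a square face;
* `NMs`: the numbers of the four sides (nearly monotone);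
* `GFPS`: good face maps, with the sharp clause on the nearly monotone faces of `Y`.
-/

open Set Metric Topology Filter MeasureTheory
open scoped ENNReal

namespace P073.FW31

open P073 P073.H579 P073.H237
open P073.H31 (Rct bR Fil ArcD Pat Pos Lnk)
open Vale.Agent.P073.St (V)
open Vale.Agent.P073.SQ (ev cube)
open Vale.Agent.P073.H73 (Mesh sqr)
open Vale.Agent.P073.H193 (Edges)
open Vale.Agent.P073.H304 (IsEdge)

/-- metric form of the result of the core; `K` Lipschitz constant, `e` error off the set `Bad` -/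
structure CoreOut (X : P073.H237.Ends) (om K e β : ℝ) (κ : ConHomeo Rct Rct) (z : ℕ → ℝ → ℝ → ℝ)
    (Bad : Set (ℝ × ℝ)) : Prop where
  isE : IsE X.n (X.arc om) z
  lip : ∀ x ∈ Rct, ∀ y ∈ Rct, ∀ d, (∑ i ∈ (Finset.range X.n).filter (fun i => X.typ i = d),
    om * |z i (κ.toFun y).1 (κ.toFun y).2 - z i (κ.toFun x).1 (κ.toFun x).2|) ≤ K * dist y x
  sharp : ∀ x ∈ Rct, x ∉ Bad → ∀ᶠ y in 𝓝[Rct] x, ∀ d,
    (∑ i ∈ (Finset.range X.n).filter (fun i => X.typ i = d),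
      om * |z i (κ.toFun y).1 (κ.toFun y).2 - z i (κ.toFun x).1 (κ.toFun x).2|) ≤
        (1 + e) * |crd d y - crd d x| + e * dist y x
  bad : MeasurableSet Bad
  vol : volume Bad ≤ ENNReal.ofReal β

/-- **[SHARP-CORE]** as it is used -/
def SpecCore (E : Type*) [NormedAddCommGroup E] [NormedSpace ℝ E] : Prop :=
  ∀ e : ℝ, 0 < e → ∃ m₀ : ℝ, 0 < m₀ ∧ m₀ < 1 / 4 ∧ ∀ m : ℝ, 0 < m → m ≤ m₀ →
    ∃ (K : ℝ) (κ : ConHomeo Rct Rct), 0 < K ∧ ChartBL m K κ ∧ ∀ β : ℝ, 0 < β → ∃ ρ₀ : ℝ, 0 < ρ₀ ∧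
      ∀ (X : P073.H237.Ends) (om : ℝ), 0 < om → om ≤ ρ₀ → X.Near m (1 / 8) ρ₀ om → X.Dbl m →
        ∃ (z : ℕ → ℝ → ℝ → ℝ) (Bad : Set (ℝ × ℝ)), Draw E X.n X.n (X.arc om) z ∧
          CoreOut X om K e β κ z Bad

/-- the distance of the bands of the coordinate `j` -/
noncomputable def bandJ (L : Fin 3 → Finset ℝ) (lo hi om : Fin 3 → ℝ → ℝ) (j : Fin 3)
    (y y' : V) : ℝ :=
  ∑ c ∈ L j, om j c / (hi j c - lo j c) *
    |rho (lo j) (hi j) c (y j) - rho (lo j) (hi j) c (y' j)|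

theorem bandD_eq (L : Fin 3 → Finset ℝ) (lo hi om : Fin 3 → ℝ → ℝ) (y y' : V) :
    bandD L lo hi om y y' = ∑ j, bandJ L lo hi om j y y' := rfl

/-- **the sharp clause** for the map `Φ` of the square with centre `a`, normal `l`, half side `σ` -/
structure ShFace (a : V) (l : Fin 3) (σ : ℝ) (L : Fin 3 → Finset ℝ) (lo hi om : Fin 3 → ℝ → ℝ)
    (K e β : ℝ) (Φ : V → V) : Prop where
  lip : ∀ x ∈ sqr a l σ, ∀ y ∈ sqr a l σ, ∀ j, j ≠ l →
    bandJ L lo hi om j (Φ y) (Φ x) ≤ K * ‖y - x‖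
  sharp : ∃ B : Set V, MeasurableSet B ∧
    volume {x : V | x ∈ cube a σ ∧ Function.update x l (a l) ∈ B} ≤ ENNReal.ofReal (β * σ ^ 3) ∧
    ∀ x ∈ sqr a l σ, x ∉ B → ∀ᶠ y in 𝓝[sqr a l σ] x, ∀ j, j ≠ l →
      bandJ L lo hi om j (Φ y) (Φ x) ≤ (1 + e) * |y j - x j| + e * ‖y - x‖

/-- `[x, x + 2 σ ev i]` is a side of the square -/
def IsSide (a : V) (l : Fin 3) (σ : ℝ) (i : Fin 3) (x : V) : Prop :=
  i ≠ l ∧ x ∈ sqr a l σ ∧ x + (2 * σ) • ev i ∈ sqr a l σ ∧ ∀ j, j ≠ i → j ≠ l → |x j - a j| = σ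

/-- **nearly monotone sides**: the numbers of the sides; `w` is the weight -/
structure NMs {Ω : Set V} (M : Mesh Ω) (h : V → V) (L : Fin 3 → Finset ℝ) (w ρ : ℝ) (a : V)
    (l : Fin 3) (σ : ℝ) : Prop where
  edge : ∀ i x, IsSide a l σ i x → IsEdge M (x, x + (2 * σ) • ev i)
  cnt : ∀ i x, IsSide a l σ i x → ∀ Y : Finset V,
    (∀ y ∈ Y, CrsPt x (x + (2 * σ) • ev i) h L y) → w * Y.card ≤ (1 + ρ) * (2 * σ)
  one : ∀ i x, IsSide a l σ i x → (1 - ρ) * (2 * σ) ≤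
    w * ((L i).filter fun c => h x i < c ∧ c < h (x + (2 * σ) • ev i) i).card

/-- the conditions for a sharp face map: the zone with the levels `L` has the normal `l` and the
constant weight `w` -/
structure ShCond {Ω : Set V} (M : Mesh Ω) (h : V → V) (L : Fin 3 → Finset ℝ)
    (om : Fin 3 → ℝ → ℝ) (w ρ : ℝ) (a : V) (l : Fin 3) (σ : ℝ) : Prop where
  pos : 0 < σ
  nrm : L l = ∅
  wt : ∀ j, ∀ c ∈ L j, om j c = w
  small : w ≤ ρ * (2 * σ)
  nm : NMs M h L w ρ a l σ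

variable {ζ : Type*} {Ω Λ : Set V}

/-- the cone inequality and the paths, with constants -/
def GFK {M : Mesh Ω} (E : Edges M) (Ak : ζ → M.κ → Prop)
    (LP : ζ → Fin 3 → Finset ℝ) (loP hiP omP : ζ → Fin 3 → ℝ → ℝ)
    (La We : E.ε → ℝ) (O : M.κ → V) (r0 : M.κ → ℝ) (D₁ D₂ : M.κ → ℝ) (k : M.κ) (f : V → V) :
    Prop :=
  ∀ s, Ak s k →
    (∀ e, E.seg e ⊆ M.F k → ∀ x ∈ coneSetAt (O k) (E.seg e), ∀ y ∈ coneSetAt (O k) (E.seg e),
      bandD (LP s) (loP s) (hiP s) (omP s) (f x) (f y) ≤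
        D₁ k * (La e + (∑ e ∈ (E.fin_face k).toFinset, We e) / r0 k) * ‖x - y‖) ∧
    ∀ x ∈ M.F k, ∀ y ∈ M.F k, ∃ γ : ℝ → V, ContinuousOn γ (Icc 0 3) ∧
      MapsTo γ (Icc 0 3) (M.F k) ∧ γ 0 = x ∧ γ 3 = y ∧
      H880.cvar (fun s' t => ENNReal.ofReal (bandD (LP s) (loP s) (hiP s) (omP s)
        (f (γ s')) (f (γ t)))) 0 3 ≤
        ENNReal.ofReal (D₂ k * ∑ e ∈ (E.fin_face k).toFinset, We e)

/-- the sharp clause of a face of `Y` -/
def GSh {M : Mesh Ω} (h : ConHomeo Ω Λ) (Ak : ζ → M.κ → Prop)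
    (LP : ζ → Fin 3 → Finset ℝ) (loP hiP omP : ζ → Fin 3 → ℝ → ℝ)
    (w : ζ → ℝ) (Y : Set M.κ) (K e β ρ : ℝ) (k : M.κ) (f : V → V) : Prop :=
  ∀ s, Ak s k → k ∈ Y → ∀ a l σ, M.F k = sqr a l σ →
    ShCond M h.toFun (LP s) (omP s) (w s) ρ a l σ →
    ShFace a l σ (LP s) (loP s) (hiP s) (omP s) K e β f

end P073.FW31
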