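import Vale.Agent.P073.H31.SK7
import Vale.Agent.P073.H212.Hk6
import Vale.Agent.P073.H155.FatStar

/-!
# P073, H31, `K3C`, **[SHARP3-TOP]**, part 2: the row of the sharp output, all numbers in slots

`tauS`: the tolerance of the faces; **`sharp_row`**: `sharp3` with all constants; `exists_dm3`,
`exists_eE3`, `exists_tolS4`, `exists_tolS5`: the choice of the numbers.
-/

set_option linter.unusedSectionVars false

open Set Metric Topology Filter MeasureTheory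
open scoped ENNReal

namespace Vale.Agent.P073.H31.K3

open _root_.P073 _root_.P073.Net _root_.P073.PA691 _root_.P073.H236 _root_.P073.H579
open _root_.P073.H142 _root_.P073.H429
open _root_.P073.H345 (PK PB_sub_PK PLev tg)
open _root_.P073.H880.RP
open _root_.P073.FW31
open Vale.Agent.P073.St (V)
open Vale.Agent.P073.SQ (ev)
open Vale.Agent.P073.H471 Vale.Agent.P073.H267 Vale.Agent.P073.H926
open Vale.Agent.P073.H267.K3
open Vale.Agent.P073.H73 (Mesh onSeg sqr)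
open Vale.Agent.P073.H193 (Edges edges)
open Vale.Agent.P073.H304 (Nb Zmax IsEdge)
open Vale.Agent.P073.H669 (wl)
open Vale.Agent.P073.H233 (Small3 SoftQ Xp FQ)

variable {c₀ n δ : ℝ} {j : ℕ} {Ω Λ : Set V} {v w : V} {ρ : V → ℝ} {M : Mesh Ω}
  {h : ConHomeo Ω Λ} {J₀ J : Set (ℕ × (Fin 3 → ℤ))} {P Z : Set M.ι} {K : BoxCx Λ w}
  {D : KIn3 c₀ n j δ v w ρ M h J₀ J P Z} {C : Cells ρ w K} {C₀ μT : ℝ}
  {X : S1 D C C₀ μT} {Y₂ : S2 X} {Ys : Set M.κ} {sc : Sharp} {s : K.S} {k : M.κ}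

/-- **the tolerance of the faces** -/
noncomputable def tauS (M : Mesh Ω) (ε : M.κ → ℝ) (ν : ℝ) (k : M.κ) : ℝ :=
  min ν (ε k / (16 * (1 + diam (M.F k))))

theorem tauS_pos {ε : M.κ → ℝ} (hε : ∀ k, 0 < ε k) {ν : ℝ} (hν : 0 < ν) (k : M.κ) :
    0 < tauS M ε ν k := by
  have hd : 0 ≤ diam (M.F k) := diam_nonneg
  exact lt_min hν (div_pos (hε k) (by positivity))

theorem tauS_le {ε : M.κ → ℝ} {ν : ℝ} (k : M.κ) : tauS M ε ν k ≤ ν := min_le_left _ _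

theorem tauS_mul {ε : M.κ → ℝ} (hε : ∀ k, 0 < ε k) {ν : ℝ} (hν : 0 < ν) (k : M.κ) {t : ℝ}
    (ht : t ≤ tauS M ε ν k) : 16 * (t * diam (M.F k)) ≤ ε k := by
  have hd : 0 ≤ diam (M.F k) := diam_nonneg
  have h0 := tauS_pos hε hν k
  have h1 : tauS M ε ν k ≤ ε k / (16 * (1 + diam (M.F k))) := min_le_right _ _
  rw [le_div_iff₀ (by positivity)] at h1
  have h2 : t * diam (M.F k) ≤ tauS M ε ν k * diam (M.F k) := mul_le_mul_of_nonneg_right ht hd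
  nlinarith

/-- **slot (7)**: the tolerance of the hooks of the tubes -/
def TolS5 {Y₃ : S3 Y₂ Ys sc} {Y₄ : S4 Y₃} (Y₅ : S5 Y₄) (ε : M.κ → ℝ) (ν : ℝ) : Prop :=
  (∀ (b : pG C J₀) k, (Y₄.f5.toFun '' M.F k ∩
      YB ((YS (D.G C)).add (rT (D.G C)) (rT_pos (D.G C)) (fun e k => (YS_p_lt (D.G C) e k).le)
      fun e k => (YS_q_lt (D.G C) e k).le) b.1).Nonempty → 16 * Y₅.ε b ≤ tauS M ε ν k) ∧
  ∃ K₄ εb : pG C J₀ → ℝ,
    (∀ b : pG C J₀, ∀ x ∈ Ω, Y₃.h4.toFun x ∈ YB ((YS (D.G C)).add (rT (D.G C))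
      (rT_pos (D.G C)) (fun e k => (YS_p_lt (D.G C) e k).le)
      fun e k => (YS_q_lt (D.G C) e k).le) b.1 →
      ∀ᶠ y in 𝓝 x, ‖Y₃.h4.toFun y - Y₃.h4.toFun x‖ ≤ K₄ b * ‖y - x‖) ∧
    (∀ b, Y₅.ς b * K₄ b ≤ εb b) ∧
    ∀ (b : pG C J₀) k, (Y₃.h4.toFun '' M.F k ∩
      YB ((YS (D.G C)).add (rT (D.G C)) (rT_pos (D.G C)) (fun e k => (YS_p_lt (D.G C) e k).le)
      fun e k => (YS_q_lt (D.G C) e k).le) b.1).Nonempty →
      εb b * (1 + diam (M.F k)) ≤ ε k / 8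

/-- **the row of the sharp output**: all numbers in slots -/
theorem sharp_row {Y₃ : S3 Y₂ Ys sc} {Y₄ : S4 Y₃} (Y₅ : S5 Y₄)
    -- (0) the constants, the tolerances
    {p μ r ν : ℝ} (N1 : FNum1 p μ r sc ν) (hnν : n ≤ ν)
    (hμT0 : 0 ≤ μT) (hμT : μT ≤ n / 128) (hμ : ∀ b, 0 ≤ Y₅.μ b) (hμ2 : ∀ b, Y₅.μ b ≤ n / 256)
    (hκ : ∀ b : pG C J₀, Y₅.μ b * (ebe (D.W C) b.1 - eal (D.W C) b.1) ≤
      n / 256 * ((D.G C).uT b.1 / 4))
    {ε : M.κ → ℝ} (hε : ∀ k, 0 < ε k) {om εL : (edges M).ε → ℝ} {lam osc : M.ι → ℝ}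
    (T : H233.Tol M h.toFun ε om εL lam osc) {D₀ D₁ Dq : ℝ} (hD₀ : 1 ≤ D₀) (hD₁ : 1 ≤ D₁)
    (hDq : 160 * D₁ ≤ Dq) (hDq' : 8 * (1 + D₀) + 16 * D₁ ≤ Dq)
    -- (1) ROUND T
    (hεT : ∀ k e, (edges M).seg e ⊆ M.F k → 8 * X.εe e ≤ ε k)
    -- (2) the displacement of the staircases
    (hmuP : ∀ s ∈ pS C J₀, NoHang K s → ∀ β, Y₂.muP s ≤ n / 256 * wl (D.G C) s β)
    -- (3) the levels
    (hη : Y₂.η ≤ n / 1024) (hεE : ∀ k e, (edges M).seg e ⊆ M.F k → 16 * Y₂.εE e ≤ ε k)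
    (hεE' : ∀ e, 256 * Y₂.εE e ≤ sc.ρ * ‖(edges M).b e - (edges M).a e‖)
    (hsm : ∀ s k, (D.dat C).PkS (D.G C) X.h1 s k → ∀ (a : V) (σ : ℝ), 0 < σ →
      M.F k = sqr a (K.nrm s) σ → Y₂.Lw.om s false ≤ sc.ρ / 4 * (2 * σ))
    -- (4), (5) the insertion
    (hν : ∀ k, Y₃.ν k ≤ tauS M ε ν k)
    (he : ∀ β s, (Y₃.F β).e s ≤ n / 4096 * Y₂.Lw.om s.1 false)
    -- (6) the hooks of the plates
    (hq : ∀ s, 1 - n / 2048 ≤ Y₄.q s) (hr : ∀ s, 1 - n / 2048 ≤ Y₄.r s)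
    (hε5 : ∀ (s : K.S) (k : M.κ) (hk : (D.dat C).PkS (D.G C) X.h1 s k),
      16 * Y₄.ε ⟨s, hk.1⟩ ≤ tauS M ε ν k)
    -- (7) the hooks of the tubes
    (hε6 : TolS5 Y₅ ε ν)
    -- the auxiliary map
    (L : H761.PreQ (D.B C) (Xp C J₀) (20 / (1 / μN n)) c₀ ρ h.toFun J₀ P om D₀ D₁ Y₅.fq.toFun) :
    ∃ t₀ : M.κ ⊕ M.ι → ℝ, (∀ a, 0 < t₀ a) ∧ ∀ (R : Fac K) (N t : M.κ ⊕ M.ι → ℝ)
      (Φ : ConHomeo Λ Λ), (∀ a, 0 < t a) → (∀ a, t a ≤ t₀ a) →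
      Small3 (D.W C) (Xp C J₀) R Y₅.f.toFun (FQ M) N t → SoftQ D C R Φ →
      H212.SharpOut3 p Dq c₀ δ μ r w ρ M h.toFun J₀ Ys ε (Y₅.f.trans Φ) := by
  have hn := D.pos
  have hn1 := D.nle
  have hn2 := D.le
  have hd : ∀ k : M.κ, 0 ≤ diam (M.F k) := fun k => diam_nonneg
  have e : 20 / (1 / μN n) = 20 * (n / 64) := by
    unfold μN
    field_simp
  have hA := H212.K3.num_A D
  have hν0 := N1.ν0
  have IN := shIn_of Y₃ (c := n / 64) (by positivity) (by linarith)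
    (hη.trans (le_of_eq (by ring))) fun s hs hH β =>
      (hmuP s hs hH β).trans (le_of_eq (by ring))
  obtain ⟨h61, K₄, εb, h62, h63, h64⟩ := hε6
  refine sharp3 Y₅ IN (deepIn_noHang C) N1 hε T hD₀ hD₁ L hDq hDq' (μg := 31 / 32 * n)
    (τg := tauS M ε ν) (m := 31 / 96 * n)
    (by positivity) (by linarith) (fun k => (tauS_pos hε hν0 k).le) (fun k => tauS_le k) ?_
    (by positivity) (by linarith) (by linarith) (fun R N t Φ h0 HS HΦ =>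
      locEst_fq Y₅ (μ₂ := n / 256) (κ := n / 256) hμ hμ2 (by positivity) (by positivity) hκ ?_ h0
        HS HΦ)
    (H253.Tube.tvTube_g Y₅ hμT0 hμT hμ (fun b => (hμ2 b).trans (by linarith)) hε hεT
      fun b k hb => ?_)
    (H253.Tube.tvTube_fq Y₅ hμT0 hμT hμ (fun b => (hμ2 b).trans (by linarith)) hε hεT h62 h63 h64)
    ?_ hA ?_ (fun k => (hν k).trans (tauS_le k)) (fun k => ?_) (fun k => ?_)
    (fun k e he => ?_) (fun e => ?_) hsm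
  · refine ⟨Sum.elim (fun k => tauS M ε ν k / 16) fun _ => 1, fun a => ?_,
      fun R N t Φ h0 ht HS HΦ => H212.K3.l1_top Y₅ IN.om hq hr he hμ hμ2 hκ (tauS_pos hε hν0)
        hε5 h61 R N t Φ h0 (fun k => ht (.inl k)) HS HΦ⟩
    rcases a with k | i
    · have := tauS_pos hε hν0 k
      show 0 < tauS M ε ν k / 16
      positivity
    · exact one_pos
  · rw [e]
    nlinarith
  · have h1 := h61 b k hb
    have h2 := tauS_mul hε hν0 k (le_refl (tauS M ε ν k))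
    have h3 := hd k
    have h4 := tauS_pos hε hν0 k
    have h5 : tauS M ε ν k ≤ ε k / (16 * (1 + diam (M.F k))) := min_le_right _ _
    rw [le_div_iff₀ (by positivity)] at h5
    nlinarith
  · have e9 : 1 + 3 * (31 / 96 * n) = 1 + 31 / 32 * n := by ring
    rw [e9]
    exact hA
  · linarith [N1.ν_le, N1.ρ0]
  · have := tauS_mul hε hν0 k (hν k)
    linarith
  · have := tauS_mul hε hν0 k (le_refl (tauS M ε ν k))
    have := hε k
    linarith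
  · have := hεE k e he
    linarith
  · have := hεE' e
    linarith

/-! ### the choice of the numbers -/

/-- finitely many faces meet a plate -/
theorem finite_faces_PK (G : Geo (D.B C)) (f : ConHomeo Ω Λ) (s : K.S) :
    {k | (f.toFun '' M.F k ∩ PK G s).Nonempty}.Finite := by
  have hC : IsCompact (f.invFun '' PK G s) :=
    (H669.PK_compact G s).image_of_continuousOn (f.cont_inv.mono (H669.PK_sub G s))
  have hCΩ : f.invFun '' PK G s ⊆ Ω := by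
    rintro _ ⟨y, hy, rfl⟩
    exact f.mapsTo_inv (H669.PK_sub G s hy)
  refine (M.ffin _ hCΩ hC).subset ?_
  rintro k ⟨_, ⟨x, hx, rfl⟩, hy⟩
  exact ⟨x, hx, _, hy, f.left_inv (H193.mesh_sub M k hx)⟩

theorem PkS_meet {h1 : ConHomeo Ω Λ} (hk : (D.dat C).PkS (D.G C) h1 s k) :
    (h1.toFun '' M.F k ∩ PK (D.G C) s).Nonempty := by
  obtain ⟨-, -, x, hx, hxs⟩ := hk
  exact ⟨_, ⟨x, hx, rfl⟩, PB_sub_PK (by norm_num) s hxs⟩

/-- **slot (3)**: the spacings of the levels, small against the square faces -/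
theorem exists_dm3 (X : S1 D C C₀ μT) {r : ℝ} (hr : 0 < r) :
    ∃ dm : K.S → ℝ, (∀ s, 0 < dm s) ∧ ∀ Y₂ : S2 X, (∀ s, Y₂.dP s ≤ dm s) →
      ∀ s k, (D.dat C).PkS (D.G C) X.h1 s k → ∀ (a : V) (σ : ℝ), 0 < σ →
        M.F k = sqr a (K.nrm s) σ → Y₂.Lw.om s false ≤ r * σ := by
  classical
  set t : M.κ → ℝ := fun k => if hx : ∃ q : V × Fin 3 × ℝ, 0 < q.2.2 ∧ M.F k = sqr q.1 q.2.1 q.2.2
    then r / 2 * hx.choose.2.2 else 1 with ht
  have ht0 : ∀ k, 0 < t k := by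
    intro k
    simp only [ht]
    split_ifs with hx
    · exact mul_pos (by positivity) hx.choose_spec.1
    · exact one_pos
  obtain ⟨m, hm0, hm⟩ := Vale.Agent.P073.H669.exists_le_of_finite
    (R := fun (s : K.S) k => (X.h1.toFun '' M.F k ∩ PK (D.G C) s).Nonempty)
    (finite_faces_PK (D.G C) X.h1) ht0
  refine ⟨m, hm0, fun Y₂ hd s k hk a σ hσ hF => ?_⟩
  have h0 := hm s k (PkS_meet hk)
  have hx : ∃ q : V × Fin 3 × ℝ, 0 < q.2.2 ∧ M.F k = sqr q.1 q.2.1 q.2.2 :=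
    ⟨(a, K.nrm s, σ), hσ, hF⟩
  simp only [ht] at h0
  rw [dif_pos hx] at h0
  obtain ⟨h1, h2⟩ := hx.choose_spec
  obtain ⟨-, h3⟩ := Vale.Agent.P073.H155.sqr_unique h1 hσ (h2.symm.trans hF)
  rw [h3] at h0
  have h4 := Y₂.Lw.om_le_two s false
  have h5 := hd s
  linarith

/-- **slot (3)**: the tolerances of the crossing numbers -/
theorem exists_eE3 (M : Mesh Ω) {ε : M.κ → ℝ} (hε : ∀ k, 0 < ε k) {r : ℝ} (hr : 0 < r)
    {ε' : (edges M).ε → ℝ} (hε' : ∀ e, 0 < ε' e) :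
    ∃ εE : (edges M).ε → ℝ, (∀ e, 0 < εE e) ∧ (∀ e, εE e ≤ ε' e) ∧
      (∀ k e, (edges M).seg e ⊆ M.F k → 16 * εE e ≤ ε k) ∧
      ∀ e, 256 * εE e ≤ r * ‖(edges M).b e - (edges M).a e‖ := by
  obtain ⟨m, hm0, hm⟩ := Vale.Agent.P073.H669.exists_le_of_finite
    (R := fun (e : (edges M).ε) k => (edges M).seg e ⊆ M.F k) (H233.finite_faces_edge M)
    (f := ε) hε
  have hn : ∀ e, 0 < ‖(edges M).b e - (edges M).a e‖ := fun e =>
    norm_pos_iff.2 (sub_ne_zero.2 ((edges M).ne e).symm)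
  refine ⟨fun e => min (ε' e) (min (m e) (r * ‖(edges M).b e - (edges M).a e‖) / 256),
    fun e => lt_min (hε' e) (div_pos (lt_min (hm0 e) (mul_pos hr (hn e))) (by norm_num)),
    fun e => min_le_left _ _, fun k e he => ?_, fun e => ?_⟩
  · have h1 := min_le_right (ε' e) (min (m e) (r * ‖(edges M).b e - (edges M).a e‖) / 256)
    have h2 := min_le_left (m e) (r * ‖(edges M).b e - (edges M).a e‖)
    have h3 := hm e k he
    have h4 := hm0 e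
    show 16 * min (ε' e) (min (m e) (r * ‖(edges M).b e - (edges M).a e‖) / 256) ≤ ε k
    linarith
  · have h1 := min_le_right (ε' e) (min (m e) (r * ‖(edges M).b e - (edges M).a e‖) / 256)
    have h2 := min_le_right (m e) (r * ‖(edges M).b e - (edges M).a e‖)
    show 256 * min (ε' e) (min (m e) (r * ‖(edges M).b e - (edges M).a e‖) / 256) ≤ _
    linarith

/-- **slot (6)**: the tolerance of the hooks of the plates -/
theorem exists_tolS4 (Y₃ : S3 Y₂ Ys sc) {ε : M.κ → ℝ} (hε : ∀ k, 0 < ε k) {ν : ℝ} (hν : 0 < ν) :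
    ∃ t : (D.dat C).S₀ → ℝ, (∀ s, 0 < t s) ∧ ∀ Y₄ : S4 Y₃, (∀ s, Y₄.ε s ≤ t s) →
      ∀ (s : K.S) (k : M.κ) (hk : (D.dat C).PkS (D.G C) X.h1 s k),
        16 * Y₄.ε ⟨s, hk.1⟩ ≤ tauS M ε ν k := by
  obtain ⟨m, hm0, hm⟩ := Vale.Agent.P073.H669.exists_le_of_finite
    (R := fun (s : K.S) k => (X.h1.toFun '' M.F k ∩ PK (D.G C) s).Nonempty)
    (finite_faces_PK (D.G C) X.h1) (f := tauS M ε ν) (tauS_pos hε hν)
  refine ⟨fun s => m s.1 / 16, fun s => by have := hm0 s.1; positivity,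
    fun Y₄ h1 s k hk => ?_⟩
  have h2 := h1 ⟨s, hk.1⟩
  have h3 := hm s k (PkS_meet hk)
  change Y₄.ε ⟨s, hk.1⟩ ≤ m s / 16 at h2
  linarith

/-- **slot (7)**: the tolerance of the hooks of the tubes -/
theorem exists_tolS5 {Y₃ : S3 Y₂ Ys sc} (Y₄ : S4 Y₃) {ε : M.κ → ℝ} (hε : ∀ k, 0 < ε k) {ν : ℝ}
    (hν : 0 < ν) : ∃ t : pG C J₀ → ℝ, (∀ b, 0 < t b) ∧ ∀ Y₅ : S5 Y₄, (∀ b, Y₅.ε b ≤ t b) →
      TolS5 Y₅ ε ν := by
  obtain ⟨K₄, hK0, hK⟩ := H253.Tube.exists_K4 D C Y₃.h4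
  obtain ⟨t₁, ht1, h1⟩ := H253.Tube.exists_epsb (D := D) (C := C) Y₄.f5 J₀
    (t := fun k => tauS M ε ν k / 16) fun k => by have := tauS_pos hε hν k; positivity
  obtain ⟨t₂, ht2, h2⟩ := H253.Tube.exists_epsb (D := D) (C := C) Y₃.h4 J₀
    (t := fun k => ε k / 8) fun k => by have := hε k; positivity
  refine ⟨fun b => min (t₁ b) (t₂ b / K₄ b), fun b => lt_min (ht1 b) (div_pos (ht2 b) (hK0 b)),
    fun Y₅ hY => ⟨fun b k hb => ?_, K₄, t₂, hK, H253.Tube.sK4_le Y₅ hK0 fun b =>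
      (hY b).trans (min_le_right _ _), h2⟩⟩
  have h3 := h1 b k hb
  have h4 := (hY b).trans (min_le_left _ _)
  have hd : 0 ≤ diam (M.F k) := diam_nonneg
  have h5 := ht1 b
  have h6 := tauS_pos hε hν k
  nlinarith

end Vale.Agent.P073.H31.K3
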