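import Vale.Agent.P073.H31.SK2
import Vale.Agent.P073.H761.FaceL1

/-!
# P073, H31, [SHARP-K3], part 3: the `l1` estimate of the last map

After the full switch of the P-hook the pieces of sheets change the family and the side, only the
sum over both families is controlled (`L1Est`).  The conditions of a sharp face are obtained from a
second map `g'` (before the hook).
-/

set_option linter.unusedSectionVars false

open Set Metric Topology Filter MeasureTheory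
open scoped ENNReal

namespace P073.FW31

open P073 P073.Net P073.PA691 P073.H236 P073.H579 P073.H345 P073.H142 P073.H761.SE Gon
open P073.H237 (Ends ed)
open P073.H228 (jd)
open Vale.Agent.P073.St (V)
open Vale.Agent.P073.SQ (ev cube)
open Vale.Agent.P073.H471 Vale.Agent.P073.H267
open Vale.Agent.P073.H73 (Mesh sqr onSeg)
open Vale.Agent.P073.H193 (Edges Cyc edges)
open Vale.Agent.P073.H304 (IsEdge)
open Vale.Agent.P073.H239 (faceI)

variable {Ω Λ : Set V} {v : V} {K : BoxCx Λ v} {S : Rad K} {W : Wid K S} {B : Boxes W}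
  {G : Geo B} {s : K.S}

/-- **the local estimate of the sum of the coordinates** of the last map `g` by the clamped
coordinates of `f` -/
def L1Est (G : Geo B) (s : K.S) (X : Set V) (μ τ : ℝ) (f g : V → V) : Prop :=
  ∀ x ∈ X, ∀ᶠ x' in 𝓝[X] x,
    ∑ j, |g x' j - g x j| ≤ (1 + μ) * sd G s (f x) (f x') + τ * ‖x' - x‖

theorem L1Est.mono {X X' : Set V} {μ τ : ℝ} {f g : V → V} (H : L1Est G s X μ τ f g)
    (h : X' ⊆ X) : L1Est G s X' μ τ f g := fun x hx =>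
  (H x (h hx)).filter_mono (nhdsWithin_mono _ h)

theorem LocEst.l1 {X : Set V} {μ τ : ℝ} {f g : V → V} (H : LocEst G s X μ τ f g) :
    L1Est G s X (3 * μ) (3 * τ) f g := by
  intro x hx
  filter_upwards [H x hx] with x' h1
  have h2 := sum_abs_le G s (y := f x) (y' := f x') (z := g x) (z' := g x')
    (c := μ * sd G s (f x) (f x') + τ * ‖x' - x‖) fun j => by
      obtain ⟨h3, h4⟩ := h1 j
      exact ⟨by linarith, by linarith⟩
  refine h2.trans (le_of_eq ?_)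
  ring

namespace PlW

variable {kk : Fin 3 → ℝ → ℝ} {L : Fin 3 → Finset ℝ} {lo hi om : Fin 3 → ℝ → ℝ} {om0 θ : ℝ}
  {fm : V → V} (H : PlW G s kk L lo hi om om0 θ fm)

include H

variable {μ τ : ℝ} {h3 g : V → V} {Lam : ℝ}

/-- **the local estimate of the final map**, `l1` form -/
theorem bandEst1 (hμ : 0 ≤ μ) {a : V} {σ : ℝ}
    (HL : L1Est G s (sqr a (K.nrm s) σ) μ τ (fun x => fm (h3 x)) g)
    (hpos : ∀ x ∈ sqr a (K.nrm s) σ, h3 x ∈ G.PB (7 / 8) s)
    (hLam : ∀ x ∈ sqr a (K.nrm s) σ, ∀ y ∈ sqr a (K.nrm s) σ,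
      ‖h3 x - h3 y‖ ≤ Lam * ‖x - y‖) :
    BandEst1 a (K.nrm s) σ L lo hi om μ ((1 + μ) * (2 * (θ * Lam)) + τ) h3 g := by
  have hθ := H.θ0
  intro x hx
  filter_upwards [HL x hx, self_mem_nhdsWithin] with x' h1 hx'
  have hP := hpos x hx
  have hP' := hpos x' hx'
  have hL := hLam x' hx' x hx
  have hθL : θ * ‖h3 x' - h3 x‖ ≤ θ * Lam * ‖x' - x‖ := by
    have := mul_le_mul_of_nonneg_left hL hθ
    linarith
  have hsd := H.sd_le hP hP'
  have hsd' : (1 + μ) * sd G s (fm (h3 x)) (fm (h3 x')) ≤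
      (1 + μ) * (∑ i ∈ Finset.univ.erase (K.nrm s), bandJ L lo hi om i (h3 x') (h3 x) +
      2 * (θ * Lam * ‖x' - x‖)) := by
    refine mul_le_mul_of_nonneg_left (hsd.trans ?_) (by linarith)
    linarith
  refine (h1.trans (add_le_add_left hsd' _)).trans (le_of_eq ?_)
  ring

section side

variable {p q : V} {ι : Type*} {X : Finset ι} {s2 s3 : ι → ℝ}

/-- **total variation** of the final map on an edge in a plate, `l1` form -/
theorem tv_le1 (hμ : 0 ≤ μ) (HL : L1Est G s (segment ℝ p q) μ τ (fun x => fm (h3 x)) g)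
    (hpos : ∀ x ∈ segment ℝ p q, h3 x ∈ G.PB (7 / 8) s)
    (hLam : ∀ x ∈ segment ℝ p q, ∀ y ∈ segment ℝ p q, ‖h3 x - h3 y‖ ≤ Lam * ‖x - y‖)
    (hR : ∀ r ∈ Icc (0:ℝ) 1, ∀ r' ∈ Icc (0:ℝ) 1, r ≤ r' →
      bandD L lo hi om (h3 (AffineMap.lineMap p q r)) (h3 (AffineMap.lineMap p q r')) ≤
      om0 * (∑ x ∈ X, ramp (s2 x) (s3 x) r') - om0 * ∑ x ∈ X, ramp (s2 x) (s3 x) r) :
    Vale.Agent.P073.H239.tv g (p, q) Finset.univ ≤
      ENNReal.ofReal ((1 + μ) * (om0 * X.card) +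
        ((1 + μ) * (2 * (θ * Lam)) + τ) * ‖q - p‖) := by
  have hom := H.pos
  have hθ := H.θ0
  have hm : ∀ r ∈ Icc (0:ℝ) 1, AffineMap.lineMap p q r ∈ segment ℝ p q := fun r hr =>
    lineMap_mem_segment' hr
  have hon : ∀ r : ℝ, onSeg g (p, q) r = g (AffineMap.lineMap p q r) := by
    intro r
    show g (p + r • (q - p)) = _
    rw [AffineMap.lineMap_apply_module', add_comm]
  have hnorm : ∀ r r' : ℝ, ‖(AffineMap.lineMap p q r' : V) - AffineMap.lineMap p q r‖ =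
      ‖q - p‖ * |r' - r| := by
    intro r r'
    have e : (AffineMap.lineMap p q r' : V) - AffineMap.lineMap p q r = (r' - r) • (q - p) := by
      rw [AffineMap.lineMap_apply_module', AffineMap.lineMap_apply_module', add_sub_add_right_eq_sub,
        ← sub_smul]
    rw [e, norm_smul, Real.norm_eq_abs, mul_comm]
  have key : ∀ r ∈ Icc (0:ℝ) 1, ∀ r' ∈ Icc (0:ℝ) 1, r ≤ r' →
      sd G s (fm (h3 (AffineMap.lineMap p q r))) (fm (h3 (AffineMap.lineMap p q r'))) ≤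
          om0 * (∑ x ∈ X, ramp (s2 x) (s3 x) r') - om0 * (∑ x ∈ X, ramp (s2 x) (s3 x) r) +
            2 * (θ * Lam * ‖q - p‖) * (r' - r) := by
    intro r hr r' hr' hrr
    have h1 := H.sd_le (hpos _ (hm r hr)) (hpos _ (hm r' hr'))
    rw [H.band_sum] at h1
    have h2 := hR r hr r' hr' hrr
    have h3' : bandD L lo hi om (h3 (AffineMap.lineMap p q r'))
        (h3 (AffineMap.lineMap p q r)) = bandD L lo hi om
          (h3 (AffineMap.lineMap p q r)) (h3 (AffineMap.lineMap p q r')) := by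
      unfold bandD
      exact Finset.sum_congr rfl fun j _ => Finset.sum_congr rfl fun c _ => by rw [abs_sub_comm]
    rw [h3'] at h1
    have h4 := hLam _ (hm r' hr') _ (hm r hr)
    rw [hnorm, abs_of_nonneg (by linarith : (0:ℝ) ≤ r' - r)] at h4
    have h5 := mul_le_mul_of_nonneg_left h4 hθ
    have e : 2 * (θ * Lam * ‖q - p‖) * (r' - r) = 2 * (θ * (Lam * (‖q - p‖ * (r' - r)))) := by
      ring
    rw [e]
    linarith
  unfold Vale.Agent.P073.H239.tv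
  simp only [hon]
  have h8 := sum_ramp_le (s2 := s2) (s3 := s3) (X := X) hom.le (t := 0) (t' := 1)
  refine (sum_eVar_le (u := fun j r => g (AffineMap.lineMap p q r) j)
    (G := fun r => (1 + μ) * (om0 * ∑ x ∈ X, ramp (s2 x) (s3 x) r) +
      ((1 + μ) * (2 * (θ * Lam)) + τ) * ‖q - p‖ * r) ?_).trans
    (ENNReal.ofReal_le_ofReal ?_)
  · intro r hr r' hr' hrr
    refine glob
      (D := fun r r' => ∑ j, |g (AffineMap.lineMap p q r') j - g (AffineMap.lineMap p q r) j|)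
      (G := fun r => (1 + μ) * (om0 * ∑ x ∈ X, ramp (s2 x) (s3 x) r) +
        ((1 + μ) * (2 * (θ * Lam)) + τ) * ‖q - p‖ * r) ?_ ?_ hr hr' hrr
    · intro a b c
      rw [← Finset.sum_add_distrib]
      refine Finset.sum_le_sum fun j _ => ?_
      have := abs_sub_le (g (AffineMap.lineMap p q c) j) (g (AffineMap.lineMap p q b) j)
        (g (AffineMap.lineMap p q a) j)
      linarith
    · intro r hr
      have htend : Tendsto (fun r : ℝ => AffineMap.lineMap p q r) (𝓝[Icc 0 1] r)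
          (𝓝[segment ℝ p q] (AffineMap.lineMap p q r)) :=
        tendsto_nhdsWithin_of_tendsto_nhds_of_eventually_within _
          ((AffineMap.lineMap_continuous.tendsto r).mono_left nhdsWithin_le_nhds)
          (by filter_upwards [self_mem_nhdsWithin] with r' hr'; exact hm r' hr')
      filter_upwards [htend (HL _ (hm r hr)), self_mem_nhdsWithin] with r' h1 hr'
      have h1' : ∑ j, |g (AffineMap.lineMap p q r') j - g (AffineMap.lineMap p q r) j| ≤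
          (1 + μ) * sd G s (fm (h3 (AffineMap.lineMap p q r)))
            (fm (h3 (AffineMap.lineMap p q r'))) +
          τ * (‖q - p‖ * |r' - r|) := by
        rw [← hnorm]
        exact h1
      have main : ∀ u u' : ℝ, u ≤ u' →
          (sd G s (fm (h3 (AffineMap.lineMap p q u))) (fm (h3 (AffineMap.lineMap p q u'))) ≤
            om0 * (∑ x ∈ X, ramp (s2 x) (s3 x) u') - om0 * (∑ x ∈ X, ramp (s2 x) (s3 x) u) +
              2 * (θ * Lam * ‖q - p‖) * (u' - u)) →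
          ((1 + μ) * sd G s (fm (h3 (AffineMap.lineMap p q u)))
            (fm (h3 (AffineMap.lineMap p q u'))) + τ * (‖q - p‖ * (u' - u))) ≤
            ((1 + μ) * (om0 * ∑ x ∈ X, ramp (s2 x) (s3 x) u') +
              ((1 + μ) * (2 * (θ * Lam)) + τ) * ‖q - p‖ * u') -
            ((1 + μ) * (om0 * ∑ x ∈ X, ramp (s2 x) (s3 x) u) +
              ((1 + μ) * (2 * (θ * Lam)) + τ) * ‖q - p‖ * u) := by
        intro u u' huu h2
        have h6 := mul_le_mul_of_nonneg_left h2 (by linarith : (0:ℝ) ≤ 1 + μ)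
        refine (add_le_add_left h6 _).trans (le_of_eq ?_)
        ring
      refine ⟨fun hle => ?_, fun hle => ?_⟩
      · rw [abs_of_nonneg (by linarith : (0:ℝ) ≤ r' - r)] at h1'
        exact h1'.trans (main r r' hle (key r hr r' hr' hle))
      · rw [abs_of_nonpos (by linarith : r' - r ≤ 0), neg_sub, sd_comm] at h1'
        have e : ∑ j, |g (AffineMap.lineMap p q r) j - g (AffineMap.lineMap p q r') j| =
            ∑ j, |g (AffineMap.lineMap p q r') j - g (AffineMap.lineMap p q r) j| :=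
          Finset.sum_congr rfl fun j _ => abs_sub_comm _ _
        rw [e]
        exact h1'.trans (main r' r hle (key r' hr' r hr hle))
  · have h9 := mul_le_mul_of_nonneg_left h8 (by linarith : (0:ℝ) ≤ 1 + μ)
    have e : ((1 + μ) * (om0 * ∑ x ∈ X, ramp (s2 x) (s3 x) 1) +
        ((1 + μ) * (2 * (θ * Lam)) + τ) * ‖q - p‖ * 1) -
      ((1 + μ) * (om0 * ∑ x ∈ X, ramp (s2 x) (s3 x) 0) +
        ((1 + μ) * (2 * (θ * Lam)) + τ) * ‖q - p‖ * 0) =
      (1 + μ) * (om0 * ∑ x ∈ X, ramp (s2 x) (s3 x) 1 - om0 * ∑ x ∈ X, ramp (s2 x) (s3 x) 0) +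
        ((1 + μ) * (2 * (θ * Lam)) + τ) * ‖q - p‖ := by ring
    rw [e]
    linarith

end side

end PlW

/-! ### an insertion step -/

variable {M : Mesh Ω} {E : Edges M} {κ : V → V} {Ak : K.S → M.κ → Prop}
  {kP : K.S → Fin 3 → ℝ → ℝ} {LP : K.S → Fin 3 → Finset ℝ} {loP hiP omP : K.S → Fin 3 → ℝ → ℝ}
  {La We mu : E.ε → ℝ} {h2 h3 : ConHomeo Ω Λ} {Act : Set M.κ} {GF : M.κ → (V → V) → Prop}
  {s : K.S} {k : M.κ} {om0 θ : ℝ} {fm : V → V}
  {g g' : V → V} {a : V} {σ Lam r ρ₁ ρ μ τ τ' : ℝ}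

/-- **the sharp clause for one edge in a plate**, `l1` form -/
theorem tv_act1 (P : PAct M E h2 κ Λ Ak kP LP loP hiP omP)
    (O : Out2 M E h2 κ Act (GEP E h2 Ak kP LP loP hiP omP La mu) GF h3)
    (H : PlW G s (kP s) (LP s) (loP s) (hiP s) (omP s) om0 θ fm)
    (hAct : k ∈ Act) (hk : Ak s k) {e : E.ε} (he : E.seg e ⊆ M.F k) (hown : OwnE E Ak e)
    (hμ : 0 ≤ μ) (HL : L1Est G s (E.seg e) μ τ (fun x => fm (h3.toFun x)) g)
    (hpos : ∀ x ∈ E.seg e, h3.toFun x ∈ G.PB (7 / 8) s)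
    (hLam : ∀ x ∈ E.seg e, ∀ y ∈ E.seg e, ‖h3.toFun x - h3.toFun y‖ ≤ Lam * ‖x - y‖)
    {p q : V} (hpq : E.seg e = segment ℝ p q) :
    ∃ X : Finset V, (∀ x, x ∈ X ↔ CrsPt p q h2.toFun (LP s) x) ∧
      Vale.Agent.P073.H239.tv g (p, q) Finset.univ ≤
        ENNReal.ofReal ((1 + μ) * (om0 * X.card) +
          ((1 + μ) * (2 * (θ * Lam)) + τ) * ‖q - p‖) := by
  obtain ⟨X, s2, s3, hX, hR⟩ := ramp_act P H.wt H.pos.le O hAct hk he hown hpq
  refine ⟨X, hX, ?_⟩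
  rw [hpq] at HL hpos hLam
  exact H.tv_le1 hμ HL hpos hLam hR

/-- **the sharp clause for one face**: `g` the last map (`L1Est`), `g'` the map before the hook
(`LocEst`) -/
theorem face_act1 {O' : M.κ → V} {r0 Rr : M.κ → ℝ} {Y : Set M.κ} {Ks es βs ρs : ℝ}
    (P : PAct M E h2 κ Λ Ak kP LP loP hiP omP)
    (O : Out2 M E h2 κ Act (GEP E h2 Ak kP LP loP hiP omP La mu)
      (GFY E h2 Ak LP loP hiP omP La We O' r0 Rr Y Ks es βs ρs) h3)
    (hIE : ∀ p q, IsEdge M (p, q) → ∃ e : E.ε, E.seg e = segment ℝ p q)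
    (H : PlW G s (kP s) (LP s) (loP s) (hiP s) (omP s) om0 θ fm)
    (hAct : k ∈ Act) (hk : Ak s k) (hkY : k ∈ Y)
    (hown : ∀ e, E.seg e ⊆ M.F k → OwnE E Ak e)
    (hσ : 0 < σ) (hF : M.F k = sqr a (K.nrm s) σ)
    {p μs μs' μ₀ r₀ ν ε : ℝ} (hfc : FaceC1 p μ r₀ Ks es βs μ₀) (hρ0 : 0 < ρs) (hρ1 : ρs ≤ 1 / 2)
    (hr0 : 0 ≤ r) (hr1 : r ≤ r₀) (hr2 : r ≤ ρs / 16)
    (hμs : 0 ≤ μs) (hμs1 : μs ≤ μ₀) (hμs3 : μs ≤ 1) (hμs' : 0 ≤ μs') (hμs2 : μs' ≤ ρs / 50)
    (hν : ν ≤ ρs / 16) (hν' : 5 * ν ≤ μ₀) (hε : 0 ≤ ε) (hτ : 0 ≤ τ) (hτ1 : τ ≤ ν)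
    (hτ' : 0 ≤ τ') (hτ'1 : τ' ≤ ν)
    (HL' : LocEst G s (M.F k) μs' τ' (fun x => fm (h3.toFun x)) g')
    (HL : L1Est G s (M.F k) μs τ (fun x => fm (h3.toFun x)) g)
    (hpos : ∀ x ∈ M.F k, h3.toFun x ∈ G.PB (7 / 8) s)
    (hLam : ∀ x ∈ M.F k, ∀ y ∈ M.F k, ‖h3.toFun x - h3.toFun y‖ ≤ Lam * ‖x - y‖)
    (hθ : θ * Lam ≤ ν) (hsm : om0 ≤ ρs / 4 * (2 * σ))
    (hside' : ∀ i x, IsSide a (K.nrm s) σ i x → IsEdge M (x, x + (2 * σ) • ev i) ∧
      (1 - r) * (2 * σ) ≤ g' (x + (2 * σ) • ev i) i - g' x i ∧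
      ∀ Y' : Finset V, (∀ y ∈ Y', CrsPt x (x + (2 * σ) • ev i) h2.toFun (LP s) y) →
        om0 * Y'.card ≤ (1 + ρs / 4) * (2 * σ))
    (hside : Sides a (K.nrm s) σ r g) :
    faceI p g a (K.nrm s) σ ≤ ENNReal.ofReal ((μ + ε) * σ ^ 3) := by
  have hLam0 : 0 ≤ θ * Lam := by
    refine mul_nonneg H.θ0 ?_
    obtain ⟨⟨-, m0, m1, -⟩, -, -⟩ := side_ed (a := a) (l := K.nrm s) hσ 0
    rw [← hF] at m0 m1
    have h4 := hLam _ m1 _ m0
    have h5 : ‖sqf a (K.nrm s) σ (ed 0 0) + (2 * σ) • (ev (jd (d0 (K.nrm s)) (d1 (K.nrm s))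
        (Ends.dir 0)) : V) - sqf a (K.nrm s) σ (ed 0 0)‖ = 2 * σ := by
      rw [add_sub_cancel_left, norm_smul, norm_ev31, mul_one, Real.norm_eq_abs,
        abs_of_pos (by linarith)]
    rw [h5] at h4
    exact nonneg_of_mul_nonneg_left ((norm_nonneg _).trans h4) (by linarith)
  have hν0 : 0 ≤ ν := hLam0.trans hθ
  have hcond : ShCond M h2.toFun (LP s) (omP s) om0 ρs a (K.nrm s) σ := by
    refine shCond_act (ρ₁ := ρs / 4) (r := r) P O hIE H hAct hk hown hσ hF hμs' hτ' hr0 HL' hpos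
      hLam hside' hsm ?_
    have h4 : (1 + 2 * μs') * (1 + ρs / 4) ≤ 1 + 295 / 1000 * ρs := by nlinarith
    have h5 : (1 + 2 * μs') * (θ * Lam) ≤ 51 / 50 * (ρs / 16) := by
      have h6 : 0 ≤ 1 + 2 * μs' := by linarith
      refine (mul_le_mul_of_nonneg_left (hθ.trans hν) h6).trans ?_
      refine mul_le_mul_of_nonneg_right ?_ (by positivity)
      linarith
    linarith
  obtain ⟨Ψ, hΨ, hΨ3⟩ := O.face k hAct
  have hsh : ShFace a (K.nrm s) σ (LP s) (loP s) (hiP s) (omP s) Ks es βs h3.toFun :=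
    ShFace.congr (hΨ.2.2 s hk hkY hown a (K.nrm s) σ hF _ H.pos hcond)
      (by rw [← hF]; exact hΨ3)
  have hB := H.bandEst1 hμs (a := a) (σ := σ) (hF ▸ HL) (fun x hx => hpos x (hF ▸ hx))
    (fun x hx y hy => hLam x (hF ▸ hx) y (hF ▸ hy))
  refine hfc a (K.nrm s) σ hσ (LP s) (loP s) (hiP s) (omP s) r μs
    ((1 + μs) * (2 * (θ * Lam)) + τ) ε hr0 hr1 hμs hμs1 ?_ ?_ hε h3.toFun g hsh hB hside
  · positivity
  · have h4 : (1 + μs) * (2 * (θ * Lam)) ≤ 2 * (2 * ν) := by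
      refine mul_le_mul ?_ ?_ (by positivity) (by norm_num)
      · linarith
      · linarith
    linarith

end P073.FW31
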