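import Vale.Agent.P073.H31.SK3
import Vale.Agent.P073.H212.Hk3

/-!
# P073, H31, `K3C`: the one-sided local estimate through the staircase of the tubes

`hx_sub_le`: one-sided estimate of a box map; **`loc_tail`**: the local estimate of `Φ ∘ Sm ∘ f`
over a plate, `Sm` the staircase of the tubes (no hook), `Φ` a soft collapse.
-/

set_option linter.unusedSectionVars false

open Set Metric Topology Filter MeasureTheory
open scoped ENNReal

namespace Vale.Agent.P073.H31.K3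

open _root_.P073 _root_.P073.Net _root_.P073.PA691 _root_.P073.H936 _root_.P073.H936.K3
  _root_.P073.H142 _root_.P073.H236 _root_.P073.H429 _root_.P073.FW31 _root_.P073.H228
  _root_.P073.H228.EP
open Vale.Agent.P073.St (V)
open Vale.Agent.P073.H471 Vale.Agent.P073.H267 Vale.Agent.P073.H267.Geo
open Vale.Agent.P073.H73 (Mesh)
open _root_.P073.H345 (PK PB_sub_PK)
open _root_.P073.H761.SE (cw wlo whi mx sd sd_nonneg mx_nonneg term_le_sd cw_eventually soft_loc)
open _root_.P073.H212.Hk (YOk)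

/-- one-sided estimate of a box map, only the coordinates in the fade zones count -/
theorem hx_sub_le {n : ℕ} (B : HX n) {A : ℝ} (hA : 1 ≤ A)
    (hs : ∀ s t, |B.k s - B.k t| ≤ A * |s - t|) {ρ d : ℝ} (hρ : 0 < ρ) (hr : ∀ i, ρ ≤ B.r i)
    {y y' : Fin n → ℝ} (hd : ∀ i, i ≠ B.j → (B.lo i ≤ y i ∧ y i ≤ B.hi i) ∧
      (B.lo i ≤ y' i ∧ y' i ≤ B.hi i) ∨ |y i - y' i| ≤ d) (hd0 : 0 ≤ d) :
    B.H.toFun y B.j - B.H.toFun y' B.j ≤ A * max 0 (y B.j - y' B.j) + B.D * (d / ρ) := by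
  rcases le_total (y' B.j) (y B.j) with h | h
  · have h1 := (le_abs_self _).trans (hx_abs_sub_le' B hA hs hρ hr hd hd0)
    rwa [abs_of_nonneg (sub_nonneg.2 h), ← max_eq_right (sub_nonneg.2 h)] at h1
  · have h1 : B.H.toFun y B.j ≤ B.H.toFun (Function.update y B.j (y' B.j)) B.j := by
      rw [HX.H_toFun, vc_same, vc_same, Function.update_self, B.vd.mj]
      exact cl_mono B.l1.km.monotone _ h
    have h2 := (le_abs_self _).trans (hx_abs_sub_le' B hA hs hρ hr
      (y := Function.update y B.j (y' B.j)) (y' := y') (d := d) (fun i hi => by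
        rw [Function.update_of_ne hi]; exact hd i hi) hd0)
    rw [Function.update_self, sub_self, abs_zero, mul_zero, zero_add] at h2
    have h3 : 0 ≤ A * max 0 (y B.j - y' B.j) := mul_nonneg (by linarith) (le_max_left _ _)
    linarith

variable {Ω Λ : Set V} {v : V} {K : BoxCx Λ v} {S : Rad K} {W : Wid K S} {B : Boxes W}
  {G : Geo B} {s : K.S}

theorem mx_le_sd (G : Geo B) (s : K.S) (j : Fin 3) (y y' : V) : mx G s j y y' ≤ sd G s y y' := by
  unfold mx
  split_ifs with hj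
  · exact sd_nonneg G s y y'
  · exact max_le (sd_nonneg G s y y') ((le_abs_self _).trans (term_le_sd G s y y' hj))

section tail

variable {γ : Type} {φ : γ → K.G} {Pb : γ → Set V} {FT : HFam 3 γ Λ} {D : Set V}
  {ι : γ → Type} [∀ b, Fintype (ι b)] {l h : ∀ b, ι b → ℝ} {ςt : γ → ℝ}
  {f : ConHomeo Ω Λ} {Sm : ConHomeo Λ Λ} {R : Fac K} {Φ : ConHomeo Λ Λ} {μ : ℝ}

/-- **the coordinate of the edge**, one-sided -/
theorem sm_edge (TL : TLay B φ Pb FT D l h ςt f f Sm) {X : Set V} (hX : X ⊆ Ω)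
    (hY : YOk G s φ FT) {sl κ : ℝ} (hsl1 : 1 ≤ sl)
    (hκ : ∀ b, ∃ ρ > 0, (∀ i, ρ ≤ (FT.X b).r i) ∧ (FT.X b).D / ρ ≤ κ)
    (hsl : ∀ b, slG (FT.X b).al (FT.X b).be (l b) (h b) (ςt b) ≤ sl) {x : V} (hx : x ∈ X)
    (hPB : f.toFun x ∈ G.PB (7 / 8) s)
    (hn : |f.toFun x (K.nrm s) - K.slo s (K.nrm s)| < B.τ s) {b : γ}
    (hb : f.toFun x ∈ (FT.X b).K) :
    K.dir (φ b) ≠ K.nrm s ∧ ∀ᶠ y in 𝓝[X] x,
        (Sm.toFun (f.toFun y) (K.dir (φ b)) - Sm.toFun (f.toFun x) (K.dir (φ b)) ≤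
          mx G s (K.dir (φ b)) (f.toFun x) (f.toFun y) +
            (sl - 1 + κ) * sd G s (f.toFun x) (f.toFun y)) ∧
        (Sm.toFun (f.toFun x) (K.dir (φ b)) - Sm.toFun (f.toFun y) (K.dir (φ b)) ≤
          mx G s (K.dir (φ b)) (f.toFun y) (f.toFun x) +
            (sl - 1 + κ) * sd G s (f.toFun x) (f.toFun y)) := by
  classical
  have hcf : ContinuousWithinAt f.toFun X x := (f.cont.mono hX) x hx
  set e := φ b with he
  have hj : (FT.X b).j = K.dir e := TL.j b
  have hbE : f.toFun x ∈ B.E e := TL.KE b hb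
  have hPK : f.toFun x ∈ PK G s := PB_sub_PK (by norm_num) s hPB
  have hes := sq_of_PK_E hPK hbE
  have hd : K.dir e ≠ K.nrm s := (nrm_ne_dir hes).symm
  obtain ⟨w1, w2⟩ := win_of_PK_E hPK hbE
  have hse : f.toFun x ∈ W.se e := TL.Ese b hb
  refine ⟨hd, ?_⟩
  -- coordinates inside the window
  have hwin : ∀ i, i ≠ K.nrm s → K.slo s i + G.a s < f.toFun x i →
      f.toFun x i < K.shi s i - G.a s → ∀ᶠ y in 𝓝[X] x,
      cw (wlo G s) (whi G s) i (f.toFun y) = f.toFun y i ∧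
        cw (wlo G s) (whi G s) i (f.toFun x) = f.toFun x i := by
    intro i hi a1 a2
    have h1 := cw_eventually (G := G) (s := s) (j := i) (y := f.toFun x) a1 a2
    have h0 := h1.self_of_nhds
    filter_upwards [hcf.eventually h1] with y h2
    exact ⟨h2, h0⟩
  obtain ⟨ρ, hρ, hρr, hρκ⟩ := hκ b
  have hBS := TL.bs b
  have hk := TL.k b
  have hς0 := TL.ς0 b
  have hς1 := TL.ς1 b
  have hsl1' : 1 ≤ slG (FT.X b).al (FT.X b).be (l b) (h b) (ςt b) := hBS.one_le_slG hς1
  have hlip : ∀ s' t', |(FT.X b).k s' - (FT.X b).k t'| ≤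
      slG (FT.X b).al (FT.X b).be (l b) (h b) (ςt b) * |s' - t'| := fun s' t' => by
    rw [hk]; exact hBS.lip hς0 hς1 s' t'
  have hlat : ∀ᶠ y in 𝓝[X] x, ∀ i, i ≠ (FT.X b).j →
      ((FT.X b).lo i ≤ f.toFun y i ∧ f.toFun y i ≤ (FT.X b).hi i) ∧
      ((FT.X b).lo i ≤ f.toFun x i ∧ f.toFun x i ≤ (FT.X b).hi i) ∨
      |f.toFun y i - f.toFun x i| ≤ sd G s (f.toFun x) (f.toFun y) := by
    rw [eventually_all]
    intro i
    by_cases hij : i = (FT.X b).j
    · exact Eventually.of_forall fun y h => absurd hij h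
    have hij' : i ≠ K.dir (φ b) := by rw [← hj]; exact hij
    rcases hY b _ hb hPB hn i hij' with h4 | ⟨h4, h5, h6⟩
    · have h5 : Tendsto (fun y => f.toFun y i) (𝓝[X] x) (𝓝 (f.toFun x i)) :=
        ((continuous_apply i).tendsto _).comp hcf
      filter_upwards [h5.eventually (Ioo_mem_nhds h4.1 h4.2)] with y h6 _
      exact Or.inl ⟨⟨h6.1.le, h6.2.le⟩, h4.1.le, h4.2.le⟩
    · filter_upwards [hwin i h4 h5 h6] with y h7 _
      have := term_le_sd G s (f.toFun x) (f.toFun y) h4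
      rw [h7.1, h7.2] at this
      exact Or.inr this
  filter_upwards [hlat, hwin (K.dir e) hd w1 w2,
    hcf.eventually ((TLay.isOpen_se e).mem_nhds hse)] with y h1 h2 h3
  have hs0 := sd_nonneg G s (f.toFun x) (f.toFun y)
  have ex : Sm.toFun (f.toFun x) = (FT.X b).H.toFun (f.toFun x) := TL.eq_H hse
  have ey : Sm.toFun (f.toFun y) = (FT.X b).H.toFun (f.toFun y) := TL.eq_H h3
  have hD : (FT.X b).D * (sd G s (f.toFun x) (f.toFun y) / ρ) ≤
      κ * sd G s (f.toFun x) (f.toFun y) := by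
    have e1 : (FT.X b).D * (sd G s (f.toFun x) (f.toFun y) / ρ) =
        (FT.X b).D / ρ * sd G s (f.toFun x) (f.toFun y) := by ring
    rw [e1]
    exact mul_le_mul_of_nonneg_right hρκ hs0
  have hm1 : mx G s (K.dir e) (f.toFun x) (f.toFun y) =
      max 0 (f.toFun y (K.dir e) - f.toFun x (K.dir e)) := by
    unfold mx; rw [if_neg hd, h2.1, h2.2]
  have hm2 : mx G s (K.dir e) (f.toFun y) (f.toFun x) =
      max 0 (f.toFun x (K.dir e) - f.toFun y (K.dir e)) := by
    unfold mx; rw [if_neg hd, h2.1, h2.2]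
  have hsd : sd G s (f.toFun y) (f.toFun x) = sd G s (f.toFun x) (f.toFun y) :=
    H761.SE.sd_comm G s _ _
  have hx1 := mx_le_sd G s (K.dir e) (f.toFun x) (f.toFun y)
  have hx2 := mx_le_sd G s (K.dir e) (f.toFun y) (f.toFun x)
  rw [hsd] at hx2
  have hp1 := mx_nonneg G s (K.dir e) (f.toFun x) (f.toFun y)
  have hp2 := mx_nonneg G s (K.dir e) (f.toFun y) (f.toFun x)
  have a1 := hx_sub_le (FT.X b) hsl1' hlip hρ hρr (y := f.toFun y) (y' := f.toFun x) h1 hs0
  have a2 := hx_sub_le (FT.X b) hsl1' hlip hρ hρr (y := f.toFun x) (y' := f.toFun y)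
    (d := sd G s (f.toFun x) (f.toFun y)) (fun i hi => by
      rcases h1 i hi with h4 | h4
      · exact Or.inl ⟨h4.2, h4.1⟩
      · exact Or.inr (by rw [abs_sub_comm]; exact h4)) hs0
  rw [hj, ← hm1] at a1
  rw [hj, ← hm2] at a2
  rw [ex, ey]
  have b1 := mul_le_mul_of_nonneg_right (hsl b) hp1
  have b2 := mul_le_mul_of_nonneg_right (hsl b) hp2
  have c1 : (sl - 1) * mx G s (K.dir e) (f.toFun x) (f.toFun y) ≤
      (sl - 1) * sd G s (f.toFun x) (f.toFun y) :=
    mul_le_mul_of_nonneg_left hx1 (by linarith)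
  have c2 : (sl - 1) * mx G s (K.dir e) (f.toFun y) (f.toFun x) ≤
      (sl - 1) * sd G s (f.toFun x) (f.toFun y) :=
    mul_le_mul_of_nonneg_left hx2 (by linarith)
  constructor
  · nlinarith
  · nlinarith

/-- **the staircase of the tubes and the soft collapse**, over a plate, one-sided -/
theorem loc_tail (TL : TLay B φ Pb FT D l h ςt f f Sm) (HΦ : IsSoft1 B μ R Φ) (hμ : 0 ≤ μ)
    {X : Set V} (hX : X ⊆ Ω)
    (hpos : ∀ x ∈ X, f.toFun x ∈ G.PB (7 / 8) s ∧
      |f.toFun x (K.nrm s) - K.slo s (K.nrm s)| < B.τ s)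
    (hY : YOk G s φ FT) {sl κ m : ℝ} (hsl1 : 1 ≤ sl) (hκ0 : 0 ≤ κ)
    (hκ : ∀ b, ∃ ρ > 0, (∀ i, ρ ≤ (FT.X b).r i) ∧ (FT.X b).D / ρ ≤ κ)
    (hsl : ∀ b, slG (FT.X b).al (FT.X b).be (l b) (h b) (ςt b) ≤ sl)
    (hm : sl - 1 + κ + μ * (sl + κ) ≤ m) {N q t : ℝ}
    (hN : ∀ x ∈ X, ∀ y ∈ X, ‖Sm.toFun (f.toFun y) - Sm.toFun (f.toFun x)‖ ≤ N * ‖y - x‖)
    (hq0 : 0 ≤ q)
    (qs : ∀ x ∈ X, Sm.toFun (f.toFun x) ∈ Zs W s → R.ρs s ≤ q)
    (qe : ∀ x ∈ X, ∀ e, Sm.toFun (f.toFun x) ∈ Ze W e → R.ρe e ≤ q)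
    (qv : ∀ x ∈ X, ∀ i, Sm.toFun (f.toFun x) ∈ Zv W i → R.ρv i ≤ q)
    (hqN : 7 * (q * N) ≤ t) :
    LocEst G s X m t f.toFun fun x => Φ.toFun (Sm.toFun (f.toFun x)) := by
  classical
  intro x hx
  have hcf : ContinuousWithinAt f.toFun X x := (f.cont.mono hX) x hx
  have hqq : ∀ y ∈ X, 7 * (q * ‖Sm.toFun (f.toFun y) - Sm.toFun (f.toFun x)‖) ≤
      t * ‖y - x‖ := by
    intro y hy
    have h1 := mul_le_mul_of_nonneg_left (hN x hx y hy) hq0
    have h2 := mul_le_mul_of_nonneg_right hqN (norm_nonneg (y - x))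
    linarith
  have hμm : μ ≤ m := by nlinarith
  have hm0 : 0 ≤ m := hμ.trans hμm
  by_cases hK : ∃ b, f.toFun x ∈ (FT.X b).K
  · obtain ⟨b, hb⟩ := hK
    obtain ⟨hPB, hn⟩ := hpos x hx
    obtain ⟨hd, hest⟩ := sm_edge TL hX hY hsl1 hκ hsl hx hPB hn hb
    set e := φ b with he
    -- the collapse
    have hfK : Sm.toFun (f.toFun x) ∈ (FT.X b).K := TL.isH.mem hb
    have hfc : ContinuousWithinAt (fun y => Sm.toFun (f.toFun y)) X x :=
      (Sm.cont.comp (f.cont.mono hX) fun y hy => f.mapsTo (hX hy)) x hx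
    have hv' : ∀ i, Sm.toFun (f.toFun x) ∈ interior (Zv W i) → ∀ᶠ y in 𝓝[X] x, ∀ j,
        Φ.toFun (Sm.toFun (f.toFun y)) j - Φ.toFun (Sm.toFun (f.toFun x)) j ≤
          mx G s j (f.toFun x) (f.toFun y) + m * sd G s (f.toFun x) (f.toFun y) + t * ‖y - x‖ ∧
        Φ.toFun (Sm.toFun (f.toFun x)) j - Φ.toFun (Sm.toFun (f.toFun y)) j ≤
          mx G s j (f.toFun y) (f.toFun x) + m * sd G s (f.toFun x) (f.toFun y) +
            t * ‖y - x‖ := by
      intro i hi
      have hqi := qv x hx i (interior_subset hi)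
      filter_upwards [hfc.eventually (isOpen_interior.mem_nhds hi), self_mem_nhdsWithin]
        with y h1 hy j
      have h2 := hqq y hy
      have hn0 := norm_nonneg (Sm.toFun (f.toFun y) - Sm.toFun (f.toFun x))
      have h3 : R.ρv i * ‖Sm.toFun (f.toFun y) - Sm.toFun (f.toFun x)‖ ≤
          q * ‖Sm.toFun (f.toFun y) - Sm.toFun (f.toFun x)‖ :=
        mul_le_mul_of_nonneg_right hqi hn0
      have h5 := abs_le.1 (HΦ.zv i _ (interior_subset h1) _ (interior_subset hi) j)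
      have h6 : 0 ≤ q * ‖Sm.toFun (f.toFun y) - Sm.toFun (f.toFun x)‖ := by positivity
      have h7 := mul_nonneg hm0 (sd_nonneg G s (f.toFun x) (f.toFun y))
      have h8 := mx_nonneg G s j (f.toFun x) (f.toFun y)
      have h9 := mx_nonneg G s j (f.toFun y) (f.toFun x)
      constructor <;> linarith [h5.1, h5.2]
    rcases TL.zone hfK with h1 | h1 | h1
    · have hqi := qe x hx e (B.E_subset e (interior_subset h1))
      filter_upwards [hfc.eventually (isOpen_interior.mem_nhds h1), hest, self_mem_nhdsWithin]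
        with y h2 h3 hy j
      have h4 := hqq y hy
      have hn0 := norm_nonneg (Sm.toFun (f.toFun y) - Sm.toFun (f.toFun x))
      have h5 : R.ρe e * ‖Sm.toFun (f.toFun y) - Sm.toFun (f.toFun x)‖ ≤
          q * ‖Sm.toFun (f.toFun y) - Sm.toFun (f.toFun x)‖ :=
        mul_le_mul_of_nonneg_right hqi hn0
      have hs0 := sd_nonneg G s (f.toFun x) (f.toFun y)
      have hx1 := mx_le_sd G s (K.dir e) (f.toFun x) (f.toFun y)
      have hx2 := mx_le_sd G s (K.dir e) (f.toFun y) (f.toFun x)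
      rw [H761.SE.sd_comm G s (f.toFun y)] at hx2
      have hp1 := mx_nonneg G s (K.dir e) (f.toFun x) (f.toFun y)
      have hp2 := mx_nonneg G s (K.dir e) (f.toFun y) (f.toFun x)
      have hq1 := mx_nonneg G s j (f.toFun x) (f.toFun y)
      have hq2 := mx_nonneg G s j (f.toFun y) (f.toFun x)
      have habs : |Sm.toFun (f.toFun y) (K.dir e) - Sm.toFun (f.toFun x) (K.dir e)| ≤
          (sl + κ) * sd G s (f.toFun x) (f.toFun y) := by
        rw [abs_le]
        constructor <;> nlinarith [h3.1, h3.2]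
      have hμa := mul_le_mul_of_nonneg_left habs hμ
      have hmm := mul_le_mul_of_nonneg_right hm hs0
      have hk0 : 0 ≤ (sl - 1 + κ) * sd G s (f.toFun x) (f.toFun y) :=
        mul_nonneg (by linarith) hs0
      have g1 : (if j = K.dir e then max 0 (Sm.toFun (f.toFun y) j - Sm.toFun (f.toFun x) j)
          else 0) ≤ mx G s j (f.toFun x) (f.toFun y) +
            (sl - 1 + κ) * sd G s (f.toFun x) (f.toFun y) := by
        split_ifs with h9
        · rw [h9]
          exact max_le (by linarith) h3.1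
        · linarith
      have g2 : (if j = K.dir e then max 0 (Sm.toFun (f.toFun x) j - Sm.toFun (f.toFun y) j)
          else 0) ≤ mx G s j (f.toFun y) (f.toFun x) +
            (sl - 1 + κ) * sd G s (f.toFun x) (f.toFun y) := by
        split_ifs with h9
        · rw [h9]
          exact max_le (by linarith) h3.2
        · linarith
      have z1 := HΦ.ze1 e _ (interior_subset h1) _ (interior_subset h2) j
      have z2 := HΦ.ze1 e _ (interior_subset h2) _ (interior_subset h1) j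
      rw [abs_sub_comm, norm_sub_rev] at z2
      have e9 : (sl - 1 + κ + μ * (sl + κ)) * sd G s (f.toFun x) (f.toFun y) =
          (sl - 1 + κ) * sd G s (f.toFun x) (f.toFun y) +
            μ * ((sl + κ) * sd G s (f.toFun x) (f.toFun y)) := by ring
      rw [e9] at hmm
      constructor
      · linarith
      · linarith
    · exact hv' _ h1
    · exact hv' _ h1
  · push Not at hK
    have e := TL.eventually_eq hX hx hK
    have e0 : Sm.toFun (f.toFun x) = f.toFun x := e.self_of_nhdsWithin hx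
    obtain ⟨hPB, hn⟩ := hpos x hx
    have h1 := soft_loc (G := G) HΦ hμ (c := 7 / 8) (by norm_num) hPB hn (q := q)
      (fun h => qs x hx (by rw [e0]; exact h)) (fun i h => qe x hx i (by rw [e0]; exact h))
      (fun i h => qv x hx i (by rw [e0]; exact h))
    filter_upwards [hcf.eventually h1, e, self_mem_nhdsWithin] with y h2 h3 hy j
    have h4 := hqq y hy
    rw [h3, e0] at h4
    show Φ.toFun (Sm.toFun (f.toFun y)) j - Φ.toFun (Sm.toFun (f.toFun x)) j ≤ _ ∧
      Φ.toFun (Sm.toFun (f.toFun x)) j - Φ.toFun (Sm.toFun (f.toFun y)) j ≤ _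
    rw [h3, e0]
    obtain ⟨h6, h7⟩ := h2 j
    have h8 := mul_le_mul_of_nonneg_right hμm (sd_nonneg G s (f.toFun x) (f.toFun y))
    constructor <;> linarith

end tail

end Vale.Agent.P073.H31.K3
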