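import Vale.Agent.P073.H31.SK6
import Vale.Agent.P073.H31.SK9
import Vale.Agent.P073.H761.AuxQ1
import Vale.Agent.P073.H253.AuxMap
import Vale.Agent.P073.H233.DeepNH
import Vale.Agent.P073.H212.Hk5

/-!
# P073, H31, `K3C`, **[SHARP3-TOP]**: the sharp output over the stages

`deepIn_noHang`, `wnd_empty`, `cr_of_s2`, `shIn_of`: the numbers of the stages from `S2`, `S3` (deep
plates have no windows); `locEst_fq`: the one-sided local estimate of the auxiliary map;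
**`sharp3`**: `H212.SharpOut3` for the collapse of the last map.
-/

set_option linter.unusedSectionVars false

open Set Metric Topology Filter MeasureTheory
open scoped ENNReal

namespace Vale.Agent.P073.H31.K3

open _root_.P073 _root_.P073.Net _root_.P073.PA691 _root_.P073.H236 _root_.P073.H579
open _root_.P073.H142 _root_.P073.H429
open _root_.P073.H345 (PK PB_sub_PK PLev tg)
open _root_.P073.H880.RP
open _root_.P073.FW31
open _root_.P073.Croft (varIn onS cross levs)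
open _root_.P073.H212.Hk (yok_of_fit)
open _root_.P073.H761.SE (mx sd)
open Vale.Agent.P073.St (V)
open Vale.Agent.P073.SQ (ev)
open Vale.Agent.P073.H471 Vale.Agent.P073.H267 Vale.Agent.P073.H926
open Vale.Agent.P073.H267.K3
open Vale.Agent.P073.H73 (Mesh onSeg sqr)
open Vale.Agent.P073.H193 (Edges edges)
open Vale.Agent.P073.H304 (Nb Zmax IsEdge)
open Vale.Agent.P073.H239 (tv)
open Vale.Agent.P073.H669 (wl)
open Vale.Agent.P073.H687 (Marks wnd)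
open Vale.Agent.P073.H233 (Small3 SoftQ Xp FQ)
open Vale.Agent.P073.H212.K3 (box4 small_last)

variable {c₀ n δ : ℝ} {j : ℕ} {Ω Λ : Set V} {v w : V} {ρ : V → ℝ} {M : Mesh Ω}
  {h : ConHomeo Ω Λ} {J₀ J : Set (ℕ × (Fin 3 → ℤ))} {P Z : Set M.ι} {K : BoxCx Λ w}
  {D : KIn3 c₀ n j δ v w ρ M h J₀ J P Z} {C : Cells ρ w K} {C₀ μT : ℝ}
  {X : S1 D C C₀ μT} {Y₂ : S2 X} {Ys : Set M.κ} {sc : Sharp} {s : K.S} {k : M.κ}

/-! ### the numbers of the stages -/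

/-- the square has no hanging vertex -/
def NoHang (K : BoxCx Λ w) (s : K.S) : Prop := ∀ H : Vale.Agent.P073.H267.Hang K, H.s ≠ s

/-- **deep plates have no hanging vertices** -/
theorem deepIn_noHang (C : Cells ρ w K) : DeepIn ρ w K (NoHang K) :=
  fun _ _ _ ht _ hn hlo hhi => H233.deep_noHang C ht hn hlo hhi

/-- no windows without hanging vertices -/
theorem wnd_empty {S : Rad K} {Wd : Wid K S} {B : Boxes Wd} {G : Geo B} {Jm R : K.S → ℝ}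
    {Q : K.S → Bool → Finset ℝ} (H : Marks G Jm R Q) (hs : NoHang K s) (β : Bool) :
    wnd R Q s β = ∅ := by
  refine Set.eq_empty_of_forall_notMem fun t ht => ?_
  obtain ⟨q, hq, -⟩ := mem_iUnion₂.1 ht
  obtain ⟨H', h1, -⟩ := H.hang s β q hq
  exact hs H' h1

/-- **the crossings from the levels** of `S2`, on a plate without hanging vertices -/
theorem cr_of_s2 (Y₂ : S2 X) (hs : NoHang K s) {c : ℝ} (hc0 : 0 ≤ c) (hc1 : c ≤ 1)
    (hη : Y₂.η ≤ c / 16) (hμ : ∀ β, Y₂.muP s ≤ c / 4 * wl (D.G C) s β) (e : (edges M).ε) :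
    Cr Y₂ (Y₂.Lw.om s false) (1 + c) (2 * Y₂.εE e) s e :=
  cr_of_plw Y₂.Lw rfl (wnd_empty Y₂.marks hs) hc0 hc1 hη hμ e

/-- **the numbers of the stages**, on the plates without hanging vertices -/
theorem shIn_of (Y₃ : S3 Y₂ Ys sc) {c : ℝ} (hc0 : 0 ≤ c) (hc1 : c ≤ 1) (hη : Y₂.η ≤ c / 16)
    (hμ : ∀ s ∈ pS C J₀, NoHang K s → ∀ β, Y₂.muP s ≤ c / 4 * wl (D.G C) s β) :
    ShIn Y₃ (NoHang K) (fun s => Y₂.Lw.om s false) (1 + c) (fun e => 2 * Y₂.εE e) Y₃.ν where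
  om := fun s _ β => Y₂.Lw.om_eq s β false
  A0 := by linarith
  εE0 := fun e => by have := Y₂.εE0 e; positivity
  cr := fun s hs hH e => cr_of_s2 Y₂ hH hc0 hc1 hη (hμ s hs hH) e
  small := fun s k hk => by
    obtain ⟨hs, hP, x, hx, hxs⟩ := id hk
    obtain ⟨Lam, h0, h1, h2⟩ := Y₃.small ⟨s, hs⟩ k
      ⟨_, ⟨x, hx, rfl⟩, PB_sub_PK (by norm_num) s hxs⟩
    have hf := Y₃.c0 s false
    have ht := Y₃.c0 s true
    refine ⟨Lam, max (Y₃.e false ⟨s, hs⟩ / Y₃.c s false) (Y₃.e true ⟨s, hs⟩ / Y₃.c s true), h0,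
      h1, fun β => ?_, ?_⟩
    · show Y₃.e β ⟨s, hs⟩ ≤ _
      cases β
      · have := le_max_left (Y₃.e false ⟨s, hs⟩ / Y₃.c s false) (Y₃.e true ⟨s, hs⟩ / Y₃.c s true)
        rwa [div_le_iff₀ hf] at this
      · have := le_max_right (Y₃.e false ⟨s, hs⟩ / Y₃.c s false) (Y₃.e true ⟨s, hs⟩ / Y₃.c s true)
        rwa [div_le_iff₀ ht] at this
    · rw [max_mul_of_nonneg _ _ h0]
      refine max_le ?_ ?_
      · rw [div_mul_eq_mul_div, div_le_iff₀ hf]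
        exact h2 false
      · rw [div_mul_eq_mul_div, div_le_iff₀ ht]
        exact h2 true

/-! ### the auxiliary map -/

/-- **the one-sided local estimate of the collapse of the auxiliary map** -/
theorem locEst_fq {Y₃ : S3 Y₂ Ys sc} {Y₄ : S4 Y₃} (Y₅ : S5 Y₄) {μ₂ κ m : ℝ} (hμ : ∀ b, 0 ≤ Y₅.μ b)
    (hμ2 : ∀ b, Y₅.μ b ≤ μ₂) (hμ20 : 0 ≤ μ₂) (hκ0 : 0 ≤ κ)
    (hκ : ∀ b : pG C J₀, Y₅.μ b * (ebe (D.W C) b.1 - eal (D.W C) b.1) ≤
      κ * ((D.G C).uT b.1 / 4))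
    (hm : μ₂ + κ + 20 / (1 / μN n) * (1 + μ₂ + κ) ≤ m)
    {R : Fac K} {N t : M.κ ⊕ M.ι → ℝ} {Φ : ConHomeo Λ Λ} (ht : ∀ a, 0 < t a)
    (HS : Small3 (D.W C) (Xp C J₀) R Y₅.fq.toFun (FQ M) N t) (HΦ : SoftQ D C R Φ)
    (s : K.S) (k : M.κ) (hk : (D.dat C).PkS (D.G C) X.h1 s k) :
    LocEst (D.G C) s (M.F k) m (t (.inl k))
      (fun x => PS.map Y₃.T3 (Y₃.h3.toFun x)) fun x => Φ.toFun (Y₅.fq.toFun x) := by
  have hsub : M.F k ⊆ Ω := Vale.Agent.P073.H193.mesh_sub M k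
  have hμs : 0 ≤ 20 / (1 / μN n) := (H233.soft_mu D).1
  have hT := Y₅.layq ∅
  -- positions
  have hpos : ∀ x ∈ M.F k, Y₃.h4.toFun x ∈ (D.G C).PB (7 / 8) s ∧
      |Y₃.h4.toFun x (K.nrm s) - K.slo s (K.nrm s)| < (D.B C).τ s := fun x hx => by
    have h1 := box4 Y₃ hk hx
    have h2 := (_root_.P073.H919.mem_HB.1 h1).2
    have h3 := (D.B C).τ_pos s
    exact ⟨_root_.P073.H919.HB_PB (by norm_num) (by norm_num) s h1, by linarith⟩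
  have e4 : ∀ x ∈ M.F k, PS.map Y₃.T3 (Y₃.h3.toFun x) = Y₃.h4.toFun x := fun x hx =>
    (Y₃.map4B hk.1 (hsub hx) (pos3' Y₃ hk hx)).1.symm
  have hsm : ∀ x ∈ M.F k, Y₅.fq.toFun x ∈ PK (D.G C) s ∨ ∃ e ∈ pG C J₀,
      Y₅.fq.toFun x ∈ (D.W C).se e := by
    intro x hx
    by_cases hb : ∃ b : pG C J₀, Y₃.h4.toFun x ∈ ((tfam (YS (D.G C)) (rT (D.G C))
        (rT_pos (D.G C)) (fun e k => (YS_p_lt (D.G C) e k).le)
        (fun e k => (YS_q_lt (D.G C) e k).le) Y₅.H.inj Y₅.Th Y₅.ς0 Y₅.ς1).X b).K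
    · obtain ⟨b, hb⟩ := hb
      exact Or.inr ⟨b.1, b.2, hT.Ese b (hT.isH.mem hb)⟩
    · push Not at hb
      have e0 : Y₅.fq.toFun x = Y₃.h4.toFun x :=
        (hT.eventually_eq hsub hx hb).self_of_nhdsWithin hx
      exact Or.inl (by rw [e0]; exact PB_sub_PK (by norm_num) s (hpos x hx).1)
  have hsl := fun x (hx : x ∈ M.F k) => small_last HS hk.1 (k := .inl k) hx (hsm x hx)
  have hd : 0 ≤ diam (M.F k) := diam_nonneg
  have hN0 := HS.pos (.inl k)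
  have ht0 := ht (.inl k)
  have key := loc_tail (s := s) (G := D.G C) (X := M.F k) (sl := 1 + μ₂) (κ := κ) (m := m)
    (N := N (.inl k)) (q := t (.inl k) / 7 / (N (.inl k) * (1 + diam (M.F k)))) (t := t (.inl k))
    hT HΦ.2.1 hμs hsub hpos (yok_of_fit hT.KE hT.j fun b hb => tfit_of hb) (by linarith) hκ0 ?_ ?_
    (by linarith) ?_ (by positivity) (fun x hx => (hsl x hx).1) (fun x hx => (hsl x hx).2.1)
    (fun x hx => (hsl x hx).2.2) ?_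
  · intro x hx
    filter_upwards [key x hx, self_mem_nhdsWithin] with y h1 hy
    show ∀ j, _ ≤ mx (D.G C) s j (PS.map Y₃.T3 (Y₃.h3.toFun x)) (PS.map Y₃.T3 (Y₃.h3.toFun y)) +
        m * sd (D.G C) s (PS.map Y₃.T3 (Y₃.h3.toFun x)) (PS.map Y₃.T3 (Y₃.h3.toFun y)) + _ ∧
      _ ≤ mx (D.G C) s j (PS.map Y₃.T3 (Y₃.h3.toFun y)) (PS.map Y₃.T3 (Y₃.h3.toFun x)) +
        m * sd (D.G C) s (PS.map Y₃.T3 (Y₃.h3.toFun x)) (PS.map Y₃.T3 (Y₃.h3.toFun y)) + _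
    rw [e4 x hx, e4 y hy]
    exact h1
  · intro b
    refine ⟨(D.G C).uT b.1 / 4, by have := (D.G C).uT_pos b.1; positivity, fun i => le_rfl, ?_⟩
    have h1 : 0 < (D.G C).uT b.1 / 4 := by have := (D.G C).uT_pos b.1; positivity
    rw [div_le_iff₀ h1]
    exact ((Y₅.Th b).disp_le (hμ b)).trans (hκ b)
  · intro b
    exact ((Y₅.Th b).slG_le (Y₅.ς0 b).le (Y₅.ς1 b) (hμ b)).trans (by linarith [hμ2 b])
  · exact fun x hx y hy => HS.lip (.inl k) y hy x hx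
  · have h3 : 7 * (t (.inl k) / 7 / (N (.inl k) * (1 + diam (M.F k))) * N (.inl k)) =
        t (.inl k) * (1 / (1 + diam (M.F k))) := by
      have : N (.inl k) ≠ 0 := hN0.ne'
      have : 1 + diam (M.F k) ≠ 0 := by positivity
      field_simp
    rw [h3]
    exact mul_le_of_le_one_right ht0.le (by rw [div_le_one (by positivity)]; linarith)

/-! ### the sharp output -/

/-- **[SHARP3-TOP]**: the sharp output for every sufficiently strong collapse of the last map -/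
theorem sharp3 {Y₃ : S3 Y₂ Ys sc} {Y₄ : S4 Y₃} (Y₅ : S5 Y₄)
    -- the numbers of the stages and of the faces
    {Dp : K.S → Prop} {om0 : K.S → ℝ} {A : ℝ} {εE : (edges M).ε → ℝ} {θ : M.κ → ℝ}
    (IN : ShIn Y₃ Dp om0 A εE θ) (hDp : DeepIn ρ w K Dp)
    {p μ r ν : ℝ} (N1 : FNum1 p μ r sc ν)
    -- the tolerances, the auxiliary map
    {ε : M.κ → ℝ} (hε : ∀ k, 0 < ε k) {om εL : (edges M).ε → ℝ} {lam osc : M.ι → ℝ}
    (T : H233.Tol M h.toFun ε om εL lam osc) {D₀ D₁ Dq : ℝ} (hD₀ : 1 ≤ D₀) (hD₁ : 1 ≤ D₁)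
    (L : H761.PreQ (D.B C) (Xp C J₀) (20 / (1 / μN n)) c₀ ρ h.toFun J₀ P om D₀ D₁ Y₅.fq.toFun)
    (hDq : 160 * D₁ ≤ Dq) (hDq' : 8 * (1 + D₀) + 16 * D₁ ≤ Dq)
    -- the last map on the peeled faces
    {μg : ℝ} {τg : M.κ → ℝ} (hμg : 0 ≤ μg) (hμν : μg ≤ ν) (hτg : ∀ k, 0 ≤ τg k)
    (hτν : ∀ k, τg k ≤ ν) (L1 : ∃ t₁ : M.κ ⊕ M.ι → ℝ, (∀ a, 0 < t₁ a) ∧
      ∀ (R : Fac K) (N t : M.κ ⊕ M.ι → ℝ) (Φ : ConHomeo Λ Λ), (∀ a, 0 < t a) →
      (∀ a, t a ≤ t₁ a) → Small3 (D.W C) (Xp C J₀) R Y₅.f.toFun (FQ M) N t → SoftQ D C R Φ →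
      ∀ s k, (D.dat C).PkS (D.G C) X.h1 s k → L1Est (D.G C) s (M.F k) μg (τg k)
        (fun x => PS.map Y₃.T3 (Y₃.h3.toFun x)) fun x => Φ.toFun (Y₅.f.toFun x))
    -- the auxiliary map on the peeled faces
    {m : ℝ} (hm0 : 0 ≤ m) (hmν : m ≤ ν) (hm1 : 3 * m ≤ 1)
    (LQ : ∀ (R : Fac K) (N t : M.κ ⊕ M.ι → ℝ) (Φ : ConHomeo Λ Λ), (∀ a, 0 < t a) →
      Small3 (D.W C) (Xp C J₀) R Y₅.fq.toFun (FQ M) N t → SoftQ D C R Φ →
      ∀ s k, (D.dat C).PkS (D.G C) X.h1 s k → LocEst (D.G C) s (M.F k) m (t (.inl k))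
        (fun x => PS.map Y₃.T3 (Y₃.h3.toFun x)) fun x => Φ.toFun (Y₅.fq.toFun x))
    -- the tubes
    (TG : ∃ t₀ : M.κ ⊕ M.ι → ℝ, (∀ a, 0 < t₀ a) ∧ ∀ (R : Fac K) (N t : M.κ ⊕ M.ι → ℝ)
      (Φ : ConHomeo Λ Λ), (∀ a, 0 < t a) → (∀ a, t a ≤ t₀ a) →
      Small3 (D.W C) (Xp C J₀) R Y₅.f.toFun (FQ M) N t → SoftQ D C R Φ →
      H253.Tube.TvTube c₀ δ w ρ M h.toFun J₀ ε fun x => Φ.toFun (Y₅.f.toFun x))
    (TQ : ∃ t₀ : M.κ ⊕ M.ι → ℝ, (∀ a, 0 < t₀ a) ∧ ∀ (R : Fac K) (N t : M.κ ⊕ M.ι → ℝ)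
      (Φ : ConHomeo Λ Λ), (∀ a, 0 < t a) → (∀ a, t a ≤ t₀ a) →
      Small3 (D.W C) (Xp C J₀) R Y₅.fq.toFun (FQ M) N t → SoftQ D C R Φ →
      H253.Tube.TvTube c₀ δ w ρ M h.toFun J₀ ε fun x => Φ.toFun (Y₅.fq.toFun x))
    -- the numbers
    (hAq : (1 + 3 * m) * A ≤ 1 + c₀)
    (hAg : (1 + μg) * A ≤ 1 + c₀) (hA : A ≤ 1 + sc.ρ / 64) (hθν : ∀ k, θ k ≤ ν)
    (hθε : ∀ k, 4 * θ k * diam (M.F k) ≤ ε k / 4) (hτε : ∀ k, τg k * diam (M.F k) ≤ ε k / 4)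
    (hεE : ∀ k e, (edges M).seg e ⊆ M.F k → 8 * εE e ≤ ε k)
    (hεE' : ∀ e, 2 * εE e ≤ sc.ρ / 64 * ‖(edges M).b e - (edges M).a e‖)
    (hsm : ∀ s k, (D.dat C).PkS (D.G C) X.h1 s k → ∀ (a : V) (σ : ℝ), 0 < σ →
      M.F k = sqr a (K.nrm s) σ → om0 s ≤ sc.ρ / 4 * (2 * σ)) :
    ∃ t₀ : M.κ ⊕ M.ι → ℝ, (∀ a, 0 < t₀ a) ∧ ∀ (R : Fac K) (N t : M.κ ⊕ M.ι → ℝ)
      (Φ : ConHomeo Λ Λ), (∀ a, 0 < t a) → (∀ a, t a ≤ t₀ a) →
      Small3 (D.W C) (Xp C J₀) R Y₅.f.toFun (FQ M) N t → SoftQ D C R Φ →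
      H212.SharpOut3 p Dq c₀ δ μ r w ρ M h.toFun J₀ Ys ε (Y₅.f.trans Φ) := by
  have hd : ∀ k : M.κ, 0 ≤ diam (M.F k) := fun k => diam_nonneg
  have hν1 : ν ≤ 1 := by linarith [N1.ν_le, N1.ρ1]
  -- the auxiliary map
  have htv : ∃ t₀ : M.κ ⊕ M.ι → ℝ, (∀ a, 0 < t₀ a) ∧ ∀ (R : Fac K) (N t : M.κ ⊕ M.ι → ℝ)
      (Φ : ConHomeo Λ Λ), (∀ a, 0 < t a) → (∀ a, t a ≤ t₀ a) →
      Small3 (D.W C) (Xp C J₀) R Y₅.fq.toFun (FQ M) N t → SoftQ D C R Φ →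
      H212.TvOut c₀ δ w ρ M h.toFun J₀ ε fun x => Φ.toFun (Y₅.fq.toFun x) := by
    obtain ⟨t₂, ht₂, H2⟩ := TQ
    have hb : ∀ k, 0 < ε k / (12 * (1 + diam (M.F k))) := fun k => by
      have h1 := hε k
      have h2 := hd k
      positivity
    refine ⟨fun a => min (t₂ a) (Sum.elim (fun k => ε k / (12 * (1 + diam (M.F k))))
      (fun _ => 1) a), fun a => lt_min (ht₂ a) ?_, fun R N t Φ h0 ht HS HΦ => ?_⟩
    · rcases a with k | i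
      · exact hb k
      · exact one_pos
    · refine H253.Tube.tvOut_of
        (H2 R N t Φ h0 (fun a => (ht a).trans (min_le_left _ _)) HS HΦ) ?_
      refine tvPlate3 IN hDp (μs := 3 * m) (τ := fun k => 3 * t (.inl k))
        (by positivity) hm1 (fun k => by have := h0 (.inl k); positivity)
        (fun s k hk => (LQ R N t Φ h0 HS HΦ s k hk).l1) hAq hεE fun k => ?_
      have h1 : t (.inl k) ≤ ε k / (12 * (1 + diam (M.F k))) :=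
        (ht (.inl k)).trans (min_le_right _ _)
      have h2 := hd k
      rw [le_div_iff₀ (by positivity)] at h1
      have h3 := hθε k
      have h4 := (h0 (.inl k)).le
      nlinarith
  obtain ⟨R', N', t', Φ', ht', htm, HS', HΦ', HA⟩ := H761.exists_auxQ D C T hD₀ hD₁ L hDq hDq'
    htv (tm := Sum.elim (fun _ => ν) fun _ => 1) fun a => by
      rcases a with k | i
      · exact N1.ν0
      · exact one_pos
  -- the last map
  obtain ⟨t₁, ht₁, H1⟩ := L1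
  obtain ⟨t₃, ht₃, H3⟩ := TG
  refine ⟨fun a => min (t₁ a) (t₃ a), fun a => lt_min (ht₁ a) (ht₃ a),
    fun R N t Φ h0 ht HS HΦ => ?_⟩
  have HL := H1 R N t Φ h0 (fun a => (ht a).trans (min_le_left _ _)) HS HΦ
  refine ⟨H253.Tube.tvOut_of (H3 R N t Φ h0 (fun a => (ht a).trans (min_le_right _ _)) HS HΦ)
    (tvPlate3 IN hDp hμg (hμν.trans hν1) hτg HL hAg hεE fun k => ?_),
    fun x => Φ'.toFun (Y₅.fq.toFun x), HA, ?_⟩
  · have h1 := hθε k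
    have h2 := hτε k
    linarith
  · exact faces3 IN hDp N1 hμg hμν hm0 hmν hτg hτν (fun k => (ht' (.inl k)).le)
      (fun k => htm (.inl k)) (LQ R' N' t' Φ' ht' HS' HΦ') HL hθν hsm hA hεE' fun k => (hε k).le

end Vale.Agent.P073.H31.K3
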