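import Vale.Agent.P073.H31.FRound
import Vale.Agent.P073.H237.SharpC6

/-!
# P073, H31, SHARP-WRAP2: **the sharp face maps exist** (core by H237, H194, H228)
-/

namespace P073.FW31

open Vale.Agent.P073.St (V)

/-- **the sharp face map**, without hypotheses -/
theorem sharpFace {e : ℝ} (he : 0 < e) :
    ∃ m, 0 < m ∧ m < 1 / 4 ∧ ∃ K, 0 < K ∧ ∀ β : ℝ, 0 < β → ∃ ρ, 0 < ρ ∧ ρ ≤ 1 / 2 ∧
      SpecSharpFace m K e β ρ :=
  exists_sharpFace (P073.H237.specCore V) he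

end P073.FW31
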