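import Vale.Agent.P073.H31.FMesh
import Vale.Agent.P073.H142.MdPath

/-!
# P073, H31, SHARP-WRAP2: the face maps of ROUND P, sharp on the nearly monotone faces of `Y`
-/

set_option linter.unusedSectionVars false

open Set Metric Topology Filter MeasureTheory
open scoped ENNReal

namespace P073.FW31

open P073 P073.H579 P073.H237 P073.H155 P073.H228 P073.H345 Gon
open P073.H31 (Rct bR)
open Vale.Agent.P073.St (V)
open Vale.Agent.P073.SQ (ev cube)
open Vale.Agent.P073.H73 (Mesh sqr)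
open Vale.Agent.P073.H193 (Edges Cyc)
open Vale.Agent.P073.H304 (IsEdge)
open Vale.Agent.P073.H155 (vv)

/-- constant of the face maps -/
noncomputable def DK (K : ℝ) : ℝ := max 156 (4 * K)

theorem DK_ge (K : ℝ) : 156 ≤ DK K := le_max_left _ _

theorem DK_geK (K : ℝ) : 4 * K ≤ DK K := le_max_right _ _

variable {ζ : Type*} {Ω Λ Λ' : Set V}

/-- the sharp clause of a face of `Y` with own sides -/
def GShO {M : Mesh Ω} (E : Edges M) (h : ConHomeo Ω Λ) (Ak : ζ → M.κ → Prop)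
    (LP : ζ → Fin 3 → Finset ℝ) (loP hiP omP : ζ → Fin 3 → ℝ → ℝ)
    (Y : Set M.κ) (K e β ρ : ℝ) (k : M.κ) (f : V → V) : Prop :=
  ∀ s, Ak s k → k ∈ Y → (∀ e, E.seg e ⊆ M.F k → OwnE E Ak e) →
    ∀ a l σ, M.F k = sqr a l σ → ∀ w₀, 0 < w₀ →
    ShCond M h.toFun (LP s) (omP s) w₀ ρ a l σ →
    ShFace a l σ (LP s) (loP s) (hiP s) (omP s) K e β f

/-- **good face maps, sharp on `Y`** -/
def GFY {M : Mesh Ω} (E : Edges M) (h : ConHomeo Ω Λ) (Ak : ζ → M.κ → Prop)
    (LP : ζ → Fin 3 → Finset ℝ) (loP hiP omP : ζ → Fin 3 → ℝ → ℝ)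
    (La We : E.ε → ℝ) (O : M.κ → V) (r0 R : M.κ → ℝ) (Y : Set M.κ) (K e β ρ : ℝ)
    (k : M.κ) (f : V → V) : Prop :=
  (k ∉ Y → GFP E Ak LP loP hiP omP La We O r0 R k f) ∧
  GFK E Ak LP loP hiP omP La We O r0 (fun k => DK K * (1 + R k / r0 k)) (fun _ => DK K) k f ∧
  GShO E h Ak LP loP hiP omP Y K e β ρ k f

theorem sqr_normal {a : V} {l l' : Fin 3} {σ : ℝ} (hσ : 0 < σ) (h : sqr a l σ = sqr a l' σ) :
    l = l' := by
  by_contra hne
  have h1 : a + σ • ev l ∈ sqr a l' σ := by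
    refine ⟨?_, fun j => ?_⟩
    · simp [ev, Ne.symm hne]
    · by_cases hj : j = l
      · subst hj
        simp [ev, abs_of_pos hσ]
      · simp [ev, hj, hσ.le]
  rw [← h] at h1
  have h2 := h1.1
  simp [ev] at h2
  exact hσ.ne' h2

theorem ShFace.bandD_le {a : V} {l : Fin 3} {σ : ℝ} {L : Fin 3 → Finset ℝ}
    {lo hi om : Fin 3 → ℝ → ℝ} {K e β : ℝ} {f : V → V} (H : ShFace a l σ L lo hi om K e β f)
    (hL : L l = ∅) {x y : V} (hx : x ∈ sqr a l σ) (hy : y ∈ sqr a l σ) :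
    bandD L lo hi om (f x) (f y) ≤ 2 * K * ‖x - y‖ := by
  rw [bandD_eq, ← Finset.add_sum_erase _ _ (Finset.mem_univ l)]
  have h0 : bandJ L lo hi om l (f x) (f y) = 0 := by
    unfold bandJ
    rw [hL, Finset.sum_empty]
  rw [h0, zero_add]
  refine (Finset.sum_le_sum fun j hj => H.lip y hy x hx j (Finset.ne_of_mem_erase hj)).trans
    (le_of_eq ?_)
  rw [Finset.sum_const, Finset.card_erase_of_mem (Finset.mem_univ l), Finset.card_univ,
    Fintype.card_fin, nsmul_eq_mul]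
  norm_num
  ring

/-- the weight of a nearly monotone side -/
theorem side_weight {M : Mesh Ω} {h : ConHomeo Ω Λ} {L : Fin 3 → Finset ℝ}
    {om : Fin 3 → ℝ → ℝ} {w₀ ρ : ℝ} {a : V} {l : Fin 3} {σ : ℝ} (hw₀ : 0 < w₀)
    (H : ShCond M h.toFun L om w₀ ρ a l σ) (hsub : sqr a l σ ⊆ Ω) {i : Fin 3} {x : V}
    (hx : IsSide a l σ i x) : ∃ Y : Finset V, (∀ y ∈ Y, CrsPt x (x + (2 * σ) • ev i) h.toFun L y) ∧
      (1 - ρ) * (2 * σ) ≤ ∑ y ∈ Y, omX h.toFun L om y := by
  classical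
  set q := x + (2 * σ) • ev i with hq
  have hseg : segment ℝ x q ⊆ sqr a l σ := by
    have hc : Convex ℝ (sqr a l σ) := by
      intro u hu v hv s t hs ht hst
      refine ⟨?_, fun j => ?_⟩
      · simp only [Pi.add_apply, Pi.smul_apply, smul_eq_mul, hu.1, hv.1]
        rw [← add_mul, hst, one_mul]
      · have h1 := hu.2 j
        have h2 := hv.2 j
        have e1 : (s • u + t • v) j - a j = s * (u j - a j) + t * (v j - a j) := by
          simp only [Pi.add_apply, Pi.smul_apply, smul_eq_mul]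
          have : a j = (s + t) * a j := by rw [hst, one_mul]
          nlinarith
        rw [e1]
        calc |s * (u j - a j) + t * (v j - a j)| ≤ |s * (u j - a j)| + |t * (v j - a j)| :=
              abs_add_le _ _
          _ = s * |u j - a j| + t * |v j - a j| := by
              rw [abs_mul, abs_mul, abs_of_nonneg hs, abs_of_nonneg ht]
          _ ≤ s * σ + t * σ := by gcongr
          _ = σ := by rw [← add_mul, hst, one_mul]
    exact hc.segment_subset hx.2.1 hx.2.2.1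
  set T := (L i).filter fun c => h.toFun x i < c ∧ c < h.toFun q i with hT
  have hpt : ∀ c, ∃ y, c ∈ T → y ∈ segment ℝ x q ∧ h.toFun y i = c := by
    intro c
    by_cases hc : c ∈ T
    · rw [hT, Finset.mem_filter] at hc
      have hcont : ContinuousOn (fun t : ℝ => h.toFun (AffineMap.lineMap x q t) i) (Icc 0 1) := by
        have h1 : ContinuousOn (fun t : ℝ => h.toFun (AffineMap.lineMap x q t)) (Icc 0 1) := by
          refine h.cont.comp AffineMap.lineMap_continuous.continuousOn fun t ht => hsub (hseg ?_)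
          rw [segment_eq_image_lineMap]
          exact mem_image_of_mem _ ht
        exact (continuous_apply i).comp_continuousOn h1
      have h2 := intermediate_value_Icc (zero_le_one (α := ℝ)) hcont
      simp only [AffineMap.lineMap_apply_zero, AffineMap.lineMap_apply_one] at h2
      obtain ⟨t, ht, htc⟩ := h2 ⟨hc.2.1.le, hc.2.2.le⟩
      refine ⟨AffineMap.lineMap x q t, fun _ => ⟨?_, htc⟩⟩
      rw [segment_eq_image_lineMap]
      exact mem_image_of_mem _ ht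
    · exact ⟨0, fun h => absurd h hc⟩
  choose pt hpt using hpt
  have hinj : InjOn pt T := by
    intro c hc c' hc' he
    rw [← (hpt c hc).2, ← (hpt c' hc').2, he]
  refine ⟨T.image pt, fun y hy => ?_, ?_⟩
  · obtain ⟨c, hc, rfl⟩ := Finset.mem_image.1 hy
    refine ⟨(hpt c hc).1, i, ?_⟩
    rw [(hpt c hc).2]
    exact (Finset.mem_filter.1 hc).1
  · rw [Finset.sum_image hinj]
    have h1 : ∀ c ∈ T, w₀ ≤ omX h.toFun L om (pt c) := by
      intro c hc
      have hcL : h.toFun (pt c) i ∈ L i := by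
        rw [(hpt c hc).2]
        exact (Finset.mem_filter.1 hc).1
      unfold omX
      have h2 : ∀ j ∈ (Finset.univ : Finset (Fin 3)),
          0 ≤ if h.toFun (pt c) j ∈ L j then om j (h.toFun (pt c) j) else 0 := by
        intro j _
        split_ifs with h3
        · rw [H.wt j _ h3]; exact hw₀.le
        · exact le_rfl
      have h3 := Finset.single_le_sum h2 (Finset.mem_univ i)
      rw [if_pos hcL, H.wt i _ hcL] at h3
      exact h3
    calc (1 - ρ) * (2 * σ) ≤ w₀ * T.card := H.nm.one i x hx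
      _ = ∑ c ∈ T, w₀ := by rw [Finset.sum_const, nsmul_eq_mul]; ring
      _ ≤ _ := Finset.sum_le_sum h1


/-- an edge in a square face whose sides are edges is a side -/
theorem edge_side {M : Mesh Ω} {Ed : Edges M} {k₀ : M.κ} {a : V} {l : Fin 3} {σ : ℝ} (hσ : 0 < σ)
    (hF : M.F k₀ = sqr a l σ) (hex : ∀ i : Fin 4, ∃ e : Ed.ε, Ed.seg e = seg (sqv a l σ) i)
    {e' : Ed.ε} (he' : Ed.seg e' ⊆ M.F k₀) : ∃ i : Fin 4, Ed.seg e' = seg (sqv a l σ) i := by
  choose ce hce using hex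
  have hfr : Ed.seg e' ⊆ bd 4 (sqv a l σ) := by
    rw [bd_sq_eq hσ hF, (Vale.Agent.P073.H193.pgn_of_fat (M.fat k₀)).fr_eq]
    exact fun y hy => ⟨he' hy, fun h => Set.disjoint_left.1 (Ed.rel e' k₀) hy h⟩
  have hm : midpoint ℝ (Ed.a e') (Ed.b e') ∈ Ed.seg e' := midpoint_mem_segment _ _
  obtain ⟨i, hi', hmi⟩ := (gon_sq (a := a) (l := l) hσ).exists_seg (hfr hm)
  refine ⟨⟨i, hi'⟩, ?_⟩
  by_contra hne'
  have hne : e' ≠ ce ⟨i, hi'⟩ := fun h => hne' (h ▸ hce ⟨i, hi'⟩)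
  have h1 : midpoint ℝ (Ed.a e') (Ed.b e') ∈ Ed.seg (ce ⟨i, hi'⟩) := by
    rw [hce]; exact hmi
  have h2 := (Ed.meet e' _ hne ⟨hm, h1⟩).1
  have h3 := Ed.ne e'
  rcases h2 with h2 | h2
  · exact h3 ((midpoint_eq_left_iff ℝ).1 h2)
  · exact h3 ((midpoint_eq_right_iff ℝ).1 h2)

theorem norm_ev31 (i : Fin 3) : ‖(ev i : V)‖ = 1 := by
  unfold ev; rw [Pi.norm_single]; simp

theorem convex_sqr31 (a : V) (l : Fin 3) (σ : ℝ) : Convex ℝ (sqr a l σ) := by
  intro u hu v hv s t hs ht hst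
  refine ⟨?_, fun j => ?_⟩
  · simp only [Pi.add_apply, Pi.smul_apply, smul_eq_mul, hu.1, hv.1]
    rw [← add_mul, hst, one_mul]
  · have h1 := hu.2 j
    have h2 := hv.2 j
    have e1 : (s • u + t • v) j - a j = s * (u j - a j) + t * (v j - a j) := by
      simp only [Pi.add_apply, Pi.smul_apply, smul_eq_mul]
      have : a j = (s + t) * a j := by rw [hst, one_mul]
      nlinarith
    rw [e1]
    calc |s * (u j - a j) + t * (v j - a j)| ≤ |s * (u j - a j)| + |t * (v j - a j)| :=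
          abs_add_le _ _
      _ = s * |u j - a j| + t * |v j - a j| := by
          rw [abs_mul, abs_mul, abs_of_nonneg hs, abs_of_nonneg ht]
      _ ≤ s * σ + t * σ := by gcongr
      _ = σ := by rw [← add_mul, hst, one_mul]

theorem sqr_diam {a : V} {l : Fin 3} {σ : ℝ} {x y : V} (hσ : 0 < σ) (hx : x ∈ sqr a l σ)
    (hy : y ∈ sqr a l σ) : ‖x - y‖ ≤ 2 * σ := by
  refine (pi_norm_le_iff_of_nonneg (by linarith)).2 fun j => ?_
  rw [Real.norm_eq_abs, Pi.sub_apply]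
  have h1 := abs_le.1 (hx.2 j)
  have h2 := abs_le.1 (hy.2 j)
  rw [abs_le]
  constructor <;> linarith [h1.1, h1.2, h2.1, h2.2]

section

variable {M : Mesh Ω} {E : Edges M} {h : ConHomeo Ω Λ} {κ : V → V} {Ak : ζ → M.κ → Prop}
  {kP : ζ → Fin 3 → ℝ → ℝ} {LP : ζ → Fin 3 → Finset ℝ} {loP hiP omP : ζ → Fin 3 → ℝ → ℝ}
  {La We : E.ε → ℝ} {O : M.κ → V} {r0 R : M.κ → ℝ} {Y : Set M.κ} {K e β ρ : ℝ} {k : M.κ}
  {f : V → V}

/-- the cone inequality with a factor `q` (hypothesis of `H142.cone_round_q`) -/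
theorem GFY.cone (H : GFY E h Ak LP loP hiP omP La We O r0 R Y K e β ρ k f) {q : ℝ}
    (hq : 1 ≤ q) (hqY : k ∈ Y → DK K / 156 ≤ q)
    (hr0 : 0 < r0 k) (hR : 0 ≤ R k) (hLa0 : ∀ e, 0 ≤ La e) (hWe0 : ∀ e, 0 ≤ We e)
    {s : ζ} (hs : Ak s k) {i : E.ε} (hi : E.seg i ⊆ M.F k) {x y : V}
    (hx : x ∈ coneSetAt (O k) (E.seg i)) (hy : y ∈ coneSetAt (O k) (E.seg i)) :
    bandD (LP s) (loP s) (hiP s) (omP s) (f x) (f y) ≤
      q * (156 * (1 + R k / r0 k) * (La i + (∑ e ∈ (E.fin_face k).toFinset, We e) / r0 k)) *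
        ‖x - y‖ := by
  have h0 : 0 ≤ 156 * (1 + R k / r0 k) *
      (La i + (∑ e ∈ (E.fin_face k).toFinset, We e) / r0 k) := by
    have h1 := hLa0 i
    have h2 : 0 ≤ ∑ e ∈ (E.fin_face k).toFinset, We e := Finset.sum_nonneg fun e _ => hWe0 e
    positivity
  by_cases hk : k ∈ Y
  · refine ((H.2.1 s hs).1 i hi x hx y hy).trans (mul_le_mul_of_nonneg_right ?_ (norm_nonneg _))
    have h1 : DK K / 156 * (156 * (1 + R k / r0 k) *
        (La i + (∑ e ∈ (E.fin_face k).toFinset, We e) / r0 k)) ≤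
        q * (156 * (1 + R k / r0 k) *
          (La i + (∑ e ∈ (E.fin_face k).toFinset, We e) / r0 k)) :=
      mul_le_mul_of_nonneg_right (hqY hk) h0
    refine le_trans (le_of_eq ?_) h1
    ring
  · refine ((H.1 hk s hs).1 i hi x hx y hy).trans (mul_le_mul_of_nonneg_right ?_ (norm_nonneg _))
    nlinarith

/-- the paths -/
theorem GFY.path (H : GFY E h Ak LP loP hiP omP La We O r0 R Y K e β ρ k f) {s : ζ}
    (hs : Ak s k) {x y : V} (hx : x ∈ M.F k) (hy : y ∈ M.F k) :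
    ∃ γ : ℝ → V, ContinuousOn γ (Icc 0 3) ∧
      MapsTo γ (Icc 0 3) (M.F k) ∧ γ 0 = x ∧ γ 3 = y ∧
      H880.cvar (fun s' t => ENNReal.ofReal (bandD (LP s) (loP s) (hiP s) (omP s)
        (f (γ s')) (f (γ t)))) 0 3 ≤
        ENNReal.ofReal (DK K * ∑ e ∈ (E.fin_face k).toFinset, We e) :=
  (H.2.1 s hs).2 x hx y hy

theorem star_R {n : ℕ} {v : ℕ → V} {o : V} {rh r : ℝ} {F : Set V}
    (H : P073.H155.Star n v o rh r F) : 0 ≤ r :=
  (norm_nonneg _).trans (H.R 0 (Nat.zero_le _))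

/-- **[ACT-P] for the sharp face maps**: the hypothesis `hface` of `exists_roundP` with
`GF h2 := GFY E h2 ..` -/
theorem hfaceY (P : PAct M E h κ Λ' Ak kP LP loP hiP omP) (Cy : ∀ k, Cyc E k)
    (hS : ∀ k, P073.H155.Star ((Cy k).n + 1) (vv (Cy k)) (O k) (r0 k) (R k) (M.F k))
    (hIE : ∀ p q, IsEdge M (p, q) → ∃ e : E.ε, E.seg e = segment ℝ p q)
    {mu : E.ε → ℝ} {m : ℝ} (hK : 0 < K) (hρ : ρ ≤ 1 / 2) (hSF : SpecSharpFace m K e β ρ)
    (hmu : ∀ k ∈ Y, ∀ e, E.seg e ⊆ M.F k → mu e = m)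
    (hLa : ∀ e, laE E We e ≤ La e) (hWe0 : ∀ e, 0 ≤ We e)
    (hWe : ∀ s e, EAct E Ak s e → ∀ Y : Finset V,
      (∀ x ∈ Y, CrsPt (E.a e) (E.b e) h.toFun (LP s) x) →
        ∑ x ∈ Y, omX h.toFun (LP s) (omP s) x ≤ We e) :
    ∀ s k, Ak s k → ∀ Φe : ∀ e, E.seg e ⊆ M.F k → ConHomeo (E.seg e) (Pre κ Λ' h (E.seg e)),
      (∀ e he, GEP E h Ak kP LP loP hiP omP La mu e (Φe e he).toFun) →
      (∀ e he e' he', EqOn (Φe e he).toFun (Φe e' he').toFun (E.seg e ∩ E.seg e')) →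
      (∀ e he, ∀ x ∈ E.seg e, x ∈ E.verts → κ ((Φe e he).toFun x) = h.toFun x) →
      ∃ Φ : ConHomeo (M.F k) (Pre κ Λ' h (M.F k)),
        GFY E h Ak LP loP hiP omP La We O r0 R Y K e β ρ k Φ.toFun ∧
        ∀ e he, EqOn Φ.toFun (Φe e he).toFun (E.seg e) := by
  classical
  intro s k hk Φe hGE heq hv
  have hr0 := (hS k).rho0
  have hR0 := star_R (hS k)
  have hlaE : ∀ e, 0 ≤ laE E We e := fun e =>
    div_nonneg (mul_nonneg (by norm_num) (hWe0 e)) (norm_nonneg _)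
  have hLa0 : ∀ e, 0 ≤ La e := fun e => (hlaE e).trans (hLa e)
  have hsum0 : 0 ≤ ∑ e ∈ (E.fin_face k).toFinset, We e := Finset.sum_nonneg fun e _ => hWe0 e
  have hDK := DK_ge K
  have hun : ∀ s', Ak s' k → s' = s := fun s' hs' =>
    P.uniq s' s ((Cy k).c 0) ⟨k, hs', (Cy k).sub 0⟩ ⟨k, hk, (Cy k).sub 0⟩
  by_cases hcase : k ∈ Y ∧ (∀ e, E.seg e ⊆ M.F k → OwnE E Ak e) ∧ ∃ a l σ w₀, M.F k = sqr a l σ ∧
      0 < w₀ ∧ ShCond M h.toFun (LP s) (omP s) w₀ ρ a l σ
  · obtain ⟨hkY, hown, a, l, σ, w₀, hF, hw₀, hSh⟩ := hcase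
    have hσ := hSh.pos
    obtain ⟨A, hA, S, cd, lev, col, h1, h2⟩ := P.pat s k hk
    obtain ⟨Φ, hΦ1, hΦ2⟩ := hSF hF hIE (P.zone s k hk) (P.ins s) h1 h2 (P.vert s k hk) hw₀ hSh
      (La := La) Φe (fun e' he' => by
        obtain ⟨s1, s2, s3, s4, h5, h6⟩ := hGE e' he' s ⟨k, hk, he'⟩
        have h7 := h6 (hown e' he')
        rw [hmu k hkY e' he'] at h7
        exact ⟨s1, s2, s3, s4, h5, h7⟩) hv
    have hFΩ : sqr a l σ ⊆ Ω := hF ▸ Vale.Agent.P073.H193.mesh_sub M k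
    -- the sides
    have hex : ∀ i : Fin 4, ∃ e : E.ε, E.seg e = seg (sqv a l σ) i := by
      intro i
      obtain ⟨h1, h2, h3⟩ := side_ed (a := a) (l := l) hσ i
      have h4 := hSh.nm.edge _ _ h1
      rw [← h2] at h4
      obtain ⟨e, he⟩ := hIE _ _ h4
      exact ⟨e, he.trans h3.symm⟩
    have hW : ∀ e', E.seg e' ⊆ M.F k → σ ≤ We e' ∧ ‖E.b e' - E.a e'‖ = 2 * σ := by
      intro e' he'
      obtain ⟨i, hi⟩ := edge_side hσ hF hex he'
      obtain ⟨h1, h2, h3⟩ := side_ed (a := a) (l := l) hσ i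
      rw [h3, h2] at hi
      obtain ⟨Z, hZ1, hZ2⟩ := side_weight hw₀ hSh hFΩ h1
      have h4 := hWe s e' ⟨k, hk, he'⟩ Z (fun x hx => by
        obtain ⟨h5, h6⟩ := hZ1 x hx
        have h7 : x ∈ E.seg e' := by rw [hi]; exact h5
        exact ⟨h7, h6⟩)
      refine ⟨by nlinarith, ?_⟩
      have h5 : ‖(2 * σ) • (ev (jd (d0 l) (d1 l) (Ends.dir i)) : V)‖ = 2 * σ := by
        rw [norm_smul, norm_ev31, mul_one, Real.norm_eq_abs, abs_of_pos (by linarith)]
      rcases seg_ends hi with ⟨e1, e2⟩ | ⟨e1, e2⟩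
      · rw [e1, e2, add_sub_cancel_left]; exact h5
      · rw [e1, e2, sub_add_cancel_left, norm_neg]; exact h5
    have hconF : ∀ e', E.seg e' ⊆ M.F k → coneSetAt (O k) (E.seg e') ⊆ sqr a l σ := by
      rintro e' he' _ ⟨t, ht, x, hx, rfl⟩
      have hO : O k ∈ sqr a l σ := by
        rw [← hF, ← (hS k).cone]
        exact ⟨0, ⟨le_rfl, zero_le_one⟩, _, mem_image_of_mem _ ⟨le_rfl, Nat.cast_nonneg _⟩,
          by rw [zero_smul, add_zero]⟩
      exact (convex_sqr31 a l σ).add_smul_sub_mem hO (hF ▸ he' hx) ht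
    refine ⟨Φ, ⟨fun h => absurd hkY h, fun s' hs' => ?_, fun s' hs' _ _ a' l' σ' hF' w' hw'
      hSh' => ?_⟩, hΦ2⟩
    · obtain rfl := hun s' hs'
      refine ⟨fun e' he' x hx y hy => ?_, fun x hx y hy => ?_⟩
      · obtain ⟨h3, h4⟩ := hW e' he'
        have h5 := hΦ1.bandD_le hSh.nrm (hconF e' he' hx) (hconF e' he' hy)
        refine h5.trans (mul_le_mul_of_nonneg_right ?_ (norm_nonneg _))
        have h6 : 4 ≤ La e' := by
          refine le_trans ?_ (hLa e')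
          unfold laE
          rw [h4, le_div_iff₀ (by linarith)]
          linarith
        have h7 : 0 ≤ (∑ e ∈ (E.fin_face k).toFinset, We e) / r0 k := div_nonneg hsum0 hr0.le
        have h8 : 1 ≤ 1 + R k / r0 k := by
          linarith [div_nonneg hR0 hr0.le]
        have h9 := DK_geK K
        have h10 : DK K ≤ DK K * (1 + R k / r0 k) := by nlinarith
        have h11 : DK K * (1 + R k / r0 k) * 1 ≤ DK K * (1 + R k / r0 k) *
            (La e' + (∑ e ∈ (E.fin_face k).toFinset, We e) / r0 k) :=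
          mul_le_mul_of_nonneg_left (by linarith) (by linarith)
        linarith
      · rw [hF] at hx hy
        have hcx := convex_sqr31 a l σ
        have hmem : ∀ t ∈ Icc (0:ℝ) 3, x + (t / 3) • (y - x) ∈ sqr a l σ := fun t ht =>
          hcx.add_smul_sub_mem hx hy ⟨by linarith [ht.1], by linarith [ht.2]⟩
        have h0 : 0 ≤ 2 * K * ‖y - x‖ / 3 := by positivity
        refine ⟨fun t => x + (t / 3) • (y - x), by fun_prop, fun t ht => hF ▸ hmem t ht, ?_, ?_,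
          (P073.H142.cvar_le_mul (by norm_num) h0 fun s₁ hs₁ t ht hst =>
            ENNReal.ofReal_le_ofReal ?_).trans (ENNReal.ofReal_le_ofReal ?_)⟩
        · simp
        · show x + ((3:ℝ) / 3) • (y - x) = y
          rw [div_self (by norm_num), one_smul, add_sub_cancel]
        · refine (hΦ1.bandD_le hSh.nrm (hmem s₁ hs₁) (hmem t ht)).trans (le_of_eq ?_)
          have e1 : x + (s₁ / 3) • (y - x) - (x + (t / 3) • (y - x)) =
              -(((t - s₁) / 3) • (y - x)) := by module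
          rw [e1, norm_neg, norm_smul, Real.norm_eq_abs, abs_of_nonneg (by linarith)]
          ring
        · have h1 := sqr_diam hσ hy hx
          have h2 : σ ≤ ∑ e ∈ (E.fin_face k).toFinset, We e := by
            have h3 : (Cy k).c 0 ∈ (E.fin_face k).toFinset := by
              rw [Set.Finite.mem_toFinset]
              exact (Cy k).sub 0
            exact (hW _ ((Cy k).sub 0)).1.trans
              (Finset.single_le_sum (f := We) (fun e _ => hWe0 e) h3)
          have h9 := DK_geK K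
          calc 2 * K * ‖y - x‖ / 3 * (3 - 0) = 2 * K * ‖y - x‖ := by ring
            _ ≤ 2 * K * (2 * σ) := by gcongr
            _ = 4 * K * σ := by ring
            _ ≤ DK K * σ := mul_le_mul_of_nonneg_right h9 hσ.le
            _ ≤ _ := mul_le_mul_of_nonneg_left h2 (by linarith)
    · obtain rfl := hun s' hs'
      obtain ⟨rfl, rfl⟩ := Vale.Agent.P073.H155.sqr_unique hσ hSh'.pos (hF.symm.trans hF')
      obtain rfl := sqr_normal hσ (hF.symm.trans hF')
      exact hΦ1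
  · obtain ⟨Φ, hΦ1, hΦ2⟩ := P.hface Cy hS hLa0 hWe s k hk Φe hGE heq hv
    refine ⟨Φ, ⟨fun _ => hΦ1, fun s' hs' => ⟨fun e' he' x hx y hy => ?_, fun x hx y hy => ?_⟩,
      fun s' hs' hkY hown a l σ hF w₀ hw₀ hSh => ?_⟩, hΦ2⟩
    · refine ((hΦ1 s' hs').1 e' he' x hx y hy).trans
        (mul_le_mul_of_nonneg_right ?_ (norm_nonneg _))
      have h1 := hLa0 e'
      have h2 : 0 ≤ (∑ e ∈ (E.fin_face k).toFinset, We e) / r0 k := div_nonneg hsum0 hr0.le
      have h3 : 0 ≤ 1 + R k / r0 k := by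
        linarith [div_nonneg hR0 hr0.le]
      refine mul_le_mul_of_nonneg_right (mul_le_mul_of_nonneg_right hDK h3) (by linarith)
    · obtain ⟨γ, g1, g2, g3, g4, g5⟩ := (hΦ1 s' hs').2 x hx y hy
      refine ⟨γ, g1, g2, g3, g4, g5.trans (ENNReal.ofReal_le_ofReal ?_)⟩
      exact mul_le_mul_of_nonneg_right (by linarith) hsum0
    · exfalso
      obtain rfl := hun s' hs'
      exact hcase ⟨hkY, hown, a, l, σ, w₀, hF, hw₀, hSh⟩

end

end P073.FW31
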