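import Vale.Agent.P073.H761.SEnd10
import Vale.Agent.P073.H345.RoundP
import Vale.Agent.P073.H142.PCone4
import Vale.Agent.P073.H31.FHface

/-!
# P073, H31, [SHCOND]: the conditions for a sharp face, after ROUND P

`shCond_of`: a square face in a plate whose sides are nearly monotone for the final map satisfies
`ShCond` for the exchanged map `h2` and the levels of the plate.
-/

set_option linter.unusedSectionVars false

open Set Metric Topology Filter MeasureTheory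
open scoped ENNReal

namespace P073.FW31

open P073 P073.Net P073.PA691 P073.H236 P073.H579 P073.H345 P073.H142 P073.H761.SE Gon
open P073.H237 (Ends ed)
open P073.H228 (jd)
open Vale.Agent.P073.St (V)
open Vale.Agent.P073.SQ (ev cube)
open Vale.Agent.P073.H471 Vale.Agent.P073.H267
open Vale.Agent.P073.H73 (Mesh sqr)
open Vale.Agent.P073.H193 (Edges Cyc edges)
open Vale.Agent.P073.H304 (IsEdge)
open Vale.Agent.P073.H805 (RIn ROut)

/-- reversed fibres -/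
theorem affAt_symm {a b : V} {h f : V → V} {L : Fin 3 → Finset ℝ} {lo hi : Fin 3 → ℝ → ℝ}
    {s2 s3 : V → ℝ} {x : V} (hlt : s2 x < s3 x) (H : AffAt a b h f L lo hi s2 s3 x) :
    AffAt b a h f L lo hi (fun x => 1 - s3 x) (fun x => 1 - s2 x) x := by
  intro j hj
  have hd : s3 x - s2 x ≠ 0 := by
    have : 0 < s3 x - s2 x := by linarith
    exact this.ne'
  have e1 : 1 - s2 x - (1 - s3 x) = s3 x - s2 x := by ring
  have e2 : ∀ s : ℝ, (1 - s - s2 x) / (s3 x - s2 x) = 1 - (s - (1 - s3 x)) / (s3 x - s2 x) := by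
    intro s
    rw [eq_sub_iff_add_eq, ← add_div, div_eq_one_iff_eq hd]
    ring
  rcases H j hj with h1 | h1
  · right
    intro s hs
    have hs' : 1 - s ∈ Icc (s2 x) (s3 x) := ⟨by linarith [hs.2], by linarith [hs.1]⟩
    rw [← AffineMap.lineMap_apply_one_sub a b s, h1 _ hs', e1, e2]
    ring
  · left
    intro s hs
    have hs' : 1 - s ∈ Icc (s2 x) (s3 x) := ⟨by linarith [hs.2], by linarith [hs.1]⟩
    rw [← AffineMap.lineMap_apply_one_sub a b s, h1 _ hs', e1, e2]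
    ring

theorem crsPt_of_seg {a b p q : V} (hs : segment ℝ a b = segment ℝ p q) {h : V → V}
    {L : Fin 3 → Finset ℝ} (x : V) : CrsPt p q h L x ↔ CrsPt a b h L x := by
  unfold CrsPt
  rw [hs]

variable {Ω Λ : Set V} {v : V} {K : BoxCx Λ v} {S : Rad K} {W : Wid K S} {B : Boxes W}
  {G : Geo B} {M : Mesh Ω} {E : Edges M} {Pr : Set M.ι} {h1 h2 h3 : ConHomeo Ω Λ}
  {κ₀ κ₁ : V → V} {L : PLev G} {F : Bool → BFam 3 K.S Λ} {T : Bool → ConHomeo Λ Λ} {s : K.S}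
  {om0 e0 θ : ℝ} {R : Fac K} {Φ : ConHomeo Λ Λ} {μ : ℝ} {N t : M.κ → ℝ} {La mu : E.ε → ℝ}
  {GF : M.κ → (V → V) → Prop} {k : M.κ} {a : V} {σ Lam r ρ₁ ρ : ℝ}

/-- the bands on an own edge of a plate, any orientation -/
theorem ramp_seg (H : PlD L F T s om0 e0 θ)
    (RP : RPOut G M E Pr L h1 κ₀ κ₁ h2
      (GEP E h2 (AkP G M h1 univ) L.kP L.lv L.loP L.hiP L.omP La mu) GF h3)
    (hk : AkP G M h1 univ s k) {e : E.ε} (he : E.seg e ⊆ M.F k)
    (hown : OwnE E (AkP G M h1 univ) e) {p q : V} (hpq : E.seg e = segment ℝ p q) :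
    ∃ (X : Finset V) (s2 s3 : V → ℝ), (∀ x, x ∈ X ↔ CrsPt p q h2.toFun (L.lv s) x) ∧
      ∀ r ∈ Icc (0:ℝ) 1, ∀ r' ∈ Icc (0:ℝ) 1, r ≤ r' →
      bandD (L.lv s) (L.loP s) (L.hiP s) (L.omP s) (h3.toFun (AffineMap.lineMap p q r))
        (h3.toFun (AffineMap.lineMap p q r')) ≤
      om0 * (∑ x ∈ X, ramp (s2 x) (s3 x) r') - om0 * ∑ x ∈ X, ramp (s2 x) (s3 x) r := by
  have hsub := Vale.Agent.P073.H238.mesh_sub M k
  have hPA := pact_P L RP.rin RP.rout (β := false) RP.isQ₀ RP.isQ₁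
  obtain ⟨f, h4, h5⟩ := RP.out.edge k ⟨s, hk⟩ e he
  obtain ⟨t1, t2, t3, t4, h6, h7⟩ := h4 s ⟨k, hk, he⟩
  obtain ⟨X, hX, -, haff⟩ := h7 hown
  have hw : ∀ j, ∀ c ∈ L.lv s j, L.omP s j c = om0 := by
    intro j c hc
    by_cases hj : j = K.nrm s
    · subst hj
      rw [L.lv_nrm] at hc
      exact absurd hc (Finset.notMem_empty _)
    · obtain ⟨β, rfl⟩ := H.pls.cov hj
      exact H.pls.omj β c
  have hun : ∀ x ∈ E.seg e, ∀ j j', h2.toFun x j ∈ L.lv s j → h2.toFun x j' ∈ L.lv s j' →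
      j = j' := fun x hx j j' hj hj' => hPA.one s k hk e he x hx j j' hj hj'
  have hfc : ContinuousOn f (E.seg e) :=
    (h3.cont.mono (he.trans hsub)).congr fun x hx => (h5 hx).symm
  have him : ∀ x ∈ E.seg e, prodK (L.kP s) (f x) ∈ h2.toFun '' E.seg e := by
    intro x hx
    have h7 : h3.toFun x ∈ Pre (κ₁ ∘ κ₀) Λ h2 (E.seg e) := by
      rw [← RP.out.img_edge]; exact mem_image_of_mem _ hx
    have h8 := (hPA.zone s k hk).z2 _ h7.1 (image_mono he h7.2)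
    have h9 : (κ₁ ∘ κ₀) (h3.toFun x) ∈ h2.toFun '' E.seg e := h7.2
    rw [h8] at h9
    rw [← h5 hx]
    exact h9
  have key : ∀ {a b : V} {t1 t2 t3 t4 : V → ℝ}, segment ℝ a b = E.seg e →
      EdgeNum a b h2.toFun (L.kP s) (L.lv s) (L.loP s) (L.hiP s) (L.omP s) (La e) f t1 t2 t3 t4 →
      (∀ x ∈ X, AffAt a b h2.toFun f (L.lv s) (L.loP s) (L.hiP s) t2 t3 x) →
      ∀ r ∈ Icc (0:ℝ) 1, ∀ r' ∈ Icc (0:ℝ) 1, r ≤ r' →
      bandD (L.lv s) (L.loP s) (L.hiP s) (L.omP s) (h3.toFun (AffineMap.lineMap a b r))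
        (h3.toFun (AffineMap.lineMap a b r')) ≤
      om0 * (∑ x ∈ X, ramp (t2 x) (t3 x) r') - om0 * ∑ x ∈ X, ramp (t2 x) (t3 x) r := by
    intro a b t1 t2 t3 t4 hab hN hA r hr r' hr' hrr
    have hm : ∀ u ∈ Icc (0:ℝ) 1, (AffineMap.lineMap a b u : V) ∈ E.seg e := fun u hu => by
      rw [← hab]; exact lineMap_mem_segment' hu
    rw [h5 (hm r hr), h5 (hm r' hr')]
    refine band_ramp hN (L.ins1P s) (fun x hx => hun x (hab ▸ hx)) hw H.om0_pos.le
      (fun x => (hX x).trans (crsPt_of_seg (hab : segment ℝ a b = segment ℝ (E.a e) (E.b e)) x))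
      hA (hab.symm ▸ hfc) (fun x hx => ?_) hr hr' hrr
    rw [hab] at hx ⊢
    exact him x hx
  rcases seg_ends hpq with ⟨e1, e2⟩ | ⟨e1, e2⟩
  · refine ⟨X, t2, t3, fun x => ?_, ?_⟩
    · rw [hX x, e1, e2]
    · rw [← e1, ← e2]
      exact key rfl h6 haff
  · refine ⟨X, fun x => 1 - t3 x, fun x => 1 - t2 x, fun x => ?_, ?_⟩
    · rw [hX x, e1, e2]
      exact (crsPt_of_seg (segment_symm ℝ p q) x)
    · rw [← e1, ← e2]
      exact key (segment_symm ℝ _ _) h6.symm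
        fun x hx => affAt_symm (h6.a3 x ((hX x).1 hx)) (haff x hx)

/-- **[SHCOND]** -/
theorem shCond_of (H : PlD L F T s om0 e0 θ)
    (RP : RPOut G M E Pr L h1 κ₀ κ₁ h2
      (GEP E h2 (AkP G M h1 univ) L.kP L.lv L.loP L.hiP L.omP La mu) GF h3)
    (hIE : ∀ p q, IsEdge M (p, q) → ∃ e : E.ε, E.seg e = segment ℝ p q)
    (HΦ : IsSoft1 B μ R Φ) (hμ : 0 ≤ μ)
    (HS : Small W R (fun x => PS.map T (h3.toFun x)) M.F N t) (ht : 0 ≤ t k)
    (hk : AkP G M h1 univ s k)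
    (hown : ∀ e, E.seg e ⊆ M.F k → OwnE E (AkP G M h1 univ) e)
    (hσ : 0 < σ) (hF : M.F k = sqr a (K.nrm s) σ)
    (hLam : ∀ x ∈ M.F k, ∀ y ∈ M.F k, ‖h3.toFun x - h3.toFun y‖ ≤ Lam * ‖x - y‖)
    (hside : ∀ i x, IsSide a (K.nrm s) σ i x → IsEdge M (x, x + (2 * σ) • ev i) ∧
      (1 - r) * (2 * σ) ≤ Φ.toFun (PS.map T (h3.toFun (x + (2 * σ) • ev i))) i -
        Φ.toFun (PS.map T (h3.toFun x)) i ∧
      ∀ Y : Finset V, (∀ y ∈ Y, CrsPt x (x + (2 * σ) • ev i) h2.toFun (L.lv s) y) →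
        om0 * Y.card ≤ (1 + ρ₁) * (2 * σ))
    (hsm : om0 ≤ ρ₁ * (2 * σ)) (hr : 0 ≤ r)
    (num : (1 + 2 * μ) * (1 + ρ₁) + 2 * ((1 + 2 * μ) * (θ * Lam) + t k) + 2 * r + ρ₁ ≤ 1 + ρ) :
    ShCond M h2.toFun (L.lv s) (L.omP s) om0 ρ a (K.nrm s) σ := by
  have hsub := Vale.Agent.P073.H238.mesh_sub M k
  have hPA := pact_P L RP.rin RP.rout (β := false) RP.isQ₀ RP.isQ₁
  have hom := H.om0_pos
  have hθ := H.θ_nonneg
  have h2σ : 0 < 2 * σ := by linarith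
  have hρ₁ : 0 < ρ₁ := by
    by_contra hcon
    push Not at hcon
    nlinarith
  -- the constant is nonnegative
  have hLam0 : 0 ≤ Lam := by
    obtain ⟨⟨-, m0, m1, -⟩, -, -⟩ := side_ed (a := a) (l := K.nrm s) hσ 0
    rw [← hF] at m0 m1
    have h4 := hLam _ m1 _ m0
    have h5 : ‖sqf a (K.nrm s) σ (ed 0 0) + (2 * σ) • (ev (jd (d0 (K.nrm s)) (d1 (K.nrm s))
        (Ends.dir 0)) : V) - sqf a (K.nrm s) σ (ed 0 0)‖ = 2 * σ := by
      rw [add_sub_cancel_left, norm_smul, norm_ev31, mul_one, Real.norm_eq_abs,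
        abs_of_pos h2σ]
    rw [h5] at h4
    have h6 := (norm_nonneg _).trans h4
    exact nonneg_of_mul_nonneg_left h6 h2σ
  have hτ : 0 ≤ (1 + 2 * μ) * (θ * Lam) + t k := by positivity
  have hρ : ρ₁ ≤ ρ := by
    have : 0 ≤ 2 * μ * (1 + ρ₁) := by positivity
    nlinarith
  refine ⟨hσ, L.lv_nrm s, fun j c hc => ?_, hsm.trans (mul_le_mul_of_nonneg_right hρ h2σ.le),
    ⟨fun i x hx => (hside i x hx).1, fun i x hx Y hY => ?_, fun i x hx => ?_⟩⟩
  · by_cases hj : j = K.nrm s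
    · subst hj
      rw [L.lv_nrm] at hc
      exact absurd hc (Finset.notMem_empty _)
    · obtain ⟨β, rfl⟩ := H.pls.cov hj
      exact H.pls.omj β c
  · exact ((hside i x hx).2.2 Y hY).trans
      (mul_le_mul_of_nonneg_right (by linarith) h2σ.le)
  · obtain ⟨h4, h5, h6⟩ := hside i x hx
    obtain ⟨e, he⟩ := hIE _ _ h4
    set q : V := x + (2 * σ) • ev i with hq
    have hi := hx.1
    have hxF : x ∈ M.F k := hF ▸ hx.2.1
    have hqF : q ∈ M.F k := hF ▸ hx.2.2.1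
    have heF : E.seg e ⊆ M.F k := by
      rw [he, hF]
      exact (convex_sqr31 a (K.nrm s) σ).segment_subset hx.2.1 hx.2.2.1
    have hsegF : segment ℝ x q ⊆ M.F k := he ▸ heF
    obtain ⟨X, s2, s3, hX, hR⟩ := ramp_seg H RP hk heF (hown e heF) he
    have hpos : ∀ y ∈ M.F k, h3.toFun y ∈ G.PB (7 / 8) s ∧
        |h3.toFun y (K.nrm s) - K.slo s (K.nrm s)| < B.τ s := fun y hy =>
      peeled_mem RP.rin RP.rout RP.isQ₀ RP.isQ₁ RP.out hk hy
    have h7 := H.disp_le HΦ hμ HS hsegF (map_contOn h3 T (hsegF.trans hsub))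
      (fun y hy => hpos y (hsegF hy)) (fun y hy z hz => hLam y (hsegF hy) z (hsegF hz)) ht hR hi
    have hnorm : ‖q - x‖ = 2 * σ := by
      rw [hq, add_sub_cancel_left, norm_smul, norm_ev31, mul_one, Real.norm_eq_abs,
        abs_of_pos h2σ]
    rw [hnorm] at h7
    have h8 := h6 X fun y hy => (hX y).1 hy
    -- the vertices
    have hxv : x ∈ E.verts ∧ q ∈ E.verts := by
      rcases seg_ends he with ⟨e1, e2⟩ | ⟨e1, e2⟩
      · exact ⟨e1 ▸ Or.inl ⟨e, rfl⟩, e2 ▸ Or.inr ⟨e, rfl⟩⟩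
      · exact ⟨e2 ▸ Or.inr ⟨e, rfl⟩, e1 ▸ Or.inl ⟨e, rfl⟩⟩
    have hprod : ∀ y ∈ E.verts, y ∈ M.F k → prodK (L.kP s) (h3.toFun y) = h2.toFun y := by
      intro y hy hyF
      rw [← RP.out.vert y hy]
      have h9 : h3.toFun y ∈ Pre (κ₁ ∘ κ₀) Λ h2 (M.F k) := by
        rw [← RP.out.img_face]; exact mem_image_of_mem _ hyF
      exact ((hPA.zone s k hk).z2 _ h9.1 h9.2).symm
    have H' : PlD L F T s om0 (om0 / 2) θ := ⟨H.ps, H.om, fun β => by
      have h9 := (F β).heo s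
      have h10 := H.pls.omb β
      unfold BFam.om at h10
      linarith, H.θ⟩
    have h9 := H'.pls.dispW (al_eq H.ps.B) (be_eq H.ps.B) (hprod x hxv.1 hxF) (hprod q hxv.2 hqF)
      hi (hPA.vert s k hk x hxv.1 hxF i) (hPA.vert s k hk q hxv.2 hqF i)
      (H.prd (hpos x hxF).1) (H.prd (hpos q hqF).1)
    have h10 : cw (wlo G s) (whi G s) i (PS.map T (h3.toFun q)) -
        cw (wlo G s) (whi G s) i (PS.map T (h3.toFun x)) ≤
        om0 * (((L.lv s i).filter fun c => h2.toFun x i < c ∧ c < h2.toFun q i).card : ℕ) +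
          2 * (om0 / 2) := h9
    have h11 : (1 / 2 + μ) * (om0 * X.card) ≤ (1 / 2 + μ) * ((1 + ρ₁) * (2 * σ)) :=
      mul_le_mul_of_nonneg_left h8 (by linarith)
    have h12 := mul_le_mul_of_nonneg_right num h2σ.le
    nlinarith

end P073.FW31
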