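import Vale.Agent.P073.H31.ShRot
import Vale.Agent.P073.H237.SharpDefs

/-!
# P073, H31, SHARP2: change from the chart with base corner `(1,1)` to the chart with base
corner `(0,0)`
-/

set_option linter.unusedSectionVars false

open Set Metric Topology Filter

namespace P073.H31

open P073.H339 P073.GB200 P073.H341 P073.H237

variable {E : Type*} [NormedAddCommGroup E] [NormedSpace ℝ E]

/-- points of the boundary lie on an edge -/
theorem exists_ed {y : ℝ × ℝ} (hy : y ∈ bR) : ∃ (e : Fin 4) (t : ℝ), t ∈ Icc (0:ℝ) 1 ∧ y = ed e t := by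
  obtain ⟨⟨h1, h2⟩, h3 | h3 | h3 | h3⟩ := hy
  · exact ⟨3, y.2, h2, Prod.ext h3 rfl⟩
  · exact ⟨1, y.2, h2, Prod.ext h3 rfl⟩
  · exact ⟨0, y.1, h1, Prod.ext rfl h3⟩
  · exact ⟨2, y.1, h1, Prod.ext rfl h3⟩

theorem ed_bR {e : Fin 4} {t : ℝ} (ht : t ∈ Icc (0:ℝ) 1) : ed e t ∈ bR := by
  have h0 : (0:ℝ) ∈ Icc (0:ℝ) 1 := ⟨le_rfl, zero_le_one⟩
  have h1 : (1:ℝ) ∈ Icc (0:ℝ) 1 := ⟨zero_le_one, le_rfl⟩
  fin_cases e
  · exact ⟨⟨ht, h0⟩, Or.inr (Or.inr (Or.inl rfl))⟩
  · exact ⟨⟨h1, ht⟩, Or.inr (Or.inl rfl)⟩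
  · exact ⟨⟨ht, h1⟩, Or.inr (Or.inr (Or.inr rfl))⟩
  · exact ⟨⟨h0, ht⟩, Or.inl rfl⟩

theorem bR_sub_Rct : bR ⊆ Rct := fun _ h => h.1

/-- a chart restricted to the boundary -/
noncomputable def bdC (κ : ConHomeo Rct Rct) (h : κ.toFun '' bR = bR) : ConHomeo bR bR :=
  (κ.restr locCone_bR.conicalSet bR_sub_Rct).cast rfl h

theorem bdC_toFun (κ : ConHomeo Rct Rct) (h : κ.toFun '' bR = bR) : (bdC κ h).toFun = κ.toFun := rfl

theorem bdC_invFun (κ : ConHomeo Rct Rct) (h : κ.toFun '' bR = bR) :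
    (bdC κ h).invFun = κ.invFun := rfl

/-- the change of charts on the boundary -/
noncomputable def rhoC (κ κ' : ConHomeo Rct Rct) (h : κ.toFun '' bR = bR)
    (h' : κ'.toFun '' bR = bR) : ConHomeo bR bR := (bdC κ' h').symm.trans (bdC κ h)

section charts

variable {m K K' : ℝ} {κ κ' : ConHomeo Rct Rct} (hBL : ChartBL m K κ) (hTR : ChartTR m K' κ')
  (m0 : 0 < m) (m1 : m < 1 / 4)

include hBL hTR

theorem rhoC_eq {y : ℝ × ℝ} (hy : y ∈ bR) :
    (rhoC κ κ' hBL.bd hTR.bd).toFun (κ'.toFun y) = κ.toFun y := by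
  show κ.toFun (κ'.invFun (κ'.toFun y)) = _
  rw [κ'.left_inv (bR_sub_Rct hy)]

/-- every boundary point of the chart `TR` -/
theorem exists_pre {x : ℝ × ℝ} (hx : x ∈ bR) : ∃ (e : Fin 4) (t : ℝ), t ∈ Icc (0:ℝ) 1 ∧
    x = κ'.toFun (ed e t) ∧ (rhoC κ κ' hBL.bd hTR.bd).toFun x = κ.toFun (ed e t) := by
  have hx' := hx
  rw [← hTR.bd] at hx'
  obtain ⟨y, hy, rfl⟩ := hx'
  obtain ⟨e, t, ht, rfl⟩ := exists_ed hy
  exact ⟨e, t, ht, rfl, rhoC_eq hBL hTR hy⟩

end charts

section dead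

variable {m K : ℝ} {κ : ConHomeo Rct Rct} (m0 : 0 < m) (m1 : m < 1 / 4)

include m0 m1

/-- near its base corner the chart `BL` avoids the middle of the top side -/
theorem deadBL (hBL : ChartBL m K κ) {e : Fin 4} (he : e = 0 ∨ e = 3) {t : ℝ}
    (ht : t ∈ Icc (0:ℝ) 1) (htm : t < m) (h1 : (κ.toFun (ed e t)).2 = 1) :
    (κ.toFun (ed e t)).1 < m / 4 ∨ 1 - m / 4 < (κ.toFun (ed e t)).1 := by
  by_contra hc
  push Not at hc
  set b := (κ.toFun (ed e t)).1 with hb
  have hx : κ.toFun (ed e t) = (b, 1) := Prod.ext rfl h1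
  have inj : ∀ (e' : Fin 4) (t' : ℝ), t' ∈ Icc (0:ℝ) 1 → ((e' = 0 ∨ e' = 3) → m ≤ t') →
      tpBL e' t' = b → ed e t = ed e' t' := by
    intro e' t' ht' h2 h3
    apply κ.injOn (bR_sub_Rct (ed_bR ht)) (bR_sub_Rct (ed_bR ht'))
    rw [hx, hBL.top e' t' ht' h2, h3]
  rcases le_or_gt b (1 / 4) with c | c
  · have h2 := inj 0 (4 * b) ⟨by linarith, by linarith⟩ (fun _ => by linarith)
      (by simp only [tpBL]; ring)
    rcases he with rfl | rfl
    · have := congrArg Prod.fst h2; simp only [ed] at this; linarith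
    · have := congrArg Prod.fst h2; simp only [ed] at this; linarith
  rcases le_or_gt b (1 / 2) with c' | c'
  · have h2 := inj 1 (4 * b - 1) ⟨by linarith, by linarith⟩ (fun h => by
      rcases h with h | h <;> exact absurd h (by decide)) (by simp only [tpBL]; ring)
    rcases he with rfl | rfl
    · have := congrArg Prod.fst h2; simp only [ed] at this; linarith
    · have := congrArg Prod.fst h2; simp only [ed] at this; linarith
  rcases le_or_gt b (3 / 4) with c'' | c''
  · have h2 := inj 2 (3 - 4 * b) ⟨by linarith, by linarith⟩ (fun h => by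
      rcases h with h | h <;> exact absurd h (by decide)) (by simp only [tpBL]; ring)
    rcases he with rfl | rfl
    · have := congrArg Prod.snd h2; simp only [ed] at this; linarith
    · have := congrArg Prod.snd h2; simp only [ed] at this; linarith
  · have h2 := inj 3 (4 - 4 * b) ⟨by linarith, by linarith⟩ (fun _ => by linarith)
      (by simp only [tpBL]; ring)
    rcases he with rfl | rfl
    · have := congrArg Prod.snd h2; simp only [ed] at this; linarith
    · have := congrArg Prod.snd h2; simp only [ed] at this; linarith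

/-- near its base corner the chart `TR` avoids the middle of the top side -/
theorem deadTR (hTR : ChartTR m K κ) {e : Fin 4} (he : e = 1 ∨ e = 2) {t : ℝ}
    (ht : t ∈ Icc (0:ℝ) 1) (htm : 1 - m < t) (h1 : (κ.toFun (ed e t)).2 = 1) :
    (κ.toFun (ed e t)).1 < m / 4 ∨ 1 - m / 4 < (κ.toFun (ed e t)).1 := by
  by_contra hc
  push Not at hc
  set b := (κ.toFun (ed e t)).1 with hb
  have hx : κ.toFun (ed e t) = (b, 1) := Prod.ext rfl h1
  have inj : ∀ (e' : Fin 4) (t' : ℝ), t' ∈ Icc (0:ℝ) 1 → ((e' = 1 ∨ e' = 2) → t' ≤ 1 - m) →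
      tpTR e' t' = b → ed e t = ed e' t' := by
    intro e' t' ht' h2 h3
    apply κ.injOn (bR_sub_Rct (ed_bR ht)) (bR_sub_Rct (ed_bR ht'))
    rw [hx, hTR.top e' t' ht' h2, h3]
  rcases le_or_gt b (1 / 4) with c | c
  · have h2 := inj 2 (1 - 4 * b) ⟨by linarith, by linarith⟩ (fun _ => by linarith)
      (by simp only [tpTR]; ring)
    rcases he with rfl | rfl
    · have := congrArg Prod.fst h2; simp only [ed] at this; linarith
    · have := congrArg Prod.fst h2; simp only [ed] at this; linarith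
  rcases le_or_gt b (1 / 2) with c' | c'
  · have h2 := inj 3 (2 - 4 * b) ⟨by linarith, by linarith⟩ (fun h => by
      rcases h with h | h <;> exact absurd h (by decide)) (by simp only [tpTR]; ring)
    rcases he with rfl | rfl
    · have := congrArg Prod.fst h2; simp only [ed] at this; linarith
    · have := congrArg Prod.fst h2; simp only [ed] at this; linarith
  rcases le_or_gt b (3 / 4) with c'' | c''
  · have h2 := inj 0 (4 * b - 2) ⟨by linarith, by linarith⟩ (fun h => by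
      rcases h with h | h <;> exact absurd h (by decide)) (by simp only [tpTR]; ring)
    rcases he with rfl | rfl
    · have := congrArg Prod.snd h2; simp only [ed] at this; linarith
    · have := congrArg Prod.snd h2; simp only [ed] at this; linarith
  · have h2 := inj 1 (4 * b - 3) ⟨by linarith, by linarith⟩ (fun _ => by linarith)
      (by simp only [tpTR]; ring)
    rcases he with rfl | rfl
    · have := congrArg Prod.snd h2; simp only [ed] at this; linarith
    · have := congrArg Prod.snd h2; simp only [ed] at this; linarith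

end dead

/-- the data `A'` of an arc in the chart `TR` from the data `A` in the chart `BL`, for an arc which
separates the two base corners -/
structure FlipD (m : ℝ) (A A' : ArcD) : Prop where
  p : A'.p = A.q - A.w' - 1 / 2
  q : A'.q = A.p + A.w + 1 / 2
  w : A'.w = A.w'
  w' : A'.w' = A.w
  lo : m / 4 ≤ A.p
  lo' : A.p + A.w ≤ 1 / 2 - m / 4
  hi : 1 / 2 + m / 4 ≤ A.q - A.w'
  hi' : A.q ≤ 1 - m / 4

section charts

variable {m K K' : ℝ} {κ κ' : ConHomeo Rct Rct} (hBL : ChartBL m K κ) (hTR : ChartTR m K' κ')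
  (m0 : 0 < m) (m1 : m < 1 / 4)

include hBL hTR m0 m1

/-- left half of the top side -/
theorem rho_left {a : ℝ} (h1 : m / 4 ≤ a) (h2 : a ≤ 1 / 2 - m / 4) :
    (rhoC κ κ' hBL.bd hTR.bd).toFun (a, 1) = (a + 1 / 2, 1) := by
  rcases le_or_gt a (1 / 4) with c | c
  · have ht : (1 - 4 * a) ∈ Icc (0:ℝ) 1 := ⟨by linarith, by linarith⟩
    have e1 := hTR.top 2 (1 - 4 * a) ht fun _ => by linarith
    have e2 := hBL.top 2 (1 - 4 * a) ht fun h => by
      rcases h with h | h <;> exact absurd h (by decide)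
    have e3 : tpTR 2 (1 - 4 * a) = a := by simp only [tpTR]; ring
    have e4 : tpBL 2 (1 - 4 * a) = a + 1 / 2 := by simp only [tpBL]; ring
    rw [e3] at e1; rw [e4] at e2
    rw [← e1, rhoC_eq hBL hTR (ed_bR ht), e2]
  · have ht : (2 - 4 * a) ∈ Icc (0:ℝ) 1 := ⟨by linarith, by linarith⟩
    have e1 := hTR.top 3 (2 - 4 * a) ht fun h => by
      rcases h with h | h <;> exact absurd h (by decide)
    have e2 := hBL.top 3 (2 - 4 * a) ht fun _ => by linarith
    have e3 : tpTR 3 (2 - 4 * a) = a := by simp only [tpTR]; ring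
    have e4 : tpBL 3 (2 - 4 * a) = a + 1 / 2 := by simp only [tpBL]; ring
    rw [e3] at e1; rw [e4] at e2
    rw [← e1, rhoC_eq hBL hTR (ed_bR ht), e2]

/-- right half of the top side -/
theorem rho_right {a : ℝ} (h1 : 1 / 2 + m / 4 ≤ a) (h2 : a ≤ 1 - m / 4) :
    (rhoC κ κ' hBL.bd hTR.bd).toFun (a, 1) = (a - 1 / 2, 1) := by
  rcases le_or_gt a (3 / 4) with c | c
  · have ht : (4 * a - 2) ∈ Icc (0:ℝ) 1 := ⟨by linarith, by linarith⟩
    have e1 := hTR.top 0 (4 * a - 2) ht fun h => by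
      rcases h with h | h <;> exact absurd h (by decide)
    have e2 := hBL.top 0 (4 * a - 2) ht fun _ => by linarith
    have e3 : tpTR 0 (4 * a - 2) = a := by simp only [tpTR]; ring
    have e4 : tpBL 0 (4 * a - 2) = a - 1 / 2 := by simp only [tpBL]; ring
    rw [e3] at e1; rw [e4] at e2
    rw [← e1, rhoC_eq hBL hTR (ed_bR ht), e2]
  · have ht : (4 * a - 3) ∈ Icc (0:ℝ) 1 := ⟨by linarith, by linarith⟩
    have e1 := hTR.top 1 (4 * a - 3) ht fun _ => by linarith
    have e2 := hBL.top 1 (4 * a - 3) ht fun h => by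
      rcases h with h | h <;> exact absurd h (by decide)
    have e3 : tpTR 1 (4 * a - 3) = a := by simp only [tpTR]; ring
    have e4 : tpBL 1 (4 * a - 3) = a - 1 / 2 := by simp only [tpBL]; ring
    rw [e3] at e1; rw [e4] at e2
    rw [← e1, rhoC_eq hBL hTR (ed_bR ht), e2]

theorem flip_L {A A' : ArcD} (F : FlipD m A A') :
    MapsTo (rhoC κ κ' hBL.bd hTR.bd).toFun (IL A') (IR A) := by
  intro x hx
  have h1 : A'.p ≤ x.1 := hx.1.1
  have h2 : x.1 ≤ A'.p + A'.w := hx.1.2
  have e : x = (x.1, 1) := Prod.ext rfl hx.2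
  have f1 := F.p; have f3 := F.w; have f5 := F.hi; have f6 := F.hi'
  rw [e, rho_left hBL hTR m0 m1 (by linarith) (by linarith)]
  refine ⟨⟨?_, ?_⟩, rfl⟩
  · show A.q - A.w' ≤ x.1 + 1 / 2; linarith
  · show x.1 + 1 / 2 ≤ A.q; linarith

theorem flip_R {A A' : ArcD} (F : FlipD m A A') :
    MapsTo (rhoC κ κ' hBL.bd hTR.bd).toFun (IR A') (IL A) := by
  intro x hx
  have h1 : A'.q - A'.w' ≤ x.1 := hx.1.1
  have h2 : x.1 ≤ A'.q := hx.1.2
  have e : x = (x.1, 1) := Prod.ext rfl hx.2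
  have f1 := F.q; have f3 := F.w'; have f5 := F.lo; have f6 := F.lo'
  rw [e, rho_right hBL hTR m0 m1 (by linarith) (by linarith)]
  refine ⟨⟨?_, ?_⟩, rfl⟩
  · show A.p ≤ x.1 - 1 / 2; linarith
  · show x.1 - 1 / 2 ≤ A.p + A.w; linarith

theorem flip_I {A A' : ArcD} (F : FlipD m A A') (g : A.Good) (_ : A'.Good) :
    MapsTo (rhoC κ κ' hBL.bd hTR.bd).toFun (InT A') (OutT A) := by
  intro x hx
  obtain ⟨x2, h1, h2⟩ := hx
  have f1 := F.p; have f2 := F.q; have f3 := F.w; have f4 := F.w'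
  have f5 := F.hi; have f6 := F.hi'; have f7 := F.lo; have f8 := F.lo'
  have w0 := g.w0; have w0' := g.w0'
  have xR : x ∈ bR := by
    have : x = (x.1, 1) := Prod.ext rfl x2
    rw [this]; exact top_bR (by linarith) (by linarith)
  obtain ⟨e, t, ht, hx, hρ⟩ := exists_pre hBL hTR xR
  refine ⟨(rhoC κ κ' hBL.bd hTR.bd).mapsTo xR, fun h3 => ?_⟩
  rw [hρ] at h3 ⊢
  fin_cases e
  · -- bottom
    have k1 := hTR.top 0 t ht fun h => by
      rcases h with h | h <;> exact absurd h (by decide)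
    have k2 : x.1 = (2 + t) / 4 := by rw [hx]; exact congrArg Prod.fst k1
    rcases lt_or_ge t m with c | c
    · rcases deadBL m0 m1 hBL (Or.inl rfl) ht c h3 with c' | c'
      · left; exact c'.trans_le f7
      · right; exact f6.trans_lt c'
    · left
      have k3 : (κ.toFun (ed 0 t)).1 = t / 4 := congrArg Prod.fst (hBL.top 0 t ht fun _ => c)
      show (κ.toFun (ed 0 t)).1 < A.p
      rw [k3]; linarith
  · -- right
    rcases lt_or_ge (1 - m) t with c | c
    · exfalso
      have h4 : (κ'.toFun (ed 1 t)).2 = 1 := by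
        have := x2; rw [hx] at this; exact this
      have h5 := deadTR m0 m1 hTR (Or.inl rfl) ht c h4
      have h6 : (κ'.toFun (ed 1 t)).1 = x.1 := by rw [hx]; rfl
      rw [h6] at h5
      rcases h5 with h5 | h5 <;> linarith
    · have k2 : x.1 = (3 + t) / 4 := by rw [hx]; exact congrArg Prod.fst (hTR.top 1 t ht fun _ => c)
      have k3 : (κ.toFun (ed 1 t)).1 = (1 + t) / 4 := congrArg Prod.fst (hBL.top 1 t ht fun h => by
        rcases h with h | h <;> exact absurd h (by decide))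
      left
      show (κ.toFun (ed 1 t)).1 < A.p
      rw [k3]; linarith
  · -- top
    rcases lt_or_ge (1 - m) t with c | c
    · exfalso
      have h4 : (κ'.toFun (ed 2 t)).2 = 1 := by
        have := x2; rw [hx] at this; exact this
      have h5 := deadTR m0 m1 hTR (Or.inr rfl) ht c h4
      have h6 : (κ'.toFun (ed 2 t)).1 = x.1 := by rw [hx]; rfl
      rw [h6] at h5
      rcases h5 with h5 | h5 <;> linarith
    · have k2 : x.1 = (1 - t) / 4 := by rw [hx]; exact congrArg Prod.fst (hTR.top 2 t ht fun _ => c)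
      have k3 : (κ.toFun (ed 2 t)).1 = (3 - t) / 4 := congrArg Prod.fst (hBL.top 2 t ht fun h => by
        rcases h with h | h <;> exact absurd h (by decide))
      right
      show A.q < (κ.toFun (ed 2 t)).1
      rw [k3]; linarith
  · -- left
    have k1 := hTR.top 3 t ht fun h => by
      rcases h with h | h <;> exact absurd h (by decide)
    have k2 : x.1 = (2 - t) / 4 := by rw [hx]; exact congrArg Prod.fst k1
    rcases lt_or_ge t m with c | c
    · rcases deadBL m0 m1 hBL (Or.inr rfl) ht c h3 with c' | c'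
      · left; exact c'.trans_le f7
      · right; exact f6.trans_lt c'
    · right
      have k3 : (κ.toFun (ed 3 t)).1 = (4 - t) / 4 := congrArg Prod.fst (hBL.top 3 t ht fun _ => c)
      show A.q < (κ.toFun (ed 3 t)).1
      rw [k3]; linarith

theorem flip_O {A A' : ArcD} (F : FlipD m A A') (g : A.Good) (_ : A'.Good) :
    MapsTo (rhoC κ κ' hBL.bd hTR.bd).toFun (OutT A') (InT A) := by
  intro x hx
  obtain ⟨xR, hout⟩ := hx
  have f1 := F.p; have f2 := F.q; have f3 := F.w; have f4 := F.w'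
  have f5 := F.hi; have f6 := F.hi'; have f7 := F.lo; have f8 := F.lo'
  have w0 := g.w0; have w0' := g.w0'
  obtain ⟨e, t, ht, hx, hρ⟩ := exists_pre hBL hTR xR
  have ht0 := ht.1
  have ht1 := ht.2
  show ((rhoC κ κ' hBL.bd hTR.bd).toFun x).2 = 1 ∧
    A.p + A.w < ((rhoC κ κ' hBL.bd hTR.bd).toFun x).1 ∧
    ((rhoC κ κ' hBL.bd hTR.bd).toFun x).1 < A.q - A.w'
  rw [hρ]
  fin_cases e
  · -- bottom
    have k1 := hTR.top 0 t ht fun h => by
      rcases h with h | h <;> exact absurd h (by decide)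
    have kx : x = ((2 + t) / 4, 1) := by rw [hx]; exact k1
    have h3 := hout (by rw [kx])
    rw [kx] at h3
    simp only at h3
    have h4 : A'.q < (2 + t) / 4 := by
      rcases h3 with h3 | h3
      · linarith
      · exact h3
    have k3 : κ.toFun (ed 0 t) = (t / 4, 1) := hBL.top 0 t ht fun _ => by linarith
    show (κ.toFun (ed 0 t)).2 = 1 ∧ _ < (κ.toFun (ed 0 t)).1 ∧ (κ.toFun (ed 0 t)).1 < _
    rw [k3]
    exact ⟨rfl, by show _ < t / 4; linarith, by show t / 4 < _; linarith⟩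
  · -- right
    have k3 : κ.toFun (ed 1 t) = ((1 + t) / 4, 1) := hBL.top 1 t ht fun h => by
        rcases h with h | h <;> exact absurd h (by decide)
    show (κ.toFun (ed 1 t)).2 = 1 ∧ _ < (κ.toFun (ed 1 t)).1 ∧ (κ.toFun (ed 1 t)).1 < _
    rw [k3]
    refine ⟨rfl, ?_, by show (1 + t) / 4 < _; linarith⟩
    show _ < (1 + t) / 4
    rcases lt_or_ge (1 - m) t with c | c
    · linarith
    · have kx : x = ((3 + t) / 4, 1) := by rw [hx]; exact hTR.top 1 t ht fun _ => c
      have h3 := hout (by rw [kx])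
      rw [kx] at h3
      simp only at h3
      rcases h3 with h3 | h3 <;> linarith
  · -- top
    have k3 : κ.toFun (ed 2 t) = ((3 - t) / 4, 1) := hBL.top 2 t ht fun h => by
        rcases h with h | h <;> exact absurd h (by decide)
    show (κ.toFun (ed 2 t)).2 = 1 ∧ _ < (κ.toFun (ed 2 t)).1 ∧ (κ.toFun (ed 2 t)).1 < _
    rw [k3]
    refine ⟨rfl, by show _ < (3 - t) / 4; linarith, ?_⟩
    show (3 - t) / 4 < _
    rcases lt_or_ge (1 - m) t with c | c
    · linarith
    · have kx : x = ((1 - t) / 4, 1) := by rw [hx]; exact hTR.top 2 t ht fun _ => c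
      have h3 := hout (by rw [kx])
      rw [kx] at h3
      simp only at h3
      rcases h3 with h3 | h3 <;> linarith
  · -- left
    have k1 := hTR.top 3 t ht fun h => by
      rcases h with h | h <;> exact absurd h (by decide)
    have kx : x = ((2 - t) / 4, 1) := by rw [hx]; exact k1
    have h3 := hout (by rw [kx])
    rw [kx] at h3
    simp only at h3
    have h4 : (2 - t) / 4 < A'.p := by
      rcases h3 with h3 | h3
      · exact h3
      · linarith
    have k3 : κ.toFun (ed 3 t) = ((4 - t) / 4, 1) := hBL.top 3 t ht fun _ => by linarith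
    show (κ.toFun (ed 3 t)).2 = 1 ∧ _ < (κ.toFun (ed 3 t)).1 ∧ (κ.toFun (ed 3 t)).1 < _
    rw [k3]
    exact ⟨rfl, by show _ < (4 - t) / 4; linarith, by show (4 - t) / 4 < _; linarith⟩

/-- **[RC]** the change from the chart `TR` to the chart `BL` -/
theorem reC_charts {k : ℕ} {A A' : ℕ → ArcD} {σ : Equiv.Perm ℕ} (hσ : ∀ i, σ i < k ↔ i < k)
    (hA : Pos k A) (hA' : Pos k A') (hF : ∀ i < k, FlipD m (A (σ i)) (A' i)) :
    ReC k A A' σ (fun _ => true) (rhoC κ κ' hBL.bd hTR.bd) where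
  σk := hσ
  pos := hA'
  L := fun i hi => flip_L hBL hTR m0 m1 (hF i hi)
  R := fun i hi => flip_R hBL hTR m0 m1 (hF i hi)
  I := fun i hi => flip_I hBL hTR m0 m1 (hF i hi) (hA.good _ ((hσ i).2 hi)) (hA'.good i hi)
  O := fun i hi => flip_O hBL hTR m0 m1 (hF i hi) (hA.good _ ((hσ i).2 hi)) (hA'.good i hi)
  link := by
    intro i hi j hj hij hl
    have Fi := hF i hi
    have Fj := hF j hj
    have gi := hA.good _ ((hσ i).2 hi)
    have gj := hA.good _ ((hσ j).2 hj)
    have i1 := Fi.p; have i2 := Fi.q; have i3 := Fi.lo; have i4 := Fi.lo'; have i5 := Fi.hi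
    have i6 := Fi.hi'
    have j1 := Fj.p; have j2 := Fj.q; have j3 := Fj.lo; have j4 := Fj.lo'; have j5 := Fj.hi
    have j6 := Fj.hi'
    have hne : σ i ≠ σ j := fun h => hij (σ.injective h)
    obtain ⟨d1, d2, -⟩ := hA.disj _ ((hσ i).2 hi) _ ((hσ j).2 hj) hne
    have wi := gi.w0; have wi' := gi.w0'; have wj := gj.w0; have wj' := gj.w0'
    -- order of the intervals
    have o1 : ∀ {a b : ArcD}, 0 < a.w → 0 < b.w → Disjoint (IL a) (IL b) → a.p < b.p →
        a.p + a.w < b.p := by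
      intro a b ha hb hd h
      by_contra hc
      push Not at hc
      exact Set.disjoint_left.1 hd (show ((b.p, 1) : ℝ × ℝ) ∈ IL a from ⟨⟨h.le, hc⟩, rfl⟩)
        ⟨⟨le_rfl, by show b.p ≤ b.p + b.w; linarith⟩, rfl⟩
    have o2 : ∀ {a b : ArcD}, 0 < a.w' → 0 < b.w' → Disjoint (IR a) (IR b) → a.q < b.q →
        a.q < b.q - b.w' := by
      intro a b ha hb hd h
      by_contra hc
      push Not at hc
      exact Set.disjoint_left.1 hd (show ((a.q, 1) : ℝ × ℝ) ∈ IR a from
        ⟨⟨by show a.q - a.w' ≤ a.q; linarith, le_rfl⟩, rfl⟩) ⟨⟨hc, h.le⟩, rfl⟩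
    rcases hl with ⟨c1, c2, c3⟩ | ⟨c1, c2, c3⟩
    · left
      have k1 := o1 wi wj d1 c1
      have k2 := o2 wi' wj' d2 c3
      exact ⟨by linarith, by linarith, by linarith⟩
    · right
      have k1 := o1 wj wi d1.symm c1
      have k2 := o2 wj' wi' d2.symm c3
      exact ⟨by linarith, by linarith, by linarith⟩

/-- **[REB]** from drawings in the chart `TR` to drawings in the chart `BL` -/
theorem rebase {N k : ℕ} (hkN : k ≤ N) {A A' : ℕ → ArcD} {σ : Equiv.Perm ℕ}
    (hσ : ∀ i, σ i < k ↔ i < k) (hA' : Pos k A') (hF : ∀ i < k, FlipD m (A (σ i)) (A' i))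
    {z : ℕ → ℝ × ℝ → ℝ}
    (base : ∀ (col : ℕ → Bool) (fn : ℕ → E → ℝ) (C B : Set E) (γ : ℝ × ℝ → E),
      Pat k A' col C B fn γ → ∃ Φ : ConHomeo Rct (Fil N k C fn),
        (∀ x ∈ Rct, ∀ i : Fin N, (Φ.toFun x).2 i = z i x) ∧ ∀ x ∈ bR, (Φ.toFun x).1 = γ x) :
    ∀ (col : ℕ → Bool) (fn : ℕ → E → ℝ) (C B : Set E) (γ : ℝ × ℝ → E),
      Pat k A col C B fn γ → ∃ Φ : ConHomeo Rct (Fil N k C fn),
        (∀ x ∈ Rct, ∀ i : Fin N, (Φ.toFun x).2 i =
          if (i : ℕ) < k then 1 - z (σ.symm i) (κ'.toFun (κ.invFun x)) else 0) ∧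
        ∀ x ∈ bR, (Φ.toFun x).1 = γ x := by
  intro col fn C B γ hP
  have hR := reC_charts hBL hTR m0 m1 hσ hP.pos hA' hF
  obtain ⟨Φ, h1, h2⟩ := base _ _ C B _ (hP.rechart hR)
  obtain ⟨Ψ, h3, h4⟩ := exists_rechart hkN hσ Φ h1
  refine ⟨(κ.symm.trans κ').trans Ψ, fun x hx i => ?_, fun x hx => ?_⟩
  · show (Ψ.toFun (κ'.toFun (κ.invFun x))).2 i = _
    rw [h3 _ (κ'.mapsTo (κ.mapsTo_inv hx)) i]
    simp only [reZ, if_true]
  · show (Ψ.toFun (κ'.toFun (κ.invFun x))).1 = _
    have hx' := hx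
    rw [← hBL.bd] at hx'
    obtain ⟨y, hy, rfl⟩ := hx'
    have hy' : κ'.toFun y ∈ bR := by rw [← hTR.bd]; exact mem_image_of_mem _ hy
    rw [κ.left_inv (bR_sub_Rct hy), h4, h2 _ hy']
    show γ ((rhoC κ κ' hBL.bd hTR.bd).toFun (κ'.toFun y)) = _
    rw [rhoC_eq hBL hTR hy]

end charts

end P073.H31
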