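import Vale.Agent.P073.H31.Osc
import Vale.Agent.P073.HB.Haj5
import Vale.Agent.P073.PK.Sob560a
import Mathlib.MeasureTheory.Covering.Besicovitch
import Mathlib.MeasureTheory.Covering.BesicovitchVectorSpace

/-!
# P073: almost everywhere differentiability of Sobolev homeomorphisms, exponent larger than two
-/

namespace Vale.Agent.P073.H31

open MeasureTheory Set Filter Topology Metric
open Vale.Agent.P073.St (V)
open scoped ContDiff ENNReal

theorem volume_cube (x : V) {r : ℝ} (hr : 0 ≤ r) :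
    volume (closedBall x r) = ENNReal.ofReal ((2 * r) ^ 3) := by
  rw [Real.volume_pi_closedBall x hr]
  simp

/-- Points of `T` near a point close to a density point. -/
theorem exists_near {T : Set V} {x : V} (h : Tendsto
    (fun r => volume (T ∩ closedBall x r) / volume (closedBall x r)) (𝓝[>] 0) (𝓝 1))
    {κ : ℝ} (hκ : 0 < κ) (hκ1 : κ ≤ 1) :
    ∃ δ > 0, ∀ y, y ≠ x → ‖y - x‖ < δ → ∃ z ∈ T, ‖y - z‖ ≤ κ * ‖y - x‖ := by
  have hc : ENNReal.ofReal (1 - (κ / 2) ^ 3) < 1 := by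
    rw [← ENNReal.ofReal_one]
    refine (ENNReal.ofReal_lt_ofReal_iff (by norm_num)).2 ?_
    have : 0 < (κ / 2) ^ 3 := by positivity
    linarith
  have h1 := h.eventually (lt_mem_nhds hc)
  rw [eventually_nhdsWithin_iff, Metric.eventually_nhds_iff] at h1
  obtain ⟨δ, hδ, hδ1⟩ := h1
  refine ⟨δ / 2, half_pos hδ, fun y hy hyx => ?_⟩
  set ρ : ℝ := ‖y - x‖ with hρ
  have hρ0 : 0 < ρ := norm_pos_iff.2 (sub_ne_zero.2 hy)
  have h2 := hδ1 (y := 2 * ρ) (by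
    rw [Real.dist_eq, sub_zero, abs_of_pos (by linarith)]
    linarith) (by rw [mem_Ioi]; linarith)
  by_contra hcon
  push Not at hcon
  have hdis : Disjoint (T ∩ closedBall x (2 * ρ)) (closedBall y (κ * ρ)) := by
    rw [Set.disjoint_left]
    rintro z ⟨hz, -⟩ hz2
    have h3 := hcon z hz
    rw [mem_closedBall, dist_comm, dist_eq_norm] at hz2
    linarith
  have hsub : closedBall y (κ * ρ) ⊆ closedBall x (2 * ρ) := by
    intro z hz
    rw [mem_closedBall] at hz ⊢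
    have h4 : dist y x = ρ := by rw [dist_eq_norm]
    have h5 : κ * ρ ≤ 1 * ρ := by gcongr
    linarith [dist_triangle z y x]
  have hv : volume (T ∩ closedBall x (2 * ρ)) + volume (closedBall y (κ * ρ)) ≤
      volume (closedBall x (2 * ρ)) := by
    rw [← measure_union hdis measurableSet_closedBall]
    exact measure_mono (union_subset inter_subset_right hsub)
  rw [volume_cube y (by positivity), volume_cube x (by positivity)] at hv
  rw [volume_cube x (by positivity)] at h2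
  have hV0 : ENNReal.ofReal ((2 * (2 * ρ)) ^ 3) ≠ 0 := by
    rw [Ne, ENNReal.ofReal_eq_zero]
    have : 0 < (2 * (2 * ρ)) ^ 3 := by positivity
    linarith
  rw [ENNReal.lt_div_iff_mul_lt (Or.inl hV0) (Or.inl ENNReal.ofReal_ne_top),
    ← ENNReal.ofReal_mul (by
      have : (κ / 2) ^ 3 ≤ 1 := pow_le_one₀ (by positivity) (by linarith)
      linarith)] at h2
  have h6 : (1 - (κ / 2) ^ 3) * (2 * (2 * ρ)) ^ 3 + (2 * (κ * ρ)) ^ 3 = (2 * (2 * ρ)) ^ 3 := by ring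
  have h7 : ENNReal.ofReal ((1 - (κ / 2) ^ 3) * (2 * (2 * ρ)) ^ 3) +
      ENNReal.ofReal ((2 * (κ * ρ)) ^ 3) = ENNReal.ofReal ((2 * (2 * ρ)) ^ 3) := by
    rw [← ENNReal.ofReal_add _ (by positivity), h6]
    have : (κ / 2) ^ 3 ≤ 1 := pow_le_one₀ (by positivity) (by linarith)
    exact mul_nonneg (by linarith) (by positivity)
  rw [← h7] at hv
  have h8 := (ENNReal.add_le_add_iff_right ENNReal.ofReal_ne_top).1 hv
  exact absurd h8 (not_le.2 h2)

/-- The oscillation near a Lebesgue point. -/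
theorem osc_lebesgue {p : ℝ} (hp : 2 < p) : ∃ C : ℝ, 0 < C ∧ ∀ {Ω : Set V} (_ : IsOpen Ω)
    {f : V → V} {D : V → V →L[ℝ] V} (_ : ContinuousOn f Ω) (_ : MonoOn Ω f)
    (_ : LocallyIntegrableOn D Ω) (_ : HB.WeakDeriv volume Ω f D)
    (_ : ∀ K ⊆ Ω, IsCompact K → ∫⁻ x in K, ‖D x‖ₑ ^ p ≠ ⊤) {x₀ : V} {r M : ℝ} (_ : 0 < r)
    (_ : ball x₀ (3 * r) ⊆ Ω) (_ : ‖D x₀‖ ≤ M)
    (_ : ∫⁻ z in ball x₀ (3 * r), ‖D z - D x₀‖ₑ ^ p ≤
      ENNReal.ofReal 1 ^ p * volume (ball x₀ (3 * r))) {y : V} (_ : y ∈ closedBall x₀ r),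
    ‖f y - f x₀‖ ≤ C * (M + 1) * r := by
  have hp0 : 0 < p := by linarith
  have hp1 : 1 ≤ p := by linarith
  obtain ⟨C, hC, hosc⟩ := osc hp
  refine ⟨(C * 2 ^ (p - 1) * 216) ^ (1 / p) * 2, by positivity, ?_⟩
  intro Ω hΩ f D hf hm hD hw hDp x₀ r M hr hsub hM hleb y hy
  have hM0 : 0 ≤ M := (norm_nonneg _).trans hM
  have hsub2 : closedBall x₀ (2 * r) ⊆ ball x₀ (3 * r) :=
    closedBall_subset_ball (by linarith)
  have h1 := hosc hΩ hf hm hD hw hDp hr (hsub2.trans hsub) (mem_closedBall_self hr.le) hy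
  have hvb : volume (ball x₀ (3 * r)) = ENNReal.ofReal (216 * r ^ 3) := by
    have e : (2 * (3 * r)) ^ 3 = 216 * r ^ 3 := by ring
    rw [Real.volume_pi_ball x₀ (by positivity), Fintype.card_fin, e]
  have h2p : (2 : ℝ≥0∞) ^ (p - 1) ≠ ⊤ := ENNReal.rpow_ne_top_of_nonneg (by linarith) (by norm_num)
  have e2 : (2 : ℝ≥0∞) ^ (p - 1) = ENNReal.ofReal (2 ^ (p - 1)) := by
    rw [← ENNReal.ofReal_rpow_of_nonneg (by norm_num) (by linarith)]
    norm_num
  have h2 : ∫⁻ z in closedBall x₀ (2 * r), ‖D z‖ₑ ^ p ≤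
      ENNReal.ofReal (2 ^ (p - 1) * 216 * (M ^ p + 1) * r ^ 3) := by
    calc ∫⁻ z in closedBall x₀ (2 * r), ‖D z‖ₑ ^ p
        ≤ ∫⁻ z in ball x₀ (3 * r), ‖D z‖ₑ ^ p := lintegral_mono_set hsub2
      _ ≤ ∫⁻ z in ball x₀ (3 * r), 2 ^ (p - 1) * (‖D x₀‖ₑ ^ p + ‖D z - D x₀‖ₑ ^ p) := by
          refine lintegral_mono fun z => ?_
          exact (ENNReal.rpow_le_rpow (enorm_le_add (D z) (D x₀)) hp0.le).trans
            (ENNReal.rpow_add_le_mul_rpow_add_rpow _ _ hp1)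
      _ = 2 ^ (p - 1) * (‖D x₀‖ₑ ^ p * volume (ball x₀ (3 * r)) +
          ∫⁻ z in ball x₀ (3 * r), ‖D z - D x₀‖ₑ ^ p) := by
          rw [lintegral_const_mul' _ _ h2p, lintegral_add_left measurable_const,
            setLIntegral_const]
      _ ≤ 2 ^ (p - 1) * (ENNReal.ofReal (M ^ p) * volume (ball x₀ (3 * r)) +
          ENNReal.ofReal 1 ^ p * volume (ball x₀ (3 * r))) := by
          gcongr
          rw [← ENNReal.ofReal_rpow_of_nonneg hM0 hp0.le, ← ofReal_norm]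
          exact ENNReal.rpow_le_rpow (ENNReal.ofReal_le_ofReal hM) hp0.le
      _ = _ := by
          have e3 : ENNReal.ofReal 1 ^ p = ENNReal.ofReal 1 := by simp
          rw [e3, hvb, e2, ← add_mul, ← ENNReal.ofReal_add (by positivity) (by norm_num),
            ← ENNReal.ofReal_mul (by positivity), ← ENNReal.ofReal_mul (by positivity)]
          congr 1
          ring
  have h3 : ‖f y - f x₀‖ₑ ^ p ≤ ENNReal.ofReal (C * 2 ^ (p - 1) * 216 * ((M + 1) * 2) ^ p * r ^ p) := by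
    refine h1.trans ((mul_le_mul_right h2 _).trans ?_)
    rw [← ENNReal.ofReal_mul (by positivity)]
    refine ENNReal.ofReal_le_ofReal ?_
    have e4 : r ^ (p - 3) * r ^ 3 = r ^ p := by
      rw [← Real.rpow_natCast r 3, ← Real.rpow_add hr]
      congr 1
      norm_num
    have e5 : M ^ p + 1 ≤ ((M + 1) * 2) ^ p := by
      have a1 : M ^ p ≤ (M + 1) ^ p := Real.rpow_le_rpow hM0 (by linarith) hp0.le
      have a2 : 1 ≤ (M + 1) ^ p := Real.one_le_rpow (by linarith) hp0.le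
      have a3 : (2 : ℝ) ≤ 2 ^ p := by
        calc (2 : ℝ) = 2 ^ (1 : ℝ) := (Real.rpow_one 2).symm
          _ ≤ 2 ^ p := Real.rpow_le_rpow_of_exponent_le (by norm_num) hp1
      rw [Real.mul_rpow (by positivity) (by norm_num)]
      nlinarith
    calc C * r ^ (p - 3) * (2 ^ (p - 1) * 216 * (M ^ p + 1) * r ^ 3)
        = C * 2 ^ (p - 1) * 216 * (M ^ p + 1) * (r ^ (p - 3) * r ^ 3) := by ring
      _ ≤ C * 2 ^ (p - 1) * 216 * ((M + 1) * 2) ^ p * (r ^ (p - 3) * r ^ 3) := by gcongr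
      _ = _ := by rw [e4]
  have h4 : C * 2 ^ (p - 1) * 216 * ((M + 1) * 2) ^ p * r ^ p =
      ((C * 2 ^ (p - 1) * 216) ^ (1 / p) * 2 * (M + 1) * r) ^ p := by
    have e6 : ((C * 2 ^ (p - 1) * 216) ^ (1 / p)) ^ p = C * 2 ^ (p - 1) * 216 := by
      rw [← Real.rpow_mul (by positivity), one_div, inv_mul_cancel₀ hp0.ne', Real.rpow_one]
    have e7 : (C * 2 ^ (p - 1) * 216) ^ (1 / p) * 2 * (M + 1) * r =
        (C * 2 ^ (p - 1) * 216) ^ (1 / p) * ((M + 1) * 2) * r := by ring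
    have e8 : ((C * 2 ^ (p - 1) * 216) ^ (1 / p) * ((M + 1) * 2)) ^ p =
        ((C * 2 ^ (p - 1) * 216) ^ (1 / p)) ^ p * ((M + 1) * 2) ^ p :=
      Real.mul_rpow (by positivity) (by positivity)
    rw [e7, Real.mul_rpow (by positivity) hr.le, e8, e6]
  rw [h4, ← ofReal_norm, ENNReal.ofReal_rpow_of_nonneg (norm_nonneg _) hp0.le,
    ENNReal.ofReal_le_ofReal_iff (by positivity),
    Real.rpow_le_rpow_iff (norm_nonneg _) (by positivity) hp0] at h3
  exact h3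

/-- **Differentiability at density points of a Lusin set.** -/
theorem hasFDerivAt_of_density {p : ℝ} (hp : 2 < p) {Ω : Set V} (hΩ : IsOpen Ω) {f : V → V}
    {D : V → V →L[ℝ] V} (hf : ContinuousOn f Ω) (hm : MonoOn Ω f)
    (hD : LocallyIntegrableOn D Ω) (hw : HB.WeakDeriv volume Ω f D)
    (hDp : ∀ K ⊆ Ω, IsCompact K → ∫⁻ x in K, ‖D x‖ₑ ^ p ≠ ⊤) {T : Set V} (hTc : IsCompact T)
    (hDT : ContinuousOn D T) (hT : ∀ η : ℝ, 0 < η → ∃ δ > 0, ∀ x ∈ T, ball x δ ⊆ Ω ∧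
      (∀ r, 0 < r → r ≤ δ →
        ∫⁻ z in ball x r, ‖D z - D x‖ₑ ^ p ≤ ENNReal.ofReal η ^ p * volume (ball x r)) ∧
      ∀ y ∈ T, ‖y - x‖ ≤ δ → ‖f y - f x - D x (y - x)‖ ≤ η * ‖y - x‖) {x : V} (hx : x ∈ T)
    (hd : Tendsto (fun r => volume (T ∩ closedBall x r) / volume (closedBall x r)) (𝓝[>] 0)
      (𝓝 1)) : HasFDerivAt f (D x) x := by
  obtain ⟨C, hC, hosc⟩ := osc_lebesgue hp
  obtain ⟨M₀, hM₀⟩ := hTc.exists_bound_of_continuousOn hDT
  set M : ℝ := max M₀ 0 with hMdef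
  have hM0 : 0 ≤ M := le_max_right _ _
  have hM : ∀ z ∈ T, ‖D z‖ ≤ M := fun z hz => (hM₀ z hz).trans (le_max_left _ _)
  rw [hasFDerivAt_iff_isLittleO, Asymptotics.isLittleO_iff]
  intro ε hε
  -- the parameters
  set κ : ℝ := min (ε / (2 * (C * (M + 1) + M + 1))) (1 / 3) with hκ
  have hden : 0 < 2 * (C * (M + 1) + M + 1) := by positivity
  have hκ0 : 0 < κ := lt_min (by positivity) (by norm_num)
  have hκ1 : κ ≤ 1 / 3 := min_le_right _ _
  have hκε : (C * (M + 1) + M) * κ ≤ ε / 2 := by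
    calc (C * (M + 1) + M) * κ ≤ (C * (M + 1) + M + 1) * (ε / (2 * (C * (M + 1) + M + 1))) := by
          refine mul_le_mul ?_ (min_le_left _ _) hκ0.le (by positivity)
          linarith
      _ = ε / 2 := by field_simp
  obtain ⟨δ₁, hδ₁, hT1⟩ := hT 1 zero_lt_one
  obtain ⟨δ₂, hδ₂, hT2⟩ := hT (ε / 4) (by positivity)
  obtain ⟨δ₃, hδ₃, hT3⟩ := exists_near hd hκ0 (hκ1.trans (by norm_num))
  have hball : ball x (min (min δ₁ (δ₂ / 2)) δ₃) ∈ 𝓝 x :=
    ball_mem_nhds x (lt_min (lt_min hδ₁ (by positivity)) hδ₃)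
  filter_upwards [hball] with y hy
  rw [mem_ball, dist_eq_norm] at hy
  rcases eq_or_ne y x with rfl | hne
  · simp
  set ρ : ℝ := ‖y - x‖ with hρ
  have hρ0 : 0 < ρ := norm_pos_iff.2 (sub_ne_zero.2 hne)
  have hρ1 : ρ < δ₁ := hy.trans_le ((min_le_left _ _).trans (min_le_left _ _))
  have hρ2 : ρ < δ₂ / 2 := hy.trans_le ((min_le_left _ _).trans (min_le_right _ _))
  have hρ3 : ρ < δ₃ := hy.trans_le (min_le_right _ _)
  obtain ⟨z, hz, hyz⟩ := hT3 y hne hρ3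
  rw [← hρ] at hyz
  have hr : 0 < κ * ρ := by positivity
  have h3r : 3 * (κ * ρ) ≤ δ₁ := by nlinarith
  have h1 : ‖f y - f z‖ ≤ C * (M + 1) * (κ * ρ) :=
    hosc hΩ hf hm hD hw hDp hr ((ball_subset_ball h3r).trans (hT1 z hz).1) (hM z hz)
      ((hT1 z hz).2.1 _ (by positivity) h3r) (by rwa [mem_closedBall, dist_eq_norm])
  have hzx : ‖z - x‖ ≤ 2 * ρ := by
    have e : z - x = (y - x) - (y - z) := by abel
    rw [e]
    refine (norm_sub_le _ _).trans ?_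
    rw [← hρ]
    nlinarith
  have h2 : ‖f z - f x - D x (z - x)‖ ≤ ε / 4 * (2 * ρ) :=
    ((hT2 x hx).2.2 z hz (hzx.trans (by linarith))).trans (by gcongr)
  have h3 : ‖D x (y - z)‖ ≤ M * (κ * ρ) :=
    (ContinuousLinearMap.le_opNorm _ _).trans (mul_le_mul (hM x hx) hyz (norm_nonneg _) hM0)
  have e : f y - f x - D x (y - x) = (f y - f z) + (f z - f x - D x (z - x)) - D x (y - z) := by
    have : D x (y - x) = D x (y - z) + D x (z - x) := by rw [← map_add, sub_add_sub_cancel]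
    rw [this]
    abel
  rw [e]
  calc ‖(f y - f z) + (f z - f x - D x (z - x)) - D x (y - z)‖
      ≤ ‖f y - f z‖ + ‖f z - f x - D x (z - x)‖ + ‖D x (y - z)‖ :=
        (norm_sub_le _ _).trans (add_le_add_left (norm_add_le _ _) _)
    _ ≤ C * (M + 1) * (κ * ρ) + ε / 4 * (2 * ρ) + M * (κ * ρ) :=
        add_le_add (add_le_add h1 h2) h3
    _ = ((C * (M + 1) + M) * κ + ε / 2) * ρ := by ring
    _ ≤ (ε / 2 + ε / 2) * ρ := by gcongr
    _ = ε * ρ := by ring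

/-- **Almost everywhere differentiability**, exponent larger than two. -/
theorem ae_hasFDerivAt {p : ℝ} (hp : 2 < p) {Ω : Set V} (hΩ : IsOpen Ω) (hvΩ : volume Ω ≠ ⊤)
    {f : V → V} {D : V → V →L[ℝ] V} (hf : ContinuousOn f Ω) (hm : MonoOn Ω f)
    (hD : AEStronglyMeasurable D (volume.restrict Ω)) (hw : HB.WeakDeriv volume Ω f D)
    (hDp : ∫⁻ x in Ω, ‖D x‖ₑ ^ p ≠ ⊤) :
    ∀ᵐ x ∂(volume : Measure V), x ∈ Ω → HasFDerivAt f (D x) x := by
  have hp1 : 1 ≤ p := by linarith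
  have hDi : LocallyIntegrableOn D Ω :=
    (HB.integrableOn_of_rpow hvΩ hD hp1 hDp).locallyIntegrableOn
  have hDK : ∀ K ⊆ Ω, IsCompact K → ∫⁻ x in K, ‖D x‖ₑ ^ p ≠ ⊤ := fun K hK _ =>
    ne_top_of_le_ne_top hDp (lintegral_mono_set hK)
  have hex : ∀ n : ℕ, ∃ T ⊆ Ω, IsCompact T ∧ volume (Ω \ T) < ENNReal.ofReal (1 / (n + 1)) ∧
      ∀ᵐ x ∂(volume : Measure V), x ∈ T → HasFDerivAt f (D x) x := by
    intro n
    obtain ⟨T, hTΩ, hTc, hTv, hDT, hT⟩ := HB.exists_lusin_set (μ := (volume : Measure V)) hΩ hvΩ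
      hf hD hw hp1 hDp hΩ.measurableSet Subset.rfl (ε := ENNReal.ofReal (1 / (n + 1))) (by
        rw [Ne, ENNReal.ofReal_eq_zero]
        have : (0 : ℝ) < 1 / (n + 1) := by positivity
        linarith)
    refine ⟨T, hTΩ, hTc, hTv, ?_⟩
    have hdens := Besicovitch.ae_tendsto_measure_inter_div (volume : Measure V) T
    rw [ae_restrict_iff' hTc.measurableSet] at hdens
    filter_upwards [hdens] with x hx hxT
    refine hasFDerivAt_of_density hp hΩ hf hm hDi hw hDK hTc hDT ?_ hxT (hx hxT)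
    intro η hη
    obtain ⟨δ, hδ, h⟩ := hT η hη
    exact ⟨δ, hδ, fun x hx => ⟨(h x hx).1, (h x hx).2.1, fun y hy hyx =>
      ((h x hx).2.2.2 y hy hyx).2⟩⟩
  choose T hTΩ hTc hTv hTd using hex
  have hnull : volume (Ω \ ⋃ n, T n) = 0 := by
    refine le_antisymm ?_ bot_le
    refine le_of_forall_gt fun c hc => ?_
    obtain ⟨n, hn⟩ : ∃ n : ℕ, ENNReal.ofReal (1 / (n + 1)) < c := by
      have h1 : Tendsto (fun n : ℕ => ENNReal.ofReal (1 / ((n : ℝ) + 1))) atTop (𝓝 0) := by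
        have := (ENNReal.continuous_ofReal.tendsto 0).comp
          (tendsto_one_div_add_atTop_nhds_zero_nat (𝕜 := ℝ))
        simpa [Function.comp_def] using this
      exact (h1.eventually (gt_mem_nhds hc)).exists
    refine lt_of_le_of_lt (measure_mono ?_) ((hTv n).trans hn)
    exact sdiff_subset_sdiff_right (subset_iUnion T n)
  have hall := ae_all_iff.2 hTd
  have hn2 : ∀ᵐ x ∂(volume : Measure V), x ∉ Ω \ ⋃ n, T n :=
    measure_eq_zero_iff_ae_notMem.1 hnull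
  filter_upwards [hall, hn2] with x hx hx2 hxΩ
  have hxU : x ∈ ⋃ n, T n := by
    by_contra h
    exact hx2 ⟨hxΩ, h⟩
  obtain ⟨n, hn⟩ := mem_iUnion.1 hxU
  exact hx n hn

/-- **Almost everywhere differentiability of Sobolev homeomorphisms**, exponent larger than two. -/
theorem ae_hasFDerivAt_of_isSobolev {p : ℝ} (hp : 2 < p) {Ω Λ : Set V}
    (hΩ : IsOpen Ω) (hvΩ : volume Ω ≠ ⊤) (hΛ : IsOpen Λ) {f : V → V} {F : V → St.Mat}
    (hf : St.IsHomeo Ω Λ f) (hF : St.IsSobolev p Ω f F) :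
    ∀ᵐ x ∂(volume : Measure V), x ∈ Ω → HasFDerivAt f (AB.cl (F x)) x := by
  have hp1 : 1 ≤ p := by linarith
  have hfc : ContinuousOn f Ω := by
    obtain ⟨h, -, h1, -⟩ := hf
    exact h1
  exact ae_hasFDerivAt hp hΩ hvΩ hfc (monoOn_of_homeo hΛ hf)
    (PK.IsSob.integrableOn_cl hp1 hvΩ hF).aestronglyMeasurable
    (PK.IsSob.weakDeriv hp1 hvΩ hF) (PK.IsSob.lintegral_ne_top hp1 hF)

end Vale.Agent.P073.H31
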