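import Vale.Agent.P073.H31.FMain

/-!
# P073, H31, SHARP-WRAP2: even slots on the four sides
-/

set_option linter.unusedSectionVars false

open Set Metric Topology Filter MeasureTheory

namespace P073.FW31

open P073 P073.H579 P073.H237 P073.H155 P073.H228 Gon
open P073.H31 (Rct bR)
open Vale.Agent.P073.St (V)

/-- the rank of `x` on the edge `[a, b]` -/
noncomputable def rkX (a b : V) (X : Finset V) (x : V) : ℕ := by
  classical exact (X.filter fun y => pr a b y < pr a b x).card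

/-- even slots, equal weights -/
def EvX (a b : V) (h : V → V) (L : Fin 3 → Finset ℝ) (lo hi : Fin 3 → ℝ → ℝ) (mu : ℝ)
    (f : V → V) (s2 s3 : V → ℝ) : Prop :=
  ∃ X : Finset V, (∀ x, x ∈ X ↔ CrsPt a b h L x) ∧
    (∀ x ∈ X, s2 x = mu + (1 - 2 * mu) * (rkX a b X x + 3 / 8) / X.card ∧
      s3 x = mu + (1 - 2 * mu) * (rkX a b X x + 5 / 8) / X.card) ∧
    ∀ x ∈ X, ∀ j, h x j ∈ L j →
      (∀ s ∈ Icc (s2 x) (s3 x), f (AffineMap.lineMap a b s) j =
        lo j (h x j) + (hi j (h x j) - lo j (h x j)) * ((s - s2 x) / (s3 x - s2 x))) ∨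
      ∀ s ∈ Icc (s2 x) (s3 x), f (AffineMap.lineMap a b s) j =
        hi j (h x j) - (hi j (h x j) - lo j (h x j)) * ((s - s2 x) / (s3 x - s2 x))

variable {a b : V} {h : V → V} {L : Fin 3 → Finset ℝ} {lo hi om : Fin 3 → ℝ → ℝ} {mu : ℝ}
  {f : V → V} {s1 s2 s3 s4 : V → ℝ}

theorem EvX.of_even (hun : ∀ x ∈ segment ℝ a b, ∀ j j', h x j ∈ L j → h x j' ∈ L j' → j = j')
    {w : ℝ} (hw : 0 < w) (hom : ∀ j, ∀ c ∈ L j, om j c = w)
    (H : Even a b h L lo hi om mu f s1 s2 s3 s4) : EvX a b h L lo hi mu f s2 s3 := by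
  classical
  obtain ⟨X, hX, hS, hA⟩ := H
  have hw' : ∀ x ∈ X, omX h L om x = w := by
    intro x hx
    obtain ⟨hxs, j, hj⟩ := (hX x).1 hx
    rw [omX_eq hj fun j' hne hj' => hne (hun x hxs j' j hj' hj)]
    exact hom j _ hj
  have hsum : ∑ y ∈ X, omX h L om y = X.card * w := by
    rw [Finset.sum_congr rfl hw', Finset.sum_const, nsmul_eq_mul]
  have hslot : ∀ r, ∀ x ∈ X, slot a b mu X (omX h L om) r x =
      mu + (1 - 2 * mu) * (rkX a b X x + r) / X.card := by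
    intro r x hx
    have hN : (0:ℝ) < X.card := by
      have : 0 < X.card := Finset.card_pos.2 ⟨x, hx⟩
      exact_mod_cast this
    have h1 : ∑ y ∈ X.filter (fun y => pr a b y < pr a b x), omX h L om y = rkX a b X x * w := by
      rw [Finset.sum_congr rfl fun y hy => hw' y (Finset.mem_filter.1 hy).1, Finset.sum_const,
        nsmul_eq_mul]
      rfl
    unfold slot
    have h2 : (∑ y ∈ X.filter (fun y => pr a b y < pr a b x), omX h L om y) +
        r * omX h L om x = (rkX a b X x + r) * w := by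
      rw [h1, hw' x hx]; ring
    have h3 : (1 - 2 * mu) * ((∑ y ∈ X.filter (fun y => pr a b y < pr a b x), omX h L om y) +
        r * omX h L om x) / ∑ y ∈ X, omX h L om y =
        (1 - 2 * mu) * (rkX a b X x + r) / X.card := by
      rw [h2, hsum]
      field_simp
    convert congrArg (fun t => mu + t) h3 using 3
  refine ⟨X, hX, fun x hx => ⟨?_, ?_⟩, hA⟩
  · rw [hS.e2, hslot _ x hx]
  · rw [hS.e3, hslot _ x hx]

theorem pr_seg (hab : a ≠ b) {x : V} (hx : x ∈ segment ℝ a b) :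
    pr a b x ∈ Icc (0:ℝ) 1 ∧ AffineMap.lineMap a b (pr a b x) = x ∧ pr b a x = 1 - pr a b x := by
  rw [segment_eq_image_lineMap] at hx
  obtain ⟨s, hs, rfl⟩ := hx
  rw [pr_lineMap hab hs.1]
  refine ⟨hs, rfl, ?_⟩
  rw [← AffineMap.lineMap_apply_one_sub b a, pr_lineMap hab.symm (by linarith [hs.2])]

theorem rkX_lt {X : Finset V} {x : V} (hx : x ∈ X) : rkX a b X x < X.card := by
  classical
  unfold rkX
  refine Finset.card_lt_card ⟨Finset.filter_subset _ _, fun h => ?_⟩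
  have := h hx
  rw [Finset.mem_filter] at this
  exact lt_irrefl _ this.2

theorem rkX_lt_iff {X : Finset V} {x y : V} (hy : y ∈ X) :
    rkX a b X y < rkX a b X x ↔ pr a b y < pr a b x := by
  classical
  unfold rkX
  constructor
  · intro h1
    by_contra h2
    push Not at h2
    refine absurd h1 (not_lt.2 (Finset.card_le_card fun z hz => ?_))
    rw [Finset.mem_filter] at hz ⊢
    exact ⟨hz.1, hz.2.trans_le h2⟩
  · intro h1
    refine Finset.card_lt_card ⟨fun z hz => ?_, fun h => ?_⟩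
    · rw [Finset.mem_filter] at hz ⊢
      exact ⟨hz.1, hz.2.trans h1⟩
    · have : y ∈ X.filter fun z => pr a b z < pr a b x := Finset.mem_filter.2 ⟨hy, h1⟩
      have := h this
      rw [Finset.mem_filter] at this
      exact lt_irrefl _ this.2

theorem rkX_swap (hab : a ≠ b) {X : Finset V} (hX : ∀ x ∈ X, x ∈ segment ℝ a b) {x : V}
    (hx : x ∈ X) : rkX b a X x + rkX a b X x + 1 = X.card := by
  classical
  have h1 : (X.filter fun y => pr b a y < pr b a x) = X.filter fun y => pr a b x < pr a b y := by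
    refine Finset.filter_congr fun y hy => ?_
    rw [(pr_seg hab (hX y hy)).2.2, (pr_seg hab (hX x hx)).2.2]
    constructor <;> intro h <;> linarith
  have h2 : X = insert x ((X.filter fun y => pr a b x < pr a b y) ∪
      (X.filter fun y => pr a b y < pr a b x)) := by
    ext y
    rw [Finset.mem_insert, Finset.mem_union, Finset.mem_filter, Finset.mem_filter]
    constructor
    · intro hy
      rcases lt_trichotomy (pr a b x) (pr a b y) with h | h | h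
      · exact Or.inr (Or.inl ⟨hy, h⟩)
      · left
        rw [← (pr_seg hab (hX x hx)).2.1, ← (pr_seg hab (hX y hy)).2.1, h]
      · exact Or.inr (Or.inr ⟨hy, h⟩)
    · rintro (rfl | h | h)
      · exact hx
      · exact h.1
      · exact h.1
  have h3 : X.card = ((X.filter fun y => pr a b x < pr a b y).card +
      (X.filter fun y => pr a b y < pr a b x).card) + 1 := by
    conv_lhs => rw [h2]
    rw [Finset.card_insert_of_notMem, Finset.card_union_of_disjoint]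
    · rw [Finset.disjoint_filter]
      intro y _ h4 h5
      exact lt_asymm h4 h5
    · rw [Finset.mem_union, Finset.mem_filter, Finset.mem_filter]
      rintro (h | h) <;> exact lt_irrefl _ h.2
  unfold rkX
  rw [h1]
  omega

/-- the reversed edge -/
theorem EvX.symm (hab : a ≠ b) (H : EvX a b h L lo hi mu f s2 s3) :
    EvX b a h L lo hi mu f (fun x => 1 - s3 x) (fun x => 1 - s2 x) := by
  obtain ⟨X, hX, hS, hA⟩ := H
  have hXs : ∀ x ∈ X, x ∈ segment ℝ a b := fun x hx => ((hX x).1 hx).1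
  have hcp : ∀ x ∈ X, (0:ℝ) < X.card := fun x hx => by
    have : 0 < X.card := Finset.card_pos.2 ⟨x, hx⟩
    exact_mod_cast this
  refine ⟨X, fun x => by rw [hX]; unfold CrsPt; rw [segment_symm], fun x hx => ?_,
    fun x hx j hj => ?_⟩
  · obtain ⟨h2, h3⟩ := hS x hx
    have h4 : ((rkX b a X x : ℝ)) = X.card - 1 - rkX a b X x := by
      have := rkX_swap hab hXs hx
      have h5 : ((rkX b a X x + rkX a b X x + 1 : ℕ) : ℝ) = X.card := by rw [this]
      push_cast at h5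
      linarith
    have h0 := hcp x hx
    constructor
    · show 1 - s3 x = _
      rw [h3, h4]
      field_simp
      ring
    · show 1 - s2 x = _
      rw [h2, h4]
      field_simp
      ring
  · have hd : ∀ _ : ℕ, (1 - s2 x) - (1 - s3 x) = s3 x - s2 x := fun _ => by ring
    have hl : ∀ s : ℝ, (AffineMap.lineMap b a s : V) = AffineMap.lineMap a b (1 - s) := fun s =>
      (AffineMap.lineMap_apply_one_sub a b s).symm
    have hlt : 0 < s3 x - s2 x ∨ s3 x - s2 x ≤ 0 := lt_or_ge _ _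
    rcases hlt with hlt | hlt
    · rcases hA x hx j hj with h1 | h1
      · right
        intro s hs
        rw [hl, h1 (1 - s) ⟨by linarith [hs.2], by linarith [hs.1]⟩, hd 0]
        field_simp
        ring
      · left
        intro s hs
        rw [hl, h1 (1 - s) ⟨by linarith [hs.2], by linarith [hs.1]⟩, hd 0]
        field_simp
        ring
    · rcases hlt.lt_or_eq with hlt | heq
      · left
        intro s hs
        exfalso
        linarith [hs.1, hs.2]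
      · -- one point
        rcases hA x hx j hj with h1 | h1
        · left
          intro s hs
          rw [hl, h1 (1 - s) ⟨by linarith [hs.2], by linarith [hs.1]⟩, hd 0, heq, div_zero,
            div_zero]
        · right
          intro s hs
          rw [hl, h1 (1 - s) ⟨by linarith [hs.2], by linarith [hs.1]⟩, hd 0, heq, div_zero,
            div_zero]

section

variable {v : ℕ → V} {k : Fin 3 → ℝ → ℝ} {La : Fin 4 → ℝ}

/-- **the fibres** -/
theorem fib_eq (H : HIn 4 v h k L lo hi) (hinj : InjOn h (bd 4 v))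
    {Φe : ∀ i : Fin 4, ConHomeo (seg v i) (preQ k h (seg v i))}
    {G : ConHomeo (bd 4 v) (preQ k h (bd 4 v))}
    (hG : ∀ i : Fin 4, EqOn G.toFun (Φe i).toFun (seg v i)) {π : V → V}
    (hπ : Colp h k L 4 v G.toFun π) {X : Finset V}
    (hX : ∀ x, x ∈ X ↔ x ∈ bd 4 v ∧ ∃ j, h x j ∈ L j) {s1 s2 s3 s4 : Fin 4 → V → ℝ}
    (hGE : ∀ i : Fin 4, EdgeNum (v i) (v (i + 1)) h k L lo hi om (La i) (Φe i).toFun (s1 i) (s2 i)
      (s3 i) (s4 i)) {S1 S2 S3 S4 w : V → ℝ} {ze : V → ℝ → ℝ}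
    (hP : PosIn ((4:ℕ):ℝ) X S1 S2 S3 S4 w ze) (hC : Clp 4 v X S2 S3 π)
    {i : Fin 4} {x : V} (hx : x ∈ X) (hxi : x ∈ seg v i) :
    S2 x = i + s2 i x ∧ S3 x = i + s3 i x := by
  obtain ⟨hxB, j, hj⟩ := (hX x).1 hx
  have hcr : CrsPt (v i) (v (i + 1)) h L x := ⟨hxi, j, hj⟩
  have b1 := (hGE i).a1 x hcr
  have b2 := (hGE i).a2 x hcr
  have b3 := (hGE i).a3 x hcr
  have b4 := (hGE i).a4 x hcr
  have b5 := (hGE i).a5 x hcr
  have c1 := hP.a1 x hx
  have c2 := hP.a2 x hx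
  have c3 := hP.a3 x hx
  have c4 := hP.a4 x hx
  have c5 := hP.a5 x hx
  have hi0 : (0:ℝ) ≤ ((i : ℕ) : ℝ) := Nat.cast_nonneg _
  have hi4 : ((i : ℕ) : ℝ) + 1 ≤ ((4:ℕ) : ℝ) := by exact_mod_cast i.2
  -- `x` is an inner point of the side
  obtain ⟨t, ht, htx⟩ : ∃ t ∈ Ioo (0:ℝ) 1, (AffineMap.lineMap (v i) (v (i + 1)) t : V) = x := by
    have h1 := hxi
    rw [seg_eq] at h1
    obtain ⟨t, ht, htx⟩ := h1
    refine ⟨t, ⟨lt_of_le_of_ne ht.1 fun h0 => ?_, lt_of_le_of_ne ht.2 fun h0 => ?_⟩, htx⟩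
    · rw [← h0, AffineMap.lineMap_apply_zero] at htx
      rw [← htx] at hj
      exact H.hv i i.2.le j hj
    · rw [h0, AffineMap.lineMap_apply_one] at htx
      rw [← htx] at hj
      exact H.hv (i + 1) i.2 j hj
  have hπm : ∀ {T : ℝ}, T ∈ Icc (0:ℝ) ((4:ℕ) : ℝ) → cv 4 v T ∈ bd 4 v := fun hT =>
    mem_image_of_mem _ hT
  -- the first inclusion
  have key1 : ∀ T ∈ Icc ((i:ℕ) + s2 i x) ((i:ℕ) + s3 i x), T ∈ Icc (S2 x) (S3 x) := by
    intro T hT
    have hTi : T - (i:ℕ) ∈ Icc (0:ℝ) 1 := ⟨by linarith [hT.1], by linarith [hT.2]⟩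
    have h0 : ((i:ℕ):ℝ) ≤ T := by linarith [hTi.1]
    have h1 : T ≤ (i:ℕ) + 1 := by linarith [hTi.2]
    have hT4 : T ∈ Icc (0:ℝ) ((4:ℕ) : ℝ) := ⟨by linarith, by linarith⟩
    have hcv : cv 4 v T = AffineMap.lineMap (v i) (v (i + 1)) (T - (i:ℕ)) := cv_sub i.2 h0 h1
    have hm : cv 4 v T ∈ seg v i := by rw [hcv, seg_eq]; exact mem_image_of_mem _ hTi
    have h2 := ((hGE i).fib x hcr _ hTi).2 ⟨by linarith [hT.1], by linarith [hT.2]⟩
    rw [← hcv, ← hG i hm, hπ.eq _ (hπm hT4)] at h2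
    have h3 : π (cv 4 v T) = x := hinj (by rw [← hπ.im]; exact mem_image_of_mem _ (hπm hT4)) hxB h2
    have h4 := hC.const x hx (S2 x) ⟨le_rfl, c3.le⟩
    have hS2 : S2 x ∈ Icc (0:ℝ) ((4:ℕ) : ℝ) := ⟨by linarith, by linarith⟩
    have hTlt : T ∈ Ico (0:ℝ) ((4:ℕ) : ℝ) := ⟨hT4.1, by linarith [hT.2]⟩
    rcases hC.inj _ (hπm hT4) _ (hπm hS2) (h3.trans h4.symm) with h5 | ⟨x', hx', ⟨T', hT', he⟩, -⟩
    · rw [H.gon.inj hTlt ⟨hS2.1, by linarith⟩ h5]
      exact ⟨le_rfl, c3.le⟩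
    · have h6 := hC.const x' hx' T' hT'
      rw [he, h3] at h6
      subst h6
      have hT'lt : T' ∈ Ico (0:ℝ) ((4:ℕ) : ℝ) := ⟨by linarith [hT'.1], by linarith [hT'.2]⟩
      rw [← H.gon.inj hT'lt hTlt he]
      exact hT'
  have key2 : ∀ T ∈ Icc (S2 x) (S3 x), T ∈ Icc ((i:ℕ) + s2 i x) ((i:ℕ) + s3 i x) := by
    intro T hT
    have hT4 : T ∈ Icc (0:ℝ) ((4:ℕ) : ℝ) := ⟨by linarith [hT.1], by linarith [hT.2]⟩
    have h3 : π (cv 4 v T) = x := hC.const x hx T hT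
    obtain ⟨i', hi', h0, h1⟩ := P073.H155.Star.exists_edge (n := 4) (by norm_num) hT4
    have hTi : T - (i':ℕ) ∈ Icc (0:ℝ) 1 := ⟨by linarith, by linarith⟩
    have hcv : cv 4 v T = AffineMap.lineMap (v i') (v (i' + 1)) (T - (i':ℕ)) := cv_sub hi' h0 h1
    have hm : cv 4 v T ∈ seg v i' := by rw [hcv, seg_eq]; exact mem_image_of_mem _ hTi
    have h4 : x ∈ seg v i' := by rw [← h3]; exact hπ.maps i' hi' hm
    have h5 : i' = i := by
      rw [← htx] at h4
      exact H.gon.uniq i.2 hi' ht h4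
    subst h5
    have h6 := hπ.eq _ (hπm hT4)
    rw [h3] at h6
    have h7 : prodK k ((Φe i).toFun (AffineMap.lineMap (v i) (v (i + 1)) (T - (i:ℕ)))) = h x := by
      rw [← h6, hG i hm, hcv]
    obtain ⟨h8, h9⟩ := ((hGE i).fib x hcr _ hTi).1 h7
    exact ⟨by linarith, by linarith⟩
  have e1 := key1 _ ⟨le_rfl, by linarith⟩
  have e2 := key1 _ ⟨by linarith, le_rfl⟩
  have e3 := key2 _ ⟨le_rfl, c3.le⟩
  have e4 := key2 _ ⟨c3.le, le_rfl⟩
  exact ⟨le_antisymm e1.1 e3.1, le_antisymm e4.2 e2.2⟩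

/-- **the slots** -/
theorem slotPos_of (H : HIn 4 v h k L lo hi) {X : Finset V}
    (hX : ∀ x, x ∈ X ↔ x ∈ bd 4 v ∧ ∃ j, h x j ∈ L j) {f : Fin 4 → V → V}
    {s1 s2 s3 s4 : Fin 4 → V → ℝ}
    (hGE : ∀ i : Fin 4, EdgeNum (v i) (v (i + 1)) h k L lo hi om (La i) (f i) (s1 i) (s2 i)
      (s3 i) (s4 i))
    (hEv : ∀ i : Fin 4, EvX (v i) (v (i + 1)) h L lo hi mu (f i) (s2 i) (s3 i))
    (hmu : mu < 1 / 2) {S2 S3 : V → ℝ}
    (hfib : ∀ i : Fin 4, ∀ x ∈ X, x ∈ seg v i → S2 x = i + s2 i x ∧ S3 x = i + s3 i x) :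
    SlotPos X mu S2 S3 := by
  classical
  choose Xi hXi hSi _ using hEv
  have hcr : ∀ (i : Fin 4) x, x ∈ Xi i ↔ x ∈ X ∧ x ∈ seg v i := by
    intro i x
    rw [hXi, hX]
    constructor
    · rintro ⟨h1, h2⟩
      exact ⟨⟨H.gon.seg_sub i.2 h1, h2⟩, h1⟩
    · rintro ⟨⟨-, h2⟩, h1⟩
      exact ⟨h1, h2⟩
  have hrange : ∀ (i : Fin 4) x, x ∈ Xi i → ((i:ℕ):ℝ) < S2 x ∧ S2 x < (i:ℕ) + 1 := by
    intro i x hx
    have hc := (hXi i x).1 hx
    obtain ⟨e2, e3⟩ := hfib i x ((hcr i x).1 hx).1 ((hcr i x).1 hx).2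
    have b1 := (hGE i).a1 x hc
    have b2 := (hGE i).a2 x hc
    have b3 := (hGE i).a3 x hc
    have b4 := (hGE i).a4 x hc
    have b5 := (hGE i).a5 x hc
    exact ⟨by linarith, by linarith⟩
  have hXE : ∀ i : Fin 4, XE X S2 i = Xi i := by
    intro i
    ext x
    unfold XE
    rw [Finset.mem_filter]
    constructor
    · rintro ⟨hx, h1, h2⟩
      obtain ⟨i', hi', hxi⟩ := H.gon.exists_seg ((hX x).1 hx).1
      have h3 := (hcr ⟨i', hi'⟩ x).2 ⟨hx, hxi⟩
      obtain ⟨h4, h5⟩ := hrange _ x h3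
      have h6 : i' = (i : ℕ) := by
        have a1 : ((i:ℕ):ℝ) < (i':ℝ) + 1 := lt_trans h1 h5
        have a2 : (i':ℝ) < (i:ℕ) + 1 := lt_trans h4 h2
        have a1' : (i:ℕ) < i' + 1 := by exact_mod_cast a1
        have a2' : i' < (i:ℕ) + 1 := by exact_mod_cast a2
        omega
      have h7 : (⟨i', hi'⟩ : Fin 4) = i := Fin.ext h6
      rw [h7] at h3
      exact h3
    · intro hx
      exact ⟨((hcr i x).1 hx).1, hrange i x hx⟩
  have hrk : ∀ i : Fin 4, ∀ x ∈ Xi i, rkE X S2 i x = rkX (v i) (v (i + 1)) (Xi i) x := by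
    intro i x hx
    have hN : (0:ℝ) < (Xi i).card := by
      have : 0 < (Xi i).card := Finset.card_pos.2 ⟨x, hx⟩
      exact_mod_cast this
    unfold rkE
    rw [hXE]
    have h1 : ((Xi i).filter fun y => S2 y < S2 x) =
        (Xi i).filter fun y => pr (v i) (v (i + 1)) y < pr (v i) (v (i + 1)) x := by
      refine Finset.filter_congr fun y hy => ?_
      rw [← rkX_lt_iff hy, (hfib i x ((hcr i x).1 hx).1 ((hcr i x).1 hx).2).1,
        (hfib i y ((hcr i y).1 hy).1 ((hcr i y).1 hy).2).1, (hSi i x hx).1, (hSi i y hy).1]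
      rw [add_lt_add_iff_left, add_lt_add_iff_left, div_lt_div_iff_of_pos_right hN,
        mul_lt_mul_iff_of_pos_left (by linarith), add_lt_add_iff_right, Nat.cast_lt]
    unfold rkX
    rw [h1]
  refine ⟨fun x hx => ?_, fun x hx y hy he => ?_, fun i hi' x hx => ?_, fun i hi' x hx => ?_⟩
  · obtain ⟨i, hi', hxi⟩ := H.gon.exists_seg ((hX x).1 hx).1
    refine ⟨i, hi', ?_⟩
    have := hXE ⟨i, hi'⟩
    simp only at this
    rw [this]
    exact (hcr _ x).2 ⟨hx, hxi⟩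
  · obtain ⟨i, hi', hxi⟩ := H.gon.exists_seg ((hX x).1 hx).1
    obtain ⟨i', hi'', hyi⟩ := H.gon.exists_seg ((hX y).1 hy).1
    have h1 := (hcr ⟨i, hi'⟩ x).2 ⟨hx, hxi⟩
    have h2 := (hcr ⟨i', hi''⟩ y).2 ⟨hy, hyi⟩
    obtain ⟨a1, a2⟩ := hrange _ x h1
    obtain ⟨a3, a4⟩ := hrange _ y h2
    rw [he] at a1 a2
    simp only at a1 a2 a3 a4
    have a5 : i < i' + 1 := by exact_mod_cast lt_trans a1 a4
    have a6 : i' < i + 1 := by exact_mod_cast lt_trans a3 a2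
    have a7 : i = i' := by omega
    subst a7
    -- equal ranks
    have hnot : ∀ u ∈ Xi ⟨i, hi'⟩, ∀ w ∈ Xi ⟨i, hi'⟩, S2 u = S2 w →
        ¬ pr (v i) (v (i + 1)) u < pr (v i) (v (i + 1)) w := by
      intro u hu w hw heq hlt
      have hN : (0:ℝ) < (Xi ⟨i, hi'⟩).card := by
        have : 0 < (Xi ⟨i, hi'⟩).card := Finset.card_pos.2 ⟨u, hu⟩
        exact_mod_cast this
      have h3 := (rkX_lt_iff (a := v i) (b := v (i + 1)) (x := w) hu).2 hlt
      have h4 : S2 u < S2 w := by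
        rw [(hfib ⟨i, hi'⟩ u ((hcr _ u).1 hu).1 ((hcr _ u).1 hu).2).1,
          (hfib ⟨i, hi'⟩ w ((hcr _ w).1 hw).1 ((hcr _ w).1 hw).2).1, (hSi _ u hu).1,
          (hSi _ w hw).1]
        rw [add_lt_add_iff_left, add_lt_add_iff_left, div_lt_div_iff_of_pos_right hN,
          mul_lt_mul_iff_of_pos_left (by linarith), add_lt_add_iff_right, Nat.cast_lt]
        exact h3
      linarith
    have h5 : pr (v i) (v (i + 1)) x = pr (v i) (v (i + 1)) y :=
      le_antisymm (not_lt.1 (hnot y h2 x h1 he.symm)) (not_lt.1 (hnot x h1 y h2 he))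
    have hne := H.gon.ne hi'
    rw [← (pr_seg hne hxi).2.1, ← (pr_seg hne hyi).2.1, h5]
  · have e1 := hXE ⟨i, hi'⟩
    simp only at e1
    rw [e1] at hx ⊢
    have e2 := hrk ⟨i, hi'⟩ x hx
    simp only at e2
    rw [e2, (hfib ⟨i, hi'⟩ x ((hcr _ x).1 hx).1 ((hcr _ x).1 hx).2).1, (hSi _ x hx).1]
  · have e1 := hXE ⟨i, hi'⟩
    simp only at e1
    rw [e1] at hx ⊢
    have e2 := hrk ⟨i, hi'⟩ x hx
    simp only at e2
    rw [e2, (hfib ⟨i, hi'⟩ x ((hcr _ x).1 hx).1 ((hcr _ x).1 hx).2).2, (hSi _ x hx).2]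

/-- **the band coordinates are affine** -/
theorem ze_affine (H : HIn 4 v h k L lo hi) {X : Finset V}
    (hX : ∀ x, x ∈ X ↔ x ∈ bd 4 v ∧ ∃ j, h x j ∈ L j)
    {Φe : ∀ i : Fin 4, ConHomeo (seg v i) (preQ k h (seg v i))}
    {G : ConHomeo (bd 4 v) (preQ k h (bd 4 v))}
    (hG : ∀ i : Fin 4, EqOn G.toFun (Φe i).toFun (seg v i)) {s1 s2 s3 s4 : Fin 4 → V → ℝ}
    (hGE : ∀ i : Fin 4, EdgeNum (v i) (v (i + 1)) h k L lo hi om (La i) (Φe i).toFun (s1 i) (s2 i)
      (s3 i) (s4 i))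
    (hEv : ∀ i : Fin 4, EvX (v i) (v (i + 1)) h L lo hi mu (Φe i).toFun (s2 i) (s3 i))
    {S1 S2 S3 S4 w : V → ℝ} {ze : V → ℝ → ℝ} (hP : PosIn ((4:ℕ):ℝ) X S1 S2 S3 S4 w ze)
    (hGz : ∀ x ∈ X, ∀ j, h x j ∈ L j →
      (∀ T ∈ Icc (S2 x) (S3 x), G.toFun (cv 4 v T) j =
        lo j (h x j) + (hi j (h x j) - lo j (h x j)) * ze x T) ∨
      ∀ T ∈ Icc (S2 x) (S3 x), G.toFun (cv 4 v T) j =
        hi j (h x j) - (hi j (h x j) - lo j (h x j)) * ze x T)
    (hfib : ∀ i : Fin 4, ∀ x ∈ X, x ∈ seg v i → S2 x = i + s2 i x ∧ S3 x = i + s3 i x) :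
    ∀ x ∈ X, ∀ T ∈ Icc (S2 x) (S3 x), ze x T = (T - S2 x) / (S3 x - S2 x) := by
  intro x hx
  obtain ⟨hxB, j, hj⟩ := (hX x).1 hx
  obtain ⟨i, hi', hxi⟩ := H.gon.exists_seg hxB
  set i' : Fin 4 := ⟨i, hi'⟩ with hi''
  obtain ⟨e2, e3⟩ := hfib i' x hx hxi
  obtain ⟨Xi, hXi, -, hA⟩ := hEv i'
  have hcr : CrsPt (v i) (v (i + 1)) h L x := ⟨hxi, j, hj⟩
  have b1 := (hGE i').a1 x hcr
  have b2 := (hGE i').a2 x hcr
  have b3 := (hGE i').a3 x hcr
  have b4 := (hGE i').a4 x hcr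
  have b5 := (hGE i').a5 x hcr
  have hlt := (H.hI j).lt _ (Finset.mem_coe.2 hj)
  have hg : 0 < hi j (h x j) - lo j (h x j) := sub_pos.2 hlt
  have c3 := hP.a3 x hx
  have hd : 0 < S3 x - S2 x := by linarith
  have ei : ((i' : ℕ) : ℝ) = i := rfl
  rw [ei] at e2 e3
  -- the map `G` on the fibre
  have hGf : ∀ T ∈ Icc (S2 x) (S3 x), G.toFun (cv 4 v T) j =
      (Φe i').toFun (AffineMap.lineMap (v i) (v (i + 1)) (T - i)) j ∧
      T - i ∈ Icc (s2 i' x) (s3 i' x) ∧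
      (T - i - s2 i' x) / (s3 i' x - s2 i' x) = (T - S2 x) / (S3 x - S2 x) := by
    intro T hT
    have hTi : T - i ∈ Icc (s2 i' x) (s3 i' x) := ⟨by linarith [hT.1], by linarith [hT.2]⟩
    have h01 : T - i ∈ Icc (0:ℝ) 1 := ⟨by linarith [hTi.1], by linarith [hTi.2]⟩
    have hcv : cv 4 v T = AffineMap.lineMap (v i) (v (i + 1)) (T - i) :=
      cv_sub hi' (by linarith [h01.1]) (by linarith [h01.2])
    have hm : cv 4 v T ∈ seg v i' := by
      rw [hcv]
      show _ ∈ seg v i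
      rw [seg_eq]; exact mem_image_of_mem _ h01
    refine ⟨?_, hTi, ?_⟩
    · rw [hG i' hm, hcv]
    · rw [e2, e3]
      congr 1 <;> ring
  have z0 : ze x (S2 x) = 0 := hP.z0 x hx _ le_rfl
  have z1 : ze x (S3 x) = 1 := hP.z1 x hx _ le_rfl
  have hm2 : S2 x ∈ Icc (S2 x) (S3 x) := ⟨le_rfl, c3.le⟩
  have hm3 : S3 x ∈ Icc (S2 x) (S3 x) := ⟨c3.le, le_rfl⟩
  have r2 : (S2 x - S2 x) / (S3 x - S2 x) = 0 := by rw [sub_self, zero_div]
  have r3 : (S3 x - S2 x) / (S3 x - S2 x) = 1 := div_self hd.ne'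
  intro T hT
  obtain ⟨g1, g2, g3⟩ := hGf T hT
  obtain ⟨k1, k2, k3⟩ := hGf _ hm2
  rcases hGz x hx j hj with h1 | h1 <;> rcases hA x ((hXi x).2 hcr) j hj with h2 | h2
  · have h3 := h1 T hT
    rw [g1, h2 _ g2, g3] at h3
    have h4 := mul_left_cancel₀ hg.ne' (add_left_cancel h3)
    exact h4.symm
  · exfalso
    have h3 := h1 _ hm2
    rw [k1, h2 _ k2, k3, r2, z0] at h3
    linarith
  · exfalso
    have h3 := h1 _ hm2
    rw [k1, h2 _ k2, k3, r2, z0] at h3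
    linarith
  · have h3 := h1 T hT
    rw [g1, h2 _ g2, g3] at h3
    have h4 := mul_left_cancel₀ hg.ne' (sub_right_injective h3)
    exact h4.symm

end

end P073.FW31
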