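import Vale.Agent.P073.H31.FDefs
import Vale.Agent.P073.H228.Near5

/-!
# P073, H31, SHARP-WRAP2: the face map of a nearly monotone square face, abstract form
-/

set_option linter.unusedSectionVars false

open Set Metric Topology Filter MeasureTheory

namespace P073.FW31

open P073 P073.H579 P073.H237 P073.H155 P073.H228 Gon
open P073.H31 (Rct bR Fil ArcD Pat Pos Lnk)

variable {E : Type*} [NormedAddCommGroup E] [NormedSpace ℝ E]

/-- the position of a boundary point of the square -/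
theorem ed_mem {e : Fin 4} {t : ℝ} (ht : t ∈ Icc (0:ℝ) 1) : ed e t ∈ bR := by
  obtain ⟨h0, h1⟩ := ht
  fin_cases e
  · exact ⟨⟨⟨h0, h1⟩, ⟨le_rfl, zero_le_one⟩⟩, Or.inr (Or.inr (Or.inl rfl))⟩
  · exact ⟨⟨⟨zero_le_one, le_rfl⟩, ⟨h0, h1⟩⟩, Or.inr (Or.inl rfl)⟩
  · exact ⟨⟨⟨h0, h1⟩, ⟨zero_le_one, le_rfl⟩⟩, Or.inr (Or.inr (Or.inr rfl))⟩
  · exact ⟨⟨⟨le_rfl, zero_le_one⟩, ⟨h0, h1⟩⟩, Or.inl rfl⟩

theorem exists_ed {x : ℝ × ℝ} (hx : x ∈ bR) : ∃ e t, t ∈ Icc (0:ℝ) 1 ∧ x = ed e t := by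
  obtain ⟨⟨h1, h2⟩, h⟩ := hx
  rcases h with h | h | h | h
  · exact ⟨3, x.2, h2, Prod.ext h rfl⟩
  · exact ⟨1, x.2, h2, Prod.ext h rfl⟩
  · exact ⟨0, x.1, h1, Prod.ext rfl h⟩
  · exact ⟨2, x.1, h1, Prod.ext rfl h⟩

/-- the parameter of an edge from the position `T ∈ [i, i + 1]` -/
theorem exists_tp {i : ℕ} (hi : i < 4) {T : ℝ} (h0 : (i:ℝ) ≤ T) (h1 : T ≤ i + 1) :
    ∃ e : Fin 4, (e : ℕ) = i ∧ ∃ t ∈ Icc (0:ℝ) 1, 4 * tpBL e t = T ∧
      (i ≤ 1 → t = T - i) ∧ (2 ≤ i → t = i + 1 - T) := by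
  refine ⟨⟨i, hi⟩, rfl, ?_⟩
  interval_cases i
  · refine ⟨T, ⟨by simpa using h0, by simpa using h1⟩, ?_, fun _ => by simp, fun h => by omega⟩
    show 4 * (T / 4) = T
    ring
  · refine ⟨T - 1, ⟨by simpa using h0, by norm_num at h1; linarith⟩, ?_, fun _ => by simp,
      fun h => by omega⟩
    show 4 * ((1 + (T - 1)) / 4) = T
    ring
  · norm_num at h0 h1
    refine ⟨3 - T, ⟨by linarith, by linarith⟩, ?_, fun h => by omega, fun _ => by norm_num⟩
    show 4 * ((3 - (3 - T)) / 4) = T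
    ring
  · norm_num at h0 h1
    refine ⟨4 - T, ⟨by linarith, by linarith⟩, ?_, fun h => by omega, fun _ => by norm_num⟩
    show 4 * ((4 - (4 - T)) / 4) = T
    ring

section

variable {m : ℕ} {v : ℕ → E} {h : E → Fin m → ℝ} {k : Fin m → ℝ → ℝ} {L : Fin m → Finset ℝ}
  {lo hi om : Fin m → ℝ → ℝ} {C : Set E}

theorem Par.bd_iff {P : ConHomeo Rct C} (hP : Par v P) {x : E} (hx : x ∈ bd 4 v) :
    P.invFun x ∈ bR := by
  obtain ⟨T, hT, rfl⟩ := hx
  obtain ⟨i, hi, h0, h1⟩ : ∃ i : ℕ, i < 4 ∧ (i:ℝ) ≤ T ∧ T ≤ (i:ℝ) + 1 := by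
    obtain ⟨j, hj, h2, h3⟩ := P073.H155.Star.exists_edge (n := 4) (by norm_num) hT
    exact ⟨j, hj, h2, h3⟩
  obtain ⟨e, -, t, ht, h2, -⟩ := exists_tp hi h0 h1
  have h3 := hP e t ht
  rw [h2] at h3
  rw [← h3, P.left_inv (ed_mem ht).1]
  exact ed_mem ht

/-- the position in the chart `BL` of a point of the polygon, in the middle part of a side -/
theorem chart_pt {P : ConHomeo Rct C} (hP : Par v P) {mu K : ℝ} {κ : ConHomeo Rct Rct}
    (hκ : ChartBL mu K κ) {i : ℕ} (hi : i < 4) {T : ℝ} (h0 : (i:ℝ) + mu ≤ T) (h1 : T ≤ i + 1 - mu)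
    (hmu : 0 < mu) : κ.toFun (P.invFun (cv 4 v T)) = (T / 4, 1) := by
  obtain ⟨e, he, t, ht, h2, h3, h4⟩ := exists_tp hi (by linarith) (by linarith : T ≤ i + 1)
  have h5 := hP e t ht
  rw [h2] at h5
  rw [← h5, P.left_inv (ed_mem ht).1, hκ.top e t ht ?_]
  · have : tpBL e t = T / 4 := by linarith
    rw [this]
  · rintro (h6 | h6)
    · have : i = 0 := by rw [← he, h6]; rfl
      subst this
      rw [h3 (by norm_num)]
      linarith
    · have : i = 3 := by rw [← he, h6]; rfl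
      subst this
      rw [h4 (by norm_num)]
      linarith

end

/-- bounds for the slots -/
theorem slot_bounds {X : Finset E} {mu : ℝ} {S2 S3 : E → ℝ} (hmu : 0 < mu) (hmu1 : mu < 1 / 4)
    (hsl : SlotPos X mu S2 S3) {x : E} (hx : x ∈ X) : ∃ i : ℕ, i < 4 ∧ (i:ℝ) + mu ≤ S2 x ∧
      S2 x < S3 x ∧ S3 x ≤ (i:ℝ) + 1 - mu := by
  classical
  obtain ⟨i, hi, hxi⟩ := hsl.ex x hx
  refine ⟨i, hi, ?_⟩
  have h2 := hsl.s2 i hi x hxi
  have h3 := hsl.s3 i hi x hxi
  have hlt : rkE X S2 i x < (XE X S2 i).card := by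
    unfold rkE
    refine Finset.card_lt_card ⟨Finset.filter_subset _ _, fun h => ?_⟩
    have := h hxi
    rw [Finset.mem_filter] at this
    exact lt_irrefl _ this.2
  set N : ℝ := ((XE X S2 i).card : ℝ) with hN
  set r : ℝ := (rkE X S2 i x : ℝ) with hr
  have hr0 : 0 ≤ r := Nat.cast_nonneg _
  have hN0 : r + 1 ≤ N := by
    rw [hr, hN]
    exact_mod_cast hlt
  have hNp : 0 < N := by linarith
  have hq : 0 < 1 - 2 * mu := by linarith
  have e1 : 0 ≤ (1 - 2 * mu) * (r + 3 / 8) / N := by positivity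
  have e2 : (1 - 2 * mu) * (r + 5 / 8) / N ≤ 1 - 2 * mu := by
    rw [div_le_iff₀ hNp]
    nlinarith
  have e3 : (1 - 2 * mu) * (r + 3 / 8) / N < (1 - 2 * mu) * (r + 5 / 8) / N := by
    rw [div_lt_div_iff_of_pos_right hNp]
    nlinarith
  refine ⟨by linarith, by linarith, by linarith⟩

/-- **the face map of a nearly monotone square face** -/
theorem exists_sharpAbs {v : ℕ → E} {h : E → Fin 3 → ℝ} {k : Fin 3 → ℝ → ℝ}
    {L : Fin 3 → Finset ℝ} {lo hi om : Fin 3 → ℝ → ℝ} {C : Set E} {A : Type} [Finite A]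
    {S : A → Set E} {cd : A → Fin 3} {lev : A → ℝ} {col : A → Bool}
    (HF : FacePat C (bd 4 v) h (fun j => (L j : Set ℝ)) S cd lev col)
    (hdis : ∀ α β, α ≠ β → cd α = cd β → Disjoint (S α) (S β))
    (hinj : InjOn h C) (hc : ContinuousOn h C) (hk : ConicalOn h C) (H : HIn 4 v h k L lo hi)
    {j0 j1 : Fin 3} (hj : j0 ≠ j1) (hcd : ∀ α, cd α = j0 ∨ cd α = j1)
    {w₀ : ℝ} (hw₀ : 0 < w₀) (hom : ∀ j, ∀ c ∈ L j, om j c = w₀)
    {Φe : ∀ i : Fin 4, ConHomeo (seg v i) (preQ k h (seg v i))}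
    {G : ConHomeo (bd 4 v) (preQ k h (bd 4 v))}
    (hG : ∀ i : Fin 4, EqOn G.toFun (Φe i).toFun (seg v i)) {π : E → E}
    (hπ : Colp h k L 4 v G.toFun π) {X : Finset E}
    (hX : ∀ x, x ∈ X ↔ x ∈ bd 4 v ∧ ∃ j, h x j ∈ L j) {S2 S3 : E → ℝ} {ze : E → ℝ → ℝ}
    (hClp : Clp 4 v X S2 S3 π)
    (hGz : ∀ x ∈ X, ∀ j, h x j ∈ L j →
      (∀ T ∈ Icc (S2 x) (S3 x), G.toFun (cv 4 v T) j =
        lo j (h x j) + (hi j (h x j) - lo j (h x j)) * ze x T) ∨
      ∀ T ∈ Icc (S2 x) (S3 x), G.toFun (cv 4 v T) j =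
        hi j (h x j) - (hi j (h x j) - lo j (h x j)) * ze x T)
    {mu : ℝ} (hmu : 0 < mu) (hmu1 : mu < 1 / 4) (hsl : SlotPos X mu S2 S3)
    (hze : ∀ x ∈ X, ∀ T ∈ Icc (S2 x) (S3 x), ze x T = (T - S2 x) / (S3 x - S2 x))
    {P : ConHomeo Rct C} (hP : Par v P) {K₀ : ℝ} {κ : ConHomeo Rct Rct} (hκ : ChartBL mu K₀ κ)
    {ρ w : ℝ} (hw : 0 < w) (hNM : NM h L X S2 P j0 j1 w ρ) {K e β : ℝ}
    (core : ∀ Y : P073.H237.Ends, Y.Near mu (1 / 8) ρ w → Y.Dbl mu →
      ∃ (z : ℕ → ℝ → ℝ → ℝ) (Bad : Set (ℝ × ℝ)), Draw E Y.n Y.n (Y.arc w) z ∧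
        CoreOut Y w K e β κ z Bad) :
    ∃ (Φ : ConHomeo C (preQ k h C)) (Bad : Set (ℝ × ℝ)),
      (∀ i : Fin 4, EqOn Φ.toFun (Φe i).toFun (seg v i)) ∧
      MeasurableSet Bad ∧ volume Bad ≤ ENNReal.ofReal β ∧
      (∀ x ∈ C, ∀ y ∈ C, ∀ d, bandJ L lo hi om (jd j0 j1 d) (Φ.toFun y) (Φ.toFun x) ≤
        w₀ / w * (K * dist (P.invFun y) (P.invFun x))) ∧
      ∀ x ∈ C, P.invFun x ∉ Bad → ∀ᶠ y in 𝓝[C] x, ∀ d,
        bandJ L lo hi om (jd j0 j1 d) (Φ.toFun y) (Φ.toFun x) ≤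
          w₀ / w * ((1 + e) * |crd d (P.invFun y) - crd d (P.invFun x)| +
            e * dist (P.invFun y) (P.invFun x)) := by
  classical
  have hBC : bd 4 v ⊆ C := HF.pat.hC.1
  obtain ⟨Y, ee, cq, fn, hY⟩ := exists_near HF hdis hinj hc hk H hj hcd hX hClp
    (colp_fix H hπ) hmu hmu1 hsl hP hκ (c := 1 / 8) (by norm_num) hw hNM
  obtain ⟨z, Bad, hD, hO⟩ := core Y hY.near hY.dbl
  obtain ⟨Φ₀, hΦz, hΦb⟩ := hD _ _ _ _ _ hY.pat
  have hgood := hY.pat.pos.good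
  -- the drawing on the face
  let Ψ : ConHomeo C (Fil Y.n Y.n C fn) := (P.symm.trans κ).trans Φ₀
  have hΨ : ∀ x, Ψ.toFun x = Φ₀.toFun (κ.toFun (P.invFun x)) := fun x => rfl
  have hPm : ∀ x ∈ C, P.invFun x ∈ Rct := fun x hx => P.mapsTo_inv hx
  have hκm : ∀ x ∈ C, κ.toFun (P.invFun x) ∈ Rct := fun x hx => κ.mapsTo (hPm x hx)
  have hΨz : ∀ x ∈ C, ∀ i : Fin Y.n, (Ψ.toFun x).2 i =
      z i (κ.toFun (P.invFun x)).1 (κ.toFun (P.invFun x)).2 := fun x hx i => by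
    rw [hΨ]; exact hΦz _ (hκm x hx) i
  have hΨπ : ∀ x ∈ bd 4 v, (Ψ.toFun x).1 = π x := by
    intro x hx
    have h1 : P.invFun x ∈ bR := Par.bd_iff hP hx
    have h2 : κ.toFun (P.invFun x) ∈ bR := by rw [← hκ.bd]; exact mem_image_of_mem _ h1
    rw [hΨ, hΦb _ h2]
    show π (P.toFun (κ.invFun (κ.toFun (P.invFun x)))) = π x
    rw [κ.left_inv h1.1, P.right_inv (hBC hx)]
  have hS23 : ∀ x ∈ X, S2 x ≤ S3 x ∧ 0 ≤ S2 x ∧ S3 x ≤ (4:ℕ) := by
    intro x hx
    obtain ⟨i, hi4, h1, h2, h3⟩ := slot_bounds hmu hmu1 hsl hx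
    have h4 : (i:ℝ) ≤ 3 := by exact_mod_cast (by omega : i ≤ 3)
    have h5 : (0:ℝ) ≤ i := Nat.cast_nonneg _
    refine ⟨h2.le, by linarith, ?_⟩
    push_cast
    linarith
  have hb₀ : gam π P κ (0, 0) ∈ bd 4 v := by
    have h0 : ((0, 0) : ℝ × ℝ) ∈ bR := ⟨⟨⟨le_rfl, zero_le_one⟩, ⟨le_rfl, zero_le_one⟩⟩, Or.inl rfl⟩
    rw [← hκ.bd] at h0
    obtain ⟨u, hu, hu'⟩ := h0
    unfold gam
    rw [← hu', κ.left_inv hu.1]
    obtain ⟨e', t, ht, rfl⟩ := exists_ed hu
    rw [hP e' t ht]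
    have h1 : cv 4 v (4 * tpBL e' t) ∈ bd 4 v := by
      refine mem_image_of_mem _ ?_
      obtain ⟨h2, h3⟩ := ht
      fin_cases e' <;> simp [tpBL] <;> constructor <;> linarith
    have h3 := hClp.im
    rw [show bd 4 v = cv 4 v '' Icc (0:ℝ) (4:ℕ) from rfl, ← h3]
    exact mem_image_of_mem _ h1
  obtain ⟨Φ, hΦG, -, hrho, -⟩ := exists_hfaceAbs (om := om) HF hdis hinj hc hk H
    (fun j c hc' => by rw [hom j c hc']; exact hw₀) hG hπ hX hS23 hClp hGz ee hb₀ hY.isfn Ψ hΨπ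
    (by
      intro i x hx hxS
      obtain ⟨x', y', hxy, hlt, harc⟩ := hY.ends i
      have hxB : x ∈ S (ee i) ∩ bd 4 v := ⟨hxS, ((hX x).1 hx).1⟩
      obtain ⟨i1, hi1, a1, a2, a3⟩ := slot_bounds hmu hmu1 hsl hx
      have hpt : ∀ T ∈ Icc (S2 x) (S3 x), κ.toFun (P.invFun (cv 4 v T)) = (T / 4, 1) :=
        fun T hT => chart_pt hP hκ hi1 (by linarith [hT.1]) (by linarith [hT.2]) hmu
      have hmem : ∀ T ∈ Icc (S2 x) (S3 x), cv 4 v T ∈ C := fun T hT =>
        hBC (mem_image_of_mem _ ⟨(hS23 x hx).2.1.trans hT.1, hT.2.trans (hS23 x hx).2.2⟩)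
      have hval : ∀ T ∈ Icc (S2 x) (S3 x), (Ψ.toFun (cv 4 v T)).2 i = z i (T / 4) 1 := by
        intro T hT
        rw [hΨz _ (hmem T hT), hpt T hT]
      have g := hgood i i.2
      rw [harc] at g
      rw [hxy] at hxB
      rcases hxB with rfl | hxB
      · left
        intro T hT
        rw [hval T hT, hO.isE.top i i.2 (T / 4) (Or.inl ?_), harc, H31.sig_left g ?_ ?_, hze x hx T hT]
        · simp only
          rw [← sub_div, div_div_div_cancel_right₀ (by norm_num)]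
        · show S2 x / 4 ≤ T / 4
          linarith [hT.1]
        · show T / 4 ≤ S2 x / 4 + (S3 x - S2 x) / 4
          linarith [hT.2]
        · rw [harc]
          constructor
          · show S2 x / 4 ≤ T / 4
            linarith [hT.1]
          · show T / 4 ≤ S2 x / 4 + (S3 x - S2 x) / 4
            linarith [hT.2]
      · rw [mem_singleton_iff] at hxB
        subst hxB
        right
        intro T hT
        rw [hval T hT, hO.isE.top i i.2 (T / 4) (Or.inr ?_), harc, H31.sig_right g ?_ ?_,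
          hze x hx T hT]
        · simp only
          rw [← sub_div, div_div_div_cancel_right₀ (by norm_num)]
          have : 0 < S3 x - S2 x := by linarith
          field_simp
          ring
        · show S3 x / 4 - (S3 x - S2 x) / 4 ≤ T / 4
          linarith [hT.1]
        · show T / 4 ≤ S3 x / 4
          linarith [hT.2]
        · rw [harc]
          constructor
          · show S3 x / 4 - (S3 x - S2 x) / 4 ≤ T / 4
            linarith [hT.1]
          · show T / 4 ≤ S3 x / 4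
            linarith [hT.2])
  have hband : ∀ x ∈ C, ∀ y ∈ C, ∀ d, bandJ L lo hi om (jd j0 j1 d) (Φ.toFun y) (Φ.toFun x) ≤
      w₀ / w * ∑ i ∈ (Finset.range Y.n).filter (fun i => Y.typ i = d),
        w * |z i (κ.toFun (P.invFun y)).1 (κ.toFun (P.invFun y)).2 -
          z i (κ.toFun (P.invFun x)).1 (κ.toFun (P.invFun x)).2| := by
    intro x hx y hy d
    have hcard : ∀ i : Fin Y.n, (cd (ee i) = jd j0 j1 d ↔ Y.typ i = d) := by
      intro i
      have h1 := hY.typ i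
      rcases d with _ | _
      · show cd (ee i) = j0 ↔ _
        rcases hcd (ee i) with h2 | h2
        · refine ⟨fun _ => ?_, fun _ => h2⟩
          by_contra h3
          rw [Bool.not_eq_false] at h3
          exact hj (h2.symm.trans (h1.1 h3))
        · refine ⟨fun h3 => absurd (h3.symm.trans h2) hj, fun h3 => ?_⟩
          rw [h1.2 h2] at h3
          exact absurd h3 (by decide)
      · show cd (ee i) = j1 ↔ _
        exact h1.symm
    have hΔ : ∀ i : Fin Y.n, |(Ψ.toFun y).2 i - (Ψ.toFun x).2 i| =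
        |z i (κ.toFun (P.invFun y)).1 (κ.toFun (P.invFun y)).2 -
          z i (κ.toFun (P.invFun x)).1 (κ.toFun (P.invFun x)).2| := fun i => by
      rw [hΨz x hx, hΨz y hy]
    set j := jd j0 j1 d with hjd
    have h1 : ∀ c ∈ L j, om j c / (hi j c - lo j c) *
        |rho (lo j) (hi j) c (Φ.toFun y j) - rho (lo j) (hi j) c (Φ.toFun x j)| ≤
        ∑ i : Fin Y.n, if cd (ee i) = j ∧ lev (ee i) = c then
          w₀ * |(Ψ.toFun y).2 i - (Ψ.toFun x).2 i| else 0 := by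
      intro c hc'
      have h2 := hrho j c hc' y hy x hx
      have hlt := (H.hI j).lt c hc'
      have hd : 0 < hi j c - lo j c := by linarith
      rw [hom j c hc']
      have h3 : 0 ≤ w₀ / (hi j c - lo j c) := div_nonneg hw₀.le hd.le
      refine (mul_le_mul_of_nonneg_left h2 h3).trans (le_of_eq ?_)
      rw [Finset.mul_sum]
      refine Finset.sum_congr rfl fun i _ => ?_
      by_cases h4 : cd (ee i) = j ∧ lev (ee i) = c
      · rw [if_pos h4, if_pos h4, ← mul_assoc, div_mul_cancel₀ _ hd.ne']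
      · rw [if_neg h4, if_neg h4, mul_zero]
    unfold bandJ
    calc ∑ c ∈ L j, om j c / (hi j c - lo j c) *
          |rho (lo j) (hi j) c (Φ.toFun y j) - rho (lo j) (hi j) c (Φ.toFun x j)|
        ≤ ∑ c ∈ L j, ∑ i : Fin Y.n, if cd (ee i) = j ∧ lev (ee i) = c then
            w₀ * |(Ψ.toFun y).2 i - (Ψ.toFun x).2 i| else 0 := Finset.sum_le_sum h1
      _ ≤ ∑ i : Fin Y.n, if Y.typ i = d then w₀ * |(Ψ.toFun y).2 i - (Ψ.toFun x).2 i| else 0 := by
          rw [Finset.sum_comm]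
          refine Finset.sum_le_sum fun i _ => ?_
          by_cases h4 : cd (ee i) = j
          · rw [if_pos ((hcard i).1 h4)]
            have h5 : ∀ c ∈ L j, (if cd (ee i) = j ∧ lev (ee i) = c then
                w₀ * |(Ψ.toFun y).2 i - (Ψ.toFun x).2 i| else 0) =
                if lev (ee i) = c then w₀ * |(Ψ.toFun y).2 i - (Ψ.toFun x).2 i| else 0 := by
              intro c _
              simp only [h4, true_and]
            rw [Finset.sum_congr rfl h5, Finset.sum_ite_eq]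
            split_ifs
            · exact le_rfl
            · positivity
          · rw [if_neg fun h5 => h4 ((hcard i).2 h5)]
            refine le_of_eq (Finset.sum_eq_zero fun c _ => ?_)
            rw [if_neg fun h5 => h4 h5.1]
      _ = w₀ / w * ∑ i ∈ (Finset.range Y.n).filter (fun i => Y.typ i = d),
            w * |z i (κ.toFun (P.invFun y)).1 (κ.toFun (P.invFun y)).2 -
              z i (κ.toFun (P.invFun x)).1 (κ.toFun (P.invFun x)).2| := by
          rw [Finset.sum_filter, ← Fin.sum_univ_eq_sum_range (fun i => if Y.typ i = d then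
            w * |z i (κ.toFun (P.invFun y)).1 (κ.toFun (P.invFun y)).2 -
              z i (κ.toFun (P.invFun x)).1 (κ.toFun (P.invFun x)).2| else 0) Y.n, Finset.mul_sum]
          refine Finset.sum_congr rfl fun i _ => ?_
          by_cases h4 : Y.typ i = d
          · rw [if_pos h4, if_pos h4, hΔ i]
            field_simp
          · rw [if_neg h4, if_neg h4, mul_zero]
  have hww : 0 ≤ w₀ / w := by positivity
  refine ⟨Φ, Bad, hΦG, hO.bad, hO.vol, fun x hx y hy d => ?_, fun x hx hxB => ?_⟩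
  · exact (hband x hx y hy d).trans (mul_le_mul_of_nonneg_left
      (hO.lip _ (hPm x hx) _ (hPm y hy) d) hww)
  · have h1 := hO.sharp _ (hPm x hx) hxB
    have h2 : Tendsto P.invFun (𝓝[C] x) (𝓝[Rct] (P.invFun x)) :=
      tendsto_nhdsWithin_of_tendsto_nhds_of_eventually_within _ (P.cont_inv x hx)
        (by filter_upwards [self_mem_nhdsWithin] with y hy using hPm y hy)
    filter_upwards [h2.eventually h1, self_mem_nhdsWithin] with y hy hyC d
    exact (hband x hx y hyC d).trans (mul_le_mul_of_nonneg_left (hy d) hww)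

end P073.FW31
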