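import Vale.Agent.P073.H31.FVol
import Vale.Agent.P073.H31.FEven

/-!
# P073, H31, SHARP-WRAP2: **exists_sharpFace**, the sharp face map in a mesh
-/

set_option linter.unusedSectionVars false

open Set Metric Topology Filter MeasureTheory

namespace P073.FW31

open P073 P073.H579 P073.H237 P073.H155 P073.H228 Gon
open P073.H31 (Rct bR)
open Vale.Agent.P073.St (V)
open Vale.Agent.P073.SQ (ev cube)
open Vale.Agent.P073.H73 (Mesh sqr)
open Vale.Agent.P073.H193 (Edges)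
open Vale.Agent.P073.H304 (IsEdge)

variable {a : V} {l : Fin 3} {σ : ℝ}

theorem _root_.P073.H237.Ends.Near.mono {X : P073.H237.Ends} {m c ρ ρ' om : ℝ}
    (H : X.Near m c ρ om) (h : ρ ≤ ρ') : X.Near m c ρ' om where
  ord := H.ord
  cell := H.cell
  inj := H.inj
  cnt := fun e => (H.cnt e).trans (by linarith)
  one := fun e => le_trans (by linarith) (H.one e)
  unl := H.unl

/-- the sides -/
theorem side_ed (hσ : 0 < σ) (e : Fin 4) :
    IsSide a l σ (jd (d0 l) (d1 l) (Ends.dir e)) (sqf a l σ (ed e 0)) ∧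
    sqf a l σ (ed e 1) = sqf a l σ (ed e 0) + (2 * σ) • ev (jd (d0 l) (d1 l) (Ends.dir e)) ∧
    seg (sqv a l σ) e = segment ℝ (sqf a l σ (ed e 0)) (sqf a l σ (ed e 1)) := by
  have m0 : sqf a l σ (ed e 0) ∈ sqr a l σ :=
    sqf_mem hσ.le (ed_mem (e := e) (t := 0) ⟨le_rfl, zero_le_one⟩).1
  have m1 : sqf a l σ (ed e 1) ∈ sqr a l σ :=
    sqf_mem hσ.le (ed_mem (e := e) (t := 1) ⟨zero_le_one, le_rfl⟩).1
  have h2 : sqf a l σ (ed e 1) = sqf a l σ (ed e 0) +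
      (2 * σ) • ev (jd (d0 l) (d1 l) (Ends.dir e)) := by
    have q1 := d0_ne_d1 l
    have q2 := d0_ne l
    have q3 := d1_ne l
    refine ext3 l ?_ ?_ ?_
    · rw [sqf_l, Pi.add_apply, sqf_l, Pi.smul_apply]
      fin_cases e <;> simp [jd, Ends.dir, ev, q2.symm, q3.symm]
    · rw [sqf_d0, Pi.add_apply, sqf_d0, Pi.smul_apply]
      fin_cases e <;> simp [jd, Ends.dir, ev, q1, ed] <;> ring
    · rw [sqf_d1, Pi.add_apply, sqf_d1, Pi.smul_apply]
      fin_cases e <;> simp [jd, Ends.dir, ev, q1.symm, ed] <;> ring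
  refine ⟨⟨?_, m0, h2 ▸ m1, fun j hj hjl => ?_⟩, h2, ?_⟩
  · fin_cases e <;> simp [jd, Ends.dir, d0_ne, d1_ne]
  · rcases d_cases l j with rfl | rfl | rfl
    · exact absurd rfl hjl
    · rw [sqf_d0, add_sub_cancel_left, abs_mul, abs_of_pos hσ]
      fin_cases e <;> simp [jd, Ends.dir, ed] at hj ⊢ <;> norm_num
    · rw [sqf_d1, add_sub_cancel_left, abs_mul, abs_of_pos hσ]
      fin_cases e <;> simp [jd, Ends.dir, ed] at hj ⊢ <;> norm_num
  · unfold seg sqv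
    fin_cases e
    · show segment ℝ (sqf a l σ (crn 0)) (sqf a l σ (crn 1)) = _
      simp [crn, ed]
    · show segment ℝ (sqf a l σ (crn 1)) (sqf a l σ (crn 2)) = _
      simp [crn, ed]
    · show segment ℝ (sqf a l σ (crn 2)) (sqf a l σ (crn 3)) = _
      rw [segment_symm]
      simp [crn, ed]
    · show segment ℝ (sqf a l σ (crn 3)) (sqf a l σ (crn 4)) = _
      rw [segment_symm]
      simp [crn, ed]

/-- end points of equal segments -/
theorem seg_ends {p q p' q' : V} (h : segment ℝ p q = segment ℝ p' q') :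
    (p = p' ∧ q = q') ∨ (p = q' ∧ q = p') := by
  have h1 : p ∈ segment ℝ p' q' := h ▸ left_mem_segment ℝ p q
  have h2 : q ∈ segment ℝ p' q' := h ▸ right_mem_segment ℝ p q
  have h3 : p' ∈ segment ℝ p q := h ▸ left_mem_segment ℝ p' q'
  have h4 : q' ∈ segment ℝ p q := h ▸ right_mem_segment ℝ p' q'
  rw [segment_eq_image'] at h1 h2 h3 h4
  obtain ⟨s, hs, hp⟩ := h1
  obtain ⟨t, ht, hq⟩ := h2
  obtain ⟨s', hs', hp'⟩ := h3
  obtain ⟨t', ht', hq'⟩ := h4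
  simp only at hp hq hp' hq'
  have e1 : q - p = (t - s) • (q' - p') := by
    rw [← hp, ← hq]; module
  have e2 : q' - p' = (t' - s') • (q - p) := by
    conv_lhs => rw [← hp', ← hq']
    module
  by_cases h0 : q' - p' = 0
  · left
    rw [h0, smul_zero, add_zero] at hp hq
    exact ⟨hp.symm, hq.symm.trans (sub_eq_zero.1 h0).symm⟩
  · rw [e1, smul_smul] at e2
    have e3 : (t' - s') * (t - s) = 1 := by
      have h5 : ((t' - s') * (t - s) - 1) • (q' - p') = 0 := by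
        rw [sub_smul, one_smul, ← e2, sub_self]
      rcases smul_eq_zero.1 h5 with h6 | h6
      · linarith
      · exact absurd h6 h0
    obtain ⟨a1, a2⟩ := hs
    obtain ⟨b1, b2⟩ := ht
    obtain ⟨c1, c2⟩ := hs'
    obtain ⟨d1, d2⟩ := ht'
    have f1 : |t - s| ≤ 1 := abs_le.2 ⟨by linarith, by linarith⟩
    have f2 : |t' - s'| ≤ 1 := abs_le.2 ⟨by linarith, by linarith⟩
    have f3 : |t' - s'| * |t - s| = 1 := by rw [← abs_mul, e3, abs_one]
    have f4 : |t - s| = 1 := by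
      refine le_antisymm f1 ?_
      have := mul_le_mul_of_nonneg_right f2 (abs_nonneg (t - s))
      rw [f3, one_mul] at this
      exact this
    rcases (abs_eq zero_le_one).1 f4 with f5 | f5
    · have : s = 0 := by linarith
      have : t = 1 := by linarith
      subst s; subst t
      left
      rw [zero_smul, add_zero] at hp
      rw [one_smul, add_sub_cancel] at hq
      exact ⟨hp.symm, hq.symm⟩
    · have : s = 1 := by linarith
      have : t = 0 := by linarith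
      subst s; subst t
      right
      rw [zero_smul, add_zero] at hq
      rw [one_smul, add_sub_cancel] at hp
      exact ⟨hp.symm, hq.symm⟩

/-- the hypotheses of `exists_sharpFace` and the conclusion, with constants -/
def SpecSharpFace (m K e β ρ : ℝ) : Prop :=
  ∀ {Ω Λ Λ' : Set V} {M : Mesh Ω} {Ed : Edges M} {h : ConHomeo Ω Λ} {κ : V → V} {k₀ : M.κ}
    {a : V} {l : Fin 3} {σ : ℝ}, M.F k₀ = sqr a l σ →
    (∀ p q, IsEdge M (p, q) → ∃ e : Ed.ε, Ed.seg e = segment ℝ p q) →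
  ∀ {k : Fin 3 → ℝ → ℝ} {L : Fin 3 → Finset ℝ} {lo hi om : Fin 3 → ℝ → ℝ},
    Zone κ Λ' h k (M.F k₀) → (∀ j, Ins1 (k j) (L j : Set ℝ) (lo j) (hi j)) →
  ∀ {A : Type} [Finite A] {S : A → Set V} {cd : A → Fin 3} {lev : A → ℝ} {col : A → Bool},
    FacePat (M.F k₀) (intrinsicFrontier ℝ (M.F k₀)) h.toFun (fun j => (L j : Set ℝ)) S cd lev
      col →
    (∀ α β, α ≠ β → cd α = cd β → Disjoint (S α) (S β)) →
    (∀ x ∈ Ed.verts, x ∈ M.F k₀ → ∀ j, h.toFun x j ∉ L j) →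
  ∀ {w₀ : ℝ}, 0 < w₀ → ShCond M h.toFun L om w₀ ρ a l σ →
  ∀ {La : Ed.ε → ℝ} (Φe : ∀ e, Ed.seg e ⊆ M.F k₀ → ConHomeo (Ed.seg e) (Pre κ Λ' h (Ed.seg e))),
    (∀ e he, ∃ s1 s2 s3 s4 : V → ℝ, EdgeNum (Ed.a e) (Ed.b e) h.toFun k L lo hi om (La e)
      (Φe e he).toFun s1 s2 s3 s4 ∧
      Even (Ed.a e) (Ed.b e) h.toFun L lo hi om m (Φe e he).toFun s1 s2 s3 s4) →
    (∀ e he, ∀ x ∈ Ed.seg e, x ∈ Ed.verts → κ ((Φe e he).toFun x) = h.toFun x) →
  ∃ Φ : ConHomeo (M.F k₀) (Pre κ Λ' h (M.F k₀)), ShFace a l σ L lo hi om K e β Φ.toFun ∧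
    ∀ e he, EqOn Φ.toFun (Φe e he).toFun (Ed.seg e)

/-- **exists_sharpFace** -/
theorem exists_sharpFace (hC : SpecCore V) {e : ℝ} (he : 0 < e) :
    ∃ m, 0 < m ∧ m < 1 / 4 ∧ ∃ K, 0 < K ∧ ∀ β : ℝ, 0 < β → ∃ ρ, 0 < ρ ∧ ρ ≤ 1 / 2 ∧
      SpecSharpFace m K e β ρ := by
  classical
  obtain ⟨m, hm0, hm1, hC⟩ := hC e he
  obtain ⟨K, κ₁, hK, hκ₁, hC⟩ := hC m hm0 le_rfl
  refine ⟨m, hm0, hm1, K, hK, fun β hβ => ?_⟩
  obtain ⟨ρ₀, hρ₀, hC⟩ := hC (β / 8) (by positivity)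
  refine ⟨min ρ₀ (1 / 2), lt_min hρ₀ (by norm_num), min_le_right _ _, ?_⟩
  intro Ω Λ Λ' M Ed h κ k₀ a l σ hF hIE k L lo hi om Z hI A _ S cd lev col HF hdis hv w₀ hw₀ hSh
    La Φe hGE hend
  have hσ := hSh.pos
  have hFΩ : M.F k₀ ⊆ Ω := Vale.Agent.P073.H193.mesh_sub M k₀
  set v := sqv a l σ with hvdef
  have hg : Gon 4 v := gon_sq hσ
  have hbd : bd 4 v = intrinsicFrontier ℝ (M.F k₀) := bd_sq_eq hσ hF
  have hbdF : bd 4 v ⊆ M.F k₀ := by
    rw [hbd]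
    exact HF.pat.hC.1
  -- the sides are edges
  have hex : ∀ i : Fin 4, ∃ e : Ed.ε, Ed.seg e = seg v i := by
    intro i
    obtain ⟨h1, h2, h3⟩ := side_ed (a := a) (l := l) hσ i
    have h4 := hSh.nm.edge _ _ h1
    rw [← h2] at h4
    obtain ⟨e, he⟩ := hIE _ _ h4
    exact ⟨e, he.trans h3.symm⟩
  choose ce hce using hex
  have hcF : ∀ i : Fin 4, Ed.seg (ce i) ⊆ M.F k₀ := fun i => by
    rw [hce]; exact (hg.seg_sub i.2).trans hbdF
  have hpre : ∀ i : Fin 4, Pre κ Λ' h (Ed.seg (ce i)) = preQ k h.toFun (seg v i) := fun i => by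
    rw [← hce]; exact Z.pre_eq (hcF i)
  let Ψ : ∀ i : Fin 4, ConHomeo (seg v i) (preQ k h.toFun (seg v i)) :=
    fun i => (Φe (ce i) (hcF i)).cast (hce i) (hpre i)
  have hΨ : ∀ i, (Ψ i).toFun = (Φe (ce i) (hcF i)).toFun := fun i => rfl
  -- vertices
  have hab : ∀ i : Fin 4, (Ed.a (ce i) = v i ∧ Ed.b (ce i) = v (i + 1)) ∨
      (Ed.a (ce i) = v (i + 1) ∧ Ed.b (ce i) = v i) := fun i => seg_ends (hce i)
  have hvert : ∀ i : Fin 4, v i ∈ Ed.verts ∧ v (i + 1) ∈ Ed.verts := by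
    intro i
    rcases hab i with ⟨h1, h2⟩ | ⟨h1, h2⟩
    · rw [← h1, ← h2]; exact ⟨Or.inl ⟨_, rfl⟩, Or.inr ⟨_, rfl⟩⟩
    · rw [← h1, ← h2]; exact ⟨Or.inr ⟨_, rfl⟩, Or.inl ⟨_, rfl⟩⟩
  have hvF : ∀ i : Fin 4, v i ∈ M.F k₀ ∧ v (i + 1) ∈ M.F k₀ := fun i =>
    ⟨hbdF (hg.seg_sub i.2 (left_mem_segment ℝ _ _)),
      hbdF (hg.seg_sub i.2 (right_mem_segment ℝ _ _))⟩
  have hvL : ∀ i ≤ 4, ∀ j, h.toFun (v i) j ∉ L j := by
    intro i hi' j
    rcases Nat.lt_or_ge i 4 with h1 | h1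
    · exact hv _ (hvert ⟨i, h1⟩).1 (hvF ⟨i, h1⟩).1 j
    · have h2 : i = 3 + 1 := by omega
      subst h2
      exact hv _ (hvert 3).2 (hvF 3).2 j
  have hinj : InjOn h.toFun (M.F k₀) := h.injOn.mono hFΩ
  have hcn : ContinuousOn h.toFun (M.F k₀) := h.cont.mono hFΩ
  have hkn : ConicalOn h.toFun (M.F k₀) := h.conical.mono (HF.pat.hC.conicalSet) hFΩ
  have hkB : ConicalSet (bd 4 v) := by rw [hbd]; exact HF.pat.hC.conicalSet_bdry
  have H : HIn 4 v h.toFun k L lo hi := ⟨hg, hinj.mono hbdF, hcn.mono hbdF, hkn.mono hkB hbdF, hI,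
    hvL⟩
  have He : HEdge 4 v h.toFun k Ψ := by
    have key : ∀ i : Fin 4, ∀ x ∈ seg v i, x ∈ Ed.verts → prodK k ((Ψ i).toFun x) = h.toFun x := by
      intro i x hx hxv
      have hx' : x ∈ Ed.seg (ce i) := (hce i).symm ▸ hx
      rw [hΨ, ← hend (ce i) (hcF i) x hx' hxv]
      exact (Z.eq (hcF i) ((Φe (ce i) (hcF i)).mapsTo hx')).symm
    exact ⟨fun i => key i _ (left_mem_segment ℝ _ _) (hvert i).1,
      fun i => key i _ (right_mem_segment ℝ _ _) (hvert i).2⟩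
  obtain ⟨G, hG⟩ := exists_GB H He
  obtain ⟨π, hπ⟩ := exists_colp H hG
  -- arcs and levels
  have HF' : FacePat (M.F k₀) (bd 4 v) h.toFun (fun j => (L j : Set ℝ)) S cd lev col := by
    rw [hbd]; exact HF
  have hlev : ∀ α, ∀ x ∈ S α, h.toFun x (cd α) = lev α := by
    intro α x hx
    have h1 : x ∈ ⋃ (β) (_ : cd β = cd α ∧ lev β = lev α), S β :=
      mem_iUnion₂.2 ⟨α, ⟨rfl, rfl⟩, hx⟩
    rw [HF.eq (cd α) (lev α) (HF.mem α)] at h1
    exact h1.2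
  have harc : ∀ x ∈ M.F k₀, ∀ j, h.toFun x j ∈ L j →
      ∃ α, cd α = j ∧ lev α = h.toFun x j ∧ x ∈ S α := by
    intro x hx j hj
    have h1 : x ∈ {y | y ∈ M.F k₀ ∧ h.toFun y j = h.toFun x j} := ⟨hx, rfl⟩
    rw [← HF.eq j (h.toFun x j) hj] at h1
    obtain ⟨α, ⟨h2, h3⟩, h4⟩ := mem_iUnion₂.1 h1
    exact ⟨α, h2, h3, h4⟩
  have hfin : {x | x ∈ bd 4 v ∧ ∃ j, h.toFun x j ∈ L j}.Finite := by
    have h1 : {x | x ∈ bd 4 v ∧ ∃ j, h.toFun x j ∈ L j} ⊆ ⋃ α, S α ∩ bd 4 v := by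
      rintro x ⟨hx, j, hj⟩
      obtain ⟨α, -, -, h4⟩ := harc x (hbdF hx) j hj
      exact mem_iUnion.2 ⟨α, h4, hx⟩
    refine (finite_iUnion fun α => ?_).subset h1
    obtain ⟨p, q, -, hpq⟩ := exists_ends (HF'.pat.hS α)
    rw [hpq]; exact toFinite _
  set X : Finset V := hfin.toFinset with hXdef
  have hX : ∀ x, x ∈ X ↔ x ∈ bd 4 v ∧ ∃ j, h.toFun x j ∈ L j := fun x => by
    rw [hXdef, Finite.mem_toFinset]; rfl
  have hun : ∀ x ∈ bd 4 v, ∀ j j', h.toFun x j ∈ L j → h.toFun x j' ∈ L j' → j = j' := by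
    intro x hx j j' hj hj'
    obtain ⟨α, h1, -, h2⟩ := harc x (hbdF hx) j hj
    obtain ⟨β, h3, -, h4⟩ := harc x (hbdF hx) j' hj'
    by_contra hne
    have hαβ : α ≠ β := by rintro rfl; exact hne (h1.symm.trans h3)
    exact Set.disjoint_left.1 (HF'.pat.off α β hαβ) ⟨h2, h4⟩ hx
  have hcd : ∀ α, cd α = d0 l ∨ cd α = d1 l := by
    intro α
    rcases d_cases l (cd α) with h1 | h1
    · exfalso
      have h2 := HF.mem α
      rw [h1] at h2
      have h3 : lev α ∈ L l := h2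
      rw [hSh.nrm] at h3
      exact Finset.notMem_empty _ h3
    · exact h1
  -- the edge data
  have hGE' : ∀ i : Fin 4, ∃ s1 s2 s3 s4 : V → ℝ, EdgeNum (v i) (v (i + 1)) h.toFun k L lo hi om
      (La (ce i)) (Ψ i).toFun s1 s2 s3 s4 ∧ EvX (v i) (v (i + 1)) h.toFun L lo hi m (Ψ i).toFun
        s2 s3 := by
    intro i
    obtain ⟨s1, s2, s3, s4, h1, h2⟩ := hGE (ce i) (hcF i)
    have h3 : EvX (Ed.a (ce i)) (Ed.b (ce i)) h.toFun L lo hi m (Φe (ce i) (hcF i)).toFun s2 s3 :=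
      EvX.of_even (fun x hx => hun x (hg.seg_sub i.2 ((hce i) ▸ hx))) hw₀ hSh.wt h2
    rw [hΨ]
    rcases hab i with ⟨e1, e2⟩ | ⟨e1, e2⟩
    · rw [← e1, ← e2]
      exact ⟨s1, s2, s3, s4, h1, h3⟩
    · rw [← e1, ← e2]
      exact ⟨_, _, _, _, h1.symm, h3.symm (Ed.ne _)⟩
  choose s1 s2 s3 s4 hE hEv using hGE'
  have hom : ∀ j, ∀ c ∈ L j, 0 < om j c := fun j c hc' => by rw [hSh.wt j c hc']; exact hw₀
  obtain ⟨S1, S2, S3, S4, ze, hP, hCl, hGz, -⟩ := exists_posIn H He hG hπ hom hX hun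
    (La := fun i => La (ce i)) (fun i => ⟨s1 i, s2 i, s3 i, s4 i, hE i⟩)
  have hfib : ∀ i : Fin 4, ∀ x ∈ X, x ∈ seg v i → S2 x = i + s2 i x ∧ S3 x = i + s3 i x :=
    fun i x hx hxi => fib_eq H (hinj.mono hbdF) hG hπ hX hE hP hCl hx hxi
  have hsl : SlotPos X m S2 S3 := slotPos_of H hX hE hEv (by linarith) hfib
  have hze := ze_affine H hX hG hE hEv hP hGz hfib
  -- the chart
  let P : ConHomeo Rct (M.F k₀) := (sqP a l hσ).cast rfl hF.symm
  have hPar : Par v P := par_sq hσ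
  set w : ℝ := w₀ / (2 * σ) with hw
  have h2σ : 0 < 2 * σ := by linarith
  have hw0 : 0 < w := div_pos hw₀ h2σ
  have hww : w₀ / w = 2 * σ := by rw [hw]; field_simp
  have hwρ : w ≤ min ρ₀ (1 / 2) := by
    rw [hw, div_le_iff₀ h2σ]
    exact hSh.small
  have hNM : NM h.toFun L X S2 P (d0 l) (d1 l) w (min ρ₀ (1 / 2)) := by
    refine ⟨fun i hi' => ?_, fun e => ?_⟩
    · obtain ⟨h1, h2, h3⟩ := side_ed (a := a) (l := l) hσ ⟨i, hi'⟩
      have h4 := hSh.nm.cnt _ _ h1 (XE X S2 i) (by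
        intro y hy
        rw [← h2]
        have h5 := hsl
        unfold XE at hy
        rw [Finset.mem_filter] at hy
        obtain ⟨hyX, hy1, hy2⟩ := hy
        obtain ⟨hyB, j, hj⟩ := (hX y).1 hyX
        refine ⟨?_, j, hj⟩
        rw [← h3]
        obtain ⟨i', hi'', hyi⟩ := hg.exists_seg hyB
        have h6 := (hfib ⟨i', hi''⟩ y hyX hyi).1
        have hcr : CrsPt (v i') (v (i' + 1)) h.toFun L y := ⟨hyi, j, hj⟩
        have b1 := (hE ⟨i', hi''⟩).a1 y hcr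
        have b2 := (hE ⟨i', hi''⟩).a2 y hcr
        have b3 := (hE ⟨i', hi''⟩).a3 y hcr
        have b4 := (hE ⟨i', hi''⟩).a4 y hcr
        have b5 := (hE ⟨i', hi''⟩).a5 y hcr
        simp only at h6
        have a5 : (i:ℝ) < i' + 1 := by linarith
        have a6 : (i':ℝ) < i + 1 := by linarith
        have a5' : i < i' + 1 := by exact_mod_cast a5
        have a6' : i' < i + 1 := by exact_mod_cast a6
        have a7 : i' = i := by omega
        subst a7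
        exact hyi)
      rw [hw, div_mul_eq_mul_div, div_le_iff₀ h2σ]
      exact h4
    · obtain ⟨h1, h2, h3⟩ := side_ed (a := a) (l := l) hσ e
      have h4 := hSh.nm.one _ _ h1
      rw [← h2] at h4
      rw [hw, div_mul_eq_mul_div, le_div_iff₀ h2σ]
      exact h4
  obtain ⟨Φ, Bad, hΦG, hBm, hBv, hlip, hshp⟩ := exists_sharpAbs HF' hdis hinj hcn hkn H
    (d0_ne_d1 l) hcd hw₀ hSh.wt hG hπ hX hCl hGz hm0 hm1 hsl hze hPar hκ₁ hw0 hNM
    (fun Y hY1 hY2 => hC Y w hw0 (hwρ.trans (min_le_left _ _))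
      (hY1.mono (min_le_left _ _)) hY2)
  have hPi : ∀ x, P.invFun x = sqi a l σ x := fun x => rfl
  have hjd : ∀ j, j ≠ l → ∃ d, jd (d0 l) (d1 l) d = j := by
    intro j hj
    rcases d_cases l j with h1 | h1 | h1
    · exact absurd h1 hj
    · exact ⟨false, h1.symm⟩
    · exact ⟨true, h1.symm⟩
  refine ⟨Φ.cast rfl (Z.pre_eq Subset.rfl).symm, ⟨fun x hx y hy j hj => ?_,
    {y | sqi a l σ y ∈ Bad}, ?_, ?_, fun x hx hxB => ?_⟩, fun e' he' x hx => ?_⟩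
  · obtain ⟨d, rfl⟩ := hjd j hj
    have h1 := hlip x (hF ▸ hx) y (hF ▸ hy) d
    rw [hww, hPi, hPi] at h1
    refine h1.trans ?_
    have h2 := dist_sqi (a := a) (l := l) hσ x y
    calc 2 * σ * (K * dist (sqi a l σ y) (sqi a l σ x))
        ≤ 2 * σ * (K * (‖y - x‖ / (2 * σ))) := by gcongr
      _ = K * ‖y - x‖ := by field_simp
  · exact continuous_sqi.measurable hBm
  · refine (vol_bad hσ hBv).trans (ENNReal.ofReal_le_ofReal (le_of_eq ?_))
    ring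
  · have h1 := hshp x (hF ▸ hx) hxB
    rw [← hF]
    filter_upwards [h1] with y hy j hj
    obtain ⟨d, rfl⟩ := hjd j hj
    refine (hy d).trans ?_
    rw [hww, hPi, hPi, crd_sqi, abs_div, abs_of_pos h2σ]
    have h2 := dist_sqi (a := a) (l := l) hσ x y
    have he0 := he.le
    calc 2 * σ * ((1 + e) * (|y (jd (d0 l) (d1 l) d) - x (jd (d0 l) (d1 l) d)| / (2 * σ)) +
          e * dist (sqi a l σ y) (sqi a l σ x))
        ≤ 2 * σ * ((1 + e) * (|y (jd (d0 l) (d1 l) d) - x (jd (d0 l) (d1 l) d)| / (2 * σ)) +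
          e * (‖y - x‖ / (2 * σ))) := by gcongr
      _ = _ := by field_simp
  · -- the other edges
    have hmid : ∃ i : Fin 4, e' = ce i := by
      have hfr : Ed.seg e' ⊆ bd 4 v := by
        rw [hbd, (Vale.Agent.P073.H193.pgn_of_fat (M.fat k₀)).fr_eq]
        exact fun y hy => ⟨he' hy, fun h => Set.disjoint_left.1 (Ed.rel e' k₀) hy h⟩
      have hm : midpoint ℝ (Ed.a e') (Ed.b e') ∈ Ed.seg e' := midpoint_mem_segment _ _
      obtain ⟨i, hi', hmi⟩ := hg.exists_seg (hfr hm)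
      refine ⟨⟨i, hi'⟩, ?_⟩
      by_contra hne
      have h1 : midpoint ℝ (Ed.a e') (Ed.b e') ∈ Ed.seg (ce ⟨i, hi'⟩) := by
        rw [hce]; exact hmi
      have h2 := (Ed.meet e' _ hne ⟨hm, h1⟩).1
      have h3 := Ed.ne e'
      rcases h2 with h2 | h2
      · exact h3 ((midpoint_eq_left_iff ℝ).1 h2)
      · exact h3 ((midpoint_eq_right_iff ℝ).1 h2)
    obtain ⟨i, rfl⟩ := hmid
    exact hΦG i ((hce i) ▸ hx)

end P073.FW31
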