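import Vale.Agent.P073.H31.FMain
import Vale.Agent.P073.H193.Cyc

/-!
# P073, H31, SHARP-WRAP2: the square `sqr a l σ` as image of the unit square
-/

set_option linter.unusedSectionVars false

open Set Metric Topology Filter MeasureTheory

namespace P073.FW31

open P073 P073.H579 P073.H237 P073.H155 P073.H228 Gon
open P073.H31 (Rct bR)
open Vale.Agent.P073.St (V)
open Vale.Agent.P073.SQ (ev cube)
open Vale.Agent.P073.H73 (Mesh sqr)

/-- the first direction of the square with normal `l` -/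
def d0 (l : Fin 3) : Fin 3 := l.succAbove 0

/-- the second direction -/
def d1 (l : Fin 3) : Fin 3 := l.succAbove 1

theorem d0_ne (l : Fin 3) : d0 l ≠ l := Fin.succAbove_ne l 0

theorem d1_ne (l : Fin 3) : d1 l ≠ l := Fin.succAbove_ne l 1

theorem d0_ne_d1 (l : Fin 3) : d0 l ≠ d1 l := by
  intro h
  exact absurd (Fin.succAbove_right_injective h) (by decide)

theorem d_cases (l j : Fin 3) : j = l ∨ j = d0 l ∨ j = d1 l := by
  revert l j
  decide

/-- the map of the unit square onto the square -/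
noncomputable def sqf (a : V) (l : Fin 3) (σ : ℝ) (x : ℝ × ℝ) : V := fun j =>
  if j = d0 l then a j + σ * (2 * x.1 - 1) else if j = d1 l then a j + σ * (2 * x.2 - 1) else a j

/-- the inverse -/
noncomputable def sqi (a : V) (l : Fin 3) (σ : ℝ) (y : V) : ℝ × ℝ :=
  ((y (d0 l) - a (d0 l) + σ) / (2 * σ), (y (d1 l) - a (d1 l) + σ) / (2 * σ))

variable {a : V} {l : Fin 3} {σ : ℝ}

theorem sqf_d0 (x : ℝ × ℝ) : sqf a l σ x (d0 l) = a (d0 l) + σ * (2 * x.1 - 1) := if_pos rfl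

theorem sqf_d1 (x : ℝ × ℝ) : sqf a l σ x (d1 l) = a (d1 l) + σ * (2 * x.2 - 1) := by
  unfold sqf
  rw [if_neg (d0_ne_d1 l).symm, if_pos rfl]

theorem sqf_l (x : ℝ × ℝ) : sqf a l σ x l = a l := by
  unfold sqf
  rw [if_neg (d0_ne l).symm, if_neg (d1_ne l).symm]

theorem ext3 (l : Fin 3) {x y : V} (h : x l = y l) (h0 : x (d0 l) = y (d0 l))
    (h1 : x (d1 l) = y (d1 l)) : x = y := by
  funext j
  rcases d_cases l j with rfl | rfl | rfl
  · exact h
  · exact h0
  · exact h1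

theorem sqf_affine (x y : ℝ × ℝ) (t : ℝ) :
    sqf a l σ (AffineMap.lineMap x y t) = AffineMap.lineMap (sqf a l σ x) (sqf a l σ y) t := by
  refine ext3 l ?_ ?_ ?_
  · rw [sqf_l, AffineMap.lineMap_apply]
    simp [sqf_l]
  · rw [sqf_d0, AffineMap.lineMap_apply, AffineMap.lineMap_apply]
    simp only [vsub_eq_sub, vadd_eq_add, Pi.add_apply, Pi.smul_apply, Pi.sub_apply, smul_eq_mul,
      Prod.fst_add, Prod.smul_fst, Prod.fst_sub, sqf_d0]
    ring
  · rw [sqf_d1, AffineMap.lineMap_apply, AffineMap.lineMap_apply]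
    simp only [vsub_eq_sub, vadd_eq_add, Pi.add_apply, Pi.smul_apply, Pi.sub_apply, smul_eq_mul,
      Prod.snd_add, Prod.smul_snd, Prod.snd_sub, sqf_d1]
    ring

theorem sqi_sqf (hσ : 0 < σ) (x : ℝ × ℝ) : sqi a l σ (sqf a l σ x) = x := by
  unfold sqi
  rw [sqf_d0, sqf_d1]
  refine Prod.ext ?_ ?_
  · show (a (d0 l) + σ * (2 * x.1 - 1) - a (d0 l) + σ) / (2 * σ) = x.1
    field_simp
    ring
  · show (a (d1 l) + σ * (2 * x.2 - 1) - a (d1 l) + σ) / (2 * σ) = x.2
    field_simp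
    ring

theorem sqf_sqi (hσ : 0 < σ) {y : V} (hy : y ∈ sqr a l σ) : sqf a l σ (sqi a l σ y) = y := by
  refine ext3 l ?_ ?_ ?_
  · rw [sqf_l]; exact hy.1.symm
  · rw [sqf_d0]
    show a (d0 l) + σ * (2 * ((y (d0 l) - a (d0 l) + σ) / (2 * σ)) - 1) = _
    field_simp
    ring
  · rw [sqf_d1]
    show a (d1 l) + σ * (2 * ((y (d1 l) - a (d1 l) + σ) / (2 * σ)) - 1) = _
    field_simp
    ring

theorem sqf_mem (hσ : 0 ≤ σ) {x : ℝ × ℝ} (hx : x ∈ Rct) : sqf a l σ x ∈ sqr a l σ := by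
  obtain ⟨⟨h0, h1⟩, h2, h3⟩ := hx
  refine ⟨sqf_l x, fun j => ?_⟩
  rcases d_cases l j with rfl | rfl | rfl
  · rw [sqf_l, sub_self, abs_zero]; exact hσ
  · rw [sqf_d0, add_sub_cancel_left, abs_mul, abs_of_nonneg hσ]
    have : |2 * x.1 - 1| ≤ 1 := abs_le.2 ⟨by linarith, by linarith⟩
    nlinarith
  · rw [sqf_d1, add_sub_cancel_left, abs_mul, abs_of_nonneg hσ]
    have : |2 * x.2 - 1| ≤ 1 := abs_le.2 ⟨by linarith, by linarith⟩
    nlinarith

theorem sqi_mem (hσ : 0 < σ) {y : V} (hy : y ∈ sqr a l σ) : sqi a l σ y ∈ Rct := by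
  have key : ∀ j, 0 ≤ (y j - a j + σ) / (2 * σ) ∧ (y j - a j + σ) / (2 * σ) ≤ 1 := by
    intro j
    have h := abs_le.1 (hy.2 j)
    refine ⟨div_nonneg (by linarith) (by linarith), ?_⟩
    rw [div_le_one (by linarith)]
    linarith
  exact ⟨key (d0 l), key (d1 l)⟩

theorem continuous_sqf : Continuous (sqf a l σ) := by
  refine continuous_pi fun j => ?_
  unfold sqf
  split_ifs <;> fun_prop

theorem continuous_sqi : Continuous (sqi a l σ) := by
  unfold sqi
  fun_prop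

theorem conicalOn_sqf {X : Set (ℝ × ℝ)} (hX : ConicalSet X) : ConicalOn (sqf a l σ) X := by
  have h0 : ConicalOn (fun x : ℝ × ℝ => x.1) X := conicalOn_linear (LinearMap.fst ℝ ℝ ℝ) hX
  have h1 : ConicalOn (fun x : ℝ × ℝ => x.2) X := conicalOn_linear (LinearMap.snd ℝ ℝ ℝ) hX
  intro x hx
  refine conicalWithinAt_pi (hX x hx) fun j => ?_
  unfold sqf
  by_cases hj : j = d0 l
  · simp only [if_pos hj]
    have := ((conicalOn_const (a j - σ) hX).add (h0.const_smul (2 * σ)))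
    refine (this.congr fun y _ => ?_) x hx
    show a j + σ * (2 * y.1 - 1) = (a j - σ) + (2 * σ) * y.1
    ring
  · simp only [if_neg hj]
    by_cases hj1 : j = d1 l
    · simp only [if_pos hj1]
      have := ((conicalOn_const (a j - σ) hX).add (h1.const_smul (2 * σ)))
      refine (this.congr fun y _ => ?_) x hx
      show a j + σ * (2 * y.2 - 1) = (a j - σ) + (2 * σ) * y.2
      ring
    · simp only [if_neg hj1]
      exact conicalOn_const _ hX x hx

/-- the chart of the square -/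
noncomputable def sqP (a : V) (l : Fin 3) {σ : ℝ} (hσ : 0 < σ) : ConHomeo Rct (sqr a l σ) where
  toFun := sqf a l σ
  invFun := sqi a l σ
  mapsTo := fun _ hx => sqf_mem hσ.le hx
  mapsTo_inv := fun _ hy => sqi_mem hσ hy
  left_inv := fun x _ => sqi_sqf hσ x
  right_inv := fun _ hy => sqf_sqi hσ hy
  cont := continuous_sqf.continuousOn
  cont_inv := continuous_sqi.continuousOn
  conical := conicalOn_sqf (Convex.conicalSet ((convex_Icc 0 1).prod (convex_Icc 0 1)))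

/-- the corners of the unit square, in the positive direction -/
noncomputable def crn (n : ℕ) : ℝ × ℝ :=
  if n % 4 = 0 then (0, 0) else if n % 4 = 1 then (1, 0) else if n % 4 = 2 then (1, 1) else (0, 1)

/-- the corners of the square -/
noncomputable def sqv (a : V) (l : Fin 3) (σ : ℝ) (n : ℕ) : V := sqf a l σ (crn n)

theorem crn_mem (n : ℕ) : crn n ∈ Rct := by
  unfold crn
  split_ifs <;> exact ⟨⟨by norm_num, by norm_num⟩, by norm_num, by norm_num⟩

theorem sq_line (e : Fin 4) (t : ℝ) (s : ℝ) (hs : s = if (e : ℕ) ≤ 1 then t else 1 - t) :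
    (AffineMap.lineMap (crn e) (crn (e + 1)) s : ℝ × ℝ) = ed e t := by
  subst hs
  fin_cases e <;> simp [crn, ed, AffineMap.lineMap_apply, Prod.ext_iff]

/-- **the parametrisation** -/
theorem par_sq (hσ : 0 < σ) : Par (sqv a l σ) (sqP a l hσ) := by
  intro e t ht
  show sqf a l σ (ed e t) = _
  have h1 : 4 * tpBL e t - (e : ℕ) = if (e : ℕ) ≤ 1 then t else 1 - t := by
    fin_cases e <;> simp [tpBL] <;> ring
  have h2 : (if (e : ℕ) ≤ 1 then t else 1 - t) ∈ Icc (0:ℝ) 1 := by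
    obtain ⟨h3, h4⟩ := ht
    split_ifs
    · exact ⟨h3, h4⟩
    · exact ⟨by linarith, by linarith⟩
  have h3 : (((e : ℕ) : ℝ)) ≤ 4 * tpBL e t := by linarith [h2.1]
  have h4 : 4 * tpBL e t ≤ ((e : ℕ) : ℝ) + 1 := by linarith [h2.2]
  rw [cv_sub e.2 h3 h4, h1]
  unfold sqv
  rw [← sqf_affine, sq_line e t _ rfl]

theorem bd_sq (hσ : 0 < σ) : bd 4 (sqv a l σ) = (sqP a l hσ).toFun '' bR := by
  apply Subset.antisymm
  · rintro _ ⟨T, hT, rfl⟩
    obtain ⟨i, hi, h0, h1⟩ := P073.H155.Star.exists_edge (n := 4) (by norm_num) hT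
    obtain ⟨e, -, t, ht, h2, -⟩ := exists_tp hi h0 h1
    refine ⟨ed e t, ed_mem ht, ?_⟩
    rw [par_sq hσ e t ht, h2]
  · rintro _ ⟨x, hx, rfl⟩
    obtain ⟨e, t, ht, rfl⟩ := exists_ed hx
    rw [par_sq hσ e t ht]
    refine mem_image_of_mem _ ?_
    obtain ⟨h2, h3⟩ := ht
    fin_cases e <;> simp [tpBL] <;> constructor <;> linarith

theorem bd_sq_eq {Ω : Set V} {M : Mesh Ω} {k₀ : M.κ} (hσ : 0 < σ) (hF : M.F k₀ = sqr a l σ) :
    bd 4 (sqv a l σ) = intrinsicFrontier ℝ (M.F k₀) := by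
  rw [bd_sq hσ]
  exact Vale.Agent.P073.H193.chart_bd (M.fat k₀) ((sqP a l hσ).cast rfl hF.symm)

theorem gon_sq (hσ : 0 < σ) : Gon 4 (sqv a l σ) where
  hn := by norm_num
  clo := rfl
  inj := by
    intro T hT T' hT' he
    have hex : ∀ T ∈ Ico (0:ℝ) ((4:ℕ):ℝ), ∃ (e : Fin 4) (t : ℝ), t ∈ Icc (0:ℝ) 1 ∧
        4 * tpBL e t = T := by
      intro T hT
      obtain ⟨i, hi, h0, h1⟩ := P073.H155.Star.exists_edge (n := 4) (by norm_num)
        (Ico_subset_Icc_self hT)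
      obtain ⟨e, -, t, ht, h2, -⟩ := exists_tp hi h0 h1
      exact ⟨e, t, ht, h2⟩
    obtain ⟨e, t, ht, rfl⟩ := hex T hT
    obtain ⟨e', t', ht', rfl⟩ := hex T' hT'
    rw [← par_sq hσ e t ht, ← par_sq hσ e' t' ht'] at he
    have h1 := (sqP a l hσ).injOn (ed_mem ht).1 (ed_mem ht').1 he
    obtain ⟨a0, a1⟩ := ht
    obtain ⟨b0, b1⟩ := ht'
    have c1 := hT.2
    have c2 := hT'.2
    rw [Prod.ext_iff] at h1
    obtain ⟨h2, h3⟩ := h1
    fin_cases e <;> fin_cases e' <;> simp [ed, tpBL] at h2 h3 c1 c2 ⊢ <;> linarith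

/-- coordinates of the inverse -/
theorem crd_sqi (x y : V) (d : Bool) :
    crd d (sqi a l σ y) - crd d (sqi a l σ x) = (y (jd (d0 l) (d1 l) d) - x (jd (d0 l) (d1 l) d)) /
      (2 * σ) := by
  rcases d with _ | _
  · show (y (d0 l) - a (d0 l) + σ) / (2 * σ) - (x (d0 l) - a (d0 l) + σ) / (2 * σ) = _
    rw [← sub_div]
    congr 1
    show _ = y (d0 l) - x (d0 l)
    ring
  · show (y (d1 l) - a (d1 l) + σ) / (2 * σ) - (x (d1 l) - a (d1 l) + σ) / (2 * σ) = _
    rw [← sub_div]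
    congr 1
    show _ = y (d1 l) - x (d1 l)
    ring

theorem dist_sqi (hσ : 0 < σ) (x y : V) :
    dist (sqi a l σ y) (sqi a l σ x) ≤ ‖y - x‖ / (2 * σ) := by
  have h : ∀ d, |crd d (sqi a l σ y) - crd d (sqi a l σ x)| ≤ ‖y - x‖ / (2 * σ) := by
    intro d
    rw [crd_sqi, abs_div, abs_of_pos (by linarith : 0 < 2 * σ)]
    refine div_le_div_of_nonneg_right ?_ (by linarith)
    have := norm_le_pi_norm (y - x) (jd (d0 l) (d1 l) d)
    rwa [Pi.sub_apply, Real.norm_eq_abs] at this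
  rw [Prod.dist_eq, Real.dist_eq, Real.dist_eq]
  exact max_le (h false) (h true)

end P073.FW31
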