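import Vale.Agent.P073.H31.FSq

/-!
# P073, H31, SHARP-WRAP2: the volume of the bad set
-/

open Set Metric Topology Filter MeasureTheory
open scoped ENNReal

namespace P073.FW31

open P073
open Vale.Agent.P073.St (V)
open Vale.Agent.P073.SQ (ev cube)
open Vale.Agent.P073.H73 (Mesh sqr)

variable {a : V} {l : Fin 3} {σ : ℝ}

theorem sqi_update (x : V) (t : ℝ) : sqi a l σ (Function.update x l t) = sqi a l σ x := by
  unfold sqi
  rw [Function.update_of_ne (d0_ne l), Function.update_of_ne (d1_ne l)]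

/-- preimages under an affine map of the plane -/
theorem vol_plane (hσ : 0 < σ) (c : ℝ × ℝ) (Bad : Set (ℝ × ℝ)) :
    volume {p : ℝ × ℝ | ((p.1 - c.1) / (2 * σ), (p.2 - c.2) / (2 * σ)) ∈ Bad} =
      ENNReal.ofReal ((2 * σ) ^ 2) * volume Bad := by
  have h1 : {p : ℝ × ℝ | ((p.1 - c.1) / (2 * σ), (p.2 - c.2) / (2 * σ)) ∈ Bad} =
      (fun p => p + (-c)) ⁻¹' ((fun p => (1 / (2 * σ)) • p) ⁻¹' Bad) := by
    ext p
    show ((p.1 - c.1) / (2 * σ), (p.2 - c.2) / (2 * σ)) ∈ Bad ↔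
      ((1 / (2 * σ)) * (p.1 + -c.1), (1 / (2 * σ)) * (p.2 + -c.2)) ∈ Bad
    have e1 : ∀ u v : ℝ, (u - v) / (2 * σ) = 1 / (2 * σ) * (u + -v) := fun u v => by
      rw [div_eq_mul_inv, one_div]; ring
    rw [e1, e1]
  rw [h1, measure_preimage_add_right, Measure.addHaar_preimage_smul volume (by positivity)]
  congr 1
  have h2 : Module.finrank ℝ (ℝ × ℝ) = 2 := by simp
  rw [h2]
  congr 1
  rw [abs_of_nonneg (by positivity)]
  field_simp

/-- **the volume of the bad set** -/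
theorem vol_bad (hσ : 0 < σ) {Bad : Set (ℝ × ℝ)} {β : ℝ} (hv : volume Bad ≤ ENNReal.ofReal β) :
    volume {x : V | x ∈ cube a σ ∧ Function.update x l (a l) ∈ {y | sqi a l σ y ∈ Bad}} ≤
      ENNReal.ofReal (8 * β * σ ^ 3) := by
  have hsub : {x : V | x ∈ cube a σ ∧ Function.update x l (a l) ∈ {y | sqi a l σ y ∈ Bad}} ⊆
      (MeasurableEquiv.piFinSuccAbove (fun _ => ℝ) l) ⁻¹'
        (Icc (a l - σ) (a l + σ) ×ˢ ((MeasurableEquiv.finTwoArrow : (Fin 2 → ℝ) ≃ᵐ ℝ × ℝ) ⁻¹'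
          {p : ℝ × ℝ | ((p.1 - (a (d0 l) - σ)) / (2 * σ), (p.2 - (a (d1 l) - σ)) / (2 * σ)) ∈
            Bad})) := by
    rintro x ⟨hx, hxB⟩
    rw [mem_ofPred_eq, sqi_update] at hxB
    refine ⟨?_, ?_⟩
    · have := abs_le.1 (hx l)
      exact ⟨by show _ ≤ x l; linarith, by show x l ≤ _; linarith⟩
    · show ((x (d0 l) - (a (d0 l) - σ)) / (2 * σ), (x (d1 l) - (a (d1 l) - σ)) / (2 * σ)) ∈ Bad
      have e1 : ∀ u v : ℝ, u - (v - σ) = u - v + σ := fun u v => by ring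
      rw [e1, e1]
      exact hxB
  refine (measure_mono hsub).trans ?_
  rw [(volume_preserving_piFinSuccAbove (fun _ => ℝ) l).measure_preimage_equiv,
    Measure.volume_eq_prod, Measure.prod_prod,
    (volume_preserving_finTwoArrow ℝ).measure_preimage_equiv,
    vol_plane hσ (a (d0 l) - σ, a (d1 l) - σ) Bad, Real.volume_Icc]
  have e2 : a l + σ - (a l - σ) = 2 * σ := by ring
  rw [e2, ← mul_assoc, ← ENNReal.ofReal_mul (by linarith)]
  calc ENNReal.ofReal (2 * σ * (2 * σ) ^ 2) * volume Bad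
      ≤ ENNReal.ofReal (2 * σ * (2 * σ) ^ 2) * ENNReal.ofReal β := by gcongr
    _ = ENNReal.ofReal (8 * β * σ ^ 3) := by
        rw [← ENNReal.ofReal_mul (by positivity)]
        congr 1
        ring

end P073.FW31
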