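import Vale.Agent.P073.H31.Morrey
import Mathlib.MeasureTheory.Constructions.Pi
import Mathlib.MeasureTheory.Measure.Lebesgue.Basic
import Mathlib.Analysis.MeanInequalities
import Mathlib.MeasureTheory.Measure.Haar.Unique

/-!
# P073: oscillation of a `C^1` map on the faces of a cube
-/

namespace Vale.Agent.P073.H31

open MeasureTheory Set Filter Topology Metric Module
open scoped ENNReal ContDiff NNReal

/-- Three-space. -/
abbrev V3 : Type := Fin 3 → ℝ

/-- The plane. -/
abbrev V2 : Type := Fin 2 → ℝ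

/-- Insertion of a coordinate. -/
def ins (i : Fin 3) (c : ℝ) (u : V2) : V3 := Fin.insertNth (α := fun _ => ℝ) i c u

/-- Removal of a coordinate. -/
def rem (i : Fin 3) (z : V3) : V2 := fun k => z (i.succAbove k)

@[simp] theorem ins_same (i : Fin 3) (c : ℝ) (u : V2) : ins i c u i = c := by simp [ins]

@[simp] theorem ins_succ (i : Fin 3) (c : ℝ) (u : V2) (k : Fin 2) :
    ins i c u (i.succAbove k) = u k := by simp [ins]

theorem ins_rem (i : Fin 3) (z : V3) : ins i (z i) (rem i z) = z := by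
  funext j
  rcases Fin.eq_self_or_eq_succAbove i j with rfl | ⟨k, rfl⟩
  · simp
  · simp [rem]

/-- The embedding of the plane as a coordinate plane. -/
noncomputable def emb (i : Fin 3) : V2 →L[ℝ] V3 :=
  ContinuousLinearMap.pi (Fin.insertNth (α := fun _ => V2 →L[ℝ] ℝ) i 0
    fun k => ContinuousLinearMap.proj k)

theorem emb_apply (i : Fin 3) (u : V2) : emb i u = ins i 0 u := by
  funext j
  unfold emb
  rw [ContinuousLinearMap.coe_pi']
  rcases Fin.eq_self_or_eq_succAbove i j with rfl | ⟨k, rfl⟩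
  · simp
  · simp

theorem emb_norm_le (i : Fin 3) : ‖emb i‖ ≤ 1 := by
  refine ContinuousLinearMap.opNorm_le_bound _ zero_le_one fun u => ?_
  rw [one_mul, emb_apply, pi_norm_le_iff_of_nonneg (norm_nonneg _)]
  intro j
  rcases Fin.eq_self_or_eq_succAbove i j with rfl | ⟨k, rfl⟩
  · simp
  · simpa using norm_le_pi_norm u k

theorem comp_emb_le {E' : Type*} [NormedAddCommGroup E'] [NormedSpace ℝ E'] (i : Fin 3)
    (L : V3 →L[ℝ] E') : ‖L.comp (emb i)‖ ≤ ‖L‖ :=
  (L.opNorm_comp_le (emb i)).trans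
    ((mul_le_mul_of_nonneg_left (emb_norm_le i) (norm_nonneg _)).trans (mul_one _).le)

theorem insert_eq (i : Fin 3) (c : ℝ) (u : V2) :
    ins i c u = emb i u + Pi.single i c := by
  rw [emb_apply]
  funext j
  rcases Fin.eq_self_or_eq_succAbove i j with rfl | ⟨k, rfl⟩
  · simp
  · simp

/-- The two signs. -/
def sg (b : Bool) : ℝ := if b then 1 else -1

variable {E' : Type*} [NormedAddCommGroup E'] [NormedSpace ℝ E'] [CompleteSpace E']

/-- The energy of `g` on the face. -/
noncomputable def fE (p : ℝ) (g : V3 → E') (x₀ : V3) (r s : ℝ) (i : Fin 3) (b : Bool) : ℝ≥0∞ :=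
  ∫⁻ u in closedBall (rem i x₀) (2 * r),
    ‖fderiv ℝ g (ins i (x₀ i + sg b * s) u)‖ₑ ^ p

theorem volume_sq (c : V2) {s : ℝ} (hs : 0 ≤ s) :
    volume (closedBall c s) = ENNReal.ofReal ((2 * s) ^ 2) := by
  rw [Real.volume_pi_closedBall c hs]
  simp

/-- Oscillation on a face. -/
theorem face_osc {g : V3 → E'} (hg : ContDiff ℝ 1 g) {p : ℝ} (hp : 2 < p) (x₀ : V3) {r s : ℝ}
    (hr : 0 < r) (hrs : r ≤ s) (hs : s ≤ 2 * r) (i : Fin 3) (b : Bool) {x y : V3}
    (hx : x ∈ closedBall x₀ s) (hy : y ∈ closedBall x₀ s) (hxi : x i = x₀ i + sg b * s)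
    (hyi : y i = x₀ i + sg b * s) :
    ‖g y - g x‖ₑ ^ p ≤ (2 * ENNReal.ofReal (4 * r) * cMor 2 p) ^ p *
      (ENNReal.ofReal ((2 * r) ^ 2))⁻¹ * fE p g x₀ r s i b := by
  have hs0 : 0 < s := hr.trans_le hrs
  set c : ℝ := x₀ i + sg b * s with hc
  set G : V2 → E' := fun u => g (ins i c u) with hG
  have hGe : G = fun u => g (emb i u + Pi.single i c) := by
    funext u
    rw [hG]
    simp only [insert_eq]
  have hGc : ContDiff ℝ 1 G := by
    rw [hGe]
    exact hg.comp ((emb i).contDiff.add contDiff_const)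
  have hGd : ∀ u, ‖fderiv ℝ G u‖ ≤ ‖fderiv ℝ g (ins i c u)‖ := by
    intro u
    have h1 : HasFDerivAt (fun u => emb i u + Pi.single i c : V2 → V3) (emb i) u :=
      ((emb i).hasFDerivAt).add_const _
    have h2 := ((hg.differentiable (by simp)) (emb i u + Pi.single i c)).hasFDerivAt.comp u h1
    rw [hGe, insert_eq]
    have h3 : fderiv ℝ (fun u => g (emb i u + Pi.single i c)) u =
        (fderiv ℝ g (emb i u + Pi.single i c)).comp (emb i) := h2.fderiv
    rw [h3]
    exact comp_emb_le i _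
  have hrem : ∀ z : V3, z ∈ closedBall x₀ s → rem i z ∈ closedBall (rem i x₀) s := by
    intro z hz
    rw [mem_closedBall, dist_pi_le_iff hs0.le] at hz ⊢
    intro k
    exact hz _
  have hins : ∀ z : V3, z i = c → ins i c (rem i z) = z := by
    intro z hz
    rw [← hz]
    exact ins_rem i z
  have hgx : G (rem i x) = g x := by rw [hG]; simp only [hins x hxi]
  have hgy : G (rem i y) = g y := by rw [hG]; simp only [hins y hyi]
  have h := morrey (μ := (volume : Measure V2)) hGc
    (S := closedBall (rem i x₀) s) measurableSet_closedBall (convex_closedBall _ _)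
    measure_closedBall_lt_top.ne (s := 2 * s) (fun a ha b hb => by
      rw [← dist_eq_norm]
      calc dist b a ≤ dist b (rem i x₀) + dist a (rem i x₀) := dist_triangle_right _ _ _
        _ ≤ s + s := add_le_add hb ha
        _ = 2 * s := by ring) (p := p) (by linarith) (hrem x hx) (hrem y hy)
  rw [hgx, hgy, volume_sq _ hs0.le] at h
  have hfr : finrank ℝ V2 = 2 := by simp
  rw [hfr] at h
  have hv0 : ENNReal.ofReal ((2 * r) ^ 2) ≠ 0 := by
    rw [Ne, ENNReal.ofReal_eq_zero]
    have : 0 < (2 * r) ^ 2 := by positivity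
    linarith
  have hvt : ENNReal.ofReal ((2 * r) ^ 2) ≠ ⊤ := ENNReal.ofReal_ne_top
  have h2 : ‖g y - g x‖ₑ ^ p * ENNReal.ofReal ((2 * r) ^ 2) ≤
      (2 * ENNReal.ofReal (4 * r) * cMor 2 p) ^ p * fE p g x₀ r s i b := by
    calc ‖g y - g x‖ₑ ^ p * ENNReal.ofReal ((2 * r) ^ 2)
        ≤ ‖g y - g x‖ₑ ^ p * ENNReal.ofReal ((2 * s) ^ 2) := by gcongr
      _ ≤ _ := h
      _ ≤ (2 * ENNReal.ofReal (4 * r) * cMor 2 p) ^ p *
          ∫⁻ z in closedBall (rem i x₀) s, ‖fderiv ℝ G z‖ₑ ^ p := by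
          have : 2 * s ≤ 4 * r := by linarith
          gcongr
      _ ≤ _ := by
          refine mul_le_mul_right ?_ _
          refine (lintegral_mono_set (closedBall_subset_closedBall hs)).trans ?_
          refine lintegral_mono fun u => ?_
          have := hGd u
          refine ENNReal.rpow_le_rpow ?_ (by linarith)
          rw [← ofReal_norm, ← ofReal_norm]
          exact ENNReal.ofReal_le_ofReal this
  calc ‖g y - g x‖ₑ ^ p = ‖g y - g x‖ₑ ^ p * ENNReal.ofReal ((2 * r) ^ 2) *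
        (ENNReal.ofReal ((2 * r) ^ 2))⁻¹ := by
        rw [mul_assoc, ENNReal.mul_inv_cancel hv0 hvt, mul_one]
    _ ≤ (2 * ENNReal.ofReal (4 * r) * cMor 2 p) ^ p * fE p g x₀ r s i b *
        (ENNReal.ofReal ((2 * r) ^ 2))⁻¹ := by gcongr
    _ = _ := by ring

omit [NormedSpace ℝ E'] [CompleteSpace E'] in
/-- From the faces to the whole surface of the cube. -/
theorem sphere_le (g : V3 → E') (x₀ : V3) {s : ℝ} (hs : 0 < s) (B : Fin 3 × Bool → ℝ≥0∞)
    (hB : ∀ i b x y, x ∈ closedBall x₀ s → y ∈ closedBall x₀ s → x i = x₀ i + sg b * s →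
      y i = x₀ i + sg b * s → ‖g y - g x‖ₑ ≤ B (i, b))
    {x y : V3} (hx : x ∈ sphere x₀ s) (hy : y ∈ sphere x₀ s) :
    ‖g y - g x‖ₑ ≤ 2 * ∑ q, B q := by
  set c : V3 := fun k => x₀ k + s with hc
  have hcm : c ∈ closedBall x₀ s := by
    rw [mem_closedBall, dist_pi_le_iff hs.le]
    intro k
    rw [hc, Real.dist_eq]
    simp [abs_of_pos hs]
  have key : ∀ x ∈ sphere x₀ s, ‖g x - g c‖ₑ ≤ ∑ q, B q := by
    intro x hx
    have hxm : x ∈ closedBall x₀ s := sphere_subset_closedBall hx
    obtain ⟨i, hi⟩ : ∃ i, |x i - x₀ i| = s := by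
      have h1 : ∃ i, s ≤ |x i - x₀ i| := by
        by_contra hcon
        push Not at hcon
        have : dist x x₀ < s := by
          rw [dist_pi_lt_iff hs]
          intro k
          rw [Real.dist_eq]
          exact hcon k
        exact absurd (mem_sphere.1 hx) this.ne
      obtain ⟨i, hi⟩ := h1
      refine ⟨i, le_antisymm ?_ hi⟩
      have := (dist_pi_le_iff hs.le).1 (mem_closedBall.1 hxm) i
      rwa [Real.dist_eq] at this
    rcases (abs_eq hs.le).1 hi with h | h
    · have h1 := hB i true c x hcm hxm (by simp [hc, sg]) (by simp [sg]; linarith)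
      refine h1.trans ?_
      exact Finset.single_le_sum (f := B) (fun _ _ => bot_le) (Finset.mem_univ _)
    · obtain ⟨j, hj⟩ : ∃ j : Fin 3, j ≠ i := by
        by_cases h0 : i = 0
        · exact ⟨1, by rw [h0]; decide⟩
        · exact ⟨0, fun h => h0 h.symm⟩
      set c' : V3 := Function.update c i (x₀ i - s) with hc'
      have hc'm : c' ∈ closedBall x₀ s := by
        rw [mem_closedBall, dist_pi_le_iff hs.le]
        intro k
        rw [Real.dist_eq]
        by_cases hk : k = i
        · subst hk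
          simp [hc', abs_of_pos hs]
        · simp [hc', hk, hc, abs_of_pos hs]
      have h1 := hB i false c' x hc'm hxm (by simp [hc', sg]; ring) (by simp [sg]; linarith)
      have h2 := hB j true c c' hcm hc'm (by simp [hc, sg]) (by simp [hc', hj, hc, sg])
      have e : g x - g c = (g x - g c') + (g c' - g c) := by abel
      rw [e]
      refine (enorm_add_le _ _).trans ((add_le_add h1 h2).trans ?_)
      have hne : ((i, false) : Fin 3 × Bool) ≠ (j, true) := by simp
      rw [← Finset.sum_pair (f := B) hne]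
      exact Finset.sum_le_sum_of_subset (Finset.subset_univ _)
  have e : g y - g x = (g y - g c) - (g x - g c) := by abel
  rw [e, two_mul]
  exact enorm_sub_le.trans (add_le_add (key y hy) (key x hx))

/-- Oscillation on the surface of the cube. -/
theorem sphere_osc {g : V3 → E'} (hg : ContDiff ℝ 1 g) {p : ℝ} (hp : 2 < p) (x₀ : V3) {r s : ℝ}
    (hr : 0 < r) (hrs : r ≤ s) (hs : s ≤ 2 * r) {x y : V3}
    (hx : x ∈ sphere x₀ s) (hy : y ∈ sphere x₀ s) :
    ‖g y - g x‖ₑ ^ p ≤ 12 ^ p * ((2 * ENNReal.ofReal (4 * r) * cMor 2 p) ^ p *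
      (ENNReal.ofReal ((2 * r) ^ 2))⁻¹) * ∑ q : Fin 3 × Bool, fE p g x₀ r s q.1 q.2 := by
  have hp0 : 0 < p := by linarith
  have hs0 : 0 < s := hr.trans_le hrs
  set A : ℝ≥0∞ := (2 * ENNReal.ofReal (4 * r) * cMor 2 p) ^ p * (ENNReal.ofReal ((2 * r) ^ 2))⁻¹
    with hA
  set B : Fin 3 × Bool → ℝ≥0∞ := fun q => (A * fE p g x₀ r s q.1 q.2) ^ (1 / p) with hB
  have hBp : ∀ q, B q ^ p = A * fE p g x₀ r s q.1 q.2 := by
    intro q
    rw [hB]
    dsimp only
    rw [← ENNReal.rpow_mul, one_div, inv_mul_cancel₀ hp0.ne', ENNReal.rpow_one]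
  have h1 := sphere_le g x₀ hs0 B (fun i b x y hx hy hxi hyi => by
    have h := face_osc hg hp x₀ hr hrs hs i b hx hy hxi hyi
    rw [hB]
    dsimp only
    rw [one_div, ENNReal.le_rpow_inv_iff hp0]
    exact h) hx hy
  have h2 : ‖g y - g x‖ₑ ^ p ≤ (2 * ∑ q, B q) ^ p := ENNReal.rpow_le_rpow h1 hp0.le
  refine h2.trans ?_
  -- the largest term
  obtain ⟨q₀, -, hq₀⟩ := Finset.exists_max_image (Finset.univ : Finset (Fin 3 × Bool)) B
    Finset.univ_nonempty
  have h3 : ∑ q, B q ≤ 6 * B q₀ := by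
    calc ∑ q, B q ≤ ∑ _q : Fin 3 × Bool, B q₀ := Finset.sum_le_sum fun q hq => hq₀ q hq
      _ = 6 * B q₀ := by simp
  calc (2 * ∑ q, B q) ^ p ≤ (2 * (6 * B q₀)) ^ p := by gcongr
    _ = 12 ^ p * (B q₀) ^ p := by
        rw [← mul_assoc, ENNReal.mul_rpow_of_nonneg _ _ hp0.le]
        norm_num
    _ = 12 ^ p * (A * fE p g x₀ r s q₀.1 q₀.2) := by rw [hBp]
    _ ≤ 12 ^ p * (A * ∑ q : Fin 3 × Bool, fE p g x₀ r s q.1 q.2) := by
        gcongr
        exact Finset.single_le_sum (f := fun q : Fin 3 × Bool => fE p g x₀ r s q.1 q.2)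
          (fun _ _ => bot_le) (Finset.mem_univ q₀)
    _ = _ := by ring

omit [CompleteSpace E'] in
theorem measurable_level {g : V3 → E'} (hg : ContDiff ℝ 1 g) (p : ℝ) (x₀ : V3) (r : ℝ)
    (i : Fin 3) : Measurable fun c : ℝ => ∫⁻ u in closedBall (rem i x₀) (2 * r),
      ‖fderiv ℝ g (ins i c u)‖ₑ ^ p := by
  have hhm : Measurable fun z : V3 => ‖fderiv ℝ g z‖ₑ ^ p :=
    ((hg.continuous_fderiv (by simp)).enorm.measurable).pow_const p
  have hmi : Measurable fun z : ℝ × V2 => ins i z.1 z.2 :=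
    (MeasurableEquiv.piFinSuccAbove (fun _ : Fin 3 => ℝ) i).symm.measurable
  exact (hhm.comp hmi).lintegral_prod_right'
    (ν := volume.restrict (closedBall (rem i x₀) (2 * r)))

omit [CompleteSpace E'] in
theorem measurable_fE {g : V3 → E'} (hg : ContDiff ℝ 1 g) (p : ℝ) (x₀ : V3) (r : ℝ)
    (i : Fin 3) (b : Bool) : Measurable fun s : ℝ => fE p g x₀ r s i b :=
  (measurable_level hg p x₀ r i).comp (by fun_prop)

omit [CompleteSpace E'] in
/-- Fubini: the energies of the faces. -/
theorem lintegral_fE_le {g : V3 → E'} (hg : ContDiff ℝ 1 g) (p : ℝ) (x₀ : V3) {r : ℝ}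
    (hr : 0 < r) (i : Fin 3) (b : Bool) :
    ∫⁻ s in Ioo r (2 * r), fE p g x₀ r s i b ≤
      ∫⁻ z in closedBall x₀ (2 * r), ‖fderiv ℝ g z‖ₑ ^ p := by
  have hr0 : (0 : ℝ) ≤ 2 * r := by linarith
  set h : V3 → ℝ≥0∞ := fun z => ‖fderiv ℝ g z‖ₑ ^ p with hh
  have hhm : Measurable h := ((hg.continuous_fderiv (by simp)).enorm.measurable).pow_const p
  let e := MeasurableEquiv.piFinSuccAbove (fun _ : Fin 3 => ℝ) i
  have he : MeasurePreserving e := volume_preserving_piFinSuccAbove (fun _ : Fin 3 => ℝ) i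
  set k : ℝ → ℝ≥0∞ := fun c => ∫⁻ u in closedBall (rem i x₀) (2 * r),
    h (ins i c u) with hk
  have hmi : Measurable fun z : ℝ × V2 => (ins i z.1 z.2 : V3) :=
    e.symm.measurable
  have hkm : Measurable k := measurable_level hg p x₀ r i
  have e1 : ∫⁻ z in closedBall x₀ (2 * r), h z = ∫⁻ c in closedBall (x₀ i) (2 * r), k c := by
    have hset : e ⁻¹' (closedBall (x₀ i) (2 * r) ×ˢ closedBall (rem i x₀) (2 * r)) =
        closedBall x₀ (2 * r) := by
      ext z
      simp only [mem_preimage, mem_prod, mem_closedBall]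
      rw [dist_pi_le_iff hr0, dist_pi_le_iff hr0]
      show (dist (z i) (x₀ i) ≤ 2 * r ∧ ∀ k, dist (z (i.succAbove k)) (x₀ (i.succAbove k)) ≤ 2 * r)
        ↔ _
      constructor
      · rintro ⟨h1, h2⟩ j
        rcases Fin.eq_self_or_eq_succAbove i j with rfl | ⟨k, rfl⟩
        · exact h1
        · exact h2 k
      · intro h1
        exact ⟨h1 i, fun k => h1 _⟩
    have e2 : ∀ z : V3, h z = (fun q : ℝ × V2 => h (ins i q.1 q.2))
        (e z) := by
      intro z
      show h z = h (ins i (z i) (rem i z))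
      rw [ins_rem]
    have e3 : ∫⁻ z in closedBall x₀ (2 * r), h z =
        ∫⁻ q in closedBall (x₀ i) (2 * r) ×ˢ closedBall (rem i x₀) (2 * r),
          h (ins i q.1 q.2) := by
      rw [← he.setLIntegral_comp_preimage_emb e.measurableEmbedding, hset]
      exact lintegral_congr fun z => e2 z
    rw [e3, Measure.volume_eq_prod, ← Measure.prod_restrict, lintegral_prod]
    exact (hhm.comp hmi).aemeasurable
  rw [e1]
  -- the change of variables in the level
  have hφ : MeasurePreserving (fun s : ℝ => x₀ i + sg b * s) := by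
    have h1 : MeasurePreserving (fun s : ℝ => sg b * s) := by
      cases b
      · have : (fun s : ℝ => sg false * s) = fun s => -s := by funext s; simp [sg]
        rw [this]
        exact Measure.measurePreserving_neg volume
      · have : (fun s : ℝ => sg true * s) = id := by funext s; simp [sg]
        rw [this]
        exact MeasurePreserving.id _
    exact (measurePreserving_add_left volume (x₀ i)).comp h1
  have e4 : ∫⁻ c in closedBall (x₀ i) (2 * r), k c =
      ∫⁻ s in (fun s : ℝ => x₀ i + sg b * s) ⁻¹' closedBall (x₀ i) (2 * r),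
        k (x₀ i + sg b * s) := by
    rw [hφ.setLIntegral_comp_preimage measurableSet_closedBall hkm]
  rw [e4]
  refine lintegral_mono_set ?_
  intro s hs
  rw [mem_preimage, mem_closedBall, Real.dist_eq, add_sub_cancel_left, abs_mul]
  have : |sg b| = 1 := by cases b <;> simp [sg]
  rw [this, one_mul, abs_of_pos (hr.trans hs.1)]
  exact hs.2.le

end Vale.Agent.P073.H31
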