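import Vale.Agent.P073.H341.Extend

/-!
# P073, H31, INS: monotone maps, filling of conical two-spheres
-/

open Set Metric Topology Filter

namespace P073.H31

open P073.H339 P073.GB200 P073.H341

variable {E F : Type*} [NormedAddCommGroup E] [NormedSpace ℝ E]
  [NormedAddCommGroup F] [NormedSpace ℝ F]

/-- proper maps with connected fibres -/
structure MonoOn (κ : E → F) (X : Set E) (Y : Set F) : Prop where
  maps : MapsTo κ X Y
  cont : ContinuousOn κ X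
  proper : ∀ K ⊆ Y, IsCompact K → IsCompact (X ∩ κ ⁻¹' K)
  fib : ∀ y ∈ Y, IsConnected (X ∩ κ ⁻¹' {y})

theorem MonoOn.preconn [FiniteDimensional ℝ F] {κ : E → F} {X : Set E} {Y : Set F}
    (h : MonoOn κ X Y) {O : Set F} (hO : O ⊆ Y) (hOo : IsOpen O) (hpre : IsPreconnected O) :
    IsPreconnected (X ∩ κ ⁻¹' O) := by
  haveI : ProperSpace F := FiniteDimensional.proper ℝ F
  intro u v hu hv huv hnu hnv
  by_contra hc
  rw [not_nonempty_iff_eq_empty] at hc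
  have hfs : ∀ y ∈ O, X ∩ κ ⁻¹' {y} ⊆ X ∩ κ ⁻¹' O := fun y hy x hx =>
    ⟨hx.1, by
      have : κ x = y := hx.2
      show κ x ∈ O
      rw [this]; exact hy⟩
  have hno : ∀ x ∈ X ∩ κ ⁻¹' O, x ∈ u → x ∉ v := fun x hx h1 h2 => by
    have : x ∈ X ∩ κ ⁻¹' O ∩ (u ∩ v) := ⟨hx, h1, h2⟩
    rw [hc] at this; exact this
  -- each fibre lies on one side
  have side : ∀ y ∈ O, X ∩ κ ⁻¹' {y} ⊆ u ∨ X ∩ κ ⁻¹' {y} ⊆ v := by
    intro y hy
    by_contra hcon
    push Not at hcon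
    obtain ⟨h1, h2⟩ := hcon
    obtain ⟨x1, hx1, hx1u⟩ := not_subset.1 h1
    obtain ⟨x2, hx2, hx2v⟩ := not_subset.1 h2
    have e1 : x1 ∈ v := (huv (hfs y hy hx1)).resolve_left hx1u
    have e2 : x2 ∈ u := (huv (hfs y hy hx2)).resolve_right hx2v
    obtain ⟨x, hx, hxu, hxv⟩ := (h.fib y (hO hy)).isPreconnected u v hu hv
      ((hfs y hy).trans huv) ⟨x2, hx2, e2⟩ ⟨x1, hx1, e1⟩
    exact hno x (hfs y hy hx) hxu hxv
  have opn : ∀ w : Set E, IsOpen w → IsOpen {y | y ∈ O ∧ X ∩ κ ⁻¹' {y} ⊆ w} := by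
    intro w hw
    rw [isOpen_iff_mem_nhds]
    rintro y ⟨hy, hyw⟩
    obtain ⟨K, hK, hyK, hKO⟩ := exists_compact_subset hOo hy
    have hC : IsCompact ((X ∩ κ ⁻¹' K) \ w) := (h.proper K (hKO.trans hO) hK).diff hw
    have hC' : IsCompact (κ '' ((X ∩ κ ⁻¹' K) \ w)) :=
      hC.image_of_continuousOn (h.cont.mono fun x hx => hx.1.1)
    have hyC : y ∉ κ '' ((X ∩ κ ⁻¹' K) \ w) := by
      rintro ⟨x, hx, hxy⟩
      exact hx.2 (hyw ⟨hx.1.1, hxy⟩)
    filter_upwards [isOpen_interior.mem_nhds hyK, hC'.isClosed.isOpen_compl.mem_nhds hyC]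
      with y' h1 h2
    refine ⟨hKO (interior_subset h1), fun x hx => ?_⟩
    by_contra hxw
    refine h2 ⟨x, ⟨⟨hx.1, ?_⟩, hxw⟩, hx.2⟩
    have : κ x = y' := hx.2
    show κ x ∈ K
    rw [this]; exact interior_subset h1
  have hcov : O ⊆ {y | y ∈ O ∧ X ∩ κ ⁻¹' {y} ⊆ u} ∪ {y | y ∈ O ∧ X ∩ κ ⁻¹' {y} ⊆ v} := by
    intro y hy
    rcases side y hy with h1 | h1
    · exact Or.inl ⟨hy, h1⟩
    · exact Or.inr ⟨hy, h1⟩
  obtain ⟨x1, hx1, hx1u⟩ := hnu
  obtain ⟨x2, hx2, hx2v⟩ := hnv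
  have n1 : (O ∩ {y | y ∈ O ∧ X ∩ κ ⁻¹' {y} ⊆ u}).Nonempty := by
    refine ⟨κ x1, hx1.2, hx1.2, ?_⟩
    rcases side (κ x1) hx1.2 with h1 | h1
    · exact h1
    · exact absurd (h1 ⟨hx1.1, rfl⟩) (hno x1 hx1 hx1u)
  have n2 : (O ∩ {y | y ∈ O ∧ X ∩ κ ⁻¹' {y} ⊆ v}).Nonempty := by
    refine ⟨κ x2, hx2.2, hx2.2, ?_⟩
    rcases side (κ x2) hx2.2 with h1 | h1
    · exact absurd hx2v (hno x2 hx2 (h1 ⟨hx2.1, rfl⟩))
    · exact h1
  obtain ⟨y, hy, ⟨_, h1⟩, ⟨_, h2⟩⟩ := hpre _ _ (opn u hu) (opn v hv) hcov n1 n2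
  obtain ⟨x, hx⟩ := (h.fib y (hO hy)).nonempty
  exact hno x (hfs y hy hx) (h1 hx) (h2 hx)

/-- the ball bounded by a conical two-sphere -/
theorem exists_ball (hA3 : GB932.AmbStd 3) {S : Set (Fin 3 → ℝ)} (hS : ConSphere 2 S) :
    ∃ D, ConBall 3 D S ∧ JBall D S := by
  obtain ⟨Φ, hΦ⟩ := hA3 S hS
  have e : Φ.symm.toFun '' sphere 0 1 = S := by
    rw [← hΦ]
    exact image_image_symm Φ (subset_univ _)
  refine ⟨Φ.symm.toFun '' closedBall 0 1, ?_, ?_⟩
  · have hstd : ConBall 3 (closedBall (0 : Fin 3 → ℝ) 1) (sphere 0 1) :=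
      ⟨sphere_subset_closedBall, ConHomeo.refl (Convex.conicalSet (convex_closedBall _ _)),
        image_id _⟩
    have := hstd.image Φ.symm (subset_univ _)
    rwa [e] at this
  · have := (jball_std (n := 3) (by norm_num)).image (toHomeo Φ.symm)
    have e2 : (toHomeo Φ.symm : (Fin 3 → ℝ) → (Fin 3 → ℝ)) = Φ.symm.toFun := rfl
    rw [e2, e] at this
    exact this

/-- **filling**: a connected bounded open set with frontier in a sphere -/
theorem conBall_of_sphere (hA3 : GB932.AmbStd 3) {W S : Set (Fin 3 → ℝ)} (hS : ConSphere 2 S)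
    (hWo : IsOpen W) (hWp : IsPreconnected W) (hWn : W.Nonempty) (hc : IsCompact (W ∪ S))
    (hd : Disjoint W S) : ConBall 3 (W ∪ S) S := by
  obtain ⟨D, hD, hJ⟩ := exists_ball hA3 hS
  have hDe : D = interior D ∪ S := by
    rw [hJ.interior_eq, Set.sdiff_union_of_subset hJ.bdry_subset]
  have key : interior D = W := by
    rcases hJ.in_or_out hWp hd with h1 | h1
    · apply Subset.antisymm _ h1
      -- `interior D = W ∪ (interior D \ (W ∪ S))`
      intro x hx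
      by_contra hxW
      have hxS : x ∉ S := hJ.interior_disj hx
      have hcl : IsOpen (interior D \ (W ∪ S)) := isOpen_interior.sdiff hc.isClosed
      obtain ⟨z, hz, hz1, hz2⟩ := hJ.int_conn W (interior D \ (W ∪ S)) hWo hcl (by
        intro y hy
        by_cases hyW : y ∈ W
        · exact Or.inl hyW
        · exact Or.inr ⟨hy, fun h => h.elim hyW (hJ.interior_disj hy)⟩)
        (hWn.mono fun y hy => ⟨h1 hy, hy⟩) ⟨x, hx, hx, fun h => h.elim hxW hxS⟩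
      exact hz2.2 (Or.inl hz1)
    · exfalso
      have hcl : IsOpen (Dᶜ \ (W ∪ S)) := hJ.isClosed.isOpen_compl.sdiff hc.isClosed
      have hsub : Dᶜ ⊆ W := by
        intro x hx
        by_contra hxW
        have hxS : x ∉ S := fun h => hx (hJ.bdry_subset h)
        obtain ⟨z, hz, hz1, hz2⟩ := hJ.ext_conn W (Dᶜ \ (W ∪ S)) hWo hcl (by
          intro y hy
          by_cases hyW : y ∈ W
          · exact Or.inl hyW
          · exact Or.inr ⟨hy, fun h => h.elim hyW fun h2 => hy (hJ.bdry_subset h2)⟩)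
          (hWn.mono fun y hy => ⟨Set.disjoint_left.1 h1 hy, hy⟩)
          ⟨x, hx, hx, fun h => h.elim hxW hxS⟩
        exact hz2.2 (Or.inl hz1)
      exact hJ.not_bounded_compl (hc.isBounded.subset (hsub.trans subset_union_left))
  rw [← key, ← hDe]
  exact hD

end P073.H31
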