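import Vale.Agent.P073.MM.Cv
import Vale.Agent.P073.MM.H307.MollLp
import Mathlib.Geometry.Manifold.PartitionOfUnity

/-!
# P073: local smooth approximation of a Sobolev map
-/

namespace Vale.Agent.P073.H31

open MeasureTheory Set Filter Topology Metric
open Vale.Agent.P073.St (V)
open Vale.Agent.P073.MM
open scoped ContDiff ENNReal Manifold

/-- A cut-off function, equal to one near `K`. -/
theorem exists_cut {U K : Set V} (hU : IsOpen U) (hK : IsCompact K) (hKU : K ⊆ U) :
    ∃ χ : V → ℝ, ContDiff ℝ ∞ χ ∧ HasCompactSupport χ ∧ tsupport χ ⊆ U ∧ (∀ x, ‖χ x‖ ≤ 1) ∧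
      ∃ r : ℝ, 0 < r ∧ ∀ x ∈ K, ∀ y, ‖x - y‖ < r → χ y = 1 := by
  obtain ⟨L, hL, hKL, hLU⟩ := exists_compact_between hK hU hKU
  obtain ⟨χ, h1, h2, h3⟩ := exists_contMDiffMap_one_nhds_of_subset_interior 𝓘(ℝ, V) (n := ⊤)
    hK.isClosed hKL
  have hsup : tsupport (χ : V → ℝ) ⊆ L := by
    refine closure_minimal ?_ hL.isClosed
    intro x hx
    by_contra h
    exact hx (h2 x h)
  have hcs : HasCompactSupport (χ : V → ℝ) := hL.of_isClosed_subset (isClosed_tsupport _) hsup
  refine ⟨χ, χ.contMDiff.contDiff, hcs, hsup.trans hLU, fun x => ?_, ?_⟩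
  · rw [Real.norm_eq_abs, abs_le]
    have := h3 x
    exact ⟨by linarith [this.1], this.2⟩
  · rw [Filter.eventually_iff_exists_mem] at h1
    obtain ⟨W, hW, hχW⟩ := h1
    obtain ⟨O, hO, hKO, hOW⟩ := mem_nhdsSet_iff_exists.1 hW
    obtain ⟨δ, hδ, hδO⟩ := hK.exists_thickening_subset_open hO hKO
    refine ⟨δ, hδ, fun x hx y hy => ?_⟩
    refine hχW y (hOW (hδO ?_))
    rw [mem_thickening_iff]
    exact ⟨x, hx, by rwa [dist_comm, dist_eq_norm]⟩

/-- **Local smoothing.** -/
theorem exists_smooth {p : ℝ} (hp : 1 ≤ p) {U : Set V} (hU : IsOpen U) {f : V → V}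
    {D : V → V →L[ℝ] V} (hf : ContinuousOn f U) (hD : LocallyIntegrableOn D U)
    (hw : HB.WeakDeriv volume U f D) {L : Set V} (hL : IsCompact L) (hLU : L ⊆ U)
    (hDp : ∫⁻ x in L, ‖D x‖ₑ ^ p ≠ ⊤) {K : Set V} (hK : IsCompact K) (hKL : K ⊆ interior L)
    {ε : ℝ} (hε : 0 < ε) :
    ∃ g : V → V, ContDiff ℝ ∞ g ∧ (∀ x ∈ K, ‖g x - f x‖ ≤ ε) ∧
      ∫⁻ x in K, ‖fderiv ℝ g x - D x‖ₑ ^ p ≤ ENNReal.ofReal ε := by
  have hp0 : 0 < p := by linarith
  obtain ⟨χ, hc, hcs, hct, hc1, r, hr, hχ⟩ := exists_cut isOpen_interior hK hKL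
  have hctL : tsupport χ ⊆ L := hct.trans interior_subset
  have hctU : tsupport χ ⊆ U := hctL.trans hLU
  have hoffL : ∀ y, y ∉ L → χ y = 0 := fun y hy =>
    image_eq_zero_of_notMem_tsupport fun h => hy (hctL h)
  set u1 : V → V := fun y => χ y • f y with hu1
  set u3 : V → V →L[ℝ] V := fun y => χ y • D y with hu3
  have k1 : Continuous u1 := cont_smul hU hf hc.continuous hctU
  have k1s : HasCompactSupport u1 := hcs.smul_right
  have hDL : IntegrableOn D L := hD.integrableOn_compact_subset hLU hL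
  have k3on : IntegrableOn u3 L :=
    hDL.bdd_smul 1 hc.continuous.aestronglyMeasurable (ae_of_all _ hc1)
  have k3 : Integrable u3 := by
    refine (integrableOn_iff_integrable_of_support_subset (s := L) (f := u3) ?_).1 k3on
    intro y hy
    by_contra h
    apply hy
    show χ y • D y = 0
    rw [hoffL y h, zero_smul]
  have k3p : ∫⁻ x, ENNReal.ofReal (‖u3 x‖ ^ p) ≠ ⊤ := by
    have e1 : ∀ x, ENNReal.ofReal (‖u3 x‖ ^ p) ≤ L.indicator (fun x => ‖D x‖ₑ ^ p) x := by
      intro x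
      by_cases hx : x ∈ L
      · rw [indicator_of_mem hx, hu3]
        dsimp only
        rw [← ofReal_norm, ENNReal.ofReal_rpow_of_nonneg (norm_nonneg _) hp0.le]
        refine ENNReal.ofReal_le_ofReal (Real.rpow_le_rpow (norm_nonneg _) ?_ hp0.le)
        rw [norm_smul]
        calc ‖χ x‖ * ‖D x‖ ≤ 1 * ‖D x‖ := by gcongr; exact hc1 x
          _ = _ := one_mul _
      · rw [indicator_of_notMem hx, hu3]
        dsimp only
        rw [hoffL x hx, zero_smul, norm_zero, Real.zero_rpow (by linarith), ENNReal.ofReal_zero]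
    refine ne_top_of_le_ne_top ?_ (lintegral_mono e1)
    rw [lintegral_indicator hL.measurableSet]
    exact hDp
  obtain ⟨δ1, hδ1, H1⟩ := cv_unif k1 k1s hε
  obtain ⟨δ3, hδ3, H3⟩ := H307.moll p u3 hp k3.aestronglyMeasurable k3p ε hε
  set δ : ℝ := min δ1 (min δ3 r) with hδ
  have hδ0 : 0 < δ := lt_min hδ1 (lt_min hδ3 hr)
  let φ : ContDiffBump (0 : V) := ⟨δ / 2, δ, half_pos hδ0, half_lt_self hδ0⟩
  have hφ : φ.rOut = δ := rfl
  have hχK : ∀ x ∈ K, χ x = 1 := fun x hx => hχ x hx x (by simpa using hr)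
  refine ⟨cv φ u1, cv_smooth φ k1.locallyIntegrable, fun x hx => ?_, ?_⟩
  · have h := H1 φ (hφ.trans_le (min_le_left _ _)) x
    have e : u1 x = f x := by rw [hu1]; simp only [hχK x hx, one_smul]
    rwa [e] at h
  · have hfd : ∀ x ∈ K, fderiv ℝ (cv φ u1) x = cv φ u3 x := by
      intro x hx
      ext v : 1
      rw [cv_weak φ hU hf hw hc hcs hctU x v, cv_apply φ k3.locallyIntegrable]
      have e2 : cv φ (fun y => fderiv ℝ χ y v • f y) x = 0 := by
        unfold cv
        refine integral_eq_zero_of_ae (ae_of_all _ fun y => ?_)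
        show φ.normed volume (x - y) • (fderiv ℝ χ y v • f y) = 0
        by_cases hy : ‖x - y‖ < φ.rOut
        · have h1 : χ =ᶠ[𝓝 y] fun _ => (1 : ℝ) := by
            have hb : {z : V | ‖x - z‖ < r} ∈ 𝓝 y := by
              refine IsOpen.mem_nhds (isOpen_lt (by fun_prop) continuous_const) ?_
              exact hy.trans_le (hφ.trans_le ((min_le_right _ _).trans (min_le_right _ _)))
            filter_upwards [hb] with z hz
            exact hχ x hx z hz
          have h2 : fderiv ℝ χ y = 0 := by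
            rw [h1.fderiv_eq]
            simp
          rw [h2]
          simp
        · have h1 : x - y ∉ Function.support (φ.normed (volume : Measure V)) := by
            rw [φ.support_normed_eq]
            simpa using hy
          rw [Function.notMem_support.1 h1, zero_smul]
      rw [e2, add_zero]
      rfl
    have h := H3 φ (hφ.trans_le ((min_le_right _ _).trans (min_le_left _ _)))
    refine le_trans ?_ h
    calc ∫⁻ x in K, ‖fderiv ℝ (cv φ u1) x - D x‖ₑ ^ p
        = ∫⁻ x in K, ‖cv φ u3 x - u3 x‖ₑ ^ p := by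
          refine setLIntegral_congr_fun hK.measurableSet fun x hx => ?_
          have e : u3 x = D x := by rw [hu3]; simp only [hχK x hx, one_smul]
          simp only [hfd x hx, e]
      _ ≤ ∫⁻ x, ‖cv φ u3 x - u3 x‖ₑ ^ p := setLIntegral_le_lintegral _ _
      _ = ∫⁻ x, ENNReal.ofReal (‖cv φ u3 x - u3 x‖ ^ p) := by
          refine lintegral_congr fun x => ?_
          rw [← ofReal_norm, ENNReal.ofReal_rpow_of_nonneg (norm_nonneg _) hp0.le]

end Vale.Agent.P073.H31
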