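import Mathlib.MeasureTheory.Measure.Lebesgue.EqHaar
import Mathlib.MeasureTheory.Integral.MeanInequalities
import Mathlib.Analysis.Calculus.ContDiff.Basic
import Mathlib.MeasureTheory.Integral.IntervalIntegral.FundThmCalculus
import Mathlib.Analysis.SpecialFunctions.Integrals.Basic

/-!
# P073: Morrey's inequality for `C^1` maps on convex sets
-/

namespace Vale.Agent.P073.H31

open MeasureTheory Set Filter Topology Metric Module
open scoped ENNReal ContDiff NNReal

/-- The constant `∫_0^1 t^{-d/p} dt`. -/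
noncomputable def cMor (d : ℕ) (p : ℝ) : ℝ≥0∞ :=
  ∫⁻ t in Ioc (0 : ℝ) 1, ENNReal.ofReal (t ^ (-(d : ℝ) / p))

theorem cMor_ne_top {d : ℕ} {p : ℝ} (hp : (d : ℝ) < p) : cMor d p ≠ ⊤ := by
  have hp0 : 0 < p := lt_of_le_of_lt (Nat.cast_nonneg d) hp
  have h1 : -1 < -(d : ℝ) / p := by
    rw [neg_div, neg_lt_neg_iff, div_lt_one hp0]
    exact hp
  have h2 : IntervalIntegrable (fun t : ℝ => t ^ (-(d : ℝ) / p)) volume 0 1 :=
    intervalIntegral.intervalIntegrable_rpow' h1
  rw [intervalIntegrable_iff_integrableOn_Ioc_of_le zero_le_one] at h2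
  have h3 := h2.2
  rw [HasFiniteIntegral] at h3
  refine ne_top_of_le_ne_top h3.ne (lintegral_mono fun t => ?_)
  exact Real.ofReal_le_enorm _

variable {E E' : Type*} [NormedAddCommGroup E] [NormedSpace ℝ E] [FiniteDimensional ℝ E]
  [MeasurableSpace E] [BorelSpace E] {μ : Measure E} [μ.IsAddHaarMeasure]
  [NormedAddCommGroup E'] [NormedSpace ℝ E'] [CompleteSpace E']

/-- Change of variables by a homothety. -/
theorem lintegral_homothety (h : E → ℝ≥0∞) {S : Set E} (x : E) {t : ℝ}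
    (ht : 0 < t) :
    ∫⁻ z in S, h (x + t • (z - x)) ∂μ =
      ENNReal.ofReal (t ^ (-(finrank ℝ E : ℝ))) *
        ∫⁻ w in (fun z => x + t • (z - x)) '' S, h w ∂μ := by
  set d := finrank ℝ E
  -- the homeomorphism
  let e : E ≃ₜ E := ((Homeomorph.subRight x).trans (Homeomorph.smulOfNeZero t ht.ne')).trans
    (Homeomorph.addLeft x)
  have he : ∀ z, e z = x + t • (z - x) := fun z => rfl
  have hmap : Measure.map e μ = ENNReal.ofReal (t ^ (-(d : ℝ))) • μ := by
    have h1 : Measure.map (fun z : E => z - x) μ = μ :=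
      (measurePreserving_sub_right μ x).map_eq
    have h2 : Measure.map (fun z : E => x + z) μ = μ :=
      (measurePreserving_add_left μ x).map_eq
    have h3 : Measure.map (fun z : E => t • z) μ = ENNReal.ofReal (t ^ (-(d : ℝ))) • μ := by
      rw [Measure.map_addHaar_smul μ ht.ne']
      congr 2
      rw [abs_of_pos (inv_pos.2 (pow_pos ht _)), Real.rpow_neg ht.le, Real.rpow_natCast]
    have h4 : (e : E → E) = (fun z : E => x + z) ∘ (fun z : E => t • z) ∘ (fun z : E => z - x) := by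
      funext z; rfl
    rw [h4, ← Measure.map_map (by fun_prop) (by fun_prop), ← Measure.map_map (by fun_prop)
      (by fun_prop), h1, h3, Measure.map_smul, h2]
  have hme : MeasurableEmbedding e := e.measurableEmbedding
  have hS : e ⁻¹' (e '' S) = S := preimage_image_eq S e.injective
  have h5 : ∫⁻ w in e '' S, h w ∂(Measure.map e μ) = ∫⁻ z in S, h (e z) ∂μ := by
    rw [hme.restrict_map, hme.lintegral_map, hS]
  rw [hmap] at h5
  rw [Measure.restrict_smul, lintegral_smul_measure] at h5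
  exact h5.symm

omit [FiniteDimensional ℝ E] [MeasurableSpace E] [BorelSpace E] in
/-- Fundamental theorem of calculus along a segment. -/
theorem enorm_sub_le_lintegral {g : E → E'} (hg : ContDiff ℝ 1 g) (x z : E) :
    ‖g z - g x‖ₑ ≤ ‖z - x‖ₑ * ∫⁻ t in Ioc (0 : ℝ) 1, ‖fderiv ℝ g (x + t • (z - x))‖ₑ := by
  have hd : ∀ t : ℝ, HasDerivAt (fun t : ℝ => g (x + t • (z - x)))
      (fderiv ℝ g (x + t • (z - x)) (z - x)) t := by
    intro t
    have h1 : HasDerivAt (fun t : ℝ => x + t • (z - x)) (z - x) t := by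
      simpa using ((hasDerivAt_id t).smul_const (z - x)).const_add x
    exact ((hg.differentiable (by simp)) _).hasFDerivAt.comp_hasDerivAt t h1
  have hc : Continuous fun t : ℝ => fderiv ℝ g (x + t • (z - x)) (z - x) :=
    ((hg.continuous_fderiv (by simp)).comp (by fun_prop)).clm_apply continuous_const
  have h2 := intervalIntegral.integral_eq_sub_of_hasDerivAt (a := 0) (b := 1)
    (fun t _ => hd t) (hc.intervalIntegrable 0 1)
  simp only [one_smul, zero_smul, add_zero, add_sub_cancel] at h2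
  rw [← h2, intervalIntegral.integral_of_le zero_le_one]
  refine (enorm_integral_le_lintegral_enorm _).trans ?_
  rw [← lintegral_const_mul' _ _ enorm_ne_top]
  refine lintegral_mono fun t => ?_
  rw [mul_comm]
  exact ContinuousLinearMap.le_opENorm _ _

/-- Hoelder's inequality on a set of finite measure. -/
theorem lintegral_le_rpow_mul {α : Type*} [MeasurableSpace α] {ν : Measure α} {p : ℝ} (hp : 1 < p)
    {h : α → ℝ≥0∞} (hh : AEMeasurable h ν) :
    ∫⁻ w, h w ∂ν ≤ (∫⁻ w, h w ^ p ∂ν) ^ (1 / p) * ν univ ^ (1 - 1 / p) := by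
  have hpq : p.HolderConjugate (Real.conjExponent p) := Real.HolderConjugate.conjExponent hp
  have h1 := ENNReal.lintegral_mul_le_Lp_mul_Lq ν hpq hh (aemeasurable_const (b := (1 : ℝ≥0∞)))
  have h2 : 1 / Real.conjExponent p = 1 - 1 / p := by
    have := hpq.inv_add_inv_eq_one
    rw [one_div, one_div]
    linarith
  simpa [h2] using h1

/-- **Morrey's inequality**, first form. -/
theorem morrey_avg {g : E → E'} (hg : ContDiff ℝ 1 g) {S : Set E} (hS : MeasurableSet S)
    (hSc : Convex ℝ S) (hSt : μ S ≠ ⊤) {s : ℝ} (hs : ∀ x ∈ S, ∀ y ∈ S, ‖y - x‖ ≤ s)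
    {p : ℝ} (hp : 1 < p) {x : E} (hx : x ∈ S) :
    ∫⁻ z in S, ‖g z - g x‖ₑ ∂μ ≤ ENNReal.ofReal s * cMor (finrank ℝ E) p *
      μ S ^ (1 - 1 / p) * (∫⁻ z in S, ‖fderiv ℝ g z‖ₑ ^ p ∂μ) ^ (1 / p) := by
  set d := finrank ℝ E with hd
  have hp0 : 0 < p := by linarith
  have hp1 : 0 ≤ 1 - 1 / p := by
    rw [sub_nonneg, div_le_one hp0]
    exact hp.le
  set h : E → ℝ≥0∞ := fun z => ‖fderiv ℝ g z‖ₑ with hh
  have hhc : Continuous h := (hg.continuous_fderiv (by simp)).enorm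
  set J : ℝ≥0∞ := (∫⁻ z in S, h z ^ p ∂μ) ^ (1 / p) with hJ
  -- the inner integral
  have key : ∀ t ∈ Ioc (0 : ℝ) 1, ∫⁻ z in S, h (x + t • (z - x)) ∂μ ≤
      ENNReal.ofReal (t ^ (-(d : ℝ) / p)) * (μ S ^ (1 - 1 / p) * J) := by
    intro t ht
    have ht0 : 0 < t := ht.1
    set St : Set E := (fun z => x + t • (z - x)) '' S with hSt'
    have hsub : St ⊆ S := by
      rintro _ ⟨z, hz, rfl⟩
      exact hSc.add_smul_sub_mem hx hz ⟨ht0.le, ht.2⟩
    have hvol : μ St = ENNReal.ofReal (t ^ (d : ℝ)) * μ S := by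
      have e1 : St = AffineMap.homothety x t '' S := by
        rw [hSt']
        refine image_congr fun z _ => ?_
        rw [AffineMap.homothety_apply]
        simp [add_comm]
      rw [e1, Measure.addHaar_image_homothety, abs_of_pos (pow_pos ht0 _), Real.rpow_natCast]
    rw [lintegral_homothety h x ht0]
    have h1 : ∫⁻ w in St, h w ∂μ ≤ J * (ENNReal.ofReal (t ^ (d : ℝ)) * μ S) ^ (1 - 1 / p) := by
      refine (lintegral_le_rpow_mul (ν := μ.restrict St) hp hhc.measurable.aemeasurable).trans ?_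
      rw [Measure.restrict_apply_univ, hvol]
      refine mul_le_mul_left ?_ _
      exact ENNReal.rpow_le_rpow (lintegral_mono_set hsub) (by positivity)
    refine (mul_le_mul_right h1 _).trans (le_of_eq ?_)
    rw [ENNReal.mul_rpow_of_nonneg _ _ hp1, ENNReal.ofReal_rpow_of_pos (by positivity)]
    have e2 : ENNReal.ofReal (t ^ (-(d : ℝ))) * ENNReal.ofReal ((t ^ (d : ℝ)) ^ (1 - 1 / p)) =
        ENNReal.ofReal (t ^ (-(d : ℝ) / p)) := by
      rw [← ENNReal.ofReal_mul (by positivity), ← Real.rpow_mul ht0.le, ← Real.rpow_add ht0]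
      congr 2
      field_simp
      ring
    rw [← e2]
    ring
  have hpt : ∀ z ∈ S, ‖g z - g x‖ₑ ≤ ENNReal.ofReal s *
      ∫⁻ t in Ioc (0 : ℝ) 1, h (x + t • (z - x)) := by
    intro z hz
    refine (enorm_sub_le_lintegral hg x z).trans ?_
    gcongr
    rw [← ofReal_norm]
    exact ENNReal.ofReal_le_ofReal (hs x hx z hz)
  calc ∫⁻ z in S, ‖g z - g x‖ₑ ∂μ
      ≤ ∫⁻ z in S, (ENNReal.ofReal s * ∫⁻ t in Ioc (0 : ℝ) 1, h (x + t • (z - x))) ∂μ :=
        setLIntegral_mono' hS hpt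
    _ = ENNReal.ofReal s * ∫⁻ z in S, (∫⁻ t in Ioc (0 : ℝ) 1, h (x + t • (z - x))) ∂μ :=
        lintegral_const_mul' _ _ ENNReal.ofReal_ne_top
    _ = ENNReal.ofReal s * ∫⁻ t in Ioc (0 : ℝ) 1, (∫⁻ z in S, h (x + t • (z - x)) ∂μ) := by
        rw [lintegral_lintegral_swap]
        have hc : Continuous (Function.uncurry fun (z : E) (t : ℝ) => h (x + t • (z - x))) := by
          refine hhc.comp ?_
          fun_prop
        exact hc.measurable.aemeasurable
    _ ≤ ENNReal.ofReal s * ∫⁻ t in Ioc (0 : ℝ) 1,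
          ENNReal.ofReal (t ^ (-(d : ℝ) / p)) * (μ S ^ (1 - 1 / p) * J) := by
        gcongr ENNReal.ofReal s * ?_
        exact setLIntegral_mono' measurableSet_Ioc key
    _ = _ := by
        rw [lintegral_mul_const'']
        · unfold cMor
          ring
        · refine Measurable.aemeasurable ?_
          fun_prop

/-- **Morrey's inequality** for `C^1` maps on convex sets. -/
theorem morrey {g : E → E'} (hg : ContDiff ℝ 1 g) {S : Set E} (hS : MeasurableSet S)
    (hSc : Convex ℝ S) (hSt : μ S ≠ ⊤) {s : ℝ} (hs : ∀ x ∈ S, ∀ y ∈ S, ‖y - x‖ ≤ s)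
    {p : ℝ} (hp : 1 < p) {x y : E} (hx : x ∈ S) (hy : y ∈ S) :
    ‖g y - g x‖ₑ ^ p * μ S ≤ (2 * ENNReal.ofReal s * cMor (finrank ℝ E) p) ^ p *
      ∫⁻ z in S, ‖fderiv ℝ g z‖ₑ ^ p ∂μ := by
  have hp0 : 0 < p := by linarith
  rcases eq_or_ne (μ S) 0 with h0 | h0
  · rw [h0, mul_zero]
    exact bot_le
  set J : ℝ≥0∞ := ∫⁻ z in S, ‖fderiv ℝ g z‖ₑ ^ p ∂μ with hJ
  have h1 : ‖g y - g x‖ₑ * μ S ≤ 2 * ENNReal.ofReal s * cMor (finrank ℝ E) p *
      μ S ^ (1 - 1 / p) * J ^ (1 / p) := by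
    calc ‖g y - g x‖ₑ * μ S = ∫⁻ z in S, ‖g y - g x‖ₑ ∂μ := by rw [setLIntegral_const]
      _ ≤ ∫⁻ z in S, (‖g z - g x‖ₑ + ‖g z - g y‖ₑ) ∂μ := by
          refine lintegral_mono fun z => ?_
          have e : g y - g x = (g z - g x) - (g z - g y) := by abel
          rw [e]
          exact enorm_sub_le
      _ = ∫⁻ z in S, ‖g z - g x‖ₑ ∂μ + ∫⁻ z in S, ‖g z - g y‖ₑ ∂μ := by
          refine lintegral_add_left' ?_ _
          exact ((hg.continuous.sub continuous_const).enorm).measurable.aemeasurable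
      _ ≤ _ := add_le_add (morrey_avg hg hS hSc hSt hs hp hx) (morrey_avg hg hS hSc hSt hs hp hy)
      _ = _ := by ring
  have h2 : (‖g y - g x‖ₑ * μ S) ^ p ≤ (2 * ENNReal.ofReal s * cMor (finrank ℝ E) p *
      μ S ^ (1 - 1 / p) * J ^ (1 / p)) ^ p := ENNReal.rpow_le_rpow h1 hp0.le
  rw [ENNReal.mul_rpow_of_nonneg _ _ hp0.le, ENNReal.mul_rpow_of_nonneg _ _ hp0.le,
    ENNReal.mul_rpow_of_nonneg (2 * ENNReal.ofReal s * cMor (finrank ℝ E) p) _ hp0.le,
    ← ENNReal.rpow_mul (μ S), ← ENNReal.rpow_mul J, one_div, inv_mul_cancel₀ hp0.ne',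
    ENNReal.rpow_one] at h2
  have e3 : (1 - p⁻¹) * p = p - 1 := by field_simp
  rw [e3] at h2
  have h4 : μ S ^ p = μ S * μ S ^ (p - 1) := by
    conv_rhs => rw [← ENNReal.rpow_one (μ S), ← ENNReal.rpow_mul, ← ENNReal.rpow_add _ _ h0 hSt]
    congr 1
    ring
  have h5 : μ S ^ (p - 1) ≠ 0 := by
    rw [Ne, ENNReal.rpow_eq_zero_iff]
    push Not
    exact ⟨fun h => absurd h h0, fun h => absurd h hSt⟩
  have h6 : μ S ^ (p - 1) ≠ ⊤ := ENNReal.rpow_ne_top_of_nonneg (by linarith) hSt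
  rw [h4] at h2
  have h7 : (‖g y - g x‖ₑ ^ p * μ S) * μ S ^ (p - 1) ≤
      ((2 * ENNReal.ofReal s * cMor (finrank ℝ E) p) ^ p * J) * μ S ^ (p - 1) := by
    calc _ = ‖g y - g x‖ₑ ^ p * (μ S * μ S ^ (p - 1)) := by ring
      _ ≤ _ := h2
      _ = _ := by ring
  exact (ENNReal.mul_le_mul_iff_left h5 h6).1 h7

end Vale.Agent.P073.H31
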