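import Vale.Agent.P073.H31.Face
import Vale.Agent.P073.H31.Moll

/-!
# P073: oscillation of a homeomorphism in a Sobolev class, exponent larger than two
-/

namespace Vale.Agent.P073.H31

open MeasureTheory Set Filter Topology Metric
open Vale.Agent.P073.St (V)
open scoped ContDiff ENNReal

/-- The oscillation on a cube is attained on its surface. -/
def MonoOn (Ω : Set V) (f : V → V) : Prop :=
  ∀ (x₀ : V) (s : ℝ), 0 < s → closedBall x₀ s ⊆ Ω → ∀ x ∈ closedBall x₀ s,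
    ∀ y ∈ closedBall x₀ s, ∃ a ∈ sphere x₀ s, ∃ b ∈ sphere x₀ s, ‖f y - f x‖ ≤ ‖f b - f a‖

/-- The image of a ball is open. -/
theorem isOpen_image {Ω Λ : Set V} {f : V → V} (hΛ : IsOpen Λ) (hf : St.IsHomeo Ω Λ f)
    {U : Set V} (hU : IsOpen U) (hUΩ : U ⊆ Ω) : IsOpen (f '' U) := by
  obtain ⟨h, hi, -, hh⟩ := hf
  have e : f '' U = Λ ∩ h ⁻¹' U := by
    ext z
    constructor
    · rintro ⟨x, hx, rfl⟩
      refine ⟨(hi.1 x (hUΩ hx)).1, ?_⟩
      show h (f x) ∈ U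
      rw [(hi.1 x (hUΩ hx)).2]
      exact hx
    · rintro ⟨hz, hzU⟩
      exact ⟨h z, hzU, (hi.2 z hz).2⟩
  rw [e]
  exact hh.isOpen_inter_preimage hΛ hU

theorem exists_max {Ω Λ : Set V} {f : V → V} (hΛ : IsOpen Λ)
    (hf : St.IsHomeo Ω Λ f) {x₀ : V} {s : ℝ} (hs : 0 < s) (hsub : closedBall x₀ s ⊆ Ω)
    (i : Fin 3) {σ : ℝ} (hσ : σ * σ = 1) :
    ∃ a ∈ sphere x₀ s, ∀ x ∈ closedBall x₀ s, σ * f x i ≤ σ * f a i := by
  have hfc : ContinuousOn f Ω := by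
    obtain ⟨h, -, h1, -⟩ := hf
    exact h1
  have hc : ContinuousOn (fun x => σ * f x i) (closedBall x₀ s) := by
    have h1 : ContinuousOn (fun x => f x i) (closedBall x₀ s) :=
      (continuous_apply i).comp_continuousOn (hfc.mono hsub)
    exact continuousOn_const.mul h1
  obtain ⟨y, hy, hmax⟩ := (isCompact_closedBall x₀ s).exists_isMaxOn
    ⟨x₀, mem_closedBall_self hs.le⟩ hc
  by_cases hys : y ∈ sphere x₀ s
  · exact ⟨y, hys, fun x hx => hmax hx⟩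
  · exfalso
    have hyb : y ∈ ball x₀ s := by
      rw [mem_closedBall] at hy
      rw [mem_sphere] at hys
      exact mem_ball.2 (lt_of_le_of_ne hy hys)
    have ho : IsOpen (f '' ball x₀ s) :=
      isOpen_image hΛ hf isOpen_ball (ball_subset_closedBall.trans hsub)
    obtain ⟨δ, hδ, hδb⟩ := Metric.isOpen_iff.1 ho (f y) ⟨y, hyb, rfl⟩
    have hz : f y + Pi.single i (σ * (δ / 2)) ∈ ball (f y) δ := by
      rw [mem_ball, dist_eq_norm, add_sub_cancel_left, Pi.norm_single, Real.norm_eq_abs, abs_mul]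
      have h1 : |σ| = 1 := by
        have h2 : |σ| * |σ| = 1 := by rw [← abs_mul, hσ, abs_one]
        nlinarith [abs_nonneg σ]
      rw [h1, one_mul, abs_of_pos (half_pos hδ)]
      exact half_lt_self hδ
    obtain ⟨x', hx', hx'e⟩ := hδb hz
    have h1 : σ * f x' i ≤ σ * f y i := hmax (ball_subset_closedBall hx')
    have h2 : f x' i = f y i + σ * (δ / 2) := by
      rw [hx'e]
      simp
    rw [h2, mul_add, ← mul_assoc, hσ, one_mul] at h1
    linarith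

/-- **Monotonicity of homeomorphisms.** -/
theorem monoOn_of_homeo {Ω Λ : Set V} {f : V → V} (hΛ : IsOpen Λ) (hf : St.IsHomeo Ω Λ f) :
    MonoOn Ω f := by
  intro x₀ s hs hsub x hx y hy
  obtain ⟨i, hi⟩ : ∃ i, ‖f y - f x‖ ≤ |f y i - f x i| := by
    obtain ⟨i, -, hi⟩ := Finset.exists_max_image (Finset.univ : Finset (Fin 3))
      (fun i => |f y i - f x i|) Finset.univ_nonempty
    refine ⟨i, ?_⟩
    rw [pi_norm_le_iff_of_nonneg (abs_nonneg _)]
    intro j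
    exact hi j (Finset.mem_univ j)
  obtain ⟨a, ha, hamax⟩ := exists_max hΛ hf hs hsub i (σ := 1) (by norm_num)
  obtain ⟨b, hb, hbmax⟩ := exists_max hΛ hf hs hsub i (σ := -1) (by norm_num)
  refine ⟨b, hb, a, ha, hi.trans ?_⟩
  refine le_trans ?_ (norm_le_pi_norm (f a - f b) i)
  rw [Pi.sub_apply, Real.norm_eq_abs]
  have h1 := hamax x hx
  have h2 := hamax y hy
  have h3 := hbmax x hx
  have h4 := hbmax y hy
  refine le_trans ?_ (le_abs_self _)
  rw [abs_le]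
  constructor <;> linarith

theorem enorm_le_add {G : Type*} [NormedAddCommGroup G] (a b : G) :
    ‖a‖ₑ ≤ ‖b‖ₑ + ‖a - b‖ₑ := by
  calc ‖a‖ₑ = ‖b + (a - b)‖ₑ := by rw [add_sub_cancel]
    _ ≤ _ := enorm_add_le _ _

/-- The constant. -/
noncomputable def cOsc (p r : ℝ) : ℝ≥0∞ :=
  12 ^ p * ((2 * ENNReal.ofReal (4 * r) * cMor 2 p) ^ p * (ENNReal.ofReal ((2 * r) ^ 2))⁻¹)

theorem cOsc_ne_top {p r : ℝ} (hp : 2 < p) (hr : 0 < r) : cOsc p r ≠ ⊤ := by
  have hp0 : 0 ≤ p := by linarith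
  unfold cOsc
  refine ENNReal.mul_ne_top (ENNReal.rpow_ne_top_of_nonneg hp0 (by norm_num))
    (ENNReal.mul_ne_top (ENNReal.rpow_ne_top_of_nonneg hp0 ?_) ?_)
  · exact ENNReal.mul_ne_top (ENNReal.mul_ne_top (by norm_num) ENNReal.ofReal_ne_top)
      (cMor_ne_top (by exact_mod_cast hp))
  · rw [Ne, ENNReal.inv_eq_top, ENNReal.ofReal_eq_zero]
    have : 0 < (2 * r) ^ 2 := by positivity
    linarith

/-- The oscillation estimate, first form. -/
theorem osc_aux {p : ℝ} (hp : 2 < p) {Ω : Set V} (hΩ : IsOpen Ω) {f : V → V}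
    {D : V → V →L[ℝ] V} (hf : ContinuousOn f Ω) (hm : MonoOn Ω f)
    (hD : LocallyIntegrableOn D Ω) (hw : HB.WeakDeriv volume Ω f D)
    (hDp : ∀ K ⊆ Ω, IsCompact K → ∫⁻ x in K, ‖D x‖ₑ ^ p ≠ ⊤) {x₀ : V} {r : ℝ} (hr : 0 < r)
    (hsub : closedBall x₀ (2 * r) ⊆ Ω) {x y : V} (hx : x ∈ closedBall x₀ r)
    (hy : y ∈ closedBall x₀ r) :
    ‖f y - f x‖ₑ ^ p * ENNReal.ofReal r ≤ 2 ^ (p - 1) * (6 * cOsc p r * (2 ^ (p - 1) *
      ∫⁻ z in closedBall x₀ (2 * r), ‖D z‖ₑ ^ p)) := by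
  have hp0 : 0 < p := by linarith
  have hp1 : 1 ≤ p := by linarith
  set K : Set V := closedBall x₀ (2 * r) with hK
  have hKc : IsCompact K := isCompact_closedBall _ _
  obtain ⟨L, hL, hKL, hLΩ⟩ := exists_compact_between hKc hΩ hsub
  set J : ℝ≥0∞ := ∫⁻ z in K, ‖D z‖ₑ ^ p with hJ
  set X : ℝ≥0∞ := ‖f y - f x‖ₑ ^ p * ENNReal.ofReal r with hX
  have h2p : (2 : ℝ≥0∞) ^ (p - 1) ≠ ⊤ := ENNReal.rpow_ne_top_of_nonneg (by linarith) (by norm_num)
  have hcO : cOsc p r ≠ ⊤ := cOsc_ne_top hp hr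
  have key : ∀ ε : ℝ, 0 < ε → X ≤ 2 ^ (p - 1) * (ENNReal.ofReal (2 * ε) ^ p * ENNReal.ofReal r +
      6 * cOsc p r * (2 ^ (p - 1) * (J + ENNReal.ofReal ε))) := by
    intro ε hε
    obtain ⟨g, hg, hgf, hgD⟩ := exists_smooth hp1 hΩ hf hD hw hL hLΩ (hDp L hLΩ hL) hKc hKL hε
    have hg1 : ContDiff ℝ 1 g := hg.of_le (by simp)
    have hpt : ∀ s ∈ Ioo r (2 * r), ‖f y - f x‖ₑ ^ p ≤ 2 ^ (p - 1) *
        (ENNReal.ofReal (2 * ε) ^ p + cOsc p r * ∑ q : Fin 3 × Bool, fE p g x₀ r s q.1 q.2) := by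
      intro s hs
      have hs0 : 0 < s := hr.trans hs.1
      have hKs : closedBall x₀ s ⊆ K := closedBall_subset_closedBall hs.2.le
      obtain ⟨a, ha, b, hb, hab⟩ := hm x₀ s hs0 (hKs.trans hsub) x
        (closedBall_subset_closedBall hs.1.le hx) y (closedBall_subset_closedBall hs.1.le hy)
      have haK : a ∈ K := hKs (sphere_subset_closedBall ha)
      have hbK : b ∈ K := hKs (sphere_subset_closedBall hb)
      have h1 : ‖f y - f x‖ ≤ 2 * ε + ‖g b - g a‖ := by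
        have e : f b - f a = (g b - g a) - (g b - f b) + (g a - f a) := by abel
        have h2 : ‖f b - f a‖ ≤ ‖g b - g a‖ + ‖g b - f b‖ + ‖g a - f a‖ := by
          rw [e]
          exact (norm_add_le _ _).trans (add_le_add_left (norm_sub_le _ _) _)
        linarith [hgf a haK, hgf b hbK]
      have h2 : ‖f y - f x‖ₑ ≤ ENNReal.ofReal (2 * ε) + ‖g b - g a‖ₑ := by
        rw [← ofReal_norm, ← ofReal_norm, ← ENNReal.ofReal_add (by positivity) (norm_nonneg _)]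
        exact ENNReal.ofReal_le_ofReal h1
      calc ‖f y - f x‖ₑ ^ p ≤ (ENNReal.ofReal (2 * ε) + ‖g b - g a‖ₑ) ^ p :=
            ENNReal.rpow_le_rpow h2 hp0.le
        _ ≤ 2 ^ (p - 1) * (ENNReal.ofReal (2 * ε) ^ p + ‖g b - g a‖ₑ ^ p) :=
            ENNReal.rpow_add_le_mul_rpow_add_rpow _ _ hp1
        _ ≤ _ := by
            gcongr
            exact sphere_osc hg1 hp x₀ hr hs.1.le hs.2.le ha hb
    have hmE : ∀ q : Fin 3 × Bool, Measurable fun s => fE p g x₀ r s q.1 q.2 :=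
      fun q => measurable_fE hg1 p x₀ r q.1 q.2
    have hvol : volume (Ioo r (2 * r)) = ENNReal.ofReal r := by
      rw [Real.volume_Ioo]
      congr 1
      ring
    have hDg : ∫⁻ z in K, ‖fderiv ℝ g z‖ₑ ^ p ≤ 2 ^ (p - 1) * (J + ENNReal.ofReal ε) := by
      have hm1 : AEMeasurable (fun z => ‖D z‖ₑ ^ p) (volume.restrict K) := by
        have h1 : AEStronglyMeasurable D (volume.restrict K) :=
          (hD.integrableOn_compact_subset hsub hKc).aestronglyMeasurable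
        exact h1.enorm.pow_const p
      calc ∫⁻ z in K, ‖fderiv ℝ g z‖ₑ ^ p
          ≤ ∫⁻ z in K, 2 ^ (p - 1) * (‖D z‖ₑ ^ p + ‖fderiv ℝ g z - D z‖ₑ ^ p) := by
            refine lintegral_mono fun z => ?_
            have h1 : ‖fderiv ℝ g z‖ₑ ≤ ‖D z‖ₑ + ‖fderiv ℝ g z - D z‖ₑ := enorm_le_add _ _
            exact (ENNReal.rpow_le_rpow h1 hp0.le).trans
              (ENNReal.rpow_add_le_mul_rpow_add_rpow _ _ hp1)
        _ = 2 ^ (p - 1) * (J + ∫⁻ z in K, ‖fderiv ℝ g z - D z‖ₑ ^ p) := by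
            rw [lintegral_const_mul' _ _ h2p, lintegral_add_left' hm1]
        _ ≤ _ := by gcongr
    calc X = ∫⁻ _ in Ioo r (2 * r), ‖f y - f x‖ₑ ^ p := by
          rw [setLIntegral_const, hvol]
      _ ≤ ∫⁻ s in Ioo r (2 * r), 2 ^ (p - 1) *
          (ENNReal.ofReal (2 * ε) ^ p + cOsc p r * ∑ q : Fin 3 × Bool, fE p g x₀ r s q.1 q.2) :=
          setLIntegral_mono' measurableSet_Ioo hpt
      _ = 2 ^ (p - 1) * (ENNReal.ofReal (2 * ε) ^ p * ENNReal.ofReal r +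
          cOsc p r * ∑ q : Fin 3 × Bool, ∫⁻ s in Ioo r (2 * r), fE p g x₀ r s q.1 q.2) := by
          rw [lintegral_const_mul' _ _ h2p, lintegral_add_left measurable_const,
            setLIntegral_const, hvol, lintegral_const_mul' _ _ hcO,
            lintegral_finsetSum _ fun q _ => hmE q]
      _ ≤ 2 ^ (p - 1) * (ENNReal.ofReal (2 * ε) ^ p * ENNReal.ofReal r +
          cOsc p r * ∑ _q : Fin 3 × Bool, 2 ^ (p - 1) * (J + ENNReal.ofReal ε)) := by
          gcongr with q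
          exact (lintegral_fE_le hg1 p x₀ hr q.1 q.2).trans hDg
      _ = _ := by
          congr 2
          rw [Finset.sum_const, nsmul_eq_mul]
          have : ((Finset.univ : Finset (Fin 3 × Bool)).card : ℝ≥0∞) = 6 := by
            simp
          rw [this]
          ring
  -- the limit
  have t0 : Tendsto (fun ε : ℝ => ε) (𝓝[>] 0) (𝓝 0) := tendsto_nhdsWithin_of_tendsto_nhds
    tendsto_id
  have t1 : Tendsto (fun ε : ℝ => ENNReal.ofReal (2 * ε) ^ p) (𝓝[>] 0) (𝓝 0) := by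
    have h1 : Tendsto (fun ε : ℝ => ENNReal.ofReal (2 * ε) ^ p) (𝓝[>] 0)
        (𝓝 (ENNReal.ofReal (2 * 0) ^ p)) :=
      (ENNReal.continuous_rpow_const.tendsto _).comp
        ((ENNReal.continuous_ofReal.tendsto _).comp (t0.const_mul 2))
    simpa [hp0] using h1
  have t2 : Tendsto (fun ε : ℝ => J + ENNReal.ofReal ε) (𝓝[>] 0) (𝓝 J) := by
    have h1 : Tendsto (fun ε : ℝ => J + ENNReal.ofReal ε) (𝓝[>] 0) (𝓝 (J + ENNReal.ofReal 0)) :=
      tendsto_const_nhds.add ((ENNReal.continuous_ofReal.tendsto _).comp t0)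
    simpa using h1
  have t3 : Tendsto (fun ε : ℝ => 2 ^ (p - 1) * (ENNReal.ofReal (2 * ε) ^ p * ENNReal.ofReal r +
      6 * cOsc p r * (2 ^ (p - 1) * (J + ENNReal.ofReal ε)))) (𝓝[>] 0)
      (𝓝 (2 ^ (p - 1) * (0 * ENNReal.ofReal r + 6 * cOsc p r * (2 ^ (p - 1) * J)))) := by
    refine ENNReal.Tendsto.const_mul ?_ (Or.inr h2p)
    refine Tendsto.add ?_ ?_
    · exact ENNReal.Tendsto.mul_const t1 (Or.inr ENNReal.ofReal_ne_top)
    · refine ENNReal.Tendsto.const_mul ?_ (Or.inr (ENNReal.mul_ne_top (by norm_num) hcO))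
      exact ENNReal.Tendsto.const_mul t2 (Or.inr h2p)
  rw [zero_mul, zero_add] at t3
  refine ge_of_tendsto t3 ?_
  filter_upwards [self_mem_nhdsWithin] with ε hε
  exact key ε hε

/-- **The oscillation estimate.** -/
theorem osc {p : ℝ} (hp : 2 < p) : ∃ C : ℝ, 0 < C ∧ ∀ {Ω : Set V} (_ : IsOpen Ω) {f : V → V}
    {D : V → V →L[ℝ] V} (_ : ContinuousOn f Ω) (_ : MonoOn Ω f)
    (_ : LocallyIntegrableOn D Ω) (_ : HB.WeakDeriv volume Ω f D)
    (_ : ∀ K ⊆ Ω, IsCompact K → ∫⁻ x in K, ‖D x‖ₑ ^ p ≠ ⊤) {x₀ : V} {r : ℝ} (_ : 0 < r)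
    (_ : closedBall x₀ (2 * r) ⊆ Ω) {x y : V} (_ : x ∈ closedBall x₀ r)
    (_ : y ∈ closedBall x₀ r),
    ‖f y - f x‖ₑ ^ p ≤ ENNReal.ofReal (C * r ^ (p - 3)) *
      ∫⁻ z in closedBall x₀ (2 * r), ‖D z‖ₑ ^ p := by
  have hp0 : 0 < p := by linarith
  set m : ℝ := (cMor 2 p).toReal with hm
  have hmc : cMor 2 p = ENNReal.ofReal m := by
    rw [hm, ENNReal.ofReal_toReal (cMor_ne_top (by exact_mod_cast hp))]
  have hm0 : 0 ≤ m := ENNReal.toReal_nonneg
  refine ⟨2 ^ (p - 1) * (6 * (12 ^ p * ((8 * m) ^ p / 4)) * 2 ^ (p - 1)) + 1, by positivity, ?_⟩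
  intro Ω hΩ f D hf hmo hD hw hDp x₀ r hr hsub x y hx hy
  have h := osc_aux hp hΩ hf hmo hD hw hDp hr hsub hx hy
  set J : ℝ≥0∞ := ∫⁻ z in closedBall x₀ (2 * r), ‖D z‖ₑ ^ p with hJ
  have hr0 : ENNReal.ofReal r ≠ 0 := by
    rw [Ne, ENNReal.ofReal_eq_zero]
    linarith
  have e1 : cOsc p r = ENNReal.ofReal (12 ^ p * ((8 * m) ^ p / 4) * (r ^ (p - 2))) := by
    unfold cOsc
    have a1 : (12 : ℝ≥0∞) ^ p = ENNReal.ofReal (12 ^ p) := by
      rw [← ENNReal.ofReal_rpow_of_nonneg (by norm_num) hp0.le]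
      norm_num
    have a2 : 2 * ENNReal.ofReal (4 * r) * cMor 2 p = ENNReal.ofReal (8 * m * r) := by
      rw [hmc, ← ENNReal.ofReal_ofNat, ← ENNReal.ofReal_mul (by norm_num),
        ← ENNReal.ofReal_mul (by positivity)]
      congr 1
      ring
    rw [a1, a2, ENNReal.ofReal_rpow_of_nonneg (by positivity) hp0.le,
      ← ENNReal.ofReal_inv_of_pos (by positivity), ← ENNReal.ofReal_mul (by positivity),
      ← ENNReal.ofReal_mul (by positivity)]
    congr 1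
    rw [Real.mul_rpow (by positivity) hr.le, Real.rpow_sub hr]
    have : (r : ℝ) ^ (2 : ℝ) = r ^ 2 := by norm_cast
    rw [this]
    field_simp
    ring
  have e2 : (2 : ℝ≥0∞) ^ (p - 1) = ENNReal.ofReal (2 ^ (p - 1)) := by
    rw [← ENNReal.ofReal_rpow_of_nonneg (by norm_num) (by linarith)]
    norm_num
  have e3 : 2 ^ (p - 1) * (6 * cOsc p r * (2 ^ (p - 1) * J)) =
      ENNReal.ofReal (2 ^ (p - 1) * (6 * (12 ^ p * ((8 * m) ^ p / 4)) * 2 ^ (p - 1)) *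
        r ^ (p - 3)) * J * ENNReal.ofReal r := by
    have b1 : ENNReal.ofReal (2 ^ (p - 1) * (6 * (12 ^ p * ((8 * m) ^ p / 4)) * 2 ^ (p - 1)) *
        r ^ (p - 3)) * J * ENNReal.ofReal r = ENNReal.ofReal (2 ^ (p - 1) *
        (6 * (12 ^ p * ((8 * m) ^ p / 4)) * 2 ^ (p - 1)) * (r ^ (p - 3) * r)) * J := by
      rw [mul_right_comm, ← ENNReal.ofReal_mul (by positivity)]
      congr 2
      ring
    have b2 : r ^ (p - 3) * r = r ^ (p - 2) := by
      conv_lhs => rw [← Real.rpow_one r, ← Real.rpow_mul hr.le, ← Real.rpow_add hr]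
      congr 1
      ring
    rw [b1, b2, e1, e2, ← ENNReal.ofReal_ofNat, ← ENNReal.ofReal_mul (by norm_num)]
    have b3 : ENNReal.ofReal (2 ^ (p - 1)) * (ENNReal.ofReal
        (6 * (12 ^ p * ((8 * m) ^ p / 4) * r ^ (p - 2))) * (ENNReal.ofReal (2 ^ (p - 1)) * J)) =
        ENNReal.ofReal (2 ^ (p - 1)) * ENNReal.ofReal
        (6 * (12 ^ p * ((8 * m) ^ p / 4) * r ^ (p - 2))) * ENNReal.ofReal (2 ^ (p - 1)) * J := by
      ring
    rw [b3, ← ENNReal.ofReal_mul (by positivity), ← ENNReal.ofReal_mul (by positivity)]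
    congr 2
    ring
  rw [e3] at h
  have h1 := (ENNReal.mul_le_mul_iff_left hr0 ENNReal.ofReal_ne_top).1 h
  refine h1.trans ?_
  gcongr
  linarith

end Vale.Agent.P073.H31
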