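import Vale.Agent.P073.H31.PlCon

/-!
# P073, H31, METRIC: descent of conical maps, collapse of finitely many intervals
-/

open Set Metric Topology Filter

namespace P073.H31

variable {E F G : Type*} [NormedAddCommGroup E] [NormedSpace ℝ E]
  [NormedAddCommGroup F] [NormedSpace ℝ F] [NormedAddCommGroup G] [NormedSpace ℝ G]

/-- continuity descends along a surjection of a compact set -/
theorem continuousOn_descend {X : Set E} (hX : IsCompact X) {π : E → F} (hπ : ContinuousOn π X)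
    {f : E → G} (hf : ContinuousOn f X) {b : F → G} (hb : ∀ x ∈ X, b (π x) = f x) :
    ContinuousOn b (π '' X) := by
  rw [continuousOn_iff_isClosed]
  intro t ht
  obtain ⟨u, hu, hu'⟩ := (continuousOn_iff_isClosed.1 hf) t ht
  refine ⟨π '' (u ∩ X), ?_, ?_⟩
  · exact ((hX.inter_left hu).image_of_continuousOn (hπ.mono inter_subset_right)).isClosed
  · ext y
    constructor
    · rintro ⟨hy, x, hx, rfl⟩
      refine ⟨⟨x, ?_, rfl⟩, ⟨x, hx, rfl⟩⟩
      rw [← hu']
      refine ⟨?_, hx⟩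
      show f x ∈ t
      rw [← hb x hx]; exact hy
    · rintro ⟨⟨x, hx, rfl⟩, hy⟩
      refine ⟨?_, hy⟩
      show b (π x) ∈ t
      rw [hb x hx.2]
      have : x ∈ f ⁻¹' t ∩ X := by rw [hu']; exact hx
      exact this.1

/-- **conicality descends along a surjection of a compact set** -/
theorem conicalOn_descend {X : Set E} (hX : IsCompact X) {π : E → F} (hπ : ContinuousOn π X)
    (kπ : ConicalOn π X) {f : E → G} (kf : ConicalOn f X) {b : F → G}
    (hb : ∀ x ∈ X, b (π x) = f x) : ConicalOn b (π '' X) := by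
  rintro y ⟨x₀, hx₀, hxy⟩
  -- the fibre
  set Fy : Set E := {x | x ∈ X ∧ π x = y} with hFy
  have key : ∀ x ∈ Fy, ∃ r > 0, ∀ v : E, ‖v‖ ≤ r → x + v ∈ X → ∀ t ∈ Icc (0:ℝ) 1,
      x + t • v ∈ X ∧ π (x + t • v) = y + t • (π (x + v) - y) ∧
        f (x + t • v) = b y + t • (f (x + v) - b y) := by
    rintro x ⟨hx, rfl⟩
    obtain ⟨r, hr, h1⟩ := kπ x hx
    obtain ⟨s, hs, h2⟩ := kf x hx
    refine ⟨min r s, lt_min hr hs, fun v hv hxv t ht => ?_⟩
    obtain ⟨a1, a2⟩ := h1 v (hv.trans (min_le_left _ _)) hxv t ht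
    obtain ⟨_, b2⟩ := h2 v (hv.trans (min_le_right _ _)) hxv t ht
    exact ⟨a1, a2, by rw [b2, hb x hx]⟩
  choose! r hr H using key
  have cF : IsCompact Fy := by
    obtain ⟨u, hu, hu'⟩ := (continuousOn_iff_isClosed.1 hπ) {y} isClosed_singleton
    have : Fy = X ∩ u := by
      have h1 : Fy = π ⁻¹' {y} ∩ X := by ext x; exact and_comm
      rw [h1, hu', inter_comm]
    rw [this]; exact hX.inter_right hu
  obtain ⟨t, htF, ht⟩ := cF.elim_nhds_subcover (fun x => ball x (r x))
    (fun x hx => ball_mem_nhds x (hr x hx))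
  set N := ⋃ x ∈ t, ball x (r x) with hN
  have oN : IsOpen N := isOpen_biUnion fun x _ => isOpen_ball
  have cK : IsCompact (π '' (X \ N)) :=
    (hX.diff oN).image_of_continuousOn (hπ.mono Set.sdiff_subset)
  have yK : y ∉ π '' (X \ N) := by
    rintro ⟨x, hx, hxy'⟩
    exact hx.2 (ht ⟨hx.1, hxy'⟩)
  obtain ⟨ρ, hρ, hb'⟩ := Metric.nhds_basis_closedBall.mem_iff.1
    (cK.isClosed.isOpen_compl.mem_nhds yK)
  refine ⟨ρ, hρ, fun w hw hyw s hs => ?_⟩
  obtain ⟨x', hx', hxw⟩ := hyw
  have hN' : x' ∈ N := by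
    by_contra hc
    have h1 : y + w ∈ closedBall y ρ := by
      rw [mem_closedBall, dist_eq_norm, add_sub_cancel_left]; exact hw
    exact hb' h1 ⟨x', ⟨hx', hc⟩, hxw⟩
  obtain ⟨x, hxt, hxb⟩ := mem_iUnion₂.1 hN'
  have hv : ‖x' - x‖ ≤ r x := by
    rw [← dist_eq_norm]; exact (mem_ball.1 hxb).le
  obtain ⟨c1, c2, c3⟩ := H x (htF x hxt) (x' - x) hv (by rwa [add_sub_cancel]) s hs
  rw [add_sub_cancel] at c2 c3
  rw [hxw, add_sub_cancel_left] at c2
  refine ⟨⟨_, c1, c2⟩, ?_⟩
  rw [← c2, hb _ c1, c3, ← hxw, hb x' hx']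

/-- **descent** as a conical homeomorphism -/
theorem exists_descend {X : Set E} (hX : IsCompact X) {π : E → F} (hπ : ContinuousOn π X)
    (kπ : ConicalOn π X) {f : E → G} (hf : ContinuousOn f X) (kf : ConicalOn f X)
    (h : ∀ x ∈ X, ∀ y ∈ X, (π x = π y ↔ f x = f y)) :
    ∃ b : ConHomeo (π '' X) (f '' X), ∀ x ∈ X, b.toFun (π x) = f x := by
  classical
  by_cases hne : X.Nonempty
  · haveI : Nonempty E := ⟨hne.some⟩
    set b : F → G := fun y => f (Function.invFunOn π X y) with hb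
    have hb' : ∀ x ∈ X, b (π x) = f x := by
      intro x hx
      have h1 : Function.invFunOn π X (π x) ∈ X := Function.invFunOn_mem ⟨x, hx, rfl⟩
      have h2 : π (Function.invFunOn π X (π x)) = π x := Function.invFunOn_eq ⟨x, hx, rfl⟩
      exact (h _ h1 _ hx).1 h2
    have hYc : IsCompact (π '' X) := hX.image_of_continuousOn hπ
    refine ⟨ConHomeo.ofCompact hYc b (continuousOn_descend hX hπ hf hb') ?_
      (conicalOn_descend hX hπ kπ kf hb') ?_, ?_⟩
    · rintro _ ⟨x, hx, rfl⟩ _ ⟨y, hy, rfl⟩ hxy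
      rw [hb' x hx, hb' y hy] at hxy
      exact (h x hx y hy).2 hxy
    · ext z
      constructor
      · rintro ⟨_, ⟨x, hx, rfl⟩, rfl⟩
        exact ⟨x, hx, (hb' x hx).symm⟩
      · rintro ⟨x, hx, rfl⟩
        exact ⟨π x, ⟨x, hx, rfl⟩, hb' x hx⟩
    · intro x hx
      have : (ConHomeo.ofCompact hYc b (continuousOn_descend hX hπ hf hb') (by
        rintro _ ⟨x, hx, rfl⟩ _ ⟨y, hy, rfl⟩ hxy
        rw [hb' x hx, hb' y hy] at hxy
        exact (h x hx y hy).2 hxy) (conicalOn_descend hX hπ kπ kf hb') rfl).toFun = b := by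
        unfold ConHomeo.ofCompact
        rw [dif_pos (hne.image π)]
      have h2 : b (π x) = f x := hb' x hx
      unfold ConHomeo.ofCompact
      rw [dif_pos (hne.image π)]
      exact h2
  · have : X = ∅ := not_nonempty_iff_eq_empty.1 hne
    subst this
    refine ⟨ConHomeo.ofCompact (by simp) (fun _ => 0) continuousOn_const ?_ ?_ (by simp), by simp⟩
    · intro x hx; simp at hx
    · intro x hx; simp at hx

/-! ### collapse of intervals -/

/-- collapse of one interval: `[c1, l] → [c1, l]`, `[l, r] ↦ l`, `[r, c2] → [l, c2]` -/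
noncomputable def col1 (l r c2 x : ℝ) : ℝ :=
  min x l + (c2 - l) / (c2 - r) * (max r (min x c2) - r) + (max x c2 - c2)

theorem plc_col1 (l r c2 : ℝ) : PLc (col1 l r c2) := by
  have h : PLc (fun x : ℝ => x) := PLc.id
  exact ((h.min (PLc.const l)).add ((((PLc.const r).max (h.min (PLc.const c2))).sub
    (PLc.const r)).cmul _)).add ((h.max (PLc.const c2)).sub (PLc.const c2))

theorem col1_le {l r c2 x : ℝ} (hlr : l < r) (hr : r < c2) (hx : x ≤ l) : col1 l r c2 x = x := by
  rw [col1, min_eq_left hx, min_eq_left (by linarith), max_eq_left (by linarith),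
    max_eq_right (by linarith)]
  ring

theorem col1_mid {l r c2 x : ℝ} (hr : r < c2) (hx : l ≤ x) (hx' : x ≤ r) :
    col1 l r c2 x = l := by
  rw [col1, min_eq_right hx, min_eq_left (by linarith), max_eq_left hx', max_eq_right (by linarith)]
  ring

theorem col1_right {l r c2 x : ℝ} (hlr : l < r) (hx : r ≤ x) (hx' : x ≤ c2) :
    col1 l r c2 x = l + (c2 - l) / (c2 - r) * (x - r) := by
  rw [col1, min_eq_right (by linarith), min_eq_left hx', max_eq_right hx, max_eq_right hx']
  ring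

theorem col1_ge {l r c2 x : ℝ} (hlr : l < r) (hr : r < c2) (hx : c2 ≤ x) : col1 l r c2 x = x := by
  have : c2 - r ≠ 0 := (sub_pos.2 hr).ne'
  rw [col1, min_eq_right (by linarith), min_eq_right hx, max_eq_right hr.le, max_eq_left hx,
    div_mul_cancel₀ _ this]
  ring

theorem monotone_col1 {l r c2 : ℝ} (hlr : l < r) (hr : r < c2) : Monotone (col1 l r c2) := by
  intro x y hxy
  have h : 0 ≤ (c2 - l) / (c2 - r) := div_nonneg (by linarith) (by linarith)
  unfold col1
  gcongr

theorem col1_eq_iff {l r c2 x y : ℝ} (hlr : l < r) (hr : r < c2) :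
    col1 l r c2 x = col1 l r c2 y ↔ x = y ∨ (x ∈ Icc l r ∧ y ∈ Icc l r) := by
  have key : ∀ x y : ℝ, x < y → ¬ (x ∈ Icc l r ∧ y ∈ Icc l r) → col1 l r c2 x < col1 l r c2 y := by
    intro x y hxy hn
    have hm := monotone_col1 hlr hr
    have hp : 0 < (c2 - l) / (c2 - r) := div_pos (by linarith) (by linarith)
    rcases lt_or_ge x l with h1 | h1
    · calc col1 l r c2 x = x := col1_le hlr hr h1.le
        _ < min y l := lt_min hxy h1
        _ = col1 l r c2 (min y l) := (col1_le hlr hr (min_le_right _ _)).symm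
        _ ≤ col1 l r c2 y := hm (min_le_left _ _)
    · have h2 : r < y := by
        by_contra hc
        exact hn ⟨⟨h1, hxy.le.trans (not_lt.1 hc)⟩, ⟨h1.trans hxy.le, not_lt.1 hc⟩⟩
      rcases lt_or_ge x c2 with h3 | h3
      · -- compare on `[max x r, min y c2]`
        have h4 : max x r < min y c2 := max_lt (lt_min hxy h3) (lt_min h2 hr)
        calc col1 l r c2 x ≤ col1 l r c2 (max x r) := hm (le_max_left _ _)
          _ = l + (c2 - l) / (c2 - r) * (max x r - r) :=
            col1_right hlr (le_max_right _ _) (max_le h3.le hr.le)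
          _ < l + (c2 - l) / (c2 - r) * (min y c2 - r) := by
            have := mul_lt_mul_of_pos_left (sub_lt_sub_right h4 r) hp
            linarith
          _ = col1 l r c2 (min y c2) :=
            (col1_right hlr ((le_max_right _ _).trans h4.le) (min_le_right _ _)).symm
          _ ≤ col1 l r c2 y := hm (min_le_left _ _)
      · rw [col1_ge hlr hr h3, col1_ge hlr hr (h3.trans hxy.le)]; exact hxy
  constructor
  · intro h
    by_contra hn
    push Not at hn
    rcases lt_trichotomy x y with h1 | h1 | h1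
    · exact (key x y h1 fun h2 => hn.2 h2.1 h2.2).ne h
    · exact hn.1 h1
    · exact (key y x h1 fun h2 => hn.2 h2.2 h2.1).ne h.symm
  · rintro (h | ⟨h1, h2⟩)
    · rw [h]
    · rw [col1_mid hr h1.1 h1.2, col1_mid hr h2.1 h2.2]

/-- **collapse of finitely many disjoint intervals** -/
theorem exists_collapse {κ : Type*} [DecidableEq κ] (K : Finset κ) (l r : κ → ℝ) (c1 c2 : ℝ)
    (hc : c1 ≤ c2) (h : ∀ j ∈ K, c1 < l j ∧ l j < r j ∧ r j < c2)
    (hd : ∀ j ∈ K, ∀ j' ∈ K, j ≠ j' → Disjoint (Icc (l j) (r j)) (Icc (l j') (r j'))) :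
    ∃ ϖ : ℝ → ℝ, PLc ϖ ∧ Monotone ϖ ∧ (∀ a ≤ c1, ϖ a = a) ∧ (∀ a, c2 ≤ a → ϖ a = a) ∧
      ∀ a b, ϖ a = ϖ b ↔ a = b ∨ ∃ j ∈ K, a ∈ Icc (l j) (r j) ∧ b ∈ Icc (l j) (r j) := by
  revert h hd
  induction K using Finset.induction_on with
  | empty =>
    intro _ _
    exact ⟨fun x => x, PLc.id, monotone_id, fun _ _ => rfl, fun _ _ => rfl, by simp⟩
  | insert j K hj IH =>
    intro h hd
    obtain ⟨ϖ, h1, h2, h3, h4, h5⟩ := IH (fun i hi => h i (Finset.mem_insert_of_mem hi))
      (fun i hi i' hi' => hd i (Finset.mem_insert_of_mem hi) i' (Finset.mem_insert_of_mem hi'))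
    obtain ⟨k1, k2, k3⟩ := h j (Finset.mem_insert_self _ _)
    have hdj : ∀ i ∈ K, Disjoint (Icc (l j) (r j)) (Icc (l i) (r i)) := fun i hi =>
      hd j (Finset.mem_insert_self _ _) i (Finset.mem_insert_of_mem hi) (by rintro rfl; exact hj hi)
    -- a point of the new interval is not collapsed with another point
    have hinj : ∀ a ∈ Icc (l j) (r j), ∀ b, ϖ a = ϖ b → a = b := by
      intro a ha b hab
      rcases (h5 a b).1 hab with h6 | ⟨i, hi, h6, _⟩
      · exact h6
      · exact absurd h6 (Set.disjoint_left.1 (hdj i hi) ha)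
    have hlt : ∀ a b, a < b → (a ∈ Icc (l j) (r j) ∨ b ∈ Icc (l j) (r j)) → ϖ a < ϖ b := by
      intro a b hab hm
      refine lt_of_le_of_ne (h2 hab.le) fun he => ?_
      rcases hm with hm | hm
      · exact hab.ne (hinj a hm b he)
      · exact hab.ne (hinj b hm a he.symm).symm
    have ml : l j ∈ Icc (l j) (r j) := ⟨le_rfl, k2.le⟩
    have mr : r j ∈ Icc (l j) (r j) := ⟨k2.le, le_rfl⟩
    have q1 : ϖ (l j) < ϖ (r j) := hlt _ _ k2 (Or.inl ml)
    have q2 : ϖ (r j) < c2 := by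
      have := hlt _ _ k3 (Or.inl mr)
      rwa [h4 c2 le_rfl] at this
    have q0 : c1 < ϖ (l j) := by
      have := hlt _ _ k1 (Or.inr ml)
      rwa [h3 c1 le_rfl] at this
    have hmem : ∀ a, ϖ a ∈ Icc (ϖ (l j)) (ϖ (r j)) ↔ a ∈ Icc (l j) (r j) := by
      intro a
      constructor
      · rintro ⟨h6, h7⟩
        constructor
        · by_contra hc'
          exact absurd h6 (not_le.2 (hlt _ _ (not_le.1 hc') (Or.inr ml)))
        · by_contra hc'
          exact absurd h7 (not_le.2 (hlt _ _ (not_le.1 hc') (Or.inl mr)))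
      · rintro ⟨h6, h7⟩
        exact ⟨h2 h6, h2 h7⟩
    refine ⟨fun x => col1 (ϖ (l j)) (ϖ (r j)) c2 (ϖ x), (plc_col1 _ _ _).comp h1,
      (monotone_col1 q1 q2).comp h2, ?_, ?_, ?_⟩
    · intro a ha
      show col1 _ _ _ (ϖ a) = a
      rw [h3 a ha]
      exact col1_le q1 q2 (ha.trans q0.le)
    · intro a ha
      show col1 _ _ _ (ϖ a) = a
      rw [h4 a ha]
      exact col1_ge q1 q2 ha
    · intro a b
      show col1 _ _ _ (ϖ a) = col1 _ _ _ (ϖ b) ↔ _
      rw [col1_eq_iff q1 q2, hmem, hmem, h5]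
      constructor
      · rintro ((h6 | ⟨i, hi, h6⟩) | h6)
        · exact Or.inl h6
        · exact Or.inr ⟨i, Finset.mem_insert_of_mem hi, h6⟩
        · exact Or.inr ⟨j, Finset.mem_insert_self _ _, h6⟩
      · rintro (h6 | ⟨i, hi, h6⟩)
        · exact Or.inl (Or.inl h6)
        · rcases Finset.mem_insert.1 hi with rfl | hi'
          · exact Or.inr h6
          · exact Or.inl (Or.inr ⟨i, hi', h6⟩)

end P073.H31
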