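import Vale.Agent.P073.H31.PlPat

/-!
# P073, H31, METRIC: calculus of globally defined continuous conical maps
-/

open Set Metric Topology Filter

namespace P073.H31

variable {E F G : Type*} [NormedAddCommGroup E] [NormedSpace ℝ E]
  [NormedAddCommGroup F] [NormedSpace ℝ F] [NormedAddCommGroup G] [NormedSpace ℝ G]

/-- a continuous conical map on the whole space -/
structure PLc (f : E → F) : Prop where
  c : Continuous f
  k : ConicalOn f univ

namespace PLc

theorem id : PLc (fun x : E => x) := ⟨continuous_id, conicalOn_id locCone_univ.conicalSet⟩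

theorem const (c : F) : PLc (fun _ : E => c) :=
  ⟨continuous_const, conicalOn_const c locCone_univ.conicalSet⟩

theorem comp {g : F → G} {f : E → F} (hg : PLc g) (hf : PLc f) : PLc (fun x => g (f x)) :=
  ⟨hg.c.comp hf.c, hg.k.comp hf.k (mapsTo_univ _ _) hf.c.continuousOn⟩

theorem add {f g : E → F} (hf : PLc f) (hg : PLc g) : PLc (fun x => f x + g x) :=
  ⟨hf.c.add hg.c, hf.k.add hg.k⟩

theorem sub {f g : E → F} (hf : PLc f) (hg : PLc g) : PLc (fun x => f x - g x) :=
  ⟨hf.c.sub hg.c, hf.k.sub hg.k⟩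

theorem neg {f : E → F} (hf : PLc f) : PLc (fun x => - f x) := ⟨hf.c.neg, hf.k.neg⟩

theorem max {f g : E → ℝ} (hf : PLc f) (hg : PLc g) : PLc (fun x => max (f x) (g x)) :=
  ⟨hf.c.max hg.c, hf.k.rmax hg.k hf.c.continuousOn hg.c.continuousOn⟩

theorem min {f g : E → ℝ} (hf : PLc f) (hg : PLc g) : PLc (fun x => min (f x) (g x)) :=
  ⟨hf.c.min hg.c, hf.k.rmin hg.k hf.c.continuousOn hg.c.continuousOn⟩

theorem cmul {f : E → ℝ} (c : ℝ) (hf : PLc f) : PLc (fun x => c * f x) :=
  ⟨continuous_const.mul hf.c, hf.k.const_smul c⟩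

theorem mulc {f : E → ℝ} (hf : PLc f) (c : ℝ) : PLc (fun x => f x * c) := by
  have := hf.cmul c
  simp only [mul_comm c] at this
  exact this

theorem divc {f : E → ℝ} (hf : PLc f) (c : ℝ) : PLc (fun x => f x / c) := by
  simp only [div_eq_mul_inv]
  exact hf.mulc _

theorem csmul {f : E → F} (c : ℝ) (hf : PLc f) : PLc (fun x => c • f x) :=
  ⟨continuous_const.smul hf.c, hf.k.const_smul c⟩

theorem prodMk {f : E → F} {g : E → G} (hf : PLc f) (hg : PLc g) : PLc (fun x => (f x, g x)) :=
  ⟨hf.c.prodMk hg.c, hf.k.prodMk hg.k⟩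

theorem fst {f : E → F × G} (hf : PLc f) : PLc (fun x => (f x).1) :=
  ⟨continuous_fst.comp hf.c, hf.k.linear_comp (LinearMap.fst ℝ F G)⟩

theorem snd {f : E → F × G} (hf : PLc f) : PLc (fun x => (f x).2) :=
  ⟨continuous_snd.comp hf.c, hf.k.linear_comp (LinearMap.snd ℝ F G)⟩

theorem pi {ι : Type*} [Fintype ι] {f : E → ι → ℝ} (hf : ∀ i, PLc (fun x => f x i)) : PLc f :=
  ⟨continuous_pi fun i => (hf i).c,
    fun x hx => conicalWithinAt_pi (locCone_univ.conicalSet x hx) fun i => (hf i).k x hx⟩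

theorem contOn {f : E → F} (hf : PLc f) (X : Set E) : ContinuousOn f X := hf.c.continuousOn

theorem kOn {f : E → F} (hf : PLc f) {X : Set E} (hX : ConicalSet X) : ConicalOn f X :=
  hf.k.mono hX (subset_univ _)

theorem locCone_le {f g : E → ℝ} (hf : PLc f) (hg : PLc g) : LocCone {x | f x ≤ g x} := by
  have h := hf.sub hg
  have := locCone_setOf_le h.c h.k 0
  simpa only [sub_nonpos] using this

theorem locCone_eq {f g : E → ℝ} (hf : PLc f) (hg : PLc g) : LocCone {x | f x = g x} := by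
  have h := hf.sub hg
  have := locCone_setOf_eq h.c h.k 0
  simpa only [sub_eq_zero] using this

theorem cl1 {f : E → ℝ} (hf : PLc f) : PLc (fun x => cl1 (f x)) :=
  (const 0).max ((const 1).min hf)

theorem xL {f : E → ℝ} (A : ArcD) (hf : PLc f) : PLc (fun x => A.xL (f x)) :=
  (const 2).min ((hf.sub (const A.p)).divc A.w)

theorem xR {f : E → ℝ} (A : ArcD) (hf : PLc f) : PLc (fun x => A.xR (f x)) :=
  (const 2).min (((const A.q).sub hf).divc A.w')

theorem lam {f : E → ℝ} (A : ArcD) (hf : PLc f) : PLc (fun x => A.lam (f x)) :=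
  (const 0).max ((hf.xL A).min (hf.xR A))

theorem sig {f : E → ℝ} (A : ArcD) (hf : PLc f) : PLc (fun x => A.sig (f x)) :=
  (hf.lam A).cl1

end PLc

/-- a conical homeomorphism from two mutually inverse global maps -/
def mkCon {X : Set E} {Y : Set F} {f : E → F} {g : F → E} (hf : PLc f) (hg : PLc g)
    (hX : ConicalSet X) (h1 : MapsTo f X Y) (h2 : MapsTo g Y X) (h3 : LeftInvOn g f X)
    (h4 : RightInvOn g f Y) : ConHomeo X Y where
  toFun := f
  invFun := g
  mapsTo := h1
  mapsTo_inv := h2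
  left_inv := h3
  right_inv := h4
  cont := hf.contOn X
  cont_inv := hg.contOn Y
  conical := hf.kOn hX

end P073.H31
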