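import Vale.Agent.P073.H31.PlPos

/-!
# P073, H31, METRIC: cutting a pattern along the last arc
-/

open Set Metric Topology Filter

namespace P073.H31

open P073.H339 P073.GB200 P073.H341

variable {E : Type*} [NormedAddCommGroup E] [NormedSpace ℝ E]

theorem conBall_zero' (p : E) : ConBall 0 ({p} : Set E) ∅ := by
  refine ⟨empty_subset _, ?_⟩
  have h1 : (closedBall (0 : Fin 0 → ℝ) 1) = {0} := by
    ext x
    simp only [mem_closedBall_zero_iff, mem_singleton_iff]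
    constructor
    · intro _; exact Subsingleton.elim _ _
    · intro h; rw [h, norm_zero]; exact zero_le_one
  refine ⟨ConHomeo.cast (X := {p}) (Y := ({0} : Set (Fin 0 → ℝ)))
    { toFun := fun _ => 0
      invFun := fun _ => p
      mapsTo := fun _ _ => rfl
      mapsTo_inv := fun _ _ => rfl
      left_inv := fun x hx => by
        have : x = p := hx
        rw [this]
      right_inv := fun x _ => Subsingleton.elim _ _
      cont := continuousOn_const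
      cont_inv := continuousOn_const
      conical := conicalOn_const 0 (by
        intro x hx
        refine ⟨1, one_pos, fun v _ hv t _ => ?_⟩
        have h2 : x = p := hx
        have h3 : x + v = p := hv
        have h4 : v = 0 := by rw [h2] at h3; exact add_eq_left.1 h3
        rw [h4, smul_zero, add_zero]; exact hx) } rfl h1.symm, ?_⟩
  rw [image_empty]
  symm
  rw [eq_empty_iff_forall_notMem]
  intro x hx
  rw [mem_sphere_zero_iff_norm, Subsingleton.elim x 0, norm_zero] at hx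
  exact zero_ne_one hx

theorem top_bR {a : ℝ} (h0 : 0 ≤ a) (h1 : a ≤ 1) : ((a, 1) : ℝ × ℝ) ∈ bR :=
  ⟨⟨⟨h0, h1⟩, zero_le_one, le_rfl⟩, Or.inr (Or.inr (Or.inr rfl))⟩

variable {k : ℕ} {A : ℕ → ArcD} {col : ℕ → Bool} {C B : Set E} {fn : ℕ → E → ℝ} {γ : ℝ × ℝ → E}

theorem Pat.tri (hP : Pat k A col C B fn γ) {i : ℕ} (hi : i < k) {x : ℝ × ℝ} (hx : x ∈ bR) :
    ((x ∈ IL (A i) ∨ x ∈ IR (A i)) ∧ fn i (γ x) = 0) ∨
    (x.2 = 1 ∧ (A i).p + (A i).w < x.1 ∧ x.1 < (A i).q - (A i).w' ∧ 0 < fn i (γ x)) ∨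
    ((x.2 = 1 → x.1 < (A i).p ∨ (A i).q < x.1) ∧ fn i (γ x) < 0) := by
  have g := hP.pos.good i hi
  obtain ⟨a, t⟩ := x
  by_cases hc : t = 1 → a < (A i).p ∨ (A i).q < a
  · exact Or.inr (Or.inr ⟨hc, hP.neg_out i hi _ hx hc⟩)
  · push Not at hc
    obtain ⟨rfl, h1, h2⟩ := hc
    by_cases c1 : a ≤ (A i).p + (A i).w
    · left
      have hm : ((a, 1) : ℝ × ℝ) ∈ IL (A i) := ⟨⟨h1, c1⟩, rfl⟩
      exact ⟨Or.inl hm, by rw [hP.γL i hi _ hm]; exact hP.zp i hi⟩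
    · by_cases c2 : (A i).q - (A i).w' ≤ a
      · left
        have hm : ((a, 1) : ℝ × ℝ) ∈ IR (A i) := ⟨⟨c2, h2⟩, rfl⟩
        exact ⟨Or.inr hm, by rw [hP.γR i hi _ hm]; exact hP.zq i hi⟩
      · rw [not_le] at c1 c2
        exact Or.inr (Or.inl ⟨rfl, c1, c2, hP.pos_in i hi a c1 c2⟩)

/-- the boundary interval `j` as a subset of the top side -/
theorem mem_IL_iff {j : ℕ × Bool} {x : ℝ × ℝ} :
    (x.2 = 1 ∧ x.1 ∈ Icc (lf A j) (rt A j)) ↔ if j.2 then x ∈ IR (A j.1) else x ∈ IL (A j.1) := by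
  unfold lf rt
  split_ifs
  · exact ⟨fun h => ⟨h.2, h.1⟩, fun h => ⟨h.2, h.1⟩⟩
  · exact ⟨fun h => ⟨h.2, h.1⟩, fun h => ⟨h.2, h.1⟩⟩

theorem lf_mem (h : Pos k A) {j : ℕ × Bool} (hj : j.1 < k) {a : ℝ}
    (ha : a ∈ Icc (lf A j) (rt A j)) : 0 ≤ a ∧ a ≤ 1 := by
  have g := h.good j.1 hj
  have h0 := g.p0; have h1 := g.q1; have h2 := g.w0; have h3 := g.w0'; have h4 := g.pq
  unfold lf rt at ha
  split_ifs at ha
  · exact ⟨by linarith [ha.1], by linarith [ha.2]⟩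
  · exact ⟨by linarith [ha.1], by linarith [ha.2]⟩

/-- fibres, in terms of the intervals -/
theorem Pat.fib (hP : Pat k A col C B fn γ) {x y : ℝ × ℝ} (hx : x ∈ bR) (hy : y ∈ bR)
    (h : γ x = γ y) : x = y ∨ ∃ j : ℕ × Bool, j.1 < k ∧ x.2 = 1 ∧ y.2 = 1 ∧
      x.1 ∈ Icc (lf A j) (rt A j) ∧ y.1 ∈ Icc (lf A j) (rt A j) := by
  rcases hP.γf x hx y hy h with h1 | ⟨i, hi, h1 | h1⟩
  · exact Or.inl h1
  · exact Or.inr ⟨(i, false), hi, h1.1.2, h1.2.2, h1.1.1, h1.2.1⟩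
  · exact Or.inr ⟨(i, true), hi, h1.1.2, h1.2.2, h1.1.1, h1.2.1⟩

/-- the value on an interval -/
theorem Pat.fib' (hP : Pat k A col C B fn γ) {j : ℕ × Bool} (hj : j.1 < k) {a b : ℝ}
    (ha : a ∈ Icc (lf A j) (rt A j)) (hb : b ∈ Icc (lf A j) (rt A j)) : γ (a, 1) = γ (b, 1) := by
  obtain ⟨i, c⟩ := j
  cases c
  · rw [hP.γL i hj (a, 1) ⟨ha, rfl⟩, hP.γL i hj (b, 1) ⟨hb, rfl⟩]
  · rw [hP.γR i hj (a, 1) ⟨ha, rfl⟩, hP.γR i hj (b, 1) ⟨hb, rfl⟩]

theorem Pat.ne_of (hP : Pat k A col C B fn γ) {j j' : ℕ × Bool} (hj : j.1 < k) (hj' : j'.1 < k)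
    (hne : j ≠ j') {a b : ℝ} (ha : a ∈ Icc (lf A j) (rt A j)) (hb : b ∈ Icc (lf A j') (rt A j')) :
    γ (a, 1) ≠ γ (b, 1) := by
  intro h
  have ma := lf_mem hP.pos hj ha
  have mb := lf_mem hP.pos hj' hb
  have key : ∀ j'' : ℕ × Bool, j''.1 < k → a ∈ Icc (lf A j'') (rt A j'') →
      b ∈ Icc (lf A j'') (rt A j'') → False := by
    intro j'' hj'' h1 h2
    have e1 : j'' = j := by
      by_contra hc
      exact Set.disjoint_left.1 (hP.pos.dj hj'' hj hc) h1 ha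
    have e2 : j'' = j' := by
      by_contra hc
      exact Set.disjoint_left.1 (hP.pos.dj hj'' hj' hc) h2 hb
    exact hne (e1.symm.trans e2)
  rcases hP.fib (top_bR ma.1 ma.2) (top_bR mb.1 mb.2) h with h1 | ⟨j'', hj'', _, _, h1, h2⟩
  · have h2 : a = b := (Prod.ext_iff.1 h1).1
    subst h2
    exact Set.disjoint_left.1 (hP.pos.dj hj hj' hne) ha hb
  · exact key j'' hj'' h1 h2

theorem pI (g : ∀ i < k, (A i).Good) {i : ℕ} (hi : i < k) :
    (A i).p ∈ Icc (lf A (i, false)) (rt A (i, false)) := by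
  have := (g i hi).w0
  simp only [lf, rt, Bool.false_eq_true, if_false, mem_Icc]
  exact ⟨le_rfl, by linarith⟩

theorem qI (g : ∀ i < k, (A i).Good) {i : ℕ} (hi : i < k) :
    (A i).q ∈ Icc (lf A (i, true)) (rt A (i, true)) := by
  have := (g i hi).w0'
  simp only [lf, rt, if_true, mem_Icc]
  exact ⟨by linarith, le_rfl⟩

/-- the end points of the arc `i` -/
theorem Pat.ends (hP : Pat k A col C B fn γ) {i : ℕ} (hi : i < k) :
    Sa C fn i ∩ B = {γ ((A i).p, 1), γ ((A i).q, 1)} := by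
  have mp := lf_mem (j := (i, false)) hP.pos hi (pI hP.pos.good hi)
  have mq := lf_mem (j := (i, true)) hP.pos hi (qI hP.pos.good hi)
  have hBC : B ⊆ C := hP.hC.1
  have inB : ∀ x ∈ bR, γ x ∈ B := fun x hx => by rw [← hP.γi]; exact ⟨x, hx, rfl⟩
  ext y
  constructor
  · rintro ⟨⟨_, h1⟩, h2⟩
    rw [← hP.γi] at h2
    obtain ⟨x, hx, rfl⟩ := h2
    rcases hP.tri hi hx with ⟨h3 | h3, _⟩ | ⟨_, _, _, h3⟩ | ⟨_, h3⟩
    · left; exact hP.γL i hi x h3
    · right; exact hP.γR i hi x h3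
    · exact absurd h1 h3.ne'
    · exact absurd h1 h3.ne
  · rintro (h1 | h1)
    · rw [h1]
      exact ⟨⟨hBC (inB _ (top_bR mp.1 mp.2)), hP.zp i hi⟩, inB _ (top_bR mp.1 mp.2)⟩
    · have h1' : y = γ ((A i).q, 1) := h1
      rw [h1']
      exact ⟨⟨hBC (inB _ (top_bR mq.1 mq.2)), hP.zq i hi⟩, inB _ (top_bR mq.1 mq.2)⟩

theorem Pat.inB (hP : Pat k A col C B fn γ) {x : ℝ × ℝ} (hx : x ∈ bR) : γ x ∈ B := by
  rw [← hP.γi]; exact ⟨x, hx, rfl⟩

theorem Pat.p_mem (hP : Pat k A col C B fn γ) {i : ℕ} (hi : i < k) :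
    γ ((A i).p, 1) ∈ Sa C fn i := by
  have : γ ((A i).p, 1) ∈ Sa C fn i ∩ B := by rw [hP.ends hi]; exact Or.inl rfl
  exact this.1

theorem Pat.q_mem (hP : Pat k A col C B fn γ) {i : ℕ} (hi : i < k) :
    γ ((A i).q, 1) ∈ Sa C fn i := by
  have : γ ((A i).q, 1) ∈ Sa C fn i ∩ B := by rw [hP.ends hi]; exact Or.inr rfl
  exact this.1

theorem cut_signs_aux {D B₁ B₂ C₁ C₂ : Set E} {f : E → ℝ} (h : Cut 1 C B D B₁ B₂ C₁ C₂)
    (hf : ContinuousOn f C) (hD : ∀ x ∈ C, f x = 0 → x ∈ D) {u v : E} (hu : u ∈ C₁ \ D)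
    (hfu : f u < 0) (hv : v ∈ C) (hvD : v ∉ D) (hfv : 0 < f v) :
    (∀ x ∈ C₁, x ∉ D → f x < 0) ∧ (∀ x ∈ C₂, x ∉ D → 0 < f x) := by
  have hC₁ := h.C₁_sub
  have hC₂ := h.symm.C₁_sub
  have n1 : ∀ x ∈ C₁ \ D, f x ≠ 0 := fun x hx h0 => hx.2 (hD x (hC₁ hx.1) h0)
  have n2 : ∀ x ∈ C₂ \ D, f x ≠ 0 := fun x hx h0 => hx.2 (hD x (hC₂ hx.1) h0)
  have c1 : ContinuousOn f (C₁ \ D) := hf.mono (Set.sdiff_subset.trans hC₁)
  have c2 : ContinuousOn f (C₂ \ D) := hf.mono (Set.sdiff_subset.trans hC₂)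
  have s1 : ∀ x ∈ C₁, x ∉ D → f x < 0 := by
    intro x hx hxD
    by_contra hc
    exact sign_const h.preconn c1 n1 ⟨hx, hxD⟩ hu
      (lt_of_le_of_ne (not_lt.1 hc) (n1 x ⟨hx, hxD⟩).symm) hfu
  refine ⟨s1, fun x hx hxD => ?_⟩
  have hv2 : v ∈ C₂ \ D := by
    rcases h.mem_cases hv hvD with h1 | h1
    · exact absurd (s1 v h1.1 h1.2) (not_lt.2 hfv.le)
    · exact h1
  by_contra hc
  exact sign_const h.symm.preconn c2 n2 hv2 ⟨hx, hxD⟩ hfv
    (lt_of_le_of_ne (not_lt.1 hc) (n2 x ⟨hx, hxD⟩))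

theorem zero_bR : ((0, 0) : ℝ × ℝ) ∈ bR :=
  ⟨⟨⟨le_rfl, zero_le_one⟩, le_rfl, zero_le_one⟩, Or.inl rfl⟩

/-- **the cut along the last arc** -/
theorem Pat.cut (hP : Pat (k + 1) A col C B fn γ) : ∃ B₁ B₂ C₁ C₂ : Set E,
    Cut 1 C B (Sa C fn k) B₁ B₂ C₁ C₂ ∧ (∀ x ∈ C₁, x ∉ Sa C fn k → fn k x < 0) ∧
      (∀ x ∈ C₂, x ∉ Sa C fn k → 0 < fn k x) := by
  have g := hP.pos.good k (by omega)
  have hfk := hP.hfn k (by omega)
  obtain ⟨B₁, B₂, C₁, C₂, h⟩ := cutP_one C B (Sa C fn k) hP.hC (hP.hS k (by omega)) fun x hx => hx.1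
  have ho : fn k (γ (0, 0)) < 0 := hP.neg_out k (by omega) _ zero_bR fun h => absurd h zero_ne_one
  set m := ((A k).p + (A k).w + ((A k).q - (A k).w')) / 2 with hm
  have m1 : (A k).p + (A k).w < m := by have := g.pqs; linarith
  have m2 : m < (A k).q - (A k).w' := by have := g.pqs; linarith
  have hmp := hP.pos_in k (by omega) m m1 m2
  have hmb : ((m, 1) : ℝ × ℝ) ∈ bR :=
    top_bR (by linarith [g.p0, g.w0]) (by linarith [g.q1, g.w0'])
  have hD : ∀ x ∈ C, fn k x = 0 → x ∈ Sa C fn k := fun x hx h0 => ⟨hx, h0⟩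
  have oC := hP.hC.1 (hP.inB zero_bR)
  have mC := hP.hC.1 (hP.inB hmb)
  have oD : γ (0, 0) ∉ Sa C fn k := fun h0 => ho.ne h0.2
  have mD : γ (m, 1) ∉ Sa C fn k := fun h0 => hmp.ne' h0.2
  rcases h.mem_cases oC oD with h1 | h1
  · exact ⟨B₁, B₂, C₁, C₂, h, cut_signs_aux h hfk hD h1 ho mC mD hmp⟩
  · exact ⟨B₂, B₁, C₂, C₁, h.symm, cut_signs_aux h.symm hfk hD h1 ho mC mD hmp⟩

/-- the setting of one step -/
structure Stp (k : ℕ) (A : ℕ → ArcD) (col : ℕ → Bool) (C B : Set E) (fn : ℕ → E → ℝ)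
    (γ : ℝ × ℝ → E) (B₁ B₂ C₁ C₂ : Set E) : Prop where
  P : Pat (k + 1) A col C B fn γ
  cut : Cut 1 C B (Sa C fn k) B₁ B₂ C₁ C₂
  neg : ∀ x ∈ C₁, x ∉ Sa C fn k → fn k x < 0
  pos : ∀ x ∈ C₂, x ∉ Sa C fn k → 0 < fn k x

namespace Stp

variable {B₁ B₂ C₁ C₂ : Set E} (H : Stp k A col C B fn γ B₁ B₂ C₁ C₂)

include H

theorem gk : (A k).Good := H.P.pos.good k (by omega)

theorem C₁C : C₁ ⊆ C := H.cut.C₁_sub
theorem C₂C : C₂ ⊆ C := H.cut.symm.C₁_sub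

theorem mem₁ {x : E} (hx : x ∈ C) : x ∈ C₁ ↔ fn k x ≤ 0 := by
  constructor
  · intro h
    by_cases hD : x ∈ Sa C fn k
    · exact hD.2.le
    · exact (H.neg x h hD).le
  · intro h
    by_cases hD : x ∈ Sa C fn k
    · exact H.cut.D_sub hD
    · rcases H.cut.mem_cases hx hD with h1 | h1
      · exact h1.1
      · exact absurd (H.pos x h1.1 hD) (not_lt.2 h)

theorem mem₂ {x : E} (hx : x ∈ C) : x ∈ C₂ ↔ 0 ≤ fn k x := by
  constructor
  · intro h
    by_cases hD : x ∈ Sa C fn k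
    · exact hD.2.ge
    · exact (H.pos x h hD).le
  · intro h
    by_cases hD : x ∈ Sa C fn k
    · exact H.cut.symm.D_sub hD
    · rcases H.cut.mem_cases hx hD with h1 | h1
      · exact absurd (H.neg x h1.1 hD) (not_lt.2 h)
      · exact h1.1

/-- the sign of the last function at a point of an earlier interval -/
theorem sgn_in {j : ℕ × Bool} (hj : j ∈ Kk k A) {a : ℝ} (ha : a ∈ Icc (lf A j) (rt A j)) :
    0 < fn k (γ (a, 1)) := by
  obtain ⟨h1, h2, h3⟩ := H.P.pos.Kin hj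
  have g := H.gk
  have := g.w0; have := g.w0'
  exact H.P.pos_in k (by omega) a (by linarith [ha.1]) (by linarith [ha.2])

theorem sgn_out {j : ℕ × Bool} (hj1 : j.1 < k) (hj : j ∉ Kk k A) {a : ℝ}
    (ha : a ∈ Icc (lf A j) (rt A j)) : fn k (γ (a, 1)) < 0 := by
  have m := lf_mem (k := k + 1) (j := j) H.P.pos (by omega) ha
  refine H.P.neg_out k (by omega) _ (top_bR m.1 m.2) fun _ => ?_
  rcases H.P.pos.Kout hj1 hj with c | c
  · exact Or.inl (by show a < _; linarith [ha.2])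
  · exact Or.inr (by show _ < a; linarith [ha.1])

/-- an arc with an end point inside crosses the last arc -/
theorem crosses {i : ℕ} (hi : i < k) {b : Bool} (hj : (i, b) ∈ Kk k A) :
    (Sa C fn k ∩ Sa C fn i).Nonempty ∧ (i, !b) ∉ Kk k A := by
  have hn : (i, !b) ∉ Kk k A := by
    intro h1
    have h2 : b = !b := congrArg Prod.snd (H.P.pos.K1 hj h1 rfl)
    cases b <;> exact absurd h2 (by decide)
  refine ⟨?_, hn⟩
  have gd := H.P.pos.good
  have hpre : IsPreconnected (Sa C fn i) := (H.P.hS i (by omega)).isPreconnected'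
  have e1 := H.P.p_mem (i := i) (by omega)
  have e2 := H.P.q_mem (i := i) (by omega)
  have i1 := pI (k := k + 1) gd (i := i) (by omega)
  have i2 := qI (k := k + 1) gd (i := i) (by omega)
  by_contra hc
  rw [not_nonempty_iff_eq_empty] at hc
  have h0 : ∀ x ∈ Sa C fn i, fn k x ≠ 0 := fun x hx h0 => by
    have : x ∈ Sa C fn k ∩ Sa C fn i := ⟨⟨hx.1, h0⟩, hx⟩
    rw [hc] at this; exact this
  have hcont : ContinuousOn (fn k) (Sa C fn i) := (H.P.hfn k (by omega)).mono fun x hx => hx.1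
  cases b
  · exact sign_const hpre hcont h0 e1 e2 (H.sgn_in hj i1) (H.sgn_out (j := (i, true)) hi hn i2)
  · exact sign_const hpre hcont h0 e2 e1 (H.sgn_in hj i2) (H.sgn_out (j := (i, false)) hi hn i1)

/-- the two pieces of a crossing arc -/
theorem pieces {i : ℕ} (hi : i < k) {b : Bool} (hj : (i, b) ∈ Kk k A) :
    ConBall 1 (Sa C₁ fn i) (Sa C₁ fn i ∩ (B₁ ∪ Sa C fn k)) ∧
      ConBall 1 (Sa C₂ fn i) (Sa C₂ fn i ∩ (B₂ ∪ Sa C fn k)) := by
  obtain ⟨hne, hn⟩ := H.crosses hi hj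
  have gd := H.P.pos.good
  have e1 := H.P.p_mem (i := i) (by omega)
  have e2 := H.P.q_mem (i := i) (by omega)
  have i1 := pI (k := k + 1) gd (i := i) (by omega)
  have i2 := qI (k := k + 1) gd (i := i) (by omega)
  obtain ⟨x, hx⟩ := hne
  have hsub := H.P.sub k (by omega) i (by omega) (by omega)
  have hxe : Sa C fn k ∩ Sa C fn i = {x} := by
    ext y
    exact ⟨fun hy => hsub hy hx, fun hy => by
      have hy' : y = x := hy
      rw [hy']; exact hx⟩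
  have hxB : x ∉ B := by
    intro hB
    have h1 : x ∈ Sa C fn k ∩ B := ⟨hx.1, hB⟩
    have h2 : x ∈ Sa C fn i ∩ B := ⟨hx.2, hB⟩
    rw [H.P.ends (by omega)] at h1 h2
    have k1 := pI (k := k + 1) gd (i := k) (by omega)
    have k2 := qI (k := k + 1) gd (i := k) (by omega)
    have hki : ∀ c c' : Bool, ((k, c) : ℕ × Bool) ≠ (i, c') := fun c c' h => by
      have : k = i := congrArg Prod.fst h
      omega
    rcases h1 with h1 | h1 <;> rcases h2 with h2 | h2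
    · exact H.P.ne_of (j := (k, false)) (j' := (i, false)) (by show k < k + 1; omega)
        (by show i < k + 1; omega) (hki _ _) k1 i1 (h1.symm.trans h2)
    · exact H.P.ne_of (j := (k, false)) (j' := (i, true)) (by show k < k + 1; omega)
        (by show i < k + 1; omega) (hki _ _) k1 i2 (h1.symm.trans h2)
    · exact H.P.ne_of (j := (k, true)) (j' := (i, false)) (by show k < k + 1; omega)
        (by show i < k + 1; omega) (hki _ _) k2 i1 (h1.symm.trans h2)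
    · exact H.P.ne_of (j := (k, true)) (j' := (i, true)) (by show k < k + 1; omega)
        (by show i < k + 1; omega) (hki _ _) k2 i2 (h1.symm.trans h2)
  have hα : ConBall 0 (Sa C fn k ∩ Sa C fn i) (Sa C fn k ∩ Sa C fn i ∩ B) := by
    have : Sa C fn k ∩ Sa C fn i ∩ B = ∅ := by
      rw [hxe]
      ext y
      simp only [mem_inter_iff, mem_singleton_iff, mem_empty_iff_false, iff_false, not_and]
      rintro rfl; exact hxB
    rw [this, hxe]; exact conBall_zero' x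
  have n1 : ∀ y ∈ Sa C fn i, fn k y < 0 → ((Sa C fn i ∩ C₁) \ Sa C fn k).Nonempty :=
    fun y hy h1 => ⟨y, ⟨hy, (H.mem₁ hy.1).2 h1.le⟩, fun h2 => h1.ne h2.2⟩
  have n2 : ∀ y ∈ Sa C fn i, 0 < fn k y → ((Sa C fn i ∩ C₂) \ Sa C fn k).Nonempty :=
    fun y hy h1 => ⟨y, ⟨hy, (H.mem₂ hy.1).2 h1.le⟩, fun h2 => h1.ne' h2.2⟩
  have hn12 : ((Sa C fn i ∩ C₁) \ Sa C fn k).Nonempty ∧ ((Sa C fn i ∩ C₂) \ Sa C fn k).Nonempty := by
    cases b
    · exact ⟨n1 _ e2 (H.sgn_out (j := (i, true)) hi hn i2), n2 _ e1 (H.sgn_in hj i1)⟩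
    · exact ⟨n1 _ e1 (H.sgn_out (j := (i, false)) hi hn i1), n2 _ e2 (H.sgn_in hj i2)⟩
  have := cut_sheet (n := 0) cutP_zero H.cut (H.P.hS i (by omega)) (fun y hy => hy.1) hα hn12.1 hn12.2
  have t1 : Sa C fn i ∩ C₁ = Sa C₁ fn i := by
    ext y; exact ⟨fun h => ⟨h.2, h.1.2⟩, fun h => ⟨⟨H.C₁C h.1, h.2⟩, h.1⟩⟩
  have t2 : Sa C fn i ∩ C₂ = Sa C₂ fn i := by
    ext y; exact ⟨fun h => ⟨h.2, h.1.2⟩, fun h => ⟨⟨H.C₂C h.1, h.2⟩, h.1⟩⟩
  rw [t1, t2] at this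
  exact this

/-- an arc without end points inside lies below the last arc -/
theorem below {i : ℕ} (hi : i < k) (hj : ∀ b, (i, b) ∉ Kk k A) :
    ∀ x ∈ Sa C fn i, fn k x < 0 := by
  have gd := H.P.pos.good
  have hpre : IsPreconnected (Sa C fn i) := (H.P.hS i (by omega)).isPreconnected'
  have e1 := H.P.p_mem (i := i) (by omega)
  have i1 := pI (k := k + 1) gd (i := i) (by omega)
  have h0 : ∀ x ∈ Sa C fn i, fn k x ≠ 0 := by
    intro x hx h0
    have hl := H.P.link i (by omega) k (by omega) (by omega) ⟨x, hx, hx.1, h0⟩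
    obtain ⟨b, hb⟩ := H.P.pos.link_mem hi (Or.inl hl)
    exact hj b hb
  have hcont : ContinuousOn (fn k) (Sa C fn i) := (H.P.hfn k (by omega)).mono fun x hx => hx.1
  intro x hx
  by_contra hc
  exact sign_const hpre hcont h0 hx e1 (lt_of_le_of_ne (not_lt.1 hc) (h0 x hx).symm)
    (H.sgn_out (j := (i, false)) hi (hj false) i1)

end Stp

end P073.H31
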