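import Vale.Agent.P073.H31.PlMod

/-!
# P073, H31, METRIC: local form of the weighted estimates

`ArcD.dens` is the density of the ramps of an arc.  On an interval where the sum of the densities
is at most `K` the weighted sum of the trapezoid functions is `K`-Lipschitz.
-/

open Set MeasureTheory intervalIntegral

namespace P073.H31

/-- indicator of an interval -/
noncomputable def stp (c d m b : ℝ) : ℝ := (Icc c d).indicator (fun _ => m) b

theorem stp_nonneg {c d m b : ℝ} (hm : 0 ≤ m) : 0 ≤ stp c d m b :=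
  indicator_nonneg (fun _ _ => hm) _

theorem stp_integrable (c d m a a' : ℝ) : IntervalIntegrable (stp c d m) volume a a' := by
  have h : Integrable (stp c d m) volume :=
    (integrable_indicator_iff measurableSet_Icc).2 (integrableOn_const (by simp))
  exact h.intervalIntegrable

/-- clamp to `[c, d]` -/
noncomputable def clp (c d x : ℝ) : ℝ := max c (min d x)

theorem integral_stp {c d m a a' : ℝ} (h : a ≤ a') (hcd : c ≤ d) (hm : 0 ≤ m) :
    m * (clp c d a' - clp c d a) ≤ ∫ b in a..a', stp c d m b := by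
  rw [integral_of_le h]
  show _ ≤ ∫ b in Ioc a a', (Icc c d).indicator (fun _ => m) b
  rw [setIntegral_indicator measurableSet_Icc, setIntegral_const, smul_eq_mul, mul_comm]
  refine mul_le_mul_of_nonneg_right ?_ hm
  have h1 : Ioc (max c a) (min d a') ⊆ Ioc a a' ∩ Icc c d := by
    rintro x ⟨h1, h2⟩
    exact ⟨⟨(le_max_right _ _).trans_lt h1, h2.trans (min_le_right _ _)⟩,
      ((le_max_left _ _).trans_lt h1).le, h2.trans (min_le_left _ _)⟩
  have h2 : volume.real (Ioc (max c a) (min d a')) ≤ volume.real (Ioc a a' ∩ Icc c d) := by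
    refine measureReal_mono h1 ?_
    exact ((measure_mono inter_subset_right).trans_lt (by simp)).ne
  refine le_trans ?_ h2
  rw [Real.volume_real_Ioc]
  unfold clp
  rcases le_total d a with h3 | h3
  · have e1 : min d a = d := min_eq_left h3
    have e2 : min d a' = d := min_eq_left (h3.trans h)
    rw [e1, e2, sub_self]
    exact le_max_right _ _
  · rcases le_total a' c with h4 | h4
    · have e1 : max c (min d a) = c := max_eq_left ((min_le_right _ _).trans (h.trans h4))
      have e2 : max c (min d a') = c := max_eq_left ((min_le_right _ _).trans h4)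
      rw [e1, e2, sub_self]
      exact le_max_right _ _
    · have e1 : min d a = a := min_eq_right h3
      have e2 : max c (min d a') = min d a' := max_eq_right (le_min hcd h4)
      rw [e1, e2]
      exact le_max_left _ _

namespace ArcD

variable {A : ArcD}

/-- **the ramp density** of an arc -/
noncomputable def dens (A : ArcD) (b : ℝ) : ℝ :=
  stp A.p (A.p + 2 * A.w) (A.om / A.w) b + stp (A.q - 2 * A.w') A.q (A.om / A.w') b

theorem Good.dens_nonneg (h : A.Good) (b : ℝ) : 0 ≤ A.dens b :=
  add_nonneg (stp_nonneg (div_nonneg h.om0.le h.w0.le)) (stp_nonneg (div_nonneg h.om0.le h.w0'.le))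

theorem dens_integrable (a a' : ℝ) : IntervalIntegrable A.dens volume a a' :=
  (stp_integrable _ _ _ _ _).add (stp_integrable _ _ _ _ _)

theorem Good.xL_clp (h : A.Good) (a : ℝ) :
    max 0 (A.xL a) = (clp A.p (A.p + 2 * A.w) a - A.p) / A.w := by
  have hw := h.w0
  unfold xL clp
  rcases le_total a A.p with h1 | h1
  · rw [max_eq_left (a := A.p) ((min_le_right _ _).trans h1), sub_self, zero_div]
    apply max_eq_left
    exact (min_le_right _ _).trans (div_nonpos_of_nonpos_of_nonneg (by linarith) hw.le)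
  · rcases le_total a (A.p + 2 * A.w) with h2 | h2
    · rw [min_eq_right h2, max_eq_right h1]
      have h3 : (a - A.p) / A.w ≤ 2 := by rw [div_le_iff₀ hw]; linarith
      rw [min_eq_right h3, max_eq_right (div_nonneg (by linarith) hw.le)]
    · rw [min_eq_left h2, max_eq_right (show A.p ≤ A.p + 2 * A.w by linarith)]
      have h3 : 2 ≤ (a - A.p) / A.w := by rw [le_div_iff₀ hw]; linarith
      rw [min_eq_left h3, max_eq_right zero_le_two]
      field_simp; ring

theorem Good.xR_clp (h : A.Good) (a : ℝ) :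
    max 0 (A.xR a) = (A.q - clp (A.q - 2 * A.w') A.q a) / A.w' := by
  have hw := h.w0'
  unfold xR clp
  rcases le_total a (A.q - 2 * A.w') with h1 | h1
  · rw [max_eq_left (a := A.q - 2 * A.w') ((min_le_right _ _).trans h1)]
    have h3 : 2 ≤ (A.q - a) / A.w' := by rw [le_div_iff₀ hw]; linarith
    rw [min_eq_left h3, max_eq_right zero_le_two]
    field_simp; ring
  · rcases le_total a A.q with h2 | h2
    · rw [min_eq_right h2, max_eq_right h1]
      have h3 : (A.q - a) / A.w' ≤ 2 := by rw [div_le_iff₀ hw]; linarith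
      rw [min_eq_right h3, max_eq_right (div_nonneg (by linarith) hw.le)]
    · rw [min_eq_left h2, max_eq_right (show A.q - 2 * A.w' ≤ A.q by linarith), sub_self,
        zero_div]
      apply max_eq_left
      exact (min_le_right _ _).trans (div_nonpos_of_nonpos_of_nonneg (by linarith) hw.le)

theorem lam_eq_min (a : ℝ) : A.lam a = min (max 0 (A.xL a)) (max 0 (A.xR a)) := by
  unfold lam
  exact max_min_distrib_left _ _ _

theorem clp_mono {c d x y : ℝ} (h : x ≤ y) : clp c d x ≤ clp c d y := by
  unfold clp; gcongr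

theorem Good.lam_le (h : A.Good) {a a' : ℝ} (ha : a ≤ a') :
    A.om * |A.lam a - A.lam a'| ≤ ∫ b in a..a', A.dens b := by
  have h1 := integral_stp (c := A.p) (d := A.p + 2 * A.w) (m := A.om / A.w) ha
    (by linarith [h.w0]) (div_nonneg h.om0.le h.w0.le)
  have h2 := integral_stp (c := A.q - 2 * A.w') (d := A.q) (m := A.om / A.w') ha
    (by linarith [h.w0']) (div_nonneg h.om0.le h.w0'.le)
  have h3 : ∫ b in a..a', A.dens b = (∫ b in a..a', stp A.p (A.p + 2 * A.w) (A.om / A.w) b) +
      ∫ b in a..a', stp (A.q - 2 * A.w') A.q (A.om / A.w') b :=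
    integral_add (stp_integrable _ _ _ _ _) (stp_integrable _ _ _ _ _)
  rw [h3]
  refine le_trans ?_ (add_le_add h1 h2)
  have m1 := clp_mono (c := A.p) (d := A.p + 2 * A.w) ha
  have m2 := clp_mono (c := A.q - 2 * A.w') (d := A.q) ha
  rw [lam_eq_min, lam_eq_min, h.xL_clp, h.xL_clp, h.xR_clp, h.xR_clp]
  set u := clp A.p (A.p + 2 * A.w) a
  set u' := clp A.p (A.p + 2 * A.w) a'
  set v := clp (A.q - 2 * A.w') A.q a
  set v' := clp (A.q - 2 * A.w') A.q a'
  have hw := h.w0
  have hw' := h.w0'
  have ho := h.om0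
  have h4 := abs_min_sub_min_le_max ((u - A.p) / A.w) ((A.q - v) / A.w') ((u' - A.p) / A.w)
    ((A.q - v') / A.w')
  have h5 : |(u - A.p) / A.w - (u' - A.p) / A.w| = (u' - u) / A.w := by
    rw [← sub_div, abs_div, abs_of_pos hw, sub_sub_sub_cancel_right, abs_of_nonpos (by linarith)]
    ring
  have h6 : |(A.q - v) / A.w' - (A.q - v') / A.w'| = (v' - v) / A.w' := by
    rw [← sub_div, abs_div, abs_of_pos hw', sub_sub_sub_cancel_left, abs_of_nonneg (by linarith)]
  rw [h5, h6] at h4
  have h7 : 0 ≤ (u' - u) / A.w := div_nonneg (by linarith) hw.le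
  have h8 : 0 ≤ (v' - v) / A.w' := div_nonneg (by linarith) hw'.le
  have h9 : |min ((u - A.p) / A.w) ((A.q - v) / A.w') - min ((u' - A.p) / A.w)
      ((A.q - v') / A.w')| ≤ (u' - u) / A.w + (v' - v) / A.w' :=
    h4.trans (max_le (by linarith) (by linarith))
  calc _ ≤ A.om * ((u' - u) / A.w + (v' - v) / A.w') := mul_le_mul_of_nonneg_left h9 ho.le
    _ = _ := by ring

end ArcD

/-- **the horizontal sum, integral form** -/
theorem lam_sum_int {k : ℕ} {A : ℕ → ArcD} (hA : ∀ i < k, (A i).Good) {a a' : ℝ} (ha : a ≤ a') :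
    ∑ i ∈ Finset.range k, (A i).om * |(A i).lam a - (A i).lam a'| ≤
      ∫ b in a..a', ∑ i ∈ Finset.range k, (A i).dens b := by
  rw [intervalIntegral.integral_finsetSum fun i _ => (A i).dens_integrable a a']
  exact Finset.sum_le_sum fun i hi => (hA i (Finset.mem_range.1 hi)).lam_le ha

/-- **the horizontal sum, local Lipschitz form** -/
theorem lam_sum_le {k : ℕ} {A : ℕ → ArcD} (hA : ∀ i < k, (A i).Good) {a a' K : ℝ}
    (hK : ∀ b ∈ uIcc a a', ∑ i ∈ Finset.range k, (A i).dens b ≤ K) :
    ∑ i ∈ Finset.range k, (A i).om * |(A i).lam a - (A i).lam a'| ≤ K * |a - a'| := by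
  wlog h : a ≤ a' generalizing a a'
  · have := this (a := a') (a' := a) (by rwa [uIcc_comm]) (le_of_not_ge h)
    rw [abs_sub_comm a a']
    refine le_trans (le_of_eq ?_) this
    exact Finset.sum_congr rfl fun i _ => by rw [abs_sub_comm]
  · refine (lam_sum_int hA h).trans ?_
    rw [uIcc_of_le h] at hK
    have h1 : ∫ b in a..a', ∑ i ∈ Finset.range k, (A i).dens b ≤ ∫ _b in a..a', K := by
      refine integral_mono_on h ?_ intervalIntegrable_const hK
      have := IntervalIntegrable.sum (μ := volume) (a := a) (b := a') (Finset.range k)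
        (f := fun i => (A i).dens) (fun i _ => (A i).dens_integrable a a')
      have e : (∑ i ∈ Finset.range k, (A i).dens) = fun b => ∑ i ∈ Finset.range k, (A i).dens b := by
        funext b; simp
      rwa [e] at this
    refine h1.trans (le_of_eq ?_)
    rw [intervalIntegral.integral_const, smul_eq_mul, abs_of_nonpos (by linarith)]
    ring

/-- **(C1)** weighted Lipschitz estimate of the band coordinates, local form -/
theorem md_lip {ws : ℝ} (h0 : 0 < ws) {k : ℕ} {A : ℕ → ArcD} (hA : ∀ i < k, (A i).Good)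
    {x y : ℝ × ℝ} {K : ℝ} (hK : ∀ b ∈ uIcc x.1 y.1, ∑ i ∈ Finset.range k, (A i).dens b ≤ K) :
    ∑ i ∈ Finset.range k, (A i).om * |md ws A k i x.1 x.2 - md ws A k i y.1 y.2| ≤
      2 * K * |x.1 - y.1| + 2 * Wt ws A k * |x.2 - y.2| := by
  have ho : ∀ i < k, 0 < (A i).om := fun i hi => (hA i hi).om0
  have h1 := horiz h0 ho x.1 y.1 x.2
  have h2 := vert h0 ho y.1 x.2 y.2
  have h3 := lam_sum_le hA hK
  have h4 : ∑ i ∈ Finset.range k, (A i).om * |md ws A k i x.1 x.2 - md ws A k i y.1 y.2| ≤
      ∑ i ∈ Finset.range k, (A i).om * |md ws A k i x.1 x.2 - md ws A k i y.1 x.2| +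
      ∑ i ∈ Finset.range k, (A i).om * |md ws A k i y.1 x.2 - md ws A k i y.1 y.2| := by
    rw [← Finset.sum_add_distrib]
    refine Finset.sum_le_sum fun i hi => ?_
    rw [← mul_add]
    exact mul_le_mul_of_nonneg_left (abs_sub_le _ _ _) (ho i (Finset.mem_range.1 hi)).le
  linarith

end P073.H31
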