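import Vale.Agent.P073.H31.PlCon

/-!
# P073, H31, METRIC: collapse of the last band, `Hy → FD`
-/

open Set Metric Topology Filter

namespace P073.H31

/-- the region above the layer, in the coordinates `(a, y)`, `y = (1 - t) / h` -/
def Hy (A : ArcD) : Set (ℝ × ℝ) := {x | A.p ≤ x.1 ∧ x.1 ≤ A.q ∧ 0 ≤ x.2 ∧ x.2 ≤ A.lam x.1}

/-- the profile of the lens -/
noncomputable def gL (A : ArcD) (b : ℝ) : ℝ := min 1 ((b - (A.p + A.w)) / A.w)
noncomputable def gR (A : ArcD) (b : ℝ) : ℝ := min 1 ((A.q - A.w' - b) / A.w')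
noncomputable def uu (A : ArcD) (b : ℝ) : ℝ := min (gL A b) (gR A b)

/-- the lens -/
def D0 (A : ArcD) : Set (ℝ × ℝ) :=
  {x | A.p + A.w ≤ x.1 ∧ x.1 ≤ A.q - A.w' ∧ 0 ≤ x.2 ∧ x.2 ≤ uu A x.1}

/-- the filled lens -/
def FD (A : ArcD) : Set ((ℝ × ℝ) × ℝ) :=
  {x | x.1 ∈ D0 A ∧ 0 ≤ x.2 ∧ x.2 ≤ 1 ∧ (x.1.2 < uu A x.1.1 → x.2 = 1)}

/-- horizontal position -/
noncomputable def ff (A : ArcD) (x : ℝ × ℝ) : ℝ :=
  x.1 + A.w * max 0 (min (1 - A.xL x.1 / 2) (x.2 - A.xL x.1 + 1)) -
    A.w' * max 0 (min (1 - A.xR x.1 / 2) (x.2 - A.xR x.1 + 1))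

/-- depth -/
noncomputable def yy (A : ArcD) (x : ℝ × ℝ) : ℝ := min x.2 (min (A.xL x.1 / 2) (A.xR x.1 / 2))

/-- band coordinate -/
noncomputable def zz (A : ArcD) (x : ℝ × ℝ) : ℝ := cl1 (A.lam x.1 - x.2)

noncomputable def lcF (A : ArcD) (x : ℝ × ℝ) : (ℝ × ℝ) × ℝ := ((ff A x, yy A x), zz A x)

noncomputable def lcG (A : ArcD) (x : (ℝ × ℝ) × ℝ) : ℝ × ℝ :=
  (x.1.1 - A.w * (1 - max (gL A x.1.1) x.2) + A.w' * (1 - max (gR A x.1.1) x.2),
    x.1.2 + max 0 (uu A x.1.1 - x.2))

section plc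

variable {E : Type*} [NormedAddCommGroup E] [NormedSpace ℝ E]

theorem PLc.gL {f : E → ℝ} (A : ArcD) (hf : PLc f) : PLc (fun x => gL A (f x)) :=
  (PLc.const 1).min ((hf.sub (PLc.const _)).divc A.w)

theorem PLc.gR {f : E → ℝ} (A : ArcD) (hf : PLc f) : PLc (fun x => gR A (f x)) :=
  (PLc.const 1).min (((PLc.const _).sub hf).divc A.w')

theorem PLc.uu {f : E → ℝ} (A : ArcD) (hf : PLc f) : PLc (fun x => uu A (f x)) :=
  (hf.gL A).min (hf.gR A)

theorem plc_ff (A : ArcD) : PLc (ff A) := by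
  have h1 : PLc (fun x : ℝ × ℝ => x.1) := PLc.id.fst
  have h2 : PLc (fun x : ℝ × ℝ => x.2) := PLc.id.snd
  exact (h1.add (((PLc.const 0).max (((PLc.const 1).sub ((h1.xL A).divc 2)).min
    ((h2.sub (h1.xL A)).add (PLc.const 1)))).cmul A.w)).sub
    (((PLc.const 0).max (((PLc.const 1).sub ((h1.xR A).divc 2)).min
    ((h2.sub (h1.xR A)).add (PLc.const 1)))).cmul A.w')

theorem plc_yy (A : ArcD) : PLc (yy A) := by
  have h1 : PLc (fun x : ℝ × ℝ => x.1) := PLc.id.fst
  have h2 : PLc (fun x : ℝ × ℝ => x.2) := PLc.id.snd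
  exact h2.min (((h1.xL A).divc 2).min ((h1.xR A).divc 2))

theorem plc_zz (A : ArcD) : PLc (zz A) := by
  have h1 : PLc (fun x : ℝ × ℝ => x.1) := PLc.id.fst
  have h2 : PLc (fun x : ℝ × ℝ => x.2) := PLc.id.snd
  exact ((h1.lam A).sub h2).cl1

theorem plc_lcF (A : ArcD) : PLc (lcF A) := ((plc_ff A).prodMk (plc_yy A)).prodMk (plc_zz A)

theorem plc_lcG (A : ArcD) : PLc (lcG A) := by
  have h1 : PLc (fun x : (ℝ × ℝ) × ℝ => x.1.1) := PLc.id.fst.fst
  have h2 : PLc (fun x : (ℝ × ℝ) × ℝ => x.1.2) := PLc.id.fst.snd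
  have h3 : PLc (fun x : (ℝ × ℝ) × ℝ => x.2) := PLc.id.snd
  exact ((h1.sub (((PLc.const 1).sub ((h1.gL A).max h3)).cmul A.w)).add
    (((PLc.const 1).sub ((h1.gR A).max h3)).cmul A.w')).prodMk
    (h2.add ((PLc.const 0).max ((h1.uu A).sub h3)))

end plc

theorem locCone_Hy (A : ArcD) : LocCone (Hy A) := by
  have h1 : PLc (fun x : ℝ × ℝ => x.1) := PLc.id.fst
  have h2 : PLc (fun x : ℝ × ℝ => x.2) := PLc.id.snd
  have := ((PLc.const A.p).locCone_le h1).inter ((h1.locCone_le (PLc.const A.q)).inter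
    (((PLc.const 0).locCone_le h2).inter (h2.locCone_le (h1.lam A))))
  exact this

theorem locCone_D0 (A : ArcD) : LocCone (D0 A) := by
  have h1 : PLc (fun x : ℝ × ℝ => x.1) := PLc.id.fst
  have h2 : PLc (fun x : ℝ × ℝ => x.2) := PLc.id.snd
  have := ((PLc.const (A.p + A.w)).locCone_le h1).inter
    ((h1.locCone_le (PLc.const (A.q - A.w'))).inter
    (((PLc.const 0).locCone_le h2).inter (h2.locCone_le (h1.uu A))))
  exact this

/-! ### numbers -/

theorem num1 {x y : ℝ} (h0 : 0 ≤ y) (h1 : y ≤ x) (h2 : x ≤ 2) :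
    let b := max 0 (min (1 - x / 2) (y - x + 1))
    0 ≤ x - 1 + b ∧ x - 1 + b ≤ 1 ∧ min y (x / 2) ≤ x - 1 + b ∧
    (min y (x / 2) < x - 1 + b → cl1 (x - y) = 1) ∧
    (x - 1 + b) - (1 - max (x - 1 + b) (cl1 (x - y))) + 1 = x ∧
    min y (x / 2) + max 0 (x - 1 + b - cl1 (x - y)) = y := by
  intro b
  rcases le_total (y - x + 1) 0 with ha | ha
  · have hb : b = 0 := max_eq_left ((min_le_right _ _).trans ha)
    have hz : cl1 (x - y) = 1 := cl1_eq_one (by linarith)
    have hm : min y (x / 2) = y := min_eq_left (by linarith)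
    rw [hb, hz, hm, max_eq_right (by linarith : x - 1 + 0 ≤ 1),
      max_eq_left (by linarith : x - 1 + 0 - 1 ≤ 0)]
    refine ⟨by linarith, by linarith, by linarith, fun _ => rfl, by ring, by ring⟩
  · have hz : cl1 (x - y) = x - y := cl1_eq_self (by linarith) (by linarith)
    rcases le_total y (x / 2) with hb' | hb'
    · have hb : b = y - x + 1 := by
        show max 0 _ = _
        rw [min_eq_right (by linarith), max_eq_right ha]
      rw [hb, hz, min_eq_left hb']
      have e : x - 1 + (y - x + 1) = y := by ring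
      rw [e, max_eq_right (by linarith : y ≤ x - y), max_eq_left (by linarith : y - (x - y) ≤ 0)]
      refine ⟨h0, by linarith, le_rfl, fun h => absurd h (lt_irrefl _), by ring, by ring⟩
    · have hb : b = 1 - x / 2 := by
        show max 0 _ = _
        rw [min_eq_left (by linarith), max_eq_right (by linarith)]
      rw [hb, hz, min_eq_right hb']
      have e : x - 1 + (1 - x / 2) = x / 2 := by ring
      rw [e, max_eq_left (by linarith : x - y ≤ x / 2),
        max_eq_right (by linarith : 0 ≤ x / 2 - (x - y))]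
      refine ⟨by linarith, by linarith, le_rfl, fun h => absurd h (lt_irrefl _), by ring, by ring⟩

theorem num2 {g y0 z : ℝ} (h0 : 0 ≤ y0) (h1 : y0 ≤ g) (h2 : g ≤ 1) (hz0 : 0 ≤ z) (hz1 : z ≤ 1)
    (hz : y0 < g → z = 1) :
    let x := g + max g z
    let y := y0 + max 0 (g - z)
    0 ≤ y ∧ y ≤ x ∧ x ≤ 2 ∧ x - 1 + max 0 (min (1 - x / 2) (y - x + 1)) = g ∧
      min y (x / 2) = y0 ∧ cl1 (x - y) = z := by
  intro x y
  rcases h1.lt_or_eq with h | h
  · have hz' := hz h
    subst hz'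
    have hx : x = g + 1 := by show g + max g 1 = _; rw [max_eq_right h2]
    have hy : y = y0 := by show y0 + max 0 (g - 1) = _; rw [max_eq_left (by linarith), add_zero]
    rw [hx, hy]
    refine ⟨h0, by linarith, by linarith, ?_, min_eq_left (by linarith), cl1_eq_one (by linarith)⟩
    rw [min_eq_right (by linarith), max_eq_left (by linarith)]; ring
  · subst h
    rcases le_total z y0 with h3 | h3
    · have hx : x = 2 * y0 := by show y0 + max y0 z = _; rw [max_eq_left h3]; ring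
      have hy : y = 2 * y0 - z := by
        show y0 + max 0 (y0 - z) = _; rw [max_eq_right (by linarith)]; ring
      rw [hx, hy]
      refine ⟨by linarith, by linarith, by linarith, ?_, ?_, ?_⟩
      · rw [min_eq_left (by linarith), max_eq_right (by linarith)]; ring
      · rw [min_eq_right (by linarith)]; ring
      · rw [cl1_eq_self (by linarith) (by linarith)]; ring
    · have hx : x = y0 + z := by show y0 + max y0 z = _; rw [max_eq_right h3]
      have hy : y = y0 := by show y0 + max 0 (y0 - z) = _; rw [max_eq_left (by linarith), add_zero]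
      rw [hx, hy]
      refine ⟨h0, by linarith, by linarith, ?_, min_eq_left (by linarith), ?_⟩
      · rw [min_eq_right (by linarith), max_eq_right (by linarith)]; ring
      · rw [cl1_eq_self (by linarith) (by linarith)]; ring

variable {A : ArcD}

/-! ### the three zones -/

theorem ff_left (h : A.Good) {a y : ℝ} (ha : a ≤ A.p + 2 * A.w) (_h0 : A.p ≤ a) (_hy : y ≤ 2) :
    ff A (a, y) = a + A.w * max 0 (min (1 - (a - A.p) / A.w / 2) (y - (a - A.p) / A.w + 1)) := by
  have h1 := h.xL_eq ha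
  have h2 := h.xR_two (a := a) (by linarith [h.pq])
  simp only [ff]
  rw [h1, h2, max_eq_left (a := (0:ℝ)) (b := min (1 - 2 / 2) _) ?_]
  · ring
  · exact (min_le_left _ _).trans (by norm_num)

theorem ff_right (h : A.Good) {a y : ℝ} (ha : A.q - 2 * A.w' ≤ a) (_h0 : a ≤ A.q) (_hy : y ≤ 2) :
    ff A (a, y) = a - A.w' * max 0 (min (1 - (A.q - a) / A.w' / 2) (y - (A.q - a) / A.w' + 1)) := by
  have h1 := h.xR_eq ha
  have h2 := h.xL_two (a := a) (by linarith [h.pq])
  simp only [ff]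
  rw [h1, h2, max_eq_left (a := (0:ℝ)) (b := min (1 - 2 / 2) _) ?_]
  · ring
  · exact (min_le_left _ _).trans (by norm_num)

theorem ff_mid (h : A.Good) {a y : ℝ} (ha : A.p + 2 * A.w ≤ a) (h0 : a ≤ A.q - 2 * A.w') :
    ff A (a, y) = a := by
  have h1 := h.xL_two ha
  have h2 := h.xR_two h0
  simp only [ff]
  rw [h1, h2, max_eq_left (a := (0:ℝ)) (b := min (1 - 2 / 2) _) ?_]
  · ring
  · exact (min_le_left _ _).trans (by norm_num)

theorem gL_eq (h : A.Good) {b : ℝ} (hb : b ≤ A.p + 2 * A.w) : gL A b = (b - (A.p + A.w)) / A.w := by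
  apply min_eq_right
  rw [div_le_iff₀ h.w0]; linarith

theorem gL_one (h : A.Good) {b : ℝ} (hb : A.p + 2 * A.w ≤ b) : gL A b = 1 := by
  apply min_eq_left
  rw [le_div_iff₀ h.w0]; linarith

theorem gR_eq (h : A.Good) {b : ℝ} (hb : A.q - 2 * A.w' ≤ b) : gR A b = (A.q - A.w' - b) / A.w' := by
  apply min_eq_right
  rw [div_le_iff₀ h.w0']; linarith

theorem gR_one (h : A.Good) {b : ℝ} (hb : b ≤ A.q - 2 * A.w') : gR A b = 1 := by
  apply min_eq_left
  rw [le_div_iff₀ h.w0']; linarith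

theorem gL_le_one (b : ℝ) : gL A b ≤ 1 := min_le_left _ _
theorem gR_le_one (b : ℝ) : gR A b ≤ 1 := min_le_left _ _

theorem uu_left (h : A.Good) {b : ℝ} (hb : b ≤ A.p + 2 * A.w) : uu A b = gL A b := by
  rw [uu, gR_one h (by linarith [h.pq]), min_eq_left (gL_le_one _)]

theorem uu_right (h : A.Good) {b : ℝ} (hb : A.q - 2 * A.w' ≤ b) : uu A b = gR A b := by
  rw [uu, gL_one h (by linarith [h.pq]), min_eq_right (gR_le_one _)]

theorem uu_mid (h : A.Good) {b : ℝ} (hb : A.p + 2 * A.w ≤ b) (hb' : b ≤ A.q - 2 * A.w') :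
    uu A b = 1 := by
  rw [uu, gL_one h hb, gR_one h hb', min_self]

theorem uu_le_one (b : ℝ) : uu A b ≤ 1 := (min_le_left _ _).trans (gL_le_one _)

theorem uu_nonneg (h : A.Good) {b : ℝ} (h1 : A.p + A.w ≤ b) (h2 : b ≤ A.q - A.w') : 0 ≤ uu A b :=
  le_min (le_min zero_le_one (div_nonneg (by linarith) h.w0.le))
    (le_min zero_le_one (div_nonneg (by linarith) h.w0'.le))

theorem uu_pos (h : A.Good) {b : ℝ} (h1 : A.p + A.w < b) (h2 : b < A.q - A.w') : 0 < uu A b :=
  lt_min (lt_min zero_lt_one (div_pos (by linarith) h.w0))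
    (lt_min zero_lt_one (div_pos (by linarith) h.w0'))

/-- the collapse: zones -/
theorem lc_left (h : A.Good) {a y : ℝ} (h0 : A.p ≤ a) (ha : a ≤ A.p + 2 * A.w) (hy0 : 0 ≤ y)
    (hy : y ≤ A.lam a) : lcF A (a, y) ∈ FD A ∧ lcG A (lcF A (a, y)) = (a, y) ∧
      ff A (a, y) ≤ A.p + 2 * A.w := by
  have hw := h.w0
  rw [h.lam_left h0 ha] at hy
  have hx2 : (a - A.p) / A.w ≤ 2 := by rw [div_le_iff₀ hw]; linarith
  have hff := ff_left h ha h0 (hy.trans hx2)
  have hyy : yy A (a, y) = min y ((a - A.p) / A.w / 2) := by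
    simp only [yy]
    rw [h.xL_eq ha, h.xR_two (by linarith [h.pq]), min_eq_left (a := (a - A.p) / A.w / 2)]
    linarith
  have hzz : zz A (a, y) = cl1 ((a - A.p) / A.w - y) := by
    simp only [zz]; rw [h.lam_left h0 ha]
  obtain ⟨n1, n2, n3, n4, n5, n6⟩ := num1 hy0 hy hx2
  set x := (a - A.p) / A.w with hx
  set b := max 0 (min (1 - x / 2) (y - x + 1)) with hb
  have ea : a = A.p + A.w * x := by rw [hx]; field_simp; ring
  have hf' : ff A (a, y) = A.p + A.w + A.w * (x - 1 + b) := by rw [hff, ea]; ring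
  have hf2 : ff A (a, y) ≤ A.p + 2 * A.w := by rw [hf']; nlinarith
  have hf1 : A.p + A.w ≤ ff A (a, y) := by rw [hf']; nlinarith
  have hgL : gL A (ff A (a, y)) = x - 1 + b := by
    rw [gL_eq h hf2, hf']; field_simp; ring
  have hu : uu A (ff A (a, y)) = x - 1 + b := by rw [uu_left h hf2, hgL]
  have hgR : gR A (ff A (a, y)) = 1 := gR_one h (by linarith [h.pq])
  refine ⟨⟨⟨hf1, by show ff A (a, y) ≤ _; linarith [h.pq, h.w0'], ?_, ?_⟩, ?_, ?_, ?_⟩, ?_, hf2⟩
  · show 0 ≤ yy A (a, y)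
    rw [hyy]
    exact le_min hy0 (by linarith [hy0.trans hy])
  · show yy A (a, y) ≤ uu A (ff A (a, y))
    rw [hyy, hu]; exact n3
  · exact cl1_nonneg _
  · exact cl1_le_one _
  · show yy A (a, y) < uu A (ff A (a, y)) → zz A (a, y) = 1
    rw [hyy, hu, hzz]; exact n4
  · show lcG A ((ff A (a, y), yy A (a, y)), zz A (a, y)) = (a, y)
    simp only [lcG]
    rw [hgL, hgR, hu, hyy, hzz, n6, max_eq_left (a := (1:ℝ)) (cl1_le_one _), sub_self, mul_zero,
      add_zero]
    refine Prod.ext ?_ rfl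
    show ff A (a, y) - A.w * (1 - max (x - 1 + b) (cl1 (x - y))) = a
    rw [hf']
    have : A.p + A.w + A.w * (x - 1 + b) - A.w * (1 - max (x - 1 + b) (cl1 (x - y))) =
      A.p + A.w * ((x - 1 + b) - (1 - max (x - 1 + b) (cl1 (x - y))) + 1) := by ring
    rw [this, n5, ea]

theorem lc_right (h : A.Good) {a y : ℝ} (h0 : a ≤ A.q) (ha : A.q - 2 * A.w' ≤ a) (hy0 : 0 ≤ y)
    (hy : y ≤ A.lam a) : lcF A (a, y) ∈ FD A ∧ lcG A (lcF A (a, y)) = (a, y) ∧
      A.q - 2 * A.w' ≤ ff A (a, y) := by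
  have hw := h.w0'
  rw [h.lam_right h0 ha] at hy
  have hx2 : (A.q - a) / A.w' ≤ 2 := by rw [div_le_iff₀ hw]; linarith
  have hff := ff_right h ha h0 (hy.trans hx2)
  have hyy : yy A (a, y) = min y ((A.q - a) / A.w' / 2) := by
    simp only [yy]
    rw [h.xR_eq ha, h.xL_two (by linarith [h.pq]), min_eq_right (b := (A.q - a) / A.w' / 2)]
    linarith
  have hzz : zz A (a, y) = cl1 ((A.q - a) / A.w' - y) := by
    simp only [zz]; rw [h.lam_right h0 ha]
  obtain ⟨n1, n2, n3, n4, n5, n6⟩ := num1 hy0 hy hx2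
  set x := (A.q - a) / A.w' with hx
  set b := max 0 (min (1 - x / 2) (y - x + 1)) with hb
  have ea : a = A.q - A.w' * x := by rw [hx]; field_simp; ring
  have hf' : ff A (a, y) = A.q - A.w' - A.w' * (x - 1 + b) := by rw [hff, ea]; ring
  have hf2 : A.q - 2 * A.w' ≤ ff A (a, y) := by rw [hf']; nlinarith
  have hf1 : ff A (a, y) ≤ A.q - A.w' := by rw [hf']; nlinarith
  have hgR : gR A (ff A (a, y)) = x - 1 + b := by
    rw [gR_eq h hf2, hf']; field_simp; ring
  have hu : uu A (ff A (a, y)) = x - 1 + b := by rw [uu_right h hf2, hgR]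
  have hgL : gL A (ff A (a, y)) = 1 := gL_one h (by linarith [h.pq])
  refine ⟨⟨⟨by show _ ≤ ff A (a, y); linarith [h.pq, h.w0], hf1, ?_, ?_⟩, ?_, ?_, ?_⟩, ?_, hf2⟩
  · show 0 ≤ yy A (a, y)
    rw [hyy]
    exact le_min hy0 (by linarith [hy0.trans hy])
  · show yy A (a, y) ≤ uu A (ff A (a, y))
    rw [hyy, hu]; exact n3
  · exact cl1_nonneg _
  · exact cl1_le_one _
  · show yy A (a, y) < uu A (ff A (a, y)) → zz A (a, y) = 1
    rw [hyy, hu, hzz]; exact n4
  · show lcG A ((ff A (a, y), yy A (a, y)), zz A (a, y)) = (a, y)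
    simp only [lcG]
    rw [hgL, hgR, hu, hyy, hzz, n6, max_eq_left (a := (1:ℝ)) (cl1_le_one _), sub_self, mul_zero,
      sub_zero]
    refine Prod.ext ?_ rfl
    show ff A (a, y) + A.w' * (1 - max (x - 1 + b) (cl1 (x - y))) = a
    rw [hf']
    have : A.q - A.w' - A.w' * (x - 1 + b) + A.w' * (1 - max (x - 1 + b) (cl1 (x - y))) =
      A.q - A.w' * ((x - 1 + b) - (1 - max (x - 1 + b) (cl1 (x - y))) + 1) := by ring
    rw [this, n5, ea]

theorem lc_mid (h : A.Good) {a y : ℝ} (h0 : A.p + 2 * A.w ≤ a) (ha : a ≤ A.q - 2 * A.w')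
    (hy0 : 0 ≤ y) (hy : y ≤ A.lam a) : lcF A (a, y) ∈ FD A ∧ lcG A (lcF A (a, y)) = (a, y) := by
  rw [h.lam_mid h0 ha] at hy
  have hff : ff A (a, y) = a := ff_mid h h0 ha
  have hyy : yy A (a, y) = min y 1 := by
    simp only [yy]
    rw [h.xL_two h0, h.xR_two ha, min_self]; norm_num
  have hzz : zz A (a, y) = cl1 (2 - y) := by
    simp only [zz]; rw [h.lam_mid h0 ha]
  have hu : uu A (ff A (a, y)) = 1 := by rw [hff]; exact uu_mid h h0 ha
  refine ⟨⟨⟨?_, ?_, ?_, ?_⟩, ?_, ?_, ?_⟩, ?_⟩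
  · show _ ≤ ff A (a, y)
    rw [hff]; linarith [h.w0]
  · show ff A (a, y) ≤ _
    rw [hff]; linarith [h.w0']
  · show 0 ≤ yy A (a, y)
    rw [hyy]; exact le_min hy0 zero_le_one
  · show yy A (a, y) ≤ uu A (ff A (a, y))
    rw [hyy, hu]; exact min_le_right _ _
  · exact cl1_nonneg _
  · exact cl1_le_one _
  · show yy A (a, y) < uu A (ff A (a, y)) → zz A (a, y) = 1
    rw [hyy, hu, hzz]
    intro hlt
    have : y < 1 := by
      by_contra hc
      rw [min_eq_right (not_lt.1 hc)] at hlt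
      exact lt_irrefl _ hlt
    exact cl1_eq_one (by linarith)
  · show lcG A ((ff A (a, y), yy A (a, y)), zz A (a, y)) = (a, y)
    simp only [lcG]
    rw [hu, hff, gL_one h h0, gR_one h ha, hyy, hzz, max_eq_left (cl1_le_one _), sub_self, mul_zero,
      mul_zero, sub_zero, add_zero]
    refine Prod.ext rfl ?_
    show min y 1 + max 0 (1 - cl1 (2 - y)) = y
    rcases le_total y 1 with h1 | h1
    · rw [min_eq_left h1, cl1_eq_one (by linarith), sub_self, max_self, add_zero]
    · rw [min_eq_right h1, cl1_eq_self (by linarith) (by linarith), max_eq_right (by linarith)]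
      ring

theorem lc_all (h : A.Good) {x : ℝ × ℝ} (hx : x ∈ Hy A) :
    lcF A x ∈ FD A ∧ lcG A (lcF A x) = x := by
  obtain ⟨a, y⟩ := x
  obtain ⟨h1, h2, h3, h4⟩ := hx
  simp only at h1 h2 h3 h4
  rcases le_total a (A.p + 2 * A.w) with c | c
  · obtain ⟨k1, k2, _⟩ := lc_left h h1 c h3 h4
    exact ⟨k1, k2⟩
  · rcases le_total a (A.q - 2 * A.w') with c' | c'
    · exact lc_mid h c c' h3 h4
    · obtain ⟨k1, k2, _⟩ := lc_right h h2 c' h3 h4
      exact ⟨k1, k2⟩

theorem lcG_all (h : A.Good) {x : (ℝ × ℝ) × ℝ} (hx : x ∈ FD A) :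
    lcG A x ∈ Hy A ∧ lcF A (lcG A x) = x := by
  obtain ⟨⟨f, y0⟩, z⟩ := x
  obtain ⟨⟨h1, h2, h3, h4⟩, h5, h6, h7⟩ := hx
  simp only at h1 h2 h3 h4 h5 h6 h7
  have hw := h.w0
  have hw' := h.w0'
  rcases le_total f (A.p + 2 * A.w) with c | c
  · -- left
    have hu := uu_left h c
    have hgR : gR A f = 1 := gR_one h (by linarith [h.pq])
    rw [hu] at h4 h7
    obtain ⟨n1, n2, n3, n4, n5, n6⟩ := num2 h3 h4 (gL_le_one f) h5 h6 h7
    set g := gL A f with hg
    set x := g + max g z with hx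
    set y := y0 + max 0 (g - z) with hy
    have eg : f = A.p + A.w + A.w * g := by
      rw [hg, gL_eq h c]; field_simp; ring
    have eG : lcG A ((f, y0), z) = (A.p + A.w * x, y) := by
      simp only [lcG]
      rw [hgR, max_eq_left h6, hu, sub_self, mul_zero, add_zero]
      refine Prod.ext ?_ rfl
      show f - A.w * (1 - max (gL A f) z) = A.p + A.w * x
      rw [← hg, hx, eg]; ring
    have ha1 : A.p ≤ A.p + A.w * x := by nlinarith
    have ha2 : A.p + A.w * x ≤ A.p + 2 * A.w := by nlinarith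
    have ex : (A.p + A.w * x - A.p) / A.w = x := by field_simp; ring
    have hl : A.lam (A.p + A.w * x) = x := by rw [h.lam_left ha1 ha2, ex]
    rw [eG]
    refine ⟨⟨ha1, by show A.p + A.w * x ≤ A.q; linarith [h.pq], n1, by
      show y ≤ A.lam (A.p + A.w * x); rw [hl]; exact n2⟩, ?_⟩
    show ((ff A (A.p + A.w * x, y), yy A (A.p + A.w * x, y)), zz A (A.p + A.w * x, y)) = _
    have e1 : ff A (A.p + A.w * x, y) = f := by
      rw [ff_left h ha2 ha1 (n2.trans n3), ex, eg]
      have : A.p + A.w * x + A.w * max 0 (min (1 - x / 2) (y - x + 1)) =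
        A.p + A.w + A.w * (x - 1 + max 0 (min (1 - x / 2) (y - x + 1))) := by ring
      rw [this, n4]
    have e2 : yy A (A.p + A.w * x, y) = y0 := by
      simp only [yy]
      rw [h.xL_eq ha2, ex, h.xR_two (by linarith [h.pq]), min_eq_left (a := x / 2) (by linarith), n5]
    have e3 : zz A (A.p + A.w * x, y) = z := by
      simp only [zz]; rw [hl, n6]
    rw [e1, e2, e3]
  · rcases le_total f (A.q - 2 * A.w') with c' | c'
    · have hu := uu_mid h c c'
      rw [hu] at h4 h7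
      have eG : lcG A ((f, y0), z) = (f, y0 + (1 - z)) := by
        simp only [lcG]
        rw [gL_one h c, gR_one h c', hu, max_eq_left h6, sub_self, mul_zero, mul_zero, sub_zero,
          add_zero, max_eq_right (by linarith : (0:ℝ) ≤ 1 - z)]
      rw [eG]
      have hl := h.lam_mid c c'
      refine ⟨⟨by show A.p ≤ f; linarith, by show f ≤ A.q; linarith, by
        show 0 ≤ y0 + (1 - z); linarith, by
        show y0 + (1 - z) ≤ A.lam f; rw [hl]; linarith⟩, ?_⟩
      show ((ff A (f, y0 + (1 - z)), yy A (f, y0 + (1 - z))), zz A (f, y0 + (1 - z))) = _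
      have e1 : ff A (f, y0 + (1 - z)) = f := ff_mid h c c'
      have e2 : yy A (f, y0 + (1 - z)) = y0 := by
        simp only [yy]
        rw [h.xL_two c, h.xR_two c', min_self, show (2:ℝ) / 2 = 1 by norm_num]
        rcases h4.lt_or_eq with h8 | h8
        · rw [h7 h8, sub_self, add_zero, min_eq_left h4]
        · rw [h8]; exact min_eq_right (by linarith)
      have e3 : zz A (f, y0 + (1 - z)) = z := by
        simp only [zz]; rw [hl]
        rcases h4.lt_or_eq with h8 | h8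
        · rw [h7 h8]; exact cl1_eq_one (by linarith)
        · rw [h8, cl1_eq_self (by linarith) (by linarith)]; ring
      rw [e1, e2, e3]
    · -- right
      have hu := uu_right h c'
      have hgL : gL A f = 1 := gL_one h (by linarith [h.pq])
      rw [hu] at h4 h7
      obtain ⟨n1, n2, n3, n4, n5, n6⟩ := num2 h3 h4 (gR_le_one f) h5 h6 h7
      set g := gR A f with hg
      set x := g + max g z with hx
      set y := y0 + max 0 (g - z) with hy
      have eg : f = A.q - A.w' - A.w' * g := by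
        rw [hg, gR_eq h c']; field_simp; ring
      have eG : lcG A ((f, y0), z) = (A.q - A.w' * x, y) := by
        simp only [lcG]
        rw [hgL, max_eq_left h6, hu, sub_self, mul_zero, sub_zero]
        refine Prod.ext ?_ rfl
        show f + A.w' * (1 - max (gR A f) z) = A.q - A.w' * x
        rw [← hg, hx, eg]; ring
      have ha1 : A.q - A.w' * x ≤ A.q := by nlinarith
      have ha2 : A.q - 2 * A.w' ≤ A.q - A.w' * x := by nlinarith
      have ex : (A.q - (A.q - A.w' * x)) / A.w' = x := by field_simp; ring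
      have hl : A.lam (A.q - A.w' * x) = x := by rw [h.lam_right ha1 ha2, ex]
      rw [eG]
      refine ⟨⟨by show A.p ≤ A.q - A.w' * x; linarith [h.pq], ha1, n1, by
        show y ≤ A.lam (A.q - A.w' * x); rw [hl]; exact n2⟩, ?_⟩
      show ((ff A (A.q - A.w' * x, y), yy A (A.q - A.w' * x, y)), zz A (A.q - A.w' * x, y)) = _
      have e1 : ff A (A.q - A.w' * x, y) = f := by
        rw [ff_right h ha2 ha1 (n2.trans n3), ex, eg]
        have : A.q - A.w' * x - A.w' * max 0 (min (1 - x / 2) (y - x + 1)) =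
          A.q - A.w' - A.w' * (x - 1 + max 0 (min (1 - x / 2) (y - x + 1))) := by ring
        rw [this, n4]
      have e2 : yy A (A.q - A.w' * x, y) = y0 := by
        simp only [yy]
        rw [h.xR_eq ha2, ex, h.xL_two (by linarith [h.pq]), min_eq_right (b := x / 2) (by linarith),
          n5]
      have e3 : zz A (A.q - A.w' * x, y) = z := by
        simp only [zz]; rw [hl, n6]
      rw [e1, e2, e3]

/-- **the collapse of the last band** -/
noncomputable def LC (h : A.Good) : ConHomeo (Hy A) (FD A) :=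
  mkCon (plc_lcF A) (plc_lcG A) (locCone_Hy A).conicalSet (fun _ hx => (lc_all h hx).1)
    (fun _ hx => (lcG_all h hx).1) (fun _ hx => (lc_all h hx).2) (fun _ hx => (lcG_all h hx).2)

end P073.H31
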