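import Vale.Agent.P073.H31.PlCut

/-!
# P073, H31, METRIC: the lens of the last arc, the new pattern below it
-/

open Set Metric Topology Filter

namespace P073.H31

open P073.H339 P073.GB200 P073.H341

variable {E : Type*} [NormedAddCommGroup E] [NormedSpace ℝ E]
variable {k : ℕ} {A : ℕ → ArcD} {col : ℕ → Bool} {C B : Set E} {fn : ℕ → E → ℝ} {γ : ℝ × ℝ → E}

namespace Stp

variable {B₁ B₂ C₁ C₂ : Set E} (H : Stp k A col C B fn γ B₁ B₂ C₁ C₂)

include H

theorem ps_mem : (A k).p + (A k).w ∈ Icc (lf A (k, false)) (rt A (k, false)) := by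
  have := H.gk.w0
  simp only [lf, rt, Bool.false_eq_true, if_false, mem_Icc]
  exact ⟨by linarith, le_rfl⟩

theorem qs_mem : (A k).q - (A k).w' ∈ Icc (lf A (k, true)) (rt A (k, true)) := by
  have := H.gk.w0'
  simp only [lf, rt, if_true, mem_Icc]
  exact ⟨le_rfl, by linarith⟩

theorem pk_mem : (A k).p ∈ Icc (lf A (k, false)) (rt A (k, false)) :=
  pI (k := k + 1) H.P.pos.good (by omega)

theorem qk_mem : (A k).q ∈ Icc (lf A (k, true)) (rt A (k, true)) :=
  qI (k := k + 1) H.P.pos.good (by omega)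

theorem γps : γ ((A k).p + (A k).w, 1) = γ ((A k).p, 1) :=
  H.P.fib' (j := (k, false)) (by show k < k + 1; omega) H.ps_mem H.pk_mem

theorem γqs : γ ((A k).q - (A k).w', 1) = γ ((A k).q, 1) :=
  H.P.fib' (j := (k, true)) (by show k < k + 1; omega) H.qs_mem H.qk_mem

theorem Ic01 {a : ℝ} (ha : a ∈ Icc ((A k).p + (A k).w) ((A k).q - (A k).w')) :
    ((a, 1) : ℝ × ℝ) ∈ bR := by
  have := H.gk.p0; have := H.gk.q1; have := H.gk.w0; have := H.gk.w0'
  exact top_bR (by linarith [ha.1]) (by linarith [ha.2])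

/-- an earlier interval which meets the lens is inside -/
theorem K_of_mem {j : ℕ × Bool} (hj : j.1 < k) {a : ℝ}
    (ha : a ∈ Icc ((A k).p + (A k).w) ((A k).q - (A k).w')) (haj : a ∈ Icc (lf A j) (rt A j)) :
    j ∈ Kk k A := by
  by_contra hc
  have := H.gk.w0; have := H.gk.w0'
  rcases H.P.pos.Kout hj hc with c | c
  · linarith [ha.1, haj.2]
  · linarith [ha.2, haj.1]

/-- the part of the boundary above the last arc -/
theorem B₂_eq : (fun a => γ (a, 1)) '' Icc ((A k).p + (A k).w) ((A k).q - (A k).w') = B₂ := by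
  have g := H.gk
  have hw := g.w0; have hw' := g.w0'
  have e := H.cut.symm.C₁_inter_B
  ext y
  constructor
  · rintro ⟨a, ha, rfl⟩
    rw [← e]
    have hb := H.P.inB (H.Ic01 ha)
    refine ⟨(H.mem₂ (H.P.hC.1 hb)).2 ?_, hb⟩
    rcases H.P.tri (i := k) (by omega) (H.Ic01 ha) with ⟨_, h3⟩ | ⟨_, _, _, h3⟩ | ⟨h3, _⟩
    · exact h3.ge
    · exact h3.le
    · have h4 := h3 rfl
      simp only at h4
      rcases h4 with h4 | h4
      · linarith [ha.1]
      · linarith [ha.2]
  · intro hy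
    rw [← e] at hy
    obtain ⟨h1, h2⟩ := hy
    rw [← H.P.γi] at h2
    obtain ⟨x, hx, rfl⟩ := h2
    have h3 := (H.mem₂ (H.P.hC.1 (H.P.inB hx))).1 h1
    rcases H.P.tri (i := k) (by omega) hx with ⟨h4 | h4, _⟩ | ⟨h4, h5, h6, _⟩ | ⟨_, h4⟩
    · refine ⟨_, ⟨le_rfl, g.pqs.le⟩, ?_⟩
      show γ ((A k).p + (A k).w, 1) = γ x
      rw [H.γps, H.P.γL k (by omega) x h4]
    · refine ⟨_, ⟨g.pqs.le, le_rfl⟩, ?_⟩
      show γ ((A k).q - (A k).w', 1) = γ x
      rw [H.γqs, H.P.γR k (by omega) x h4]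
    · refine ⟨x.1, ⟨h5.le, h6.le⟩, ?_⟩
      show γ (x.1, 1) = γ x
      rw [← h4]
    · linarith

theorem lens : LensH k A (Kk k A) C₂ B₂ (Sa C fn k) fn (fun a => γ (a, 1)) := by
  have g := H.gk
  have hw := g.w0; have hw' := g.w0'
  have gd := H.P.pos.good
  have plc : PLc (fun a : ℝ => ((a, 1) : ℝ × ℝ)) := PLc.id.prodMk (PLc.const 1)
  have mapb : MapsTo (fun a : ℝ => ((a, 1) : ℝ × ℝ))
      (Icc ((A k).p + (A k).w) ((A k).q - (A k).w')) bR := fun a ha => H.Ic01 ha
  have hends := H.P.ends (i := k) (by omega)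
  refine
    { gk := g
      good := fun i hi => gd i (by omega)
      hC := H.cut.hC₂
      γc := H.P.γc.comp (plc.contOn _) mapb
      γk := H.P.γk.comp (plc.kOn (Convex.conicalSet (convex_Icc _ _))) mapb (plc.contOn _)
      γi := H.B₂_eq
      γf := ?_
      hS := ?_
      hUS := ?_
      Kin := fun j hj => H.P.pos.Kin hj
      Kd := fun j hj j' hj' hne => H.P.pos.dj (by have := (mem_Kk.1 hj).1; omega)
        (by have := (mem_Kk.1 hj').1; omega) hne
      K1 := fun j hj j' hj' e => H.P.pos.K1 hj hj' e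
      hfn := fun i hi => (H.P.hfn i (by omega)).mono H.C₂C
      sgn := ?_
      arcs := ?_
      arcd := ?_
      noz := ?_ }
  · intro a ha b hb
    constructor
    · intro h
      rcases H.P.fib (H.Ic01 ha) (H.Ic01 hb) h with h1 | ⟨j, hj, _, _, h1, h2⟩
      · exact Or.inl (Prod.ext_iff.1 h1).1
      · simp only at h1 h2
        by_cases hjk : j.1 < k
        · exact Or.inr ⟨j, H.K_of_mem hjk ha h1, h1, h2⟩
        · left
          have hjk' : j.1 = k := by omega
          unfold lf rt at h1 h2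
          rw [hjk'] at h1 h2
          split_ifs at h1 h2
          · have e1 : a = (A k).q - (A k).w' := le_antisymm ha.2 h1.1
            have e2 : b = (A k).q - (A k).w' := le_antisymm hb.2 h2.1
            rw [e1, e2]
          · have e1 : a = (A k).p + (A k).w := le_antisymm h1.2 ha.1
            have e2 : b = (A k).p + (A k).w := le_antisymm h2.2 hb.1
            rw [e1, e2]
    · rintro (h | ⟨j, hj, h1, h2⟩)
      · rw [h]
      · exact H.P.fib' (by have := (mem_Kk.1 hj).1; omega) h1 h2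
  · show IsArc (Sa C fn k) (γ ((A k).p + (A k).w, 1)) (γ ((A k).q - (A k).w', 1))
    rw [H.γps, H.γqs, isArc_iff_conBall, ← hends]
    exact H.P.hS k (by omega)
  · show B₂ ∩ Sa C fn k ⊆ {γ ((A k).p + (A k).w, 1), γ ((A k).q - (A k).w', 1)}
    rw [H.γps, H.γqs, ← hends]
    rintro y ⟨h1, h2⟩
    exact ⟨h2, by rw [← H.cut.hB]; exact Or.inr h1⟩
  · intro i hi a ha
    have gi := gd i (by omega)
    have hb := H.Ic01 ha
    refine ⟨?_, ?_, ?_⟩
    · intro h1
      rcases H.P.tri (i := i) (by omega) hb with ⟨_, h2⟩ | ⟨_, _, _, h2⟩ | ⟨h2, _⟩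
      · exact absurd h1 (by rw [h2]; exact lt_irrefl _)
      · exact absurd h1 (not_lt.2 h2.le)
      · rcases h2 rfl with h3 | h3
        · exact sig_zero_left gi (le_of_lt h3)
        · exact sig_zero_right gi (le_of_lt h3)
    · intro h1
      rcases H.P.tri (i := i) (by omega) hb with ⟨_, h2⟩ | ⟨_, h3, h4, _⟩ | ⟨_, h2⟩
      · exact absurd h1 (by rw [h2]; exact lt_irrefl _)
      · exact sig_one gi (le_of_lt h3) (le_of_lt h4)
      · exact absurd h1 (not_lt.2 h2.le)
    · constructor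
      · intro h1
        rcases H.P.tri (i := i) (by omega) hb with ⟨h2 | h2, _⟩ | ⟨_, _, _, h2⟩ | ⟨_, h2⟩
        · have h3 : a ∈ Icc (lf A (i, false)) (rt A (i, false)) := h2.1
          exact ⟨(i, false), H.K_of_mem hi ha h3, rfl, h3⟩
        · have h3 : a ∈ Icc (lf A (i, true)) (rt A (i, true)) := h2.1
          exact ⟨(i, true), H.K_of_mem hi ha h3, rfl, h3⟩
        · exact absurd h1 h2.ne'
        · exact absurd h1 h2.ne
      · rintro ⟨⟨i', b⟩, hj, h1, h2⟩
        have h1' : i' = i := h1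
        subst h1'
        cases b
        · have h3 : ((a, 1) : ℝ × ℝ) ∈ IL (A i') := ⟨h2, rfl⟩
          show fn i' (γ (a, 1)) = 0
          rw [H.P.γL i' (by omega) _ h3]; exact H.P.zp i' (by omega)
        · have h3 : ((a, 1) : ℝ × ℝ) ∈ IR (A i') := ⟨h2, rfl⟩
          show fn i' (γ (a, 1)) = 0
          rw [H.P.γR i' (by omega) _ h3]; exact H.P.zq i' (by omega)
  · rintro ⟨i, b⟩ hj
    have hi : i < k := (mem_Kk.1 hj).1
    refine ⟨(H.pieces hi hj).2, ?_⟩
    obtain ⟨x, hx1, hx2⟩ := (H.crosses hi hj).1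
    exact ⟨x, ⟨H.cut.symm.D_sub hx1, hx2.2⟩, hx1⟩
  · rintro ⟨i, b⟩ hj ⟨i', b'⟩ hj' hne
    have hi : i < k := (mem_Kk.1 hj).1
    have hi' : i' < k := (mem_Kk.1 hj').1
    have hii : i ≠ i' := fun h => hne (H.P.pos.K1 hj hj' h)
    have c1 : col i ≠ col k := fun hc => by
      obtain ⟨x, hx⟩ := (H.crosses hi hj).1
      exact Set.disjoint_left.1 (H.P.dis i (by omega) k (by omega) (by omega) hc) hx.2 hx.1
    have c2 : col i' ≠ col k := fun hc => by
      obtain ⟨x, hx⟩ := (H.crosses hi' hj').1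
      exact Set.disjoint_left.1 (H.P.dis i' (by omega) k (by omega) (by omega) hc) hx.2 hx.1
    have c3 : col i = col i' := by
      cases h1 : col i <;> cases h2 : col i' <;> cases h3 : col k <;> simp_all
    have := H.P.dis i (by omega) i' (by omega) hii c3
    rw [Set.disjoint_left] at this ⊢
    intro x hx hx'
    exact this (⟨H.C₂C hx.1, hx.2⟩ : x ∈ Sa C fn i) ⟨H.C₂C hx'.1, hx'.2⟩
  · intro i hi hj x hx h0
    have := H.below hi (fun b hb => hj _ hb rfl) x ⟨H.C₂C hx, h0⟩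
    exact absurd ((H.mem₂ (H.C₂C hx)).1 hx) (not_le.2 this)

end Stp

end P073.H31
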