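import Vale.Agent.P073.H31.PlNew

/-!
# P073, H31, METRIC: the new pattern below the last arc
-/

set_option linter.unusedSectionVars false

open Set Metric Topology Filter

namespace P073.H31

open P073.H339 P073.GB200 P073.H341

variable {E : Type*} [NormedAddCommGroup E] [NormedSpace ℝ E]
variable {N k : ℕ} {A : ℕ → ArcD} {col : ℕ → Bool} {C B : Set E} {fn : ℕ → E → ℝ}
  {γ : ℝ × ℝ → E}

/-- the properties of the thick lens map -/
structure LOut (N k : ℕ) (A : ℕ → ArcD) (C₂ S : Set E) (fn : ℕ → E → ℝ) (γ : ℝ × ℝ → E)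
    (L : ConHomeo (D0 (A k)) (Fil N k C₂ fn)) : Prop where
  z : ∀ x ∈ D0 (A k), ∀ i : Fin N, (L.toFun x).2 i = if (i : ℕ) < k then (A i).sig x.1 else 0
  top : ∀ a ∈ Icc ((A k).p + (A k).w) ((A k).q - (A k).w'), (L.toFun (a, 0)).1 = γ (a, 1)
  S : ∀ x ∈ D0 (A k), ((L.toFun x).1 ∈ S ↔ x ∈ gD (A k))
  fib : ∀ x ∈ D0 (A k), ∀ x' ∈ D0 (A k), ((L.toFun x).1 = (L.toFun x').1 ↔ x.2 = x'.2 ∧
        (x.1 = x'.1 ∨ ∃ j ∈ Kk k A, x.1 ∈ Icc (lf A j) (rt A j) ∧ x'.1 ∈ Icc (lf A j) (rt A j)))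
  sgn : ∀ x ∈ D0 (A k), ∀ i < k, (fn i (γ (x.1, 1)) = 0 → fn i (L.toFun x).1 = 0) ∧
        (0 < fn i (γ (x.1, 1)) → 0 < fn i (L.toFun x).1) ∧
        (fn i (γ (x.1, 1)) < 0 → fn i (L.toFun x).1 < 0)

/-- the bottom parametrisation `[p,q] → [p + w, q - w']` -/
noncomputable def fb (B : ArcD) (a : ℝ) : ℝ := ff B (a, B.lam a)

theorem plc_fb (B : ArcD) : PLc (fb B) := (plc_ff B).comp (PLc.id.prodMk (PLc.id.lam B))

theorem hy_bot {B : ArcD} {a : ℝ} (h1 : B.p ≤ a) (h2 : a ≤ B.q) : ((a, B.lam a) : ℝ × ℝ) ∈ Hy B :=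
  ⟨h1, h2, ArcD.lam_nonneg a, le_rfl⟩

theorem fb_gD {B : ArcD} (g : B.Good) {a : ℝ} (h1 : B.p ≤ a) (h2 : a ≤ B.q) :
    (fb B a, uu B (fb B a)) ∈ gD B := by
  have := (lc_all g (hy_bot h1 h2)).1.1
  exact ⟨this.1, this.2.1, rfl⟩

theorem fb_inj {B : ArcD} (g : B.Good) {a b : ℝ} (h1 : B.p ≤ a) (h2 : a ≤ B.q) (h3 : B.p ≤ b)
    (h4 : b ≤ B.q) (h : fb B a = fb B b) : a = b := by
  have e : ∀ c, B.p ≤ c → c ≤ B.q → lcF B (c, B.lam c) = ((fb B c, uu B (fb B c)), 0) := by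
    intro c hc hc'
    obtain ⟨k1, k2⟩ := ff_bot g hc hc'
    exact Prod.ext (Prod.ext rfl k1) k2
  have k1 := (lc_all g (hy_bot h1 h2)).2
  have k2 := (lc_all g (hy_bot h3 h4)).2
  rw [e a h1 h2] at k1
  rw [e b h3 h4, ← h, k1] at k2
  exact (Prod.ext_iff.1 k2).1

theorem fb_p {B : ArcD} (g : B.Good) : fb B B.p = B.p + B.w := by
  have hw := g.w0; have hw' := g.w0'; have hpq := g.pq
  unfold fb
  rw [g.lam_zero_left le_rfl]
  rcases (ff_top g le_rfl g.pltq.le).2 with ⟨_, h⟩ | ⟨h, _⟩ | ⟨h, _, _⟩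
  · exact h
  · linarith
  · linarith

theorem fb_q {B : ArcD} (g : B.Good) : fb B B.q = B.q - B.w' := by
  have hw := g.w0; have hw' := g.w0'; have hpq := g.pq
  unfold fb
  rw [g.lam_zero_right le_rfl]
  rcases (ff_top g g.pltq.le le_rfl).2 with ⟨h, _⟩ | ⟨_, h⟩ | ⟨_, h, _⟩
  · linarith
  · exact h
  · linarith

/-- the upper piece of the boundary -/
def X2 (B : ArcD) : Set (ℝ × ℝ) := Icc B.p B.q ×ˢ {1}

/-- the rest of the boundary -/
def X1 (B : ArcD) : Set (ℝ × ℝ) := {x | x ∈ bR ∧ (x.1 ≤ B.p ∨ B.q ≤ x.1 ∨ x.2 = 0)}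

theorem isClosed_X2 (B : ArcD) : IsClosed (X2 B) := isClosed_Icc.prod isClosed_singleton

theorem isClosed_X1 (B : ArcD) : IsClosed (X1 B) :=
  isClosed_bR.inter ((isClosed_le continuous_fst continuous_const).union
    ((isClosed_le continuous_const continuous_fst).union
      (isClosed_eq continuous_snd continuous_const)))

theorem locCone_X1' (B : ArcD) : LocCone (X1 B) := by
  have h1 : PLc (fun x : ℝ × ℝ => x.1) := PLc.id.fst
  have h2 : PLc (fun x : ℝ × ℝ => x.2) := PLc.id.snd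
  exact locCone_bR.inter ((h1.locCone_le (PLc.const B.p)).union
    (((PLc.const B.q).locCone_le h1).union (h2.locCone_eq (PLc.const 0))))

theorem locCone_X2 (B : ArcD) : LocCone (X2 B) := by
  have h1 : PLc (fun x : ℝ × ℝ => x.1) := PLc.id.fst
  have h2 : PLc (fun x : ℝ × ℝ => x.2) := PLc.id.snd
  have := (((PLc.const B.p).locCone_le h1).inter (h1.locCone_le (PLc.const B.q))).inter
    (h2.locCone_eq (PLc.const 1))
  exact this

theorem X2_bR {B : ArcD} (g : B.Good) {x : ℝ × ℝ} (hx : x ∈ X2 B) : x ∈ bR := by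
  obtain ⟨a, t⟩ := x
  obtain ⟨h1, h2⟩ := hx
  have h2' : t = 1 := h2
  rw [h2']
  exact top_bR (g.p0.le.trans h1.1) (h1.2.trans g.q1.le)

theorem bR_cases {B : ArcD} (g : B.Good) : X1 B ∪ X2 B = bR := by
  ext ⟨a, t⟩
  constructor
  · rintro (h | h)
    · exact h.1
    · exact X2_bR g h
  · intro h
    by_cases hc : a ≤ B.p ∨ B.q ≤ a ∨ t = 0
    · exact Or.inl ⟨h, hc⟩
    · push Not at hc
      obtain ⟨h1, h2, h3⟩ := hc
      right
      rcases h.2 with h4 | h4 | h4 | h4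
      · simp only at h4; linarith [g.p0]
      · simp only at h4; linarith [g.q1]
      · exact absurd h4 h3
      · exact ⟨⟨h1.le, h2.le⟩, h4⟩

theorem X12 {B : ArcD} {x : ℝ × ℝ} (h1 : x ∈ X1 B) (h2 : x ∈ X2 B) :
    x = (B.p, 1) ∨ x = (B.q, 1) := by
  obtain ⟨a, t⟩ := x
  have ht : t = 1 := h2.2
  have ha : B.p ≤ a ∧ a ≤ B.q := h2.1
  rcases h1.2 with h3 | h3 | h3
  · left; exact Prod.ext (le_antisymm h3 ha.1) ht
  · right; exact Prod.ext (le_antisymm ha.2 h3) ht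
  · simp only at h3; rw [ht] at h3; exact absurd h3 one_ne_zero

open Classical in
/-- the new boundary parametrisation -/
noncomputable def gnew (B : ArcD) (γ : ℝ × ℝ → E) (L : ℝ × ℝ → E) (x : ℝ × ℝ) : E :=
  if x ∈ X2 B then L (fb B x.1, uu B (fb B x.1)) else γ x

/-- every point of the base can be filled -/
theorem exists_fil (N k : ℕ) {C : Set E} {fn : ℕ → E → ℝ} {y : E} (hy : y ∈ C) :
    ∃ z : Fin N → ℝ, (y, z) ∈ Fil N k C fn := by
  classical
  refine ⟨fun i => if (i : ℕ) < k ∧ 0 < fn i y then 1 else 0, hy, fun i => ⟨?_, ?_, ?_, ?_⟩⟩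
  · show 0 ≤ (if (i : ℕ) < k ∧ 0 < fn i y then (1:ℝ) else 0) ∧
      (if (i : ℕ) < k ∧ 0 < fn i y then (1:ℝ) else 0) ≤ 1
    split_ifs
    · exact ⟨zero_le_one, le_rfl⟩
    · exact ⟨le_rfl, zero_le_one⟩
  · intro _ h2
    exact if_neg fun h => absurd h.2 (not_lt.2 h2.le)
  · intro h1 h2
    exact if_pos ⟨h1, h2⟩
  · intro h1
    exact if_neg fun h => absurd h.1 (not_lt.2 h1)

namespace Stp

variable {B₁ B₂ C₁ C₂ : Set E} (H : Stp k A col C B fn γ B₁ B₂ C₁ C₂)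

include H

theorem exists_L (hkN : k ≤ N) :
    ∃ L : ConHomeo (D0 (A k)) (Fil N k C₂ fn), LOut N k A C₂ (Sa C fn k) fn γ L := by
  obtain ⟨L, h1, h2, h3, h4, h5⟩ := thick_lens hkN H.lens
  exact ⟨L, h1, h2, h3, h4, h5⟩

variable {L : ConHomeo (D0 (A k)) (Fil N k C₂ fn)} (hL : LOut N k A C₂ (Sa C fn k) fn γ L)

include hL

theorem new2 {x : ℝ × ℝ} (hx : x ∈ X2 (A k)) :
    gnew (A k) γ (fun v => (L.toFun v).1) x =
      (L.toFun (fb (A k) x.1, uu (A k) (fb (A k) x.1))).1 := by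
  unfold gnew; rw [if_pos hx]

theorem new1 {x : ℝ × ℝ} (hx : x ∈ X1 (A k)) :
    gnew (A k) γ (fun v => (L.toFun v).1) x = γ x := by
  have g := H.gk
  by_cases h2 : x ∈ X2 (A k)
  · rw [H.new2 hL h2]
    rcases X12 hx h2 with rfl | rfl
    · show (L.toFun (fb (A k) (A k).p, uu (A k) (fb (A k) (A k).p))).1 = _
      rw [fb_p g, uu_p g, hL.top _ ⟨le_rfl, g.pqs.le⟩, H.γps]
    · show (L.toFun (fb (A k) (A k).q, uu (A k) (fb (A k) (A k).q))).1 = _
      rw [fb_q g, uu_q g, hL.top _ ⟨g.pqs.le, le_rfl⟩, H.γqs]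
  · unfold gnew; rw [if_neg h2]

theorem new_cont : ContinuousOn (gnew (A k) γ (fun v => (L.toFun v).1)) bR := by
  have g := H.gk
  rw [← bR_cases g]
  refine ContinuousOn.union_of_isClosed ?_ ?_ (isClosed_X1 _) (isClosed_X2 _)
  · exact (H.P.γc.mono fun x hx => hx.1).congr fun x hx => H.new1 hL hx
  · have p1 : PLc (fun x : ℝ × ℝ => (fb (A k) x.1, uu (A k) (fb (A k) x.1))) :=
      ((plc_fb (A k)).comp PLc.id.fst).prodMk (((plc_fb (A k)).comp PLc.id.fst).uu _)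
    have m1 : MapsTo (fun x : ℝ × ℝ => (fb (A k) x.1, uu (A k) (fb (A k) x.1))) (X2 (A k))
        (D0 (A k)) := fun x hx => gD_sub g (fb_gD g hx.1.1 hx.1.2)
    exact (continuous_fst.comp_continuousOn (L.cont.comp (p1.contOn _) m1)).congr
      fun x hx => H.new2 hL hx

theorem new_con : ConicalOn (gnew (A k) γ (fun v => (L.toFun v).1)) bR := by
  have g := H.gk
  rw [← bR_cases g]
  refine ConicalOn.union ?_ ?_ ?_ ?_
  · exact (H.P.γk.mono (locCone_X1' _).conicalSet fun x hx => hx.1).congr fun x hx => H.new1 hL hx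
  · have p1 : PLc (fun x : ℝ × ℝ => (fb (A k) x.1, uu (A k) (fb (A k) x.1))) :=
      ((plc_fb (A k)).comp PLc.id.fst).prodMk (((plc_fb (A k)).comp PLc.id.fst).uu _)
    have m1 : MapsTo (fun x : ℝ × ℝ => (fb (A k) x.1, uu (A k) (fb (A k) x.1))) (X2 (A k))
        (D0 (A k)) := fun x hx => gD_sub g (fb_gD g hx.1.1 hx.1.2)
    have := (L.conical.comp (p1.kOn (locCone_X2 _).conicalSet) m1 (p1.contOn _)).linear_comp
      (LinearMap.fst ℝ E (Fin N → ℝ))
    exact this.congr fun x hx => H.new2 hL hx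
  · intro x _ hc; rwa [(isClosed_X1 _).closure_eq] at hc
  · intro x _ hc; rwa [(isClosed_X2 _).closure_eq] at hc

theorem new_S {x : ℝ × ℝ} (hx : x ∈ X2 (A k)) :
    gnew (A k) γ (fun v => (L.toFun v).1) x ∈ Sa C fn k := by
  have g := H.gk
  have h1 := fb_gD g hx.1.1 hx.1.2
  rw [H.new2 hL hx]
  exact (hL.S _ (gD_sub g h1)).2 h1

theorem new_img : gnew (A k) γ (fun v => (L.toFun v).1) '' bR = B₁ ∪ Sa C fn k := by
  have g := H.gk
  have e₁ := H.cut.C₁_inter_B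
  ext y
  constructor
  · rintro ⟨x, hx, rfl⟩
    rw [← bR_cases g] at hx
    rcases hx with hx | hx
    · left
      rw [H.new1 hL hx, ← e₁]
      have hB := H.P.inB hx.1
      refine ⟨(H.mem₁ (H.P.hC.1 hB)).2 ?_, hB⟩
      rcases H.P.tri (i := k) (by omega) hx.1 with ⟨_, h3⟩ | ⟨h3, h4, h5, _⟩ | ⟨_, h3⟩
      · exact h3.le
      · exfalso
        have := g.w0; have := g.w0'
        rcases hx.2 with h6 | h6 | h6
        · linarith
        · linarith
        · rw [h3] at h6; exact one_ne_zero h6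
      · exact h3.le
    · exact Or.inr (H.new_S hL hx)
  · rintro (hy | hy)
    · rw [← e₁] at hy
      obtain ⟨h1, h2⟩ := hy
      rw [← H.P.γi] at h2
      obtain ⟨x, hx, rfl⟩ := h2
      have h3 := (H.mem₁ (H.P.hC.1 (H.P.inB hx))).1 h1
      rcases H.P.tri (i := k) (by omega) hx with ⟨h4 | h4, _⟩ | ⟨_, _, _, h4⟩ | ⟨h4, _⟩
      · refine ⟨((A k).p, 1), X2_bR g ⟨⟨le_rfl, g.pltq.le⟩, rfl⟩, ?_⟩
        rw [H.new1 hL (x := ((A k).p, 1)) ⟨X2_bR g ⟨⟨le_rfl, g.pltq.le⟩, rfl⟩, Or.inl le_rfl⟩,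
          H.P.γL k (by omega) x h4]
      · refine ⟨((A k).q, 1), X2_bR g ⟨⟨g.pltq.le, le_rfl⟩, rfl⟩, ?_⟩
        rw [H.new1 hL (x := ((A k).q, 1)) ⟨X2_bR g ⟨⟨g.pltq.le, le_rfl⟩, rfl⟩,
          Or.inr (Or.inl le_rfl)⟩, H.P.γR k (by omega) x h4]
      · linarith
      · refine ⟨x, hx, H.new1 hL ⟨hx, ?_⟩⟩
        rw [← bR_cases g] at hx
        rcases hx with hx | hx
        · exact hx.2
        · rcases h4 hx.2 with h5 | h5
          · exact Or.inl h5.le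
          · exact Or.inr (Or.inl h5.le)
    · obtain ⟨z, hz⟩ := exists_fil N k (fn := fn) (H.cut.symm.D_sub hy)
      rw [← L.image_eq] at hz
      obtain ⟨x, hx, hxy⟩ := hz
      have h1 : (L.toFun x).1 = y := by rw [hxy]
      have h2 : x ∈ gD (A k) := (hL.S x hx).1 (by rw [h1]; exact hy)
      obtain ⟨a, ha1, ha2, ha3⟩ := exists_bot g h2
      have hX : ((a, 1) : ℝ × ℝ) ∈ X2 (A k) := ⟨⟨ha1, ha2⟩, rfl⟩
      refine ⟨(a, 1), X2_bR g hX, ?_⟩
      rw [H.new2 hL hX]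
      show (L.toFun (fb (A k) a, uu (A k) (fb (A k) a))).1 = y
      have : (fb (A k) a, uu (A k) (fb (A k) a)) = x := ha3
      rw [this, h1]

/-- fibres of the new parametrisation on the upper piece -/
theorem new_fib2 {x y : ℝ × ℝ} (hx : x ∈ X2 (A k)) (hy : y ∈ X2 (A k)) :
    gnew (A k) γ (fun v => (L.toFun v).1) x = gnew (A k) γ (fun v => (L.toFun v).1) y ↔
      x = y ∨ ∃ j ∈ Kk k A, x.1 ∈ Icc (lf A j) (rt A j) ∧ y.1 ∈ Icc (lf A j) (rt A j) := by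
  have g := H.gk
  have hw := g.w0; have hw' := g.w0'
  rw [H.new2 hL hx, H.new2 hL hy, hL.fib _ (gD_sub g (fb_gD g hx.1.1 hx.1.2)) _
    (gD_sub g (fb_gD g hy.1.1 hy.1.2))]
  simp only
  have hj : ∀ j ∈ Kk k A, ∀ x ∈ X2 (A k), (fb (A k) x.1 ∈ Icc (lf A j) (rt A j) ↔
      x.1 ∈ Icc (lf A j) (rt A j)) := fun j hj x hx =>
    (H.P.pos.mem_iff (mem_Kk.1 hj).1 (hy_bot hx.1.1 hx.1.2)).symm
  constructor
  · rintro ⟨_, h2 | ⟨j, hj', h2, h3⟩⟩
    · left
      exact Prod.ext (fb_inj g hx.1.1 hx.1.2 hy.1.1 hy.1.2 h2) (hx.2.trans hy.2.symm)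
    · exact Or.inr ⟨j, hj', (hj j hj' x hx).1 h2, (hj j hj' y hy).1 h3⟩
  · rintro (h2 | ⟨j, hj', h2, h3⟩)
    · rw [h2]; exact ⟨rfl, Or.inl rfl⟩
    · have k2 := (hj j hj' x hx).2 h2
      have k3 := (hj j hj' y hy).2 h3
      obtain ⟨_, q1, q2⟩ := H.P.pos.Kin hj'
      refine ⟨?_, Or.inr ⟨j, hj', k2, k3⟩⟩
      rw [uu_mid g (by linarith [k2.1]) (by linarith [k2.2]),
        uu_mid g (by linarith [k3.1]) (by linarith [k3.2])]

/-- an interval outside lies in the lower piece -/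
theorem out_X1 {j : ℕ × Bool} (hj1 : j.1 < k) (hj : j ∉ Kk k A) {a : ℝ}
    (ha : a ∈ Icc (lf A j) (rt A j)) : ((a, 1) : ℝ × ℝ) ∈ X1 (A k) := by
  have m := lf_mem (k := k + 1) (j := j) H.P.pos (by omega) ha
  refine ⟨top_bR m.1 m.2, ?_⟩
  rcases H.P.pos.Kout hj1 hj with c | c
  · exact Or.inl (by show a ≤ _; linarith [ha.2])
  · exact Or.inr (Or.inl (by show _ ≤ a; linarith [ha.1]))

theorem in_X2 {j : ℕ × Bool} (hj : j ∈ Kk k A) {a : ℝ}
    (ha : a ∈ Icc (lf A j) (rt A j)) : ((a, 1) : ℝ × ℝ) ∈ X2 (A k) := by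
  have := H.gk.w0; have := H.gk.w0'
  obtain ⟨_, q1, q2⟩ := H.P.pos.Kin hj
  exact ⟨⟨by linarith [ha.1], by linarith [ha.2]⟩, rfl⟩

theorem new_col {j : ℕ × Bool} (hj1 : j.1 < k) {a b : ℝ}
    (ha : a ∈ Icc (lf A j) (rt A j)) (hb : b ∈ Icc (lf A j) (rt A j)) :
    gnew (A k) γ (fun v => (L.toFun v).1) (a, 1) = gnew (A k) γ (fun v => (L.toFun v).1) (b, 1) := by
  by_cases hj : j ∈ Kk k A
  · exact (H.new_fib2 hL (H.in_X2 hL hj ha) (H.in_X2 hL hj hb)).2 (Or.inr ⟨j, hj, ha, hb⟩)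
  · rw [H.new1 hL (H.out_X1 hL hj1 hj ha), H.new1 hL (H.out_X1 hL hj1 hj hb)]
    exact H.P.fib' (by omega) ha hb

/-- signs of the earlier functions at the new boundary -/
theorem new_sgn {i : ℕ} (hi : i < k) {x : ℝ × ℝ} (hx : x ∈ bR) :
    ∃ y ∈ bR, ((x.2 = 1 ↔ y.2 = 1) ∧ ∀ b, (x.2 = 1 → (x.1 < lf A (i, b) ↔ y.1 < lf A (i, b)) ∧
      (rt A (i, b) < x.1 ↔ rt A (i, b) < y.1))) ∧
      (fn i (γ y) = 0 → fn i (gnew (A k) γ (fun v => (L.toFun v).1) x) = 0) ∧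
      (0 < fn i (γ y) → 0 < fn i (gnew (A k) γ (fun v => (L.toFun v).1) x)) ∧
      (fn i (γ y) < 0 → fn i (gnew (A k) γ (fun v => (L.toFun v).1) x) < 0) := by
  have g := H.gk
  rw [← bR_cases g] at hx
  rcases hx with hx | hx
  · refine ⟨x, hx.1, ⟨Iff.rfl, fun b _ => ⟨Iff.rfl, Iff.rfl⟩⟩, ?_⟩
    rw [H.new1 hL hx]
    exact ⟨id, id, id⟩
  · have h1 := fb_gD g hx.1.1 hx.1.2
    have hy := hy_bot hx.1.1 hx.1.2
    refine ⟨(fb (A k) x.1, 1), H.Ic01 ⟨h1.1, h1.2.1⟩, ⟨⟨fun _ => rfl, fun _ => hx.2⟩, fun b _ =>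
      ⟨H.P.pos.lt_lf (j := (i, b)) hi hy, H.P.pos.rt_lt (j := (i, b)) hi hy⟩⟩, ?_⟩
    rw [H.new2 hL hx]
    exact hL.sgn _ (gD_sub g h1) i hi

/-- **the new pattern** -/
theorem new_pat : Pat k A col C₁ (B₁ ∪ Sa C fn k) fn (gnew (A k) γ (fun v => (L.toFun v).1)) := by
  have g := H.gk
  have gd := H.P.pos.good
  have sS : ∀ i, Sa C₁ fn i ⊆ Sa C fn i := fun i x hx => ⟨H.C₁C hx.1, hx.2⟩
  refine
    { pos := H.P.pos.mono
      hC := H.cut.hC₁
      hfn := fun i hi => (H.P.hfn i (by omega)).mono H.C₁C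
      hS := ?_
      γc := H.new_cont hL
      γk := H.new_con hL
      γi := H.new_img hL
      γf := ?_
      γL := ?_
      γR := ?_
      zp := ?_
      zq := ?_
      pos_in := ?_
      neg_out := ?_
      sub := fun i hi j hj hne => (H.P.sub i (by omega) j (by omega) hne).anti
        (inter_subset_inter (sS i) (sS j))
      dis := fun i hi j hj hne hc => Set.disjoint_of_subset (sS i) (sS j)
        (H.P.dis i (by omega) j (by omega) hne hc)
      link := fun i hi j hj hne h => H.P.link i (by omega) j (by omega) hne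
        (h.mono (inter_subset_inter (sS i) (sS j))) }
  · intro i hi
    by_cases hb : ∃ b, (i, b) ∈ Kk k A
    · obtain ⟨b, hb⟩ := hb
      exact (H.pieces hi hb).1
    · push Not at hb
      have hbel := H.below hi hb
      have e1 : Sa C₁ fn i = Sa C fn i := by
        apply Subset.antisymm (sS i)
        intro x hx
        exact ⟨(H.mem₁ hx.1).2 (hbel x hx).le, hx.2⟩
      have e2 : Sa C fn i ∩ (B₁ ∪ Sa C fn k) = Sa C fn i ∩ B := by
        ext x
        constructor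
        · rintro ⟨h1, h2 | h2⟩
          · exact ⟨h1, by rw [← H.cut.hB]; exact Or.inl h2⟩
          · exact absurd h2.2 (hbel x h1).ne
        · rintro ⟨h1, h2⟩
          refine ⟨h1, Or.inl ?_⟩
          rw [← H.cut.C₁_inter_B]
          exact ⟨(H.mem₁ h1.1).2 (hbel x h1).le, h2⟩
      rw [e1, e2]
      exact H.P.hS i (by omega)
  · intro x hx y hy h
    have toI : ∀ j : ℕ × Bool, j.1 < k → x.2 = 1 → y.2 = 1 → x.1 ∈ Icc (lf A j) (rt A j) →
        y.1 ∈ Icc (lf A j) (rt A j) → ∃ i < k, (x ∈ IL (A i) ∧ y ∈ IL (A i)) ∨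
        (x ∈ IR (A i) ∧ y ∈ IR (A i)) := by
      rintro ⟨i, b⟩ hj h1 h2 h3 h4
      refine ⟨i, hj, ?_⟩
      cases b
      · exact Or.inl ⟨⟨h3, h1⟩, ⟨h4, h2⟩⟩
      · exact Or.inr ⟨⟨h3, h1⟩, ⟨h4, h2⟩⟩
    -- a point of the lower piece over the arc `k` is an end point
    have low : ∀ x ∈ X1 (A k), γ x ∈ Sa C fn k → x ∈ X2 (A k) := by
      intro x hx hS
      have := g.w0; have := g.w0'
      rcases H.P.tri (i := k) (by omega) hx.1 with ⟨h1 | h1, _⟩ | ⟨_, _, _, h1⟩ | ⟨_, h1⟩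
      · exact ⟨⟨h1.1.1, by linarith [h1.1.2, g.pq]⟩, h1.2⟩
      · exact ⟨⟨by linarith [h1.1.1, g.pq], h1.1.2⟩, h1.2⟩
      · exact absurd hS.2 h1.ne'
      · exact absurd hS.2 h1.ne
    have c22 : ∀ x ∈ X2 (A k), ∀ y ∈ X2 (A k),
        gnew (A k) γ (fun v => (L.toFun v).1) x = gnew (A k) γ (fun v => (L.toFun v).1) y →
        x = y ∨ ∃ j : ℕ × Bool, j.1 < k ∧ x.2 = 1 ∧ y.2 = 1 ∧ x.1 ∈ Icc (lf A j) (rt A j) ∧
          y.1 ∈ Icc (lf A j) (rt A j) := by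
      intro x hx y hy h
      rcases (H.new_fib2 hL hx hy).1 h with h1 | ⟨j, hj, h1, h2⟩
      · exact Or.inl h1
      · exact Or.inr ⟨j, (mem_Kk.1 hj).1, hx.2, hy.2, h1, h2⟩
    have main : x = y ∨ ∃ j : ℕ × Bool, j.1 < k ∧ x.2 = 1 ∧ y.2 = 1 ∧
        x.1 ∈ Icc (lf A j) (rt A j) ∧ y.1 ∈ Icc (lf A j) (rt A j) := by
      rw [← bR_cases g] at hx hy
      by_cases hx2 : x ∈ X2 (A k)
      · by_cases hy2 : y ∈ X2 (A k)
        · exact c22 x hx2 y hy2 h
        · have hy1 : y ∈ X1 (A k) := hy.resolve_right hy2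
          have : γ y ∈ Sa C fn k := by
            rw [← H.new1 hL hy1, ← h]; exact H.new_S hL hx2
          exact absurd (low y hy1 this) hy2
      · have hx1 : x ∈ X1 (A k) := hx.resolve_right hx2
        by_cases hy2 : y ∈ X2 (A k)
        · have : γ x ∈ Sa C fn k := by
            rw [← H.new1 hL hx1, h]; exact H.new_S hL hy2
          exact absurd (low x hx1 this) hx2
        · have hy1 : y ∈ X1 (A k) := hy.resolve_right hy2
          rw [H.new1 hL hx1, H.new1 hL hy1] at h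
          rcases H.P.fib hx1.1 hy1.1 h with h1 | ⟨j, hj, h1, h2, h3, h4⟩
          · exact Or.inl h1
          · by_cases hjk : j.1 < k
            · exact Or.inr ⟨j, hjk, h1, h2, h3, h4⟩
            · exfalso
              have hjk' : j.1 = k := by omega
              have := g.w0; have := g.w0'; have := g.pq
              apply hx2
              unfold lf rt at h3
              rw [hjk'] at h3
              split_ifs at h3
              · exact ⟨⟨by linarith [h3.1], h3.2⟩, h1⟩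
              · exact ⟨⟨h3.1, by linarith [h3.2]⟩, h1⟩
    rcases main with h1 | ⟨j, hj, h1, h2, h3, h4⟩
    · exact Or.inl h1
    · exact Or.inr (toI j hj h1 h2 h3 h4)
  · rintro i hi ⟨a, t⟩ ⟨h1, h2⟩
    have h2' : t = 1 := h2
    subst h2'
    exact H.new_col hL (j := (i, false)) hi h1 (pI (k := k + 1) gd (by omega))
  · rintro i hi ⟨a, t⟩ ⟨h1, h2⟩
    have h2' : t = 1 := h2
    subst h2'
    exact H.new_col hL (j := (i, true)) hi h1 (qI (k := k + 1) gd (by omega))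
  · intro i hi
    have m := lf_mem (k := k + 1) (j := (i, false)) H.P.pos (by show i < k + 1; omega)
      (pI (k := k + 1) gd (by omega))
    obtain ⟨y, hy, ⟨h1, h2⟩, h3, _⟩ := H.new_sgn hL hi (top_bR m.1 m.2)
    apply h3
    have hy2 := h1.1 rfl
    have h4 := h2 false rfl
    have hpI := pI (k := k + 1) gd (i := i) (by omega)
    have hyI : y ∈ IL (A i) := by
      refine ⟨⟨?_, ?_⟩, hy2⟩
      · exact not_lt.1 fun h => absurd (h4.1.2 h) (not_lt.2 hpI.1)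
      · exact not_lt.1 fun h => absurd (h4.2.2 h) (not_lt.2 hpI.2)
    rw [H.P.γL i (by omega) y hyI]; exact H.P.zp i (by omega)
  · intro i hi
    have m := lf_mem (k := k + 1) (j := (i, true)) H.P.pos (by show i < k + 1; omega)
      (qI (k := k + 1) gd (by omega))
    obtain ⟨y, hy, ⟨h1, h2⟩, h3, _⟩ := H.new_sgn hL hi (top_bR m.1 m.2)
    apply h3
    have hy2 := h1.1 rfl
    have h4 := h2 true rfl
    have hqI := qI (k := k + 1) gd (i := i) (by omega)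
    have hyI : y ∈ IR (A i) := by
      refine ⟨⟨?_, ?_⟩, hy2⟩
      · exact not_lt.1 fun h => absurd (h4.1.2 h) (not_lt.2 hqI.1)
      · exact not_lt.1 fun h => absurd (h4.2.2 h) (not_lt.2 hqI.2)
    rw [H.P.γR i (by omega) y hyI]; exact H.P.zq i (by omega)
  · intro i hi a ha1 ha2
    have gi := gd i (by omega)
    have m : 0 ≤ a ∧ a ≤ 1 := by
      have := gi.p0; have := gi.q1; have := gi.w0; have := gi.w0'
      exact ⟨by linarith, by linarith⟩
    obtain ⟨y, hy, ⟨h1, h2⟩, _, h3, _⟩ := H.new_sgn hL hi (top_bR m.1 m.2)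
    apply h3
    have hy2 := h1.1 rfl
    have k1 : rt A (i, false) < y.1 := (h2 false rfl).2.1 ha1
    have k2 : y.1 < lf A (i, true) := (h2 true rfl).1.1 ha2
    have ye : y = (y.1, 1) := Prod.ext rfl hy2
    rw [ye]
    exact H.P.pos_in i (by omega) y.1 k1 k2
  · intro i hi x hx hout
    obtain ⟨y, hy, ⟨h1, h2⟩, _, _, h3⟩ := H.new_sgn hL hi hx
    apply h3
    refine H.P.neg_out i (by omega) y hy fun hy2 => ?_
    have hx2 := h1.2 hy2
    rcases hout hx2 with h4 | h4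
    · exact Or.inl ((h2 false hx2).1.1 h4)
    · exact Or.inr ((h2 true hx2).2.1 h4)

end Stp

end P073.H31
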