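import Vale.Agent.P073.H31.PlThick

/-!
# P073, H31, METRIC: positions of the boundary intervals relative to the last arc
-/

open Set Metric Topology Filter

namespace P073.H31

open P073.H339 P073.GB200 P073.H341

variable {k : ℕ} {A : ℕ → ArcD}

theorem Pos.mono (h : Pos (k + 1) A) : Pos k A where
  good := fun i hi => h.good i (by omega)
  disj := fun i hi j hj => h.disj i (by omega) j (by omega)
  gap := fun j hj => h.gap j (by omega)
  ord := fun j hj => h.ord j (by omega)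

theorem Pos.dj (h : Pos k A) {j j' : ℕ × Bool} (hj : j.1 < k) (hj' : j'.1 < k) (hne : j ≠ j') :
    Disjoint (Icc (lf A j) (rt A j)) (Icc (lf A j') (rt A j')) := by
  obtain ⟨i, b⟩ := j
  obtain ⟨i', b'⟩ := j'
  simp only at hj hj'
  rw [Set.disjoint_left]
  intro a h1 h2
  have g := h.good i hj
  have g' := h.good i' hj'
  by_cases hii : i = i'
  · subst hii
    have hbb : b ≠ b' := fun hb => hne (by rw [hb])
    have := g.w0; have := g.w0'; have := g.pq
    cases b <;> cases b'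
    · exact hbb rfl
    · simp only [lf, rt, Bool.false_eq_true, if_false, if_true, mem_Icc] at h1 h2
      linarith
    · simp only [lf, rt, Bool.false_eq_true, if_false, if_true, mem_Icc] at h1 h2
      linarith
    · exact hbb rfl
  · obtain ⟨d1, d2, d3⟩ := h.disj i hj i' hj' hii
    obtain ⟨_, _, d4⟩ := h.disj i' hj' i hj (Ne.symm hii)
    cases b <;> cases b' <;>
      simp only [lf, rt, Bool.false_eq_true, if_false, if_true] at h1 h2
    · exact Set.disjoint_left.1 d1 (⟨h1, rfl⟩ : ((a, 1) : ℝ × ℝ) ∈ IL (A i)) ⟨h2, rfl⟩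
    · exact Set.disjoint_left.1 d3 (⟨h1, rfl⟩ : ((a, 1) : ℝ × ℝ) ∈ IL (A i)) ⟨h2, rfl⟩
    · exact Set.disjoint_left.1 d4 (⟨h2, rfl⟩ : ((a, 1) : ℝ × ℝ) ∈ IL (A i')) ⟨h1, rfl⟩
    · exact Set.disjoint_left.1 d2 (⟨h1, rfl⟩ : ((a, 1) : ℝ × ℝ) ∈ IR (A i)) ⟨h2, rfl⟩

/-- an earlier interval is deep inside or outside of the last arc -/
theorem Pos.io (h : Pos (k + 1) A) {j : ℕ × Bool} (hj : j.1 < k) :
    ((A k).p + 2 * (A k).w < lf A j ∧ rt A j < (A k).q - 2 * (A k).w') ∨ rt A j < (A k).p ∨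
      (A k).q < lf A j := by
  have g := h.good j.1 (by omega)
  have gk := h.good k (by omega)
  have hlr := lf_lt_rt g
  have hw := gk.w0
  have hw' := gk.w0'
  have hg : ∀ a, ((A k).p ≤ a ∧ a ≤ (A k).p + 2 * (A k).w) ∨
      ((A k).q - 2 * (A k).w' ≤ a ∧ a ≤ (A k).q) → ¬ (lf A j ≤ a ∧ a ≤ rt A j) := by
    intro a ha
    have := h.gap k (by omega) j.1 hj a ha
    unfold lf rt
    split_ifs
    · exact this.2
    · exact this.1
  by_cases c1 : rt A j < (A k).p
  · exact Or.inr (Or.inl c1)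
  by_cases c2 : (A k).q < lf A j
  · exact Or.inr (Or.inr c2)
  rw [not_lt] at c1 c2
  left
  constructor
  · by_contra hc
    rw [not_lt] at hc
    exact hg (max (lf A j) (A k).p) (Or.inl ⟨le_max_right _ _, max_le hc (by linarith)⟩)
      ⟨le_max_left _ _, max_le hlr.le c1⟩
  · by_contra hc
    rw [not_lt] at hc
    exact hg (min (rt A j) (A k).q) (Or.inr ⟨le_min hc (by linarith), min_le_right _ _⟩)
      ⟨le_min hlr.le c2, min_le_left _ _⟩

/-- the intervals inside the last arc -/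
noncomputable def Kk (k : ℕ) (A : ℕ → ArcD) : Finset (ℕ × Bool) := by
  classical
  exact (Finset.range k ×ˢ Finset.univ).filter fun j => (A k).p < lf A j ∧ rt A j < (A k).q

theorem mem_Kk {j : ℕ × Bool} : j ∈ Kk k A ↔ j.1 < k ∧ (A k).p < lf A j ∧ rt A j < (A k).q := by
  classical
  unfold Kk
  rw [Finset.mem_filter, Finset.mem_product, Finset.mem_range]
  simp

theorem Pos.Kin (h : Pos (k + 1) A) {j : ℕ × Bool} (hj : j ∈ Kk k A) :
    j.1 < k ∧ (A k).p + 2 * (A k).w < lf A j ∧ rt A j < (A k).q - 2 * (A k).w' := by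
  obtain ⟨h1, h2, h3⟩ := mem_Kk.1 hj
  have g := h.good j.1 (by omega)
  have hlr := lf_lt_rt g
  rcases h.io h1 with c | c | c
  · exact ⟨h1, c⟩
  · linarith
  · linarith

theorem Pos.Kout (h : Pos (k + 1) A) {j : ℕ × Bool} (hj1 : j.1 < k) (hj : j ∉ Kk k A) :
    rt A j < (A k).p ∨ (A k).q < lf A j := by
  have gk := h.good k (by omega)
  rcases h.io hj1 with c | c | c
  · exact absurd (mem_Kk.2 ⟨hj1, by linarith [c.1, gk.w0], by linarith [c.2, gk.w0']⟩) hj
  · exact Or.inl c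
  · exact Or.inr c

theorem Pos.K1 (h : Pos (k + 1) A) {j j' : ℕ × Bool} (hj : j ∈ Kk k A) (hj' : j' ∈ Kk k A)
    (e : j.1 = j'.1) : j = j' := by
  by_contra hne
  obtain ⟨i, b⟩ := j
  obtain ⟨i', b'⟩ := j'
  have e' : i = i' := e
  subst e'
  have hbb : b ≠ b' := fun hb => hne (by rw [hb])
  have hi : i < k := (mem_Kk.1 hj).1
  have g := h.good i (by omega)
  have key : (i, false) ∈ Kk k A → (i, true) ∈ Kk k A → False := by
    intro h1 h2
    have h3 := (mem_Kk.1 h1).2.1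
    have h4 := (mem_Kk.1 h2).2.2
    simp only [lf, rt, Bool.false_eq_true, if_false, if_true] at h3 h4
    exact h.ord k (by omega) i hi ⟨h3, h4⟩
  cases b <;> cases b'
  · exact hbb rfl
  · exact key hj hj'
  · exact key hj' hj
  · exact hbb rfl

theorem Pos.link_mem (h : Pos (k + 1) A) {i : ℕ} (hi : i < k)
    (hl : Lnk (A i) (A k) ∨ Lnk (A k) (A i)) : ∃ b, (i, b) ∈ Kk k A := by
  have g := h.good i (by omega)
  have gk := h.good k (by omega)
  have hw := g.w0
  have hw' := g.w0'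
  have hp := g.pq
  have hl' : ((A i).p < (A k).p ∧ (A k).p < (A i).q ∧ (A i).q < (A k).q) ∨
      ((A k).p < (A i).p ∧ (A i).p < (A k).q ∧ (A k).q < (A i).q) := by
    rcases hl with h1 | h1
    · exact h1
    · exact h1.symm
  rcases hl' with ⟨h1, h2, h3⟩ | ⟨h1, h2, h3⟩
  · refine ⟨true, ?_⟩
    by_contra hc
    rcases h.Kout (j := (i, true)) hi hc with c | c
    · simp only [rt, if_true] at c; linarith
    · simp only [lf, if_true] at c; linarith
  · refine ⟨false, ?_⟩
    by_contra hc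
    rcases h.Kout (j := (i, false)) hi hc with c | c
    · simp only [rt, Bool.false_eq_true, if_false] at c; linarith
    · simp only [lf, Bool.false_eq_true, if_false] at c; linarith

/-- zones of the collapse -/
theorem zone {B : ArcD} (g : B.Good) {x : ℝ × ℝ} (hx : x ∈ Hy B) :
    (B.p ≤ x.1 ∧ x.1 ≤ B.p + 2 * B.w ∧ B.p + B.w ≤ ff B x ∧ ff B x ≤ B.p + 2 * B.w) ∨
    (ff B x = x.1 ∧ B.p + 2 * B.w ≤ x.1 ∧ x.1 ≤ B.q - 2 * B.w') ∨
    (B.q - 2 * B.w' ≤ x.1 ∧ x.1 ≤ B.q ∧ B.q - 2 * B.w' ≤ ff B x ∧ ff B x ≤ B.q - B.w') := by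
  obtain ⟨a, y⟩ := x
  obtain ⟨h1, h2, h3, h4⟩ := hx
  simp only at h1 h2 h3 h4
  rcases le_total a (B.p + 2 * B.w) with c | c
  · obtain ⟨k1, _, k3⟩ := lc_left g h1 c h3 h4
    exact Or.inl ⟨h1, c, k1.1.1, k3⟩
  · rcases le_total a (B.q - 2 * B.w') with c' | c'
    · exact Or.inr (Or.inl ⟨ff_mid g c c', c, c'⟩)
    · obtain ⟨k1, _, k3⟩ := lc_right g h2 c' h3 h4
      exact Or.inr (Or.inr ⟨c', h2, k3, k1.1.2.1⟩)

/-- relative positions are not changed by the collapse -/
theorem Pos.rel (h : Pos (k + 1) A) {j : ℕ × Bool} (hj : j.1 < k) {x : ℝ × ℝ}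
    (hx : x ∈ Hy (A k)) : (x.1 = ff (A k) x ∨ (x.1 < lf A j ∧ ff (A k) x < lf A j) ∨
      (rt A j < x.1 ∧ rt A j < ff (A k) x)) := by
  have gk := h.good k (by omega)
  have hw := gk.w0
  have hw' := gk.w0'
  have hpq := gk.pq
  have hlr := lf_lt_rt (h.good j.1 (by omega))
  rcases zone gk hx with ⟨z1, z2, z3, z4⟩ | ⟨z1, _, _⟩ | ⟨z1, z2, z3, z4⟩
  · rcases h.io hj with ⟨c, _⟩ | c | c
    · exact Or.inr (Or.inl ⟨by linarith, by linarith⟩)
    · exact Or.inr (Or.inr ⟨by linarith, by linarith⟩)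
    · exact Or.inr (Or.inl ⟨by linarith, by linarith⟩)
  · exact Or.inl z1.symm
  · rcases h.io hj with ⟨_, c⟩ | c | c
    · exact Or.inr (Or.inr ⟨by linarith, by linarith⟩)
    · exact Or.inr (Or.inr ⟨by linarith, by linarith⟩)
    · exact Or.inr (Or.inl ⟨by linarith, by linarith⟩)

theorem Pos.lt_lf (h : Pos (k + 1) A) {j : ℕ × Bool} (hj : j.1 < k) {x : ℝ × ℝ}
    (hx : x ∈ Hy (A k)) : x.1 < lf A j ↔ ff (A k) x < lf A j := by
  have hlr := lf_lt_rt (h.good j.1 (by omega))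
  rcases h.rel hj hx with c | ⟨c1, c2⟩ | ⟨c1, c2⟩
  · rw [c]
  · exact ⟨fun _ => c2, fun _ => c1⟩
  · constructor <;> intro c <;> linarith

theorem Pos.rt_lt (h : Pos (k + 1) A) {j : ℕ × Bool} (hj : j.1 < k) {x : ℝ × ℝ}
    (hx : x ∈ Hy (A k)) : rt A j < x.1 ↔ rt A j < ff (A k) x := by
  have hlr := lf_lt_rt (h.good j.1 (by omega))
  rcases h.rel hj hx with c | ⟨c1, c2⟩ | ⟨c1, c2⟩
  · rw [c]
  · constructor <;> intro c <;> linarith
  · exact ⟨fun _ => c2, fun _ => c1⟩

theorem Pos.mem_iff (h : Pos (k + 1) A) {j : ℕ × Bool} (hj : j.1 < k) {x : ℝ × ℝ}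
    (hx : x ∈ Hy (A k)) :
    x.1 ∈ Icc (lf A j) (rt A j) ↔ ff (A k) x ∈ Icc (lf A j) (rt A j) := by
  have h1 := h.lt_lf hj hx
  have h2 := h.rt_lt hj hx
  rw [mem_Icc, mem_Icc, ← not_lt, ← not_lt, h1, h2, not_lt, not_lt]

theorem Pos.sig_ff (h : Pos (k + 1) A) {i : ℕ} (hi : i < k) {x : ℝ × ℝ} (hx : x ∈ Hy (A k)) :
    (A i).sig (ff (A k) x) = (A i).sig x.1 := by
  have g := h.good i (by omega)
  have hw := g.w0
  have hw' := g.w0'
  have hp := g.pq
  rcases h.rel (j := (i, false)) hi hx with c | ⟨c1, c2⟩ | ⟨c1, c2⟩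
  · rw [← c]
  · simp only [lf, Bool.false_eq_true, if_false] at c1 c2
    rw [sig_zero_left g c1.le, sig_zero_left g c2.le]
  · simp only [rt, Bool.false_eq_true, if_false] at c1 c2
    rcases h.rel (j := (i, true)) hi hx with c | ⟨d1, d2⟩ | ⟨d1, d2⟩
    · rw [← c]
    · simp only [lf, if_true] at d1 d2
      rw [sig_one g c1.le d1.le, sig_one g c2.le d2.le]
    · simp only [rt, if_true] at d1 d2
      rw [sig_zero_right g d1.le, sig_zero_right g d2.le]

/-! ### the bottom and the top of the layer -/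

/-- bottom: `y = lam a` -/
theorem ff_bot {B : ArcD} (g : B.Good) {a : ℝ} (h1 : B.p ≤ a) (h2 : a ≤ B.q) :
    yy B (a, B.lam a) = uu B (ff B (a, B.lam a)) ∧ zz B (a, B.lam a) = 0 := by
  have hx : ((a, B.lam a) : ℝ × ℝ) ∈ Hy B := ⟨h1, h2, ArcD.lam_nonneg a, le_rfl⟩
  have hz : zz B (a, B.lam a) = 0 := by
    simp only [zz]; rw [sub_self]; exact cl1_eq_zero le_rfl
  refine ⟨?_, hz⟩
  obtain ⟨⟨hD, _, _, h3⟩, _⟩ := lc_all g hx
  rcases hD.2.2.2.lt_or_eq with h4 | h4
  · have := h3 h4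
    have h5 : zz B (a, B.lam a) = 1 := this
    rw [hz] at h5
    exact absurd h5 zero_ne_one
  · exact h4

/-- top: `y = 0` -/
theorem ff_top {B : ArcD} (g : B.Good) {a : ℝ} (h1 : B.p ≤ a) (h2 : a ≤ B.q) :
    yy B (a, 0) = 0 ∧ ((a ≤ B.p + B.w ∧ ff B (a, 0) = B.p + B.w) ∨
      (B.q - B.w' ≤ a ∧ ff B (a, 0) = B.q - B.w') ∨
      (B.p + B.w ≤ a ∧ a ≤ B.q - B.w' ∧ ff B (a, 0) = a)) := by
  have hw := g.w0
  have hw' := g.w0'
  have hpq := g.pq
  have xl : 0 ≤ B.xL a := le_min zero_le_two (div_nonneg (by linarith) hw.le)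
  have xr : 0 ≤ B.xR a := le_min zero_le_two (div_nonneg (by linarith) hw'.le)
  refine ⟨?_, ?_⟩
  · simp only [yy]
    exact min_eq_left (le_min (by linarith) (by linarith))
  · rcases le_total a (B.p + 2 * B.w) with c | c
    · have e := ff_left g c h1 (y := 0) zero_le_two
      have ex : a - B.p = B.w * ((a - B.p) / B.w) := by field_simp
      have hx0 : 0 ≤ (a - B.p) / B.w := div_nonneg (by linarith) hw.le
      rcases le_total a (B.p + B.w) with c' | c'
      · left
        refine ⟨c', ?_⟩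
        have h3 : (a - B.p) / B.w ≤ 1 := by rw [div_le_one hw]; linarith
        rw [e, min_eq_right (by linarith), max_eq_right (by linarith)]
        nlinarith
      · right; right
        refine ⟨c', by linarith, ?_⟩
        have h3 : 1 ≤ (a - B.p) / B.w := by rw [one_le_div hw]; linarith
        rw [e, max_eq_left]
        · ring
        · exact (min_le_right _ _).trans (by linarith)
    · rcases le_total a (B.q - 2 * B.w') with c' | c'
      · right; right
        exact ⟨by linarith, by linarith, ff_mid g c c'⟩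
      · have e := ff_right g c' h2 (y := 0) zero_le_two
        have ex : B.q - a = B.w' * ((B.q - a) / B.w') := by field_simp
        have hx0 : 0 ≤ (B.q - a) / B.w' := div_nonneg (by linarith) hw'.le
        rcases le_total (B.q - B.w') a with c'' | c''
        · right; left
          refine ⟨c'', ?_⟩
          have h3 : (B.q - a) / B.w' ≤ 1 := by rw [div_le_one hw']; linarith
          rw [e, min_eq_right (by linarith), max_eq_right (by linarith)]
          nlinarith
        · right; right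
          refine ⟨by linarith, c'', ?_⟩
          have h3 : 1 ≤ (B.q - a) / B.w' := by rw [one_le_div hw']; linarith
          rw [e, max_eq_left]
          · ring
          · exact (min_le_right _ _).trans (by linarith)

/-- the bottom of the layer is the graph side of the lens -/
theorem exists_bot {B : ArcD} (g : B.Good) {b : ℝ × ℝ} (hb : b ∈ gD B) :
    ∃ a, B.p ≤ a ∧ a ≤ B.q ∧ (ff B (a, B.lam a), uu B (ff B (a, B.lam a))) = b := by
  have hFD : ((b, 0) : (ℝ × ℝ) × ℝ) ∈ FD B :=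
    ⟨gD_sub g hb, le_rfl, zero_le_one, fun h => absurd hb.2.2 h.ne⟩
  obtain ⟨h1, h2⟩ := lcG_all g hFD
  set x := lcG B (b, 0) with hx
  have hz : zz B x = 0 := congrArg Prod.snd h2
  have hf : ff B x = b.1 := congrArg (fun v => v.1.1) h2
  have hx2 : x.2 = B.lam x.1 := by
    apply le_antisymm h1.2.2.2
    have h3 : B.lam x.1 - x.2 ≤ 0 := by
      by_contra hc
      rw [not_le] at hc
      have : 0 < zz B x := lt_max_of_lt_right (lt_min one_pos hc)
      exact absurd hz this.ne'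
    linarith
  have hxe : x = (x.1, B.lam x.1) := Prod.ext rfl hx2
  refine ⟨x.1, h1.1, h1.2.1, ?_⟩
  rw [← hxe, hf]
  exact Prod.ext rfl hb.2.2.symm

end P073.H31
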