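import Vale.Agent.P073.H31.PlThin2
import Vale.Agent.P073.H31.PlCol

/-!
# P073, H31, METRIC: the thick lens
-/

open Set Metric Topology Filter

namespace P073.H31

open P073.H339 P073.GB200 P073.H341

variable {E : Type*} [NormedAddCommGroup E] [NormedSpace ℝ E]

/-- the boundary interval `j = (i, left/right)` -/
def lf (A : ℕ → ArcD) (j : ℕ × Bool) : ℝ := if j.2 then (A j.1).q - (A j.1).w' else (A j.1).p
def rt (A : ℕ → ArcD) (j : ℕ × Bool) : ℝ := if j.2 then (A j.1).q else (A j.1).p + (A j.1).w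

theorem lf_lt_rt {A : ℕ → ArcD} {j : ℕ × Bool} (h : (A j.1).Good) : lf A j < rt A j := by
  unfold lf rt
  split_ifs
  · linarith [h.w0']
  · linarith [h.w0]

theorem sig_left {A : ArcD} (h : A.Good) {a : ℝ} (h1 : A.p ≤ a) (h2 : a ≤ A.p + A.w) :
    A.sig a = (a - A.p) / A.w := by
  rw [ArcD.sig, h.lam_left h1 (by linarith [h.w0]), cl1_eq_self (div_nonneg (by linarith) h.w0.le)]
  rw [div_le_one h.w0]; linarith

theorem sig_right {A : ArcD} (h : A.Good) {a : ℝ} (h1 : A.q - A.w' ≤ a) (h2 : a ≤ A.q) :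
    A.sig a = (A.q - a) / A.w' := by
  rw [ArcD.sig, h.lam_right h2 (by linarith [h.w0']),
    cl1_eq_self (div_nonneg (by linarith) h.w0'.le)]
  rw [div_le_one h.w0']; linarith

theorem sig_zero_left {A : ArcD} (h : A.Good) {a : ℝ} (h1 : a ≤ A.p) : A.sig a = 0 := by
  rw [ArcD.sig, h.lam_zero_left h1]; exact cl1_eq_zero le_rfl

theorem sig_zero_right {A : ArcD} (h : A.Good) {a : ℝ} (h1 : A.q ≤ a) : A.sig a = 0 := by
  rw [ArcD.sig, h.lam_zero_right h1]; exact cl1_eq_zero le_rfl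

theorem sig_one {A : ArcD} (h : A.Good) {a : ℝ} (h1 : A.p + A.w ≤ a) (h2 : a ≤ A.q - A.w') :
    A.sig a = 1 := by
  apply cl1_eq_one
  have hw := h.w0
  have hw' := h.w0'
  rcases le_total a (A.p + 2 * A.w) with c | c
  · rw [h.lam_left (by linarith) c, one_le_div hw]; linarith
  · rcases le_total a (A.q - 2 * A.w') with c' | c'
    · rw [h.lam_mid c c']; norm_num
    · rw [h.lam_right (by linarith) c', one_le_div hw']; linarith

/-- on a boundary interval the coordinate runs bijectively through `[0,1]` -/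
theorem sig_inj {A : ℕ → ArcD} {j : ℕ × Bool} (h : (A j.1).Good) {a b : ℝ}
    (ha : a ∈ Icc (lf A j) (rt A j)) (hb : b ∈ Icc (lf A j) (rt A j))
    (hab : (A j.1).sig a = (A j.1).sig b) : a = b := by
  unfold lf rt at ha hb
  have hw := h.w0
  have hw' := h.w0'
  split_ifs at ha hb with hj
  · rw [sig_right h ha.1 ha.2, sig_right h hb.1 hb.2, div_left_inj' hw'.ne'] at hab
    linarith
  · rw [sig_left h ha.1 ha.2, sig_left h hb.1 hb.2, div_left_inj' hw.ne'] at hab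
    linarith

theorem sig_surj {A : ℕ → ArcD} {j : ℕ × Bool} (h : (A j.1).Good) {z : ℝ} (h0 : 0 ≤ z)
    (h1 : z ≤ 1) : ∃ a ∈ Icc (lf A j) (rt A j), (A j.1).sig a = z := by
  unfold lf rt
  have hw := h.w0
  have hw' := h.w0'
  split_ifs with hj
  · refine ⟨(A j.1).q - (A j.1).w' * z, ⟨by nlinarith, by nlinarith⟩, ?_⟩
    rw [sig_right h (by nlinarith) (by nlinarith)]
    field_simp; ring
  · refine ⟨(A j.1).p + (A j.1).w * z, ⟨by nlinarith, by nlinarith⟩, ?_⟩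
    rw [sig_left h (by nlinarith) (by nlinarith)]
    field_simp; ring

/-- the data of a lens cut off by the arc `k` -/
structure LensH (k : ℕ) (A : ℕ → ArcD) (K : Finset (ℕ × Bool)) (C₂ U S : Set E)
    (fn : ℕ → E → ℝ) (γ : ℝ → E) : Prop where
  gk : (A k).Good
  good : ∀ i < k, (A i).Good
  hC : ConBall 2 C₂ (U ∪ S)
  γc : ContinuousOn γ (Icc ((A k).p + (A k).w) ((A k).q - (A k).w'))
  γk : ConicalOn γ (Icc ((A k).p + (A k).w) ((A k).q - (A k).w'))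
  γi : γ '' Icc ((A k).p + (A k).w) ((A k).q - (A k).w') = U
  γf : ∀ a ∈ Icc ((A k).p + (A k).w) ((A k).q - (A k).w'),
    ∀ b ∈ Icc ((A k).p + (A k).w) ((A k).q - (A k).w'),
    (γ a = γ b ↔ a = b ∨ ∃ j ∈ K, a ∈ Icc (lf A j) (rt A j) ∧ b ∈ Icc (lf A j) (rt A j))
  hS : IsArc S (γ ((A k).p + (A k).w)) (γ ((A k).q - (A k).w'))
  hUS : U ∩ S ⊆ {γ ((A k).p + (A k).w), γ ((A k).q - (A k).w')}
  Kin : ∀ j ∈ K, j.1 < k ∧ (A k).p + 2 * (A k).w < lf A j ∧ rt A j < (A k).q - 2 * (A k).w'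
  Kd : ∀ j ∈ K, ∀ j' ∈ K, j ≠ j' → Disjoint (Icc (lf A j) (rt A j)) (Icc (lf A j') (rt A j'))
  K1 : ∀ j ∈ K, ∀ j' ∈ K, j.1 = j'.1 → j = j'
  hfn : ∀ i < k, ContinuousOn (fn i) C₂
  sgn : ∀ i < k, ∀ a ∈ Icc ((A k).p + (A k).w) ((A k).q - (A k).w'),
    (fn i (γ a) < 0 → (A i).sig a = 0) ∧ (0 < fn i (γ a) → (A i).sig a = 1) ∧
    (fn i (γ a) = 0 ↔ ∃ j ∈ K, j.1 = i ∧ a ∈ Icc (lf A j) (rt A j))
  arcs : ∀ j ∈ K, ConBall 1 (Sa C₂ fn j.1) (Sa C₂ fn j.1 ∩ (U ∪ S)) ∧ (Sa C₂ fn j.1 ∩ S).Nonempty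
  arcd : ∀ j ∈ K, ∀ j' ∈ K, j ≠ j' → Disjoint (Sa C₂ fn j.1) (Sa C₂ fn j'.1)
  noz : ∀ i < k, (∀ j ∈ K, j.1 ≠ i) → ∀ x ∈ C₂, fn i x ≠ 0

theorem thick_lens {N k : ℕ} {A : ℕ → ArcD} {K : Finset (ℕ × Bool)} {C₂ U S : Set E}
    {fn : ℕ → E → ℝ} {γ : ℝ → E} (hkN : k ≤ N) (H : LensH k A K C₂ U S fn γ) :
    ∃ L : ConHomeo (D0 (A k)) (Fil N k C₂ fn),
      (∀ x ∈ D0 (A k), ∀ i : Fin N, (L.toFun x).2 i = if (i : ℕ) < k then (A i).sig x.1 else 0) ∧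
      (∀ a ∈ Icc ((A k).p + (A k).w) ((A k).q - (A k).w'), (L.toFun (a, 0)).1 = γ a) ∧
      (∀ x ∈ D0 (A k), ((L.toFun x).1 ∈ S ↔ x ∈ gD (A k))) ∧
      (∀ x ∈ D0 (A k), ∀ x' ∈ D0 (A k), ((L.toFun x).1 = (L.toFun x').1 ↔ x.2 = x'.2 ∧
        (x.1 = x'.1 ∨ ∃ j ∈ K, x.1 ∈ Icc (lf A j) (rt A j) ∧ x'.1 ∈ Icc (lf A j) (rt A j)))) ∧
      (∀ x ∈ D0 (A k), ∀ i < k, (fn i (γ x.1) = 0 → fn i (L.toFun x).1 = 0) ∧
        (0 < fn i (γ x.1) → 0 < fn i (L.toFun x).1) ∧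
        (fn i (γ x.1) < 0 → fn i (L.toFun x).1 < 0)) := by
  classical
  have gk := H.gk
  have gK : ∀ j ∈ K, (A j.1).Good := fun j hj => H.good _ (H.Kin j hj).1
  have hw := gk.w0
  have hw' := gk.w0'
  obtain ⟨ϖ, w1, w2, w3, w4, w5⟩ := exists_collapse K (lf A) (rt A) ((A k).p + 2 * (A k).w)
    ((A k).q - 2 * (A k).w') gk.pq (fun j hj => ⟨(H.Kin j hj).2.1, lf_lt_rt (gK j hj),
      (H.Kin j hj).2.2⟩) H.Kd
  set Ic := Icc ((A k).p + (A k).w) ((A k).q - (A k).w') with hIc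
  have ϖI : ∀ a ∈ Ic, ϖ a ∈ Ic ∧ uu (A k) (ϖ a) = uu (A k) a := by
    intro a ha
    rcases le_total a ((A k).p + 2 * (A k).w) with c | c
    · rw [w3 a c]; exact ⟨ha, rfl⟩
    · rcases le_total a ((A k).q - 2 * (A k).w') with c' | c'
      · have h1 := w2 c
        have h2 := w2 c'
        rw [w3 _ le_rfl] at h1
        rw [w4 _ le_rfl] at h2
        exact ⟨⟨by linarith, by linarith⟩, by rw [uu_mid gk h1 h2, uu_mid gk c c']⟩
      · rw [w4 a c']; exact ⟨ha, rfl⟩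
  have pI : (A k).p + (A k).w ∈ Ic := ⟨le_rfl, gk.pqs.le⟩
  have qI : (A k).q - (A k).w' ∈ Ic := ⟨gk.pqs.le, le_rfl⟩
  have ϖp : ϖ ((A k).p + (A k).w) = (A k).p + (A k).w := w3 _ (by linarith)
  have ϖq : ϖ ((A k).q - (A k).w') = (A k).q - (A k).w' := w4 _ (by linarith)
  have ϖs : ∀ b ∈ Ic, ∃ a ∈ Ic, ϖ a = b := by
    intro b hb
    have h1 : Icc (ϖ ((A k).p + (A k).w)) (ϖ ((A k).q - (A k).w')) ⊆ ϖ '' Ic :=
      intermediate_value_Icc gk.pqs.le w1.c.continuousOn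
    rw [ϖp, ϖq] at h1
    obtain ⟨a, ha, hab⟩ := h1 hb
    exact ⟨a, ha, hab⟩
  -- the thin parametrisation of the upper side
  set π : ℝ × ℝ → ℝ × ℝ := fun x => (ϖ x.1, x.2) with hπ
  have pπ : PLc π := (w1.comp PLc.id.fst).prodMk PLc.id.snd
  have πt : π '' tD (A k) = tD (A k) := by
    ext ⟨b, y⟩
    constructor
    · rintro ⟨⟨a, y'⟩, ⟨h1, h2⟩, h3⟩
      obtain ⟨h3, h4⟩ := Prod.ext_iff.1 h3
      exact ⟨by rw [← h3]; exact (ϖI a h1).1, by rw [← h4]; exact h2⟩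
    · rintro ⟨h1, h2⟩
      obtain ⟨a, ha, hab⟩ := ϖs b h1
      exact ⟨(a, y), ⟨ha, h2⟩, Prod.ext hab rfl⟩
  have tDc : IsCompact (tD (A k)) := isCompact_Icc.prod isCompact_singleton
  have tDk : ConicalSet (tD (A k)) := (isArc_tD gk).conicalSet
  have mt : MapsTo (fun x : ℝ × ℝ => x.1) (tD (A k)) Ic := fun x hx => hx.1
  have fc : ContinuousOn (fun x : ℝ × ℝ => γ x.1) (tD (A k)) := H.γc.comp
    (PLc.id.fst.contOn _) mt
  have fk : ConicalOn (fun x : ℝ × ℝ => γ x.1) (tD (A k)) :=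
    H.γk.comp (PLc.id.fst.kOn tDk) mt (PLc.id.fst.contOn _)
  have fU : (fun x : ℝ × ℝ => γ x.1) '' tD (A k) = U := by
    rw [← H.γi]
    ext y
    constructor
    · rintro ⟨x, hx, rfl⟩; exact ⟨x.1, hx.1, rfl⟩
    · rintro ⟨a, ha, rfl⟩; exact ⟨(a, 0), ⟨ha, rfl⟩, rfl⟩
  obtain ⟨β', hβ'⟩ := exists_descend tDc (pπ.contOn _) (pπ.kOn tDk) fc fk (by
    rintro ⟨a, y⟩ hx ⟨b, y'⟩ hx'
    have e1 : y = 0 := hx.2
    have e2 : y' = 0 := hx'.2
    subst e1 e2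
    show ((ϖ a, (0:ℝ)) = (ϖ b, (0:ℝ)) ↔ γ a = γ b)
    rw [H.γf a hx.1 b hx'.1, ← w5]
    constructor
    · intro h; exact (Prod.ext_iff.1 h).1
    · intro h; rw [h])
  set β : ConHomeo (tD (A k)) U := β'.cast πt fU with hβdef
  have hβ : ∀ a ∈ Ic, β.toFun (ϖ a, 0) = γ a := fun a ha => hβ' (a, 0) ⟨ha, rfl⟩
  have βp : β.toFun ((A k).p + (A k).w, 0) = γ ((A k).p + (A k).w) := by
    have := hβ _ pI; rwa [ϖp] at this
  have βq : β.toFun ((A k).q - (A k).w', 0) = γ ((A k).q - (A k).w') := by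
    have := hβ _ qI; rwa [ϖq] at this
  -- intervals
  have jI : ∀ j ∈ K, ∀ a ∈ Icc (lf A j) (rt A j), a ∈ Ic := fun j hj a ha => by
    obtain ⟨_, h1, h2⟩ := H.Kin j hj
    exact ⟨by linarith [ha.1], by linarith [ha.2]⟩
  have jl : ∀ j ∈ K, lf A j ∈ Icc (lf A j) (rt A j) := fun j hj => ⟨le_rfl, (lf_lt_rt (gK j hj)).le⟩
  have jϖ : ∀ j ∈ K, ∀ a, ϖ a = ϖ (lf A j) → a ∈ Icc (lf A j) (rt A j) := by
    intro j hj a ha
    rcases (w5 _ _).1 ha with h1 | ⟨j', hj', h1, h2⟩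
    · rw [h1]; exact jl j hj
    · by_cases hjj : j = j'
      · subst hjj; exact h1
      · exact absurd h2 (Set.disjoint_left.1 (H.Kd j hj j' hj' hjj) (jl j hj))
  have jϖ' : ∀ j ∈ K, ∀ a ∈ Icc (lf A j) (rt A j), ϖ a = ϖ (lf A j) := fun j hj a ha =>
    (w5 _ _).2 (Or.inr ⟨j, hj, ha, jl j hj⟩)
  have jinj : ∀ j ∈ K, ∀ j' ∈ K, ϖ (lf A j) = ϖ (lf A j') → j = j' := by
    intro j hj j' hj' h1
    by_contra hne
    exact Set.disjoint_left.1 (H.Kd j hj j' hj' hne) (jl j hj) (jϖ j' hj' _ h1)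
  -- the thin lens
  set T : ℝ → Set E := fun x => {y | y ∈ C₂ ∧ ∃ j ∈ K, ϖ (lf A j) = x ∧ fn j.1 y = 0} with hT
  have Tj : ∀ j ∈ K, T (ϖ (lf A j)) = Sa C₂ fn j.1 := by
    intro j hj
    ext y
    constructor
    · rintro ⟨h1, j', hj', h2, h3⟩
      have := jinj j' hj' j hj h2
      subst this
      exact ⟨h1, h3⟩
    · rintro ⟨h1, h2⟩
      exact ⟨h1, j, hj, rfl, h2⟩
  have TU : ∀ j ∈ K, Sa C₂ fn j.1 ∩ U = {γ (lf A j)} := by
    intro j hj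
    ext y
    constructor
    · rintro ⟨⟨h1, h2⟩, h3⟩
      rw [← H.γi] at h3
      obtain ⟨a, ha, rfl⟩ := h3
      obtain ⟨j', hj', h4, h5⟩ := ((H.sgn j.1 (H.Kin j hj).1 a ha).2.2).1 h2
      have := H.K1 j' hj' j hj h4
      subst this
      exact (H.γf a ha _ (jI _ hj _ (jl _ hj))).2 (Or.inr ⟨_, hj, h5, jl _ hj⟩)
    · intro h1
      have h1' : y = γ (lf A j) := h1
      have h2 : y ∈ U := by rw [h1', ← H.γi]; exact ⟨_, jI j hj _ (jl j hj), rfl⟩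
      refine ⟨⟨H.hC.1 (Or.inl h2), ?_⟩, h2⟩
      rw [h1']
      exact ((H.sgn j.1 (H.Kin j hj).1 _ (jI j hj _ (jl j hj))).2.2).2 ⟨j, hj, rfl, jl j hj⟩
  obtain ⟨Φ, Φt, Φg, ΦV⟩ := thin_lens gk H.hC β (by rw [βp, βq]; exact H.hS)
    (by rw [βp, βq]; exact H.hUS) (K.image fun j => ϖ (lf A j)) T
    (by
      intro x hx
      obtain ⟨j, hj, rfl⟩ := Finset.mem_image.1 hx
      obtain ⟨_, h1, h2⟩ := H.Kin j hj
      have h3 := w2 h1.le
      have h4 := w2 ((lf_lt_rt (gK j hj)).le.trans h2.le)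
      rw [w3 _ le_rfl] at h3
      rw [w4 _ le_rfl] at h4
      exact ⟨by linarith, by linarith⟩)
    (by
      intro x hx
      obtain ⟨j, hj, rfl⟩ := Finset.mem_image.1 hx
      rw [Tj j hj]; exact (H.arcs j hj).1)
    (by
      intro x hx y hy
      exact hy.1)
    (by
      intro x hx
      obtain ⟨j, hj, rfl⟩ := Finset.mem_image.1 hx
      rw [Tj j hj, TU j hj, hβ _ (jI j hj _ (jl j hj))])
    (by
      intro x hx
      obtain ⟨j, hj, rfl⟩ := Finset.mem_image.1 hx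
      rw [Tj j hj]; exact (H.arcs j hj).2)
    (by
      intro x hx y hy hxy
      obtain ⟨j, hj, rfl⟩ := Finset.mem_image.1 hx
      obtain ⟨j', hj', rfl⟩ := Finset.mem_image.1 hy
      rw [Tj j hj, Tj j' hj']
      exact H.arcd j hj j' hj' (by rintro rfl; exact hxy rfl))
  -- signs in the lens
  have zero_iff : ∀ i < k, ∀ x ∈ D0 (A k), (fn i (Φ.toFun x) = 0 ↔
      ∃ j ∈ K, j.1 = i ∧ x.1 = ϖ (lf A j)) := by
    intro i hi x hx
    constructor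
    · intro h0
      by_cases hz : ∀ j ∈ K, j.1 ≠ i
      · exact absurd h0 (H.noz i hi hz _ (Φ.mapsTo hx))
      · push Not at hz
        obtain ⟨j, hj, hji⟩ := hz
        refine ⟨j, hj, hji, ?_⟩
        have h1 : Φ.toFun x ∈ T (ϖ (lf A j)) := by
          rw [Tj j hj]; exact ⟨Φ.mapsTo hx, by rw [hji]; exact h0⟩
        rw [← ΦV _ (Finset.mem_image.2 ⟨j, hj, rfl⟩)] at h1
        obtain ⟨y, hy, hyx⟩ := h1
        rw [← Φ.injOn hy.1 hx hyx]; exact hy.2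
    · rintro ⟨j, hj, rfl, h2⟩
      have h1 : Φ.toFun x ∈ T (ϖ (lf A j)) := by
        rw [← ΦV _ (Finset.mem_image.2 ⟨j, hj, rfl⟩)]; exact ⟨x, ⟨hx, h2⟩, rfl⟩
      rw [Tj j hj] at h1
      exact h1.2
  have vert : ∀ i < k, ∀ x ∈ D0 (A k), fn i (Φ.toFun x) ≠ 0 →
      ((0 < fn i (Φ.toFun x) ↔ 0 < fn i (Φ.toFun (x.1, 0))) ∧ fn i (Φ.toFun (x.1, 0)) ≠ 0) := by
    intro i hi x hx hne
    have hx0 : ((x.1, 0) : ℝ × ℝ) ∈ D0 (A k) := ⟨hx.1, hx.2.1, le_rfl, hx.2.2.1.trans hx.2.2.2⟩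
    have hne0 : fn i (Φ.toFun (x.1, 0)) ≠ 0 := by
      intro h0
      exact hne ((zero_iff i hi x hx).2 ((zero_iff i hi _ hx0).1 h0))
    refine ⟨?_, hne0⟩
    -- the vertical segment
    set s : Set (ℝ × ℝ) := (fun y : ℝ => (x.1, y)) '' Icc 0 x.2 with hs
    have hsD : s ⊆ D0 (A k) := by
      rintro _ ⟨y, hy, rfl⟩
      exact ⟨hx.1, hx.2.1, hy.1, hy.2.trans hx.2.2.2⟩
    have hpre : IsPreconnected s := isPreconnected_Icc.image _ (by fun_prop)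
    have hfc : ContinuousOn (fun z => fn i (Φ.toFun z)) s :=
      (H.hfn i hi).comp (Φ.cont.mono hsD) (fun z hz => Φ.mapsTo (hsD hz))
    have hz : ∀ z ∈ s, fn i (Φ.toFun z) ≠ 0 := by
      rintro _ ⟨y, hy, rfl⟩ h0
      exact hne ((zero_iff i hi x hx).2 ((zero_iff i hi _ (hsD ⟨y, hy, rfl⟩)).1 h0))
    have m1 : x ∈ s := ⟨x.2, ⟨hx.2.2.1, le_rfl⟩, rfl⟩
    have m0 : ((x.1, 0) : ℝ × ℝ) ∈ s := ⟨0, ⟨le_rfl, hx.2.2.1⟩, rfl⟩
    constructor
    · intro h1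
      by_contra h2
      exact sign_const hpre hfc hz m1 m0 h1 (lt_of_le_of_ne (not_lt.1 h2) hne0)
    · intro h1
      by_contra h2
      exact sign_const hpre hfc hz m0 m1 h1 (lt_of_le_of_ne (not_lt.1 h2) hne)
  have Φϖ : ∀ a ∈ Ic, Φ.toFun (ϖ a, 0) = γ a := fun a ha => by
    rw [Φt (⟨(ϖI a ha).1, rfl⟩ : (ϖ a, (0:ℝ)) ∈ tD (A k)), hβ a ha]
  have sval : ∀ i < k, ∀ a ∈ Ic, ∀ y, ((ϖ a, y) : ℝ × ℝ) ∈ D0 (A k) →
      (fn i (Φ.toFun (ϖ a, y)) < 0 → (A i).sig a = 0) ∧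
      (0 < fn i (Φ.toFun (ϖ a, y)) → (A i).sig a = 1) := by
    intro i hi a ha y hy
    constructor
    · intro h1
      obtain ⟨h2, h3⟩ := vert i hi _ hy h1.ne
      rw [Φϖ a ha] at h2 h3
      refine (H.sgn i hi a ha).1 (lt_of_le_of_ne (not_lt.1 fun h4 => ?_) h3)
      exact absurd (h2.2 h4) (not_lt.2 h1.le)
    · intro h1
      obtain ⟨h2, h3⟩ := vert i hi _ hy h1.ne'
      rw [Φϖ a ha] at h2 h3
      exact (H.sgn i hi a ha).2.1 (h2.1 h1)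
  -- the map
  set zf : ℝ × ℝ → (Fin N → ℝ) := fun x i => if (i : ℕ) < k then (A i).sig x.1 else 0 with hzf
  have pz : PLc zf := PLc.pi fun i => by
    by_cases hi : (i : ℕ) < k
    · simp only [hzf, if_pos hi]; exact PLc.id.fst.sig _
    · simp only [hzf, if_neg hi]; exact PLc.const 0
  have πD : MapsTo π (D0 (A k)) (D0 (A k)) := by
    rintro ⟨a, y⟩ ⟨h1, h2, h3, h4⟩
    have := ϖI a ⟨h1, h2⟩
    exact ⟨this.1.1, this.1.2, h3, by show y ≤ uu (A k) (ϖ a); rw [this.2]; exact h4⟩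
  have πD' : ∀ a y, a ∈ Ic → ((ϖ a, y) : ℝ × ℝ) ∈ D0 (A k) → ((a, y) : ℝ × ℝ) ∈ D0 (A k) := by
    rintro a y ha ⟨h1, h2, h3, h4⟩
    refine ⟨ha.1, ha.2, h3, ?_⟩
    show y ≤ uu (A k) a
    rw [← (ϖI a ha).2]; exact h4
  set Lf : ℝ × ℝ → E × (Fin N → ℝ) := fun x => (Φ.toFun (π x), zf x) with hLf
  have D0c : IsCompact (D0 (A k)) := (conBall_D0 gk).isCompact
  have D0k : ConicalSet (D0 (A k)) := (locCone_D0 (A k)).conicalSet
  have Lc : ContinuousOn Lf (D0 (A k)) :=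
    (Φ.cont.comp (pπ.contOn _) πD).prodMk (pz.contOn _)
  have Lk : ConicalOn Lf (D0 (A k)) :=
    ConicalOn.prodMk (Φ.conical.comp (pπ.kOn D0k) πD (pπ.contOn _)) (pz.kOn D0k)
  have Linj : InjOn Lf (D0 (A k)) := by
    rintro ⟨a, y⟩ hx ⟨b, y'⟩ hx' h
    obtain ⟨h1, h2⟩ := Prod.ext_iff.1 h
    have h3 := Φ.injOn (πD hx) (πD hx') h1
    obtain ⟨h4, h5⟩ := Prod.ext_iff.1 h3
    have h4' : ϖ a = ϖ b := h4
    have h5' : y = y' := h5
    refine Prod.ext ?_ h5'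
    rcases (w5 _ _).1 h4' with h6 | ⟨j, hj, h6, h7⟩
    · exact h6
    · have h8 := congrFun h2 ⟨j.1, (H.Kin j hj).1.trans_le hkN⟩
      simp only [hLf, hzf, (H.Kin j hj).1, if_true] at h8
      exact sig_inj (gK j hj) h6 h7 h8
  have Lim : Lf '' D0 (A k) = Fil N k C₂ fn := by
    ext ⟨x, z⟩
    constructor
    · rintro ⟨⟨a, y⟩, hx, h⟩
      rw [← h]
      have ha : a ∈ Ic := ⟨hx.1, hx.2.1⟩
      refine ⟨Φ.mapsTo (πD hx), fun i => ⟨?_, ?_, ?_, ?_⟩⟩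
      · show 0 ≤ (if (i : ℕ) < k then (A i).sig a else 0) ∧ (if (i : ℕ) < k then (A i).sig a else 0) ≤ 1
        split_ifs
        · exact ⟨cl1_nonneg _, cl1_le_one _⟩
        · exact ⟨le_rfl, zero_le_one⟩
      · intro hi h1
        show (if (i : ℕ) < k then (A i).sig a else 0) = 0
        rw [if_pos hi]
        exact (sval i hi a ha y (πD hx)).1 h1
      · intro h1 hi
        show (if (i : ℕ) < k then (A i).sig a else 0) = 1
        rw [if_pos h1]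
        exact (sval i h1 a ha y (πD hx)).2 hi
      · intro hi
        show (if (i : ℕ) < k then (A i).sig a else 0) = 0
        rw [if_neg (not_lt.2 hi)]
    · rintro ⟨hx, hz⟩
      simp only at hx hz
      obtain ⟨⟨b, y⟩, hb, hbx⟩ : ∃ p ∈ D0 (A k), Φ.toFun p = x :=
        ⟨Φ.invFun x, Φ.mapsTo_inv hx, Φ.right_inv hx⟩
      have hbI : b ∈ Ic := ⟨hb.1, hb.2.1⟩
      -- it suffices to find a good first coordinate
      suffices hs : ∃ a ∈ Ic, ϖ a = b ∧ ∀ i : Fin N, (i : ℕ) < k → (A i).sig a = z i by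
        obtain ⟨a, ha, hab, hs⟩ := hs
        refine ⟨(a, y), πD' a y ha (by rw [hab]; exact hb), ?_⟩
        refine Prod.ext ?_ ?_
        · show Φ.toFun (ϖ a, y) = x
          rw [hab, hbx]
        · funext i
          show (if (i : ℕ) < k then (A i).sig a else 0) = z i
          split_ifs with hi
          · exact hs i hi
          · exact ((hz i).2.2.2 (not_lt.1 hi)).symm
      -- the coordinates with nonzero sign
      have hgen : ∀ a ∈ Ic, ϖ a = b → ∀ i : Fin N, (i : ℕ) < k → fn i x ≠ 0 →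
          (A i).sig a = z i := by
        intro a ha hab i hi hne
        have hD : ((ϖ a, y) : ℝ × ℝ) ∈ D0 (A k) := by rw [hab]; exact hb
        have h1 := sval i hi a ha y hD
        rw [hab, hbx] at h1
        rcases lt_or_gt_of_ne hne with h2 | h2
        · rw [h1.1 h2, (hz i).2.1 hi h2]
        · rw [h1.2 h2, (hz i).2.2.1 hi h2]
      by_cases hex : ∃ i : Fin N, (i : ℕ) < k ∧ fn i x = 0
      · obtain ⟨i, hi, h0⟩ := hex
        rw [← hbx] at h0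
        obtain ⟨j, hj, hji, hbj⟩ := (zero_iff i hi _ hb).1 h0
        have hbj' : b = ϖ (lf A j) := hbj
        obtain ⟨a, ha, haz⟩ := sig_surj (gK j hj) (hz i).1.1 (hz i).1.2
        refine ⟨a, jI j hj a ha, by rw [jϖ' j hj a ha, hbj'], fun i' hi' => ?_⟩
        by_cases hii : (i' : ℕ) = i
        · have h3 : i' = i := Fin.ext hii
          subst h3
          rw [hji] at haz
          exact haz
        · refine hgen a (jI j hj a ha) (by rw [jϖ' j hj a ha, hbj']) i' hi' fun h4 => ?_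
          rw [← hbx] at h4
          obtain ⟨j', hj', hji', hbj''⟩ := (zero_iff i' hi' _ hb).1 h4
          have : j' = j := jinj j' hj' j hj (by rw [← hbj', ← hbj''])
          rw [this, hji] at hji'
          exact hii hji'.symm
      · push Not at hex
        obtain ⟨a, ha, hab⟩ := ϖs b hbI
        exact ⟨a, ha, hab, fun i hi => hgen a ha hab i hi (hex i hi)⟩
  refine ⟨ConHomeo.ofCompact D0c Lf Lc Linj Lk Lim, ?_, ?_, ?_, ?_, ?_⟩
  all_goals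
    have hne : (D0 (A k)).Nonempty := (conBall_D0 gk).nonempty'
    have eL : (ConHomeo.ofCompact D0c Lf Lc Linj Lk Lim).toFun = Lf := by
      unfold ConHomeo.ofCompact
      rw [dif_pos hne]
    rw [eL]
  · intro x _ i; rfl
  · intro a ha
    show Φ.toFun (ϖ a, 0) = γ a
    exact Φϖ a ha
  · intro x hx
    show Φ.toFun (π x) ∈ S ↔ x ∈ gD (A k)
    have h1 : Φ.toFun (π x) ∈ S ↔ π x ∈ gD (A k) := by
      rw [← Φg]
      constructor
      · rintro ⟨y, hy, hyx⟩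
        rw [← Φ.injOn (gD_sub gk hy) (πD hx) hyx]; exact hy
      · intro h; exact ⟨_, h, rfl⟩
    rw [h1]
    have h2 := ϖI x.1 ⟨hx.1, hx.2.1⟩
    constructor
    · rintro ⟨_, _, h3⟩
      exact ⟨hx.1, hx.2.1, by rw [← h2.2]; exact h3⟩
    · rintro ⟨_, _, h3⟩
      exact ⟨h2.1.1, h2.1.2, by show x.2 = uu (A k) (ϖ x.1); rw [h2.2]; exact h3⟩
  · intro x hx x' hx'
    show Φ.toFun (π x) = Φ.toFun (π x') ↔ _
    rw [← w5]
    constructor
    · intro h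
      have h1 := Φ.injOn (πD hx) (πD hx') h
      exact ⟨(Prod.ext_iff.1 h1).2, (Prod.ext_iff.1 h1).1⟩
    · rintro ⟨h1, h2⟩
      have : π x = π x' := Prod.ext h2 h1
      rw [this]
  · intro x hx i hi
    have hxI : x.1 ∈ Ic := ⟨hx.1, hx.2.1⟩
    have z0 : fn i (γ x.1) = 0 → fn i (Φ.toFun (π x)) = 0 := by
      intro h0
      obtain ⟨j, hj, hji, ha⟩ := (H.sgn i hi x.1 hxI).2.2.1 h0
      exact (zero_iff i hi _ (πD hx)).2 ⟨j, hj, hji, jϖ' j hj _ ha⟩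
    have z1 : fn i (γ x.1) ≠ 0 → fn i (Φ.toFun (π x)) ≠ 0 := by
      intro h0 h1
      obtain ⟨j, hj, hji, ha⟩ := (zero_iff i hi _ (πD hx)).1 h1
      exact h0 ((H.sgn i hi x.1 hxI).2.2.2 ⟨j, hj, hji, jϖ j hj _ ha⟩)
    have z2 : fn i (γ x.1) ≠ 0 → (0 < fn i (Φ.toFun (π x)) ↔ 0 < fn i (γ x.1)) := by
      intro h0
      have := (vert i hi _ (πD hx) (z1 h0)).1
      rw [show ((π x).1, (0:ℝ)) = (ϖ x.1, 0) from rfl, Φϖ _ hxI] at this
      exact this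
    refine ⟨z0, fun h => (z2 h.ne').2 h, fun h => ?_⟩
    exact lt_of_le_of_ne (not_lt.1 fun h1 => absurd ((z2 h.ne).1 h1) (not_lt.2 h.le)) (z1 h.ne)

end P073.H31
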