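import Vale.Agent.P073.H31.PlRegion

/-!
# P073, H31, METRIC: moving one arc of the lens into vertical position
-/

open Set Metric Topology Filter

namespace P073.H31

open P073.H339 P073.GB200 P073.H341

variable {A : ArcD}

/-- two-piece linear reparametrisation of `[p, c]` with `m ↦ b` -/
noncomputable def g2 (p m b c x : ℝ) : ℝ :=
  p + (b - p) / (m - p) * (min x m - p) + (c - b) / (c - m) * (max x m - m)

theorem g2_le {p m b c x : ℝ} (hx : x ≤ m) : g2 p m b c x = p + (b - p) / (m - p) * (x - p) := by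
  rw [g2, min_eq_left hx, max_eq_right hx, sub_self, mul_zero, add_zero]

theorem g2_ge {p m b c x : ℝ} (hpm : p < m) (hx : m ≤ x) :
    g2 p m b c x = b + (c - b) / (c - m) * (x - m) := by
  have : m - p ≠ 0 := (sub_pos.2 hpm).ne'
  rw [g2, min_eq_right hx, max_eq_left hx, div_mul_cancel₀ _ this]; ring

theorem g2_p {p m b c : ℝ} (hpm : p < m) : g2 p m b c p = p := by
  rw [g2_le hpm.le]; ring

theorem g2_m {p m b c : ℝ} (hpm : p < m) : g2 p m b c m = b := by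
  rw [g2_ge hpm le_rfl]; ring

theorem g2_c {p m b c : ℝ} (hpm : p < m) (hmc : m < c) : g2 p m b c c = c := by
  have : c - m ≠ 0 := (sub_pos.2 hmc).ne'
  rw [g2_ge hpm hmc.le, div_mul_cancel₀ _ this]; ring

theorem g2_mem {p m b c x : ℝ} (hpm : p < m) (hmc : m < c) (hpb : p < b) (hbc : b < c)
    (h1 : p ≤ x) (h2 : x ≤ c) :
    p ≤ g2 p m b c x ∧ g2 p m b c x ≤ c ∧ g2 p b m c (g2 p m b c x) = x := by
  have k1 : 0 < m - p := sub_pos.2 hpm
  have k2 : 0 < c - m := sub_pos.2 hmc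
  have k3 : 0 < b - p := sub_pos.2 hpb
  have k4 : 0 < c - b := sub_pos.2 hbc
  rcases le_total x m with hx | hx
  · have e := g2_le (p := p) (m := m) (b := b) (c := c) hx
    have h3 : 0 ≤ (b - p) / (m - p) * (x - p) := mul_nonneg (div_pos k3 k1).le (by linarith)
    have h4 : (b - p) / (m - p) * (x - p) ≤ b - p := by
      rw [div_mul_eq_mul_div, div_le_iff₀ k1]; nlinarith
    refine ⟨by rw [e]; linarith, by rw [e]; linarith, ?_⟩
    rw [g2_le (by rw [e]; linarith), e]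
    field_simp; ring
  · have e := g2_ge (p := p) (m := m) (b := b) (c := c) hpm hx
    have h3 : 0 ≤ (c - b) / (c - m) * (x - m) := mul_nonneg (div_pos k4 k2).le (by linarith)
    have h4 : (c - b) / (c - m) * (x - m) ≤ c - b := by
      rw [div_mul_eq_mul_div, div_le_iff₀ k2]; nlinarith
    refine ⟨by rw [e]; linarith, by rw [e]; linarith, ?_⟩
    rw [g2_ge hpb (by rw [e]; linarith), e]
    field_simp; ring

theorem PLc.g2 {E : Type*} [NormedAddCommGroup E] [NormedSpace ℝ E] {f : E → ℝ} (p m b c : ℝ)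
    (hf : PLc f) : PLc (fun x => g2 p m b c (f x)) :=
  ((PLc.const p).add (((hf.min (PLc.const m)).sub (PLc.const p)).cmul _)).add
    (((hf.max (PLc.const m)).sub (PLc.const m)).cmul _)

theorem locCone_gDc (A : ArcD) (c : ℝ) : LocCone {x : ℝ × ℝ | x ∈ gD A ∧ x.1 ≤ c} := by
  have h1 : PLc (fun x : ℝ × ℝ => x.1) := PLc.id.fst
  have h2 : PLc (fun x : ℝ × ℝ => x.2) := PLc.id.snd
  exact (((PLc.const _).locCone_le h1).inter ((h1.locCone_le (PLc.const _)).inter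
    (h2.locCone_eq (h1.uu A)))).inter (h1.locCone_le (PLc.const c))

theorem locCone_X1 (A : ArcD) (c : ℝ) :
    LocCone {x : ℝ × ℝ | (x ∈ tD A ∧ x.1 ≤ c) ∨ x ∈ Vc A c} := by
  have h1 : PLc (fun x : ℝ × ℝ => x.1) := PLc.id.fst
  have h2 : PLc (fun x : ℝ × ℝ => x.2) := PLc.id.snd
  have k1 : LocCone {x : ℝ × ℝ | x ∈ tD A ∧ x.1 ≤ c} := by
    have := ((((PLc.const (A.p + A.w)).locCone_le h1).inter
      (h1.locCone_le (PLc.const (A.q - A.w')))).inter (h2.locCone_eq (PLc.const 0))).inter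
      (h1.locCone_le (PLc.const c))
    exact this
  have k2 : LocCone (Vc A c) := (locCone_D0 A).inter (h1.locCone_eq (PLc.const c))
  exact k1.union k2

theorem isClosed_D0 (A : ArcD) : IsClosed (D0 A) :=
  (isClosed_le continuous_const continuous_fst).inter
    ((isClosed_le continuous_fst continuous_const).inter
      ((isClosed_le continuous_const continuous_snd).inter
        (isClosed_le continuous_snd ((PLc.id.uu A).c.comp continuous_fst))))

theorem isClosed_tD (A : ArcD) : IsClosed (tD A) := isClosed_Icc.prod isClosed_singleton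

theorem isClosed_gD (A : ArcD) : IsClosed (gD A) :=
  (isClosed_le continuous_const continuous_fst).inter
    ((isClosed_le continuous_fst continuous_const).inter
      (isClosed_eq continuous_snd ((PLc.id.uu A).c.comp continuous_fst)))

/-- the boundary reparametrisation -/
theorem exists_bdry_shift (h : A.Good) {m b0 c : ℝ} (hm : A.p + A.w < m) (hmc : m < c)
    (hb : A.p + A.w < b0) (hbc : b0 < c) (hc : c ≤ A.q - A.w') :
    ∃ φ : ConHomeo (bRc A c) (bRc A c), (∀ x ∈ tD A, x.1 ≤ c → φ.toFun x = x) ∧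
      (∀ x ∈ Vc A c, φ.toFun x = x) ∧
      (∀ x ∈ gD A, x.1 ≤ c →
        φ.toFun x = (g2 (A.p + A.w) m b0 c x.1, uu A (g2 (A.p + A.w) m b0 c x.1))) ∧
      φ.toFun '' (gD A ∩ {x | x.1 ≤ c}) = gD A ∩ {x | x.1 ≤ c} := by
  set X₁ : Set (ℝ × ℝ) := {x | (x ∈ tD A ∧ x.1 ≤ c) ∨ x ∈ Vc A c} with hX1
  set X₂ : Set (ℝ × ℝ) := {x | x ∈ gD A ∧ x.1 ≤ c} with hX2
  have mem2 : ∀ b, A.p + A.w ≤ b → b ≤ c → ((b, uu A b) : ℝ × ℝ) ∈ X₂ := fun b h1 h2 =>
    ⟨⟨h1, h2.trans hc, rfl⟩, h2⟩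
  have k := fun (x : ℝ) (h1 : A.p + A.w ≤ x) (h2 : x ≤ c) => g2_mem hm hmc hb hbc h1 h2
  have k' := fun (x : ℝ) (h1 : A.p + A.w ≤ x) (h2 : x ≤ c) => g2_mem hb hbc hm hmc h1 h2
  let φ₂ : ConHomeo X₂ X₂ := mkCon
    (f := fun x : ℝ × ℝ => (g2 (A.p + A.w) m b0 c x.1, uu A (g2 (A.p + A.w) m b0 c x.1)))
    (g := fun x : ℝ × ℝ => (g2 (A.p + A.w) b0 m c x.1, uu A (g2 (A.p + A.w) b0 m c x.1)))
    ((PLc.id.fst.g2 _ _ _ _).prodMk ((PLc.id.fst.g2 _ _ _ _).uu A))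
    ((PLc.id.fst.g2 _ _ _ _).prodMk ((PLc.id.fst.g2 _ _ _ _).uu A))
    (locCone_gDc A c).conicalSet
    (fun x hx => mem2 _ (k x.1 hx.1.1 hx.2).1 (k x.1 hx.1.1 hx.2).2.1)
    (fun x hx => mem2 _ (k' x.1 hx.1.1 hx.2).1 (k' x.1 hx.1.1 hx.2).2.1)
    (fun x hx => by
      have := (k x.1 hx.1.1 hx.2).2.2
      refine Prod.ext this ?_
      show uu A _ = x.2
      rw [hx.1.2.2]
      exact congrArg (uu A) this)
    (fun x hx => by
      have := (k' x.1 hx.1.1 hx.2).2.2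
      refine Prod.ext this ?_
      show uu A _ = x.2
      rw [hx.1.2.2]
      exact congrArg (uu A) this)
  let φ₁ : ConHomeo X₁ X₁ := ConHomeo.refl (locCone_X1 A c).conicalSet
  have c1 : IsClosed X₁ := by
    have : X₁ = (tD A ∩ {x | x.1 ≤ c}) ∪ (D0 A ∩ {x | x.1 = c}) := rfl
    rw [this]
    exact ((isClosed_tD A).inter (isClosed_le continuous_fst continuous_const)).union
      ((isClosed_D0 A).inter (isClosed_eq continuous_fst continuous_const))
  have c2 : IsClosed X₂ := (isClosed_gD A).inter (isClosed_le continuous_fst continuous_const)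
  have hag : EqOn φ₁.toFun φ₂.toFun (X₁ ∩ X₂) := by
    rintro ⟨x, y⟩ ⟨h1, h2⟩
    show ((x, y) : ℝ × ℝ) = (g2 (A.p + A.w) m b0 c x, uu A (g2 (A.p + A.w) m b0 c x))
    have hy : y = uu A x := h2.1.2.2
    have hx : x = A.p + A.w ∨ x = c := by
      rcases h1 with ⟨h3, h4⟩ | h3
      · have h5 : y = 0 := h3.2
        rw [h5] at hy
        rcases (uu_zero_iff h h3.1.1 h3.1.2).1 hy.symm with h6 | h6
        · exact Or.inl h6
        · right
          have h7 : x ≤ c := h4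
          have h8 : x = A.q - A.w' := h6
          linarith
      · exact Or.inr h3.2
    rcases hx with rfl | rfl
    · rw [g2_p hm, hy]
    · rw [g2_c hm hmc, hy]
  have himg : X₁ ∩ X₂ ⊆ φ₁.toFun '' (X₁ ∩ X₂) := fun x hx => ⟨x, hx, rfl⟩
  have e : X₁ ∪ X₂ = bRc A c := by
    ext x
    simp only [hX1, hX2, bRc, mem_union, mem_inter_iff, mem_ofPred_eq]
    tauto
  let φ := (ConHomeo.glue φ₁ φ₂ c1 c2 c1 c2 hag himg).cast e e
  have e1 : EqOn φ.toFun φ₁.toFun X₁ := ConHomeo.glue_left φ₁ φ₂ c1 c2 c1 c2 hag himg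
  have e2 : EqOn φ.toFun φ₂.toFun X₂ := ConHomeo.glue_right φ₁ φ₂ c1 c2 c1 c2 hag himg
  refine ⟨φ, fun x hx hxc => e1 (Or.inl ⟨hx, hxc⟩), fun x hx => e1 (Or.inr hx),
    fun x hx hxc => e2 ⟨hx, hxc⟩, ?_⟩
  have : (gD A ∩ {x | x.1 ≤ c} : Set (ℝ × ℝ)) = X₂ := rfl
  rw [this, e2.image_eq, φ₂.image_eq]

/-- **one arc of the lens can be moved into vertical position** -/
theorem exists_shift (h : A.Good) {m b0 c : ℝ} (hm : A.p + A.w < m) (hmc : m < c)
    (hb : A.p + A.w < b0) (hbc : b0 < c) (hc : c ≤ A.q - A.w') {T : Set (ℝ × ℝ)}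
    (hT : IsArc T (m, 0) (b0, uu A b0)) (hTD : T ⊆ D0 A) (hTc : ∀ x ∈ T, x.1 < c)
    (hTt : T ∩ tD A ⊆ {(m, 0)}) (hTg : T ∩ gD A ⊆ {(b0, uu A b0)}) :
    ∃ Ψ : ConHomeo (D0 A) (D0 A), (∀ x ∈ tD A, Ψ.toFun x = x) ∧ Ψ.toFun '' gD A = gD A ∧
      (∀ x ∈ D0 A, c ≤ x.1 → Ψ.toFun x = x) ∧ Ψ.toFun '' Vc A m = T := by
  classical
  have hmq : m < A.q - A.w' := hmc.trans_le hc
  have hpc : A.p + A.w < c := hm.trans hmc
  obtain ⟨φ, φt, φV, φg, φi⟩ := exists_bdry_shift h hm hmc hb hbc hc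
  have hV := isArc_Vc h hm hmq
  have mt : ((m, 0) : ℝ × ℝ) ∈ tD A := ⟨⟨hm.le, hmq.le⟩, rfl⟩
  have mg : ((m, uu A m) : ℝ × ℝ) ∈ gD A := ⟨hm.le, hmq.le, rfl⟩
  have bg : ((b0, uu A b0) : ℝ × ℝ) ∈ gD A := ⟨hb.le, (hbc.trans_le hc).le, rfl⟩
  have φm : φ.toFun (m, 0) = (m, 0) := φt _ mt hmc.le
  have φm' : φ.toFun (m, uu A m) = (b0, uu A b0) := by
    rw [φg _ mg hmc.le, g2_m hm]
  -- the traces on the boundary
  have tV : Vc A m ∩ bRc A c = {(m, 0), (m, uu A m)} := by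
    ext ⟨x, y⟩
    constructor
    · rintro ⟨h1, h2⟩
      have hx : x = m := h1.2
      subst hx
      rcases h2 with ⟨h2 | h2, _⟩ | h2
      · left
        have : y = 0 := h2.2
        rw [this]
      · right
        have : y = uu A x := h2.2.2
        rw [this]; rfl
      · exact absurd h2.2 hmc.ne
    · rintro (h1 | h1)
      · rw [h1]
        exact ⟨hV.left_mem, Or.inl ⟨Or.inl mt, hmc.le⟩⟩
      · have h1' : (x, y) = (m, uu A m) := h1
        rw [h1']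
        exact ⟨hV.right_mem, Or.inl ⟨Or.inr mg, hmc.le⟩⟩
  have tT : T ∩ bRc A c = {(m, 0), (b0, uu A b0)} := by
    ext x
    constructor
    · rintro ⟨h1, h2⟩
      rcases h2 with ⟨h2 | h2, _⟩ | h2
      · left; exact hTt ⟨h1, h2⟩
      · right; exact hTg ⟨h1, h2⟩
      · exact absurd h2.2 (hTc x h1).ne
    · rintro (h1 | h1)
      · rw [h1]
        exact ⟨hT.left_mem, Or.inl ⟨Or.inl mt, hmc.le⟩⟩
      · have h1' : x = (b0, uu A b0) := h1
        rw [h1']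
        exact ⟨hT.right_mem, Or.inl ⟨Or.inr bg, hbc.le⟩⟩
  have hR := conBall_Rc h hpc hc
  have hF : Fam 1 (Rc A c) (bRc A c) ({()} : Finset Unit) (fun _ => Vc A m) :=
    { hC := hR
      hS := fun k _ => by
        rw [tV]; exact isArc_iff_conBall.1 hV
      hSC := fun k _ x hx => ⟨hx.1, by rw [hx.2]; exact hmc.le⟩
      hSd := fun k _ k' _ hk => absurd (Subsingleton.elim k k') hk }
  have hF' : Fam 1 (Rc A c) (bRc A c) ({()} : Finset Unit) (fun _ => T) :=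
    { hC := hR
      hS := fun k _ => by
        rw [tT]; exact isArc_iff_conBall.1 hT
      hSC := fun k _ x hx => ⟨hTD hx, (hTc x hx).le⟩
      hSd := fun k _ k' _ hk => absurd (Subsingleton.elim k k') hk }
  obtain ⟨ψ, ψ1, ψ2⟩ := hV.exists_homeo hT
  obtain ⟨Θ, Θ1, Θ2⟩ := fel' (n := 0) cutP_one cutP_one hF hF' φ (fun _ _ => ψ)
    (fun k _ => by rw [tV, tT, image_pair, φm, φm'])
    (fun k _ x hx => by
      rw [tV] at hx
      rcases hx with hx | hx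
      · rw [hx, φm]; exact ψ1
      · have hx' : x = (m, uu A m) := hx
        rw [hx', φm']; exact ψ2)
  -- extension by the identity
  set X₂ : Set (ℝ × ℝ) := D0 A ∩ {x | c ≤ x.1} with hX2
  have lX2 : LocCone X₂ := (locCone_D0 A).inter ((PLc.const c).locCone_le PLc.id.fst)
  have cX2 : IsClosed X₂ := (isClosed_D0 A).inter (isClosed_le continuous_const continuous_fst)
  have cX1 : IsClosed (Rc A c) := (isClosed_D0 A).inter (isClosed_le continuous_fst continuous_const)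
  let ι₂ : ConHomeo X₂ X₂ := ConHomeo.refl lX2.conicalSet
  have hint : ∀ x, x ∈ Rc A c ∩ X₂ → x ∈ Vc A c := fun x hx => ⟨hx.2.1, le_antisymm hx.1.2 hx.2.2⟩
  have ΘV : ∀ x ∈ Vc A c, Θ.toFun x = x := fun x hx => by
    rw [Θ1 (Or.inr hx : x ∈ bRc A c), φV x hx]
  have hag : EqOn Θ.toFun ι₂.toFun (Rc A c ∩ X₂) := fun x hx => ΘV x (hint x hx)
  have himg : Rc A c ∩ X₂ ⊆ Θ.toFun '' (Rc A c ∩ X₂) := fun x hx => ⟨x, hx, ΘV x (hint x hx)⟩
  have e : Rc A c ∪ X₂ = D0 A := by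
    ext x
    constructor
    · rintro (hx | hx)
      · exact hx.1
      · exact hx.1
    · intro hx
      rcases le_total x.1 c with h1 | h1
      · exact Or.inl ⟨hx, h1⟩
      · exact Or.inr ⟨hx, h1⟩
  let Ψ := (ConHomeo.glue Θ ι₂ cX1 cX2 cX1 cX2 hag himg).cast e e
  have e1 : EqOn Ψ.toFun Θ.toFun (Rc A c) := ConHomeo.glue_left Θ ι₂ cX1 cX2 cX1 cX2 hag himg
  have e2 : EqOn Ψ.toFun ι₂.toFun X₂ := ConHomeo.glue_right Θ ι₂ cX1 cX2 cX1 cX2 hag himg
  have tsub := tD_sub h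
  have gsub := gD_sub h
  have Ψt : ∀ x ∈ tD A, Ψ.toFun x = x := by
    intro x hx
    rcases le_total x.1 c with h1 | h1
    · rw [e1 ⟨tsub hx, h1⟩, Θ1 (Or.inl ⟨Or.inl hx, h1⟩ : x ∈ bRc A c), φt x hx h1]
    · exact e2 ⟨tsub hx, h1⟩
  have Ψg : ∀ x ∈ gD A, x.1 ≤ c → Ψ.toFun x = φ.toFun x := fun x hx h1 => by
    rw [e1 ⟨gsub hx, h1⟩, Θ1 (Or.inl ⟨Or.inr hx, h1⟩ : x ∈ bRc A c)]
  refine ⟨Ψ, Ψt, ?_, fun x hx hxc => e2 ⟨hx, hxc⟩, ?_⟩
  · apply Subset.antisymm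
    · rintro _ ⟨x, hx, rfl⟩
      rcases le_total x.1 c with h1 | h1
      · rw [Ψg x hx h1]
        have : φ.toFun x ∈ gD A ∩ {x | x.1 ≤ c} := by
          rw [← φi]; exact ⟨x, ⟨hx, h1⟩, rfl⟩
        exact this.1
      · rw [e2 ⟨gsub hx, h1⟩]; exact hx
    · intro x hx
      rcases le_total x.1 c with h1 | h1
      · have : x ∈ φ.toFun '' (gD A ∩ {x | x.1 ≤ c}) := by rw [φi]; exact ⟨hx, h1⟩
        obtain ⟨y, hy, rfl⟩ := this
        exact ⟨y, hy.1, Ψg y hy.1 hy.2⟩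
      · exact ⟨x, hx, e2 ⟨gsub hx, h1⟩⟩
  · have : EqOn Ψ.toFun ψ.toFun (Vc A m) := fun x hx => by
      rw [e1 ⟨hx.1, by rw [hx.2]; exact hmc.le⟩]
      exact Θ2 () (Finset.mem_singleton_self _) hx
    rw [this.image_eq, ψ.image_eq]

end P073.H31
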