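import Vale.Agent.P073.H31.PlThin

/-!
# P073, H31, METRIC: the thin lens: arcs crossing a lens become vertical
-/

open Set Metric Topology Filter

namespace P073.H31

open P073.H339 P073.GB200 P073.H341

variable {E : Type*} [NormedAddCommGroup E] [NormedSpace ℝ E] {A : ArcD}

theorem mem_tD (_h : A.Good) {b : ℝ} (h1 : A.p + A.w ≤ b) (h2 : b ≤ A.q - A.w') :
    ((b, 0) : ℝ × ℝ) ∈ tD A := ⟨⟨h1, h2⟩, rfl⟩

theorem tD_inter_gD (h : A.Good) : tD A ∩ gD A ⊆ {(A.p + A.w, 0), (A.q - A.w', 0)} := by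
  rintro ⟨x, y⟩ ⟨⟨h1, h2⟩, h3, h4, h5⟩
  have hy : y = 0 := h2
  subst hy
  rcases (uu_zero_iff h h1.1 h1.2).1 h5.symm with h6 | h6
  · left
    have h7 : x = A.p + A.w := h6
    rw [h7]
  · right
    have h7 : x = A.q - A.w' := h6
    rw [h7]; rfl

theorem thin_lens (h : A.Good) {C₂ U S : Set E} (hC : ConBall 2 C₂ (U ∪ S))
    (β : ConHomeo (tD A) U) (hS : IsArc S (β.toFun (A.p + A.w, 0)) (β.toFun (A.q - A.w', 0)))
    (hUS : U ∩ S ⊆ {β.toFun (A.p + A.w, 0), β.toFun (A.q - A.w', 0)}) (X : Finset ℝ)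
    (T : ℝ → Set E) (hX : ∀ x ∈ X, A.p + A.w < x ∧ x < A.q - A.w')
    (hT : ∀ x ∈ X, ConBall 1 (T x) (T x ∩ (U ∪ S))) (hTC : ∀ x ∈ X, T x ⊆ C₂)
    (hTU : ∀ x ∈ X, T x ∩ U = {β.toFun (x, 0)}) (hTS : ∀ x ∈ X, (T x ∩ S).Nonempty)
    (hTd : ∀ x ∈ X, ∀ y ∈ X, x ≠ y → Disjoint (T x) (T y)) :
    ∃ Φ : ConHomeo (D0 A) C₂, EqOn Φ.toFun β.toFun (tD A) ∧ Φ.toFun '' gD A = S ∧
      ∀ x ∈ X, Φ.toFun '' Vc A x = T x := by
  classical
  have ptD := mem_tD h le_rfl h.pqs.le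
  have qtD := mem_tD h h.pqs.le le_rfl
  have tsub := tD_sub h
  have gsub := gD_sub h
  revert hX hT hTC hTU hTS hTd
  induction X using Finset.induction_on_min with
  | empty =>
    intro _ _ _ _ _ _
    obtain ⟨σ, σ1, σ2⟩ := (isArc_gD h).exists_homeo hS
    obtain ⟨φ, φ1, φ2⟩ := exists_glue_arcs β σ (isClosed_tD A) (isClosed_gD A)
      (β.isCompact_right (isArc_tD h).isCompact).isClosed hS.isClosed
      (a := (A.p + A.w, 0)) (b := (A.q - A.w', 0))
      ⟨ptD, (isArc_gD h).left_mem⟩ ⟨qtD, (isArc_gD h).right_mem⟩ (tD_inter_gD h) hUS rfl rfl σ1 σ2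
    obtain ⟨Φ, h1, h2⟩ := (conBall_D0 h).exists_extend hC φ
    have e1 : EqOn Φ.toFun β.toFun (tD A) := fun x hx => (h1 (Or.inl hx)).trans (φ1 hx)
    have e2 : EqOn Φ.toFun σ.toFun (gD A) := fun x hx => (h1 (Or.inr hx)).trans (φ2 hx)
    exact ⟨Φ, e1, by rw [e2.image_eq, σ.image_eq], by simp⟩
  | insert m X hm IH =>
    intro hX hT hTC hTU hTS hTd
    obtain ⟨Φ, Φt, Φg, ΦV⟩ := IH (fun x hx => hX x (Finset.mem_insert_of_mem hx))
      (fun x hx => hT x (Finset.mem_insert_of_mem hx))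
      (fun x hx => hTC x (Finset.mem_insert_of_mem hx))
      (fun x hx => hTU x (Finset.mem_insert_of_mem hx))
      (fun x hx => hTS x (Finset.mem_insert_of_mem hx))
      (fun x hx y hy => hTd x (Finset.mem_insert_of_mem hx) y (Finset.mem_insert_of_mem hy))
    have mX : m ∈ insert m X := Finset.mem_insert_self m X
    obtain ⟨hm1, hm2⟩ := hX m mX
    have mtD := mem_tD h hm1.le hm2.le
    -- the next position
    obtain ⟨c, hmc, hcq, hcX, hcX'⟩ : ∃ c, m < c ∧ c ≤ A.q - A.w' ∧ (∀ x ∈ X, c ≤ x) ∧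
        (c = A.q - A.w' ∨ c ∈ X) := by
      by_cases hne : X.Nonempty
      · refine ⟨X.min' hne, hm _ (X.min'_mem hne), ?_, fun x hx => X.min'_le x hx,
          Or.inr (X.min'_mem hne)⟩
        exact (hX _ (Finset.mem_insert_of_mem (X.min'_mem hne))).2.le
      · rw [Finset.not_nonempty_iff_eq_empty] at hne
        subst hne
        exact ⟨A.q - A.w', hm2, le_rfl, by simp, Or.inl rfl⟩
    -- the end points of `T m`
    have inj := Φ.injOn
    have Φm : Φ.toFun (m, 0) = β.toFun (m, 0) := Φt mtD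
    have hTm := hT m mX
    have hbS : β.toFun (m, 0) ∉ S := by
      intro hs
      rcases hUS ⟨β.mapsTo mtD, hs⟩ with h1 | h1
      · exact hm1.ne' (Prod.ext_iff.1 (β.injOn mtD ptD h1)).1
      · exact hm2.ne (Prod.ext_iff.1 (β.injOn mtD qtD h1)).1
    have hbT : β.toFun (m, 0) ∈ T m ∩ U := by rw [hTU m mX]; rfl
    obtain ⟨s, hsT, hsS⟩ := hTS m mX
    have hne : β.toFun (m, 0) ≠ s := fun he => hbS (he ▸ hsS)
    have hpair : T m ∩ (U ∪ S) = {β.toFun (m, 0), s} := by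
      obtain ⟨a, b, hab⟩ := exists_pair hTm
      have h1 : β.toFun (m, 0) ∈ ({a, b} : Set E) := hab ▸ ⟨hbT.1, Or.inl hbT.2⟩
      have h2 : s ∈ ({a, b} : Set E) := hab ▸ ⟨hsT, Or.inr hsS⟩
      rw [hab]
      rcases h1 with h1 | h1 <;> rcases h2 with h2 | h2
      · exact absurd (h1.trans h2.symm) hne
      · rw [h1]; have h2' : s = b := h2; rw [h2']
      · rw [h2]; have h1' : β.toFun (m, 0) = b := h1; rw [h1', pair_comm]
      · have h1' : β.toFun (m, 0) = b := h1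
        have h2' : s = b := h2
        exact absurd (h1'.trans h2'.symm) hne
    have hTS1 : T m ∩ S ⊆ {s} := by
      rintro y ⟨hy1, hy2⟩
      have : y ∈ ({β.toFun (m, 0), s} : Set E) := hpair ▸ ⟨hy1, Or.inr hy2⟩
      rcases this with h1 | h1
      · exact absurd (h1 ▸ hy2) hbS
      · exact h1
    have harc : IsArc (T m) (β.toFun (m, 0)) s := isArc_iff_conBall.2 (hpair ▸ hTm)
    -- pull back
    obtain ⟨g, hg, hgs⟩ : ∃ g ∈ gD A, Φ.toFun g = s := by
      have : s ∈ Φ.toFun '' gD A := by rw [Φg]; exact hsS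
      obtain ⟨g, hg, rfl⟩ := this
      exact ⟨g, hg, rfl⟩
    have hgD := gsub hg
    set T' := Φ.symm.toFun '' T m with hT'
    have hT'D : T' ⊆ D0 A := by
      rintro _ ⟨x, hx, rfl⟩
      exact Φ.mapsTo_inv (hTC m mX hx)
    have hΦT' : ∀ x ∈ T', Φ.toFun x ∈ T m := by
      rintro _ ⟨x, hx, rfl⟩
      show Φ.toFun (Φ.invFun x) ∈ T m
      rw [Φ.right_inv (hTC m mX hx)]; exact hx
    have hT'i : ∀ x ∈ D0 A, Φ.toFun x ∈ T m → x ∈ T' := fun x hx h1 =>
      ⟨Φ.toFun x, h1, Φ.left_inv hx⟩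
    have arc' : IsArc T' (m, 0) (g.1, uu A g.1) := by
      have h1 := harc.image Φ.symm (hTC m mX)
      have e1 : Φ.symm.toFun (β.toFun (m, 0)) = (m, 0) := by
        rw [← Φm]; exact Φ.left_inv (tsub mtD)
      have e2 : Φ.symm.toFun s = g := by rw [← hgs]; exact Φ.left_inv hgD
      rw [e1, e2] at h1
      have e3 : g = (g.1, uu A g.1) := Prod.ext rfl hg.2.2
      rw [e3] at h1
      exact h1
    have T't : T' ∩ tD A ⊆ {(m, 0)} := by
      rintro x ⟨h1, h2⟩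
      have h3 : Φ.toFun x ∈ T m ∩ U := ⟨hΦT' x h1, by rw [Φt h2]; exact β.mapsTo h2⟩
      rw [hTU m mX, mem_singleton_iff, ← Φm] at h3
      exact inj (tsub h2) (tsub mtD) h3
    have T'g : T' ∩ gD A ⊆ {(g.1, uu A g.1)} := by
      rintro x ⟨h1, h2⟩
      have h3 : Φ.toFun x ∈ T m ∩ S := ⟨hΦT' x h1, by rw [← Φg]; exact ⟨x, h2, rfl⟩⟩
      have h4 : Φ.toFun x = s := hTS1 h3
      rw [← hgs] at h4
      have h5 := inj (gsub h2) hgD h4
      rw [h5]
      exact Prod.ext rfl hg.2.2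
    have mT' : ((m, 0) : ℝ × ℝ) ∈ T' := arc'.left_mem
    -- `T'` lies on the left of `c`
    have nc : ∀ x ∈ T', x.1 ≠ c := by
      intro x hx hxc
      rcases hcX' with h1 | h1
      · have h2 : x ∈ Vc A (A.q - A.w') := ⟨hT'D hx, hxc.trans h1⟩
        rw [Vc_q h] at h2
        have h3 : x ∈ T' ∩ tD A := ⟨hx, by rw [h2]; exact qtD⟩
        have h4 : x = (m, 0) := T't h3
        rw [h4] at h2
        exact hm2.ne (Prod.ext_iff.1 h2).1
      · have h2 : x ∈ Vc A c := ⟨hT'D hx, hxc⟩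
        have h3 : Φ.toFun x ∈ T c := by rw [← ΦV c h1]; exact ⟨x, h2, rfl⟩
        exact Set.disjoint_left.1 (hTd m mX c (Finset.mem_insert_of_mem h1) hmc.ne) (hΦT' x hx) h3
    have T'c : ∀ x ∈ T', x.1 < c := by
      intro x hx
      by_contra hc
      have h1 : c < x.1 := lt_of_le_of_ne (not_lt.1 hc) (nc x hx).symm
      have hpre : IsPreconnected (Prod.fst '' T') :=
        arc'.isConnected.isPreconnected.image _ continuous_fst.continuousOn
      have h2 : c ∈ Prod.fst '' T' :=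
        hpre.Icc_subset ⟨(m, 0), mT', rfl⟩ ⟨x, hx, rfl⟩ ⟨hmc.le, h1.le⟩
      obtain ⟨y, hy, hyc⟩ := h2
      exact nc y hy hyc
    have gT' : ((g.1, uu A g.1) : ℝ × ℝ) ∈ T' := arc'.right_mem
    have hgc : g.1 < c := T'c (g.1, uu A g.1) gT'
    have hgp : A.p + A.w < g.1 := by
      refine lt_of_le_of_ne hg.1 fun he => ?_
      have h1 : ((g.1, uu A g.1) : ℝ × ℝ) ∈ tD A := by
        rw [← he, uu_p h]; exact ptD
      have h2 := T't ⟨gT', h1⟩
      have h3 : g.1 = m := (Prod.ext_iff.1 h2).1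
      exact hm1.ne (he.trans h3)
    obtain ⟨Ψ, Ψt, Ψg, Ψc, ΨV⟩ := exists_shift h hm1 hmc hgp hgc hcq arc' hT'D T'c T't T'g
    refine ⟨Ψ.trans Φ, ?_, ?_, ?_⟩
    · intro x hx
      show Φ.toFun (Ψ.toFun x) = β.toFun x
      rw [Ψt x hx, Φt hx]
    · show (Φ.toFun ∘ Ψ.toFun) '' gD A = S
      rw [image_comp, Ψg, Φg]
    · intro x hx
      show (Φ.toFun ∘ Ψ.toFun) '' Vc A x = T x
      rw [image_comp]
      rcases Finset.mem_insert.1 hx with rfl | hx'
      · rw [ΨV, hT']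
        ext y
        constructor
        · rintro ⟨_, ⟨z, hz, rfl⟩, rfl⟩
          show Φ.toFun (Φ.invFun z) ∈ T x
          rw [Φ.right_inv (hTC x mX hz)]; exact hz
        · intro hy
          exact ⟨Φ.invFun y, ⟨y, hy, rfl⟩, Φ.right_inv (hTC x mX hy)⟩
      · have : EqOn Ψ.toFun id (Vc A x) := fun z hz => Ψc z hz.1 (by rw [hz.2]; exact hcX x hx')
        rw [this.image_eq, image_id, ΦV x hx']

end P073.H31
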