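import Vale.Agent.P073.H31.PlPeel
import Vale.Agent.P073.PA644.Add
import Vale.Agent.P073.PA260.Leg

/-!
# P073, H31, PEEL+: attaching a strip along the top side
-/

open Set Metric Topology Filter

namespace P073.H31

open P073.H339 P073.GB200 P073.H341

variable {E : Type*} [NormedAddCommGroup E] [NormedSpace ℝ E]
variable {k : ℕ} {A : ℕ → ArcD} {col : ℕ → Bool} {C B : Set E} {fn : ℕ → E → ℝ} {γ : ℝ × ℝ → E}

/-- the top arc -/
def Tp (γ : ℝ × ℝ → E) : Set E := (fun a => γ (a, 1)) '' Icc 0 1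

theorem cont_top (hγ : ContinuousOn γ bR) : ContinuousOn (fun a : ℝ => γ (a, 1)) (Icc 0 1) :=
  hγ.comp (by fun_prop) fun a ha => top_bR ha.1 ha.2

theorem con_top (hγ : ConicalOn γ bR) : ConicalOn (fun a : ℝ => γ (a, 1)) (Icc 0 1) :=
  hγ.comp (h := fun a : ℝ => ((a, 1) : ℝ × ℝ)) ((PLc.id.prodMk (PLc.const 1)).kOn
    (Convex.conicalSet (convex_Icc _ _))) (fun a ha => top_bR ha.1 ha.2) (by fun_prop)

theorem Pat.exists_top (hP : Pat k A col C B fn γ) :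
    ∃ ϖ : ConHomeo (Icc (0:ℝ) 1) (Tp γ), ϖ.toFun 0 = γ (0, 1) ∧ ϖ.toFun 1 = γ (1, 1) := by
  classical
  have hK : ∀ j ∈ (Finset.range k) ×ˢ (Finset.univ : Finset Bool), j.1 < k := fun j hj =>
    Finset.mem_range.1 (Finset.mem_product.1 hj).1
  obtain ⟨ϖ, hp, hm, h0, h1, hf⟩ := exists_collapse ((Finset.range k) ×ˢ (Finset.univ : Finset Bool))
    (lf A) (rt A) 0 1 zero_le_one (fun j hj => by
      have g := hP.pos.good j.1 (hK j hj)
      have h0 := g.p0; have h1 := g.q1; have h2 := g.w0; have h3 := g.w0'; have h4 := g.pq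
      unfold lf rt
      split_ifs
      · exact ⟨by linarith, by linarith, by linarith⟩
      · exact ⟨by linarith, by linarith, by linarith⟩)
    (fun j hj j' hj' hne => hP.pos.dj (hK j hj) (hK j' hj') hne)
  have e0 : ϖ 0 = 0 := h0 0 le_rfl
  have e1 : ϖ 1 = 1 := h1 1 le_rfl
  have himg : ϖ '' Icc 0 1 = Icc 0 1 := by
    apply Subset.antisymm
    · rintro _ ⟨a, ha, rfl⟩
      exact ⟨e0 ▸ hm ha.1, e1 ▸ hm ha.2⟩
    · have := intermediate_value_Icc zero_le_one (hp.c.continuousOn (s := Icc (0:ℝ) 1))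
      rwa [e0, e1] at this
  obtain ⟨b, hb⟩ := exists_descend (X := Icc (0:ℝ) 1) isCompact_Icc hp.c.continuousOn
    (hp.kOn (Convex.conicalSet (convex_Icc _ _))) (cont_top hP.γc) (con_top hP.γk) (by
      intro x hx y hy
      rw [hf]
      constructor
      · rintro (h | ⟨j, hj, h2, h3⟩)
        · rw [h]
        · exact hP.fib' (hK j hj) h2 h3
      · intro h
        rcases hP.fib (top_bR hx.1 hx.2) (top_bR hy.1 hy.2) h with h2 | ⟨j, hj, _, _, h2, h3⟩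
        · exact Or.inl (Prod.ext_iff.1 h2).1
        · exact Or.inr ⟨j, by simp [hj], h2, h3⟩)
  refine ⟨b.cast himg rfl, ?_, ?_⟩
  · have := hb 0 ⟨le_rfl, zero_le_one⟩
    rw [e0] at this
    exact this
  · have := hb 1 ⟨zero_le_one, le_rfl⟩
    rw [e1] at this
    exact this

/-- a slice -/
noncomputable def slc {X : Set E} (hX : ConicalSet X) (c : ℝ) : ConHomeo X (X ×ˢ ({c} : Set ℝ)) :=
  mkCon (f := fun x : E => (x, c)) (g := fun x : E × ℝ => x.1) (PLc.id.prodMk (PLc.const c))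
    (PLc.id.fst) hX (fun _ hx => ⟨hx, rfl⟩) (fun _ hx => hx.1) (fun _ _ => rfl)
    (fun x hx => Prod.ext rfl hx.2.symm)

theorem slc_image {X Y : Set E} (hX : ConicalSet X) (c : ℝ) :
    (slc hX c).toFun '' Y = Y ×ˢ ({c} : Set ℝ) := by
  ext ⟨x, t⟩
  constructor
  · rintro ⟨y, hy, h⟩
    have h1 : y = x := (Prod.ext_iff.1 h).1
    have h2 : c = t := (Prod.ext_iff.1 h).2
    exact ⟨h1 ▸ hy, h2.symm⟩
  · rintro ⟨h1, h2⟩
    exact ⟨x, h1, Prod.ext rfl (Eq.symm h2)⟩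

theorem conBall_slc {n : ℕ} {C B : Set E} (h : ConBall n C B) (c : ℝ) :
    ConBall n (C ×ˢ ({c} : Set ℝ)) (B ×ˢ ({c} : Set ℝ)) := by
  have := h.image (slc h.conicalSet c) (Subset.refl _)
  rwa [slc_image, slc_image] at this

/-- the disc with a strip over `T` -/
def Cu (C T : Set E) : Set (E × ℝ) := C ×ˢ {0} ∪ T ×ˢ Icc 0 1

/-- its boundary -/
def Bu (B T : Set E) (x0 x1 : E) : Set (E × ℝ) :=
  (((B \ T) ∪ {x0, x1}) ×ˢ {0}) ∪ (({x0, x1} : Set E) ×ˢ Icc 0 1 ∪ T ×ˢ {1})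

/-- three sides of the square -/
theorem conBall_three : ConBall 1 (({0, 1} : Set ℝ) ×ˢ Icc (0:ℝ) 1 ∪ Icc (0:ℝ) 1 ×ˢ {1})
    (({0, 1} : Set ℝ) ×ˢ {(0:ℝ)}) := by
  have h1 : ConBall 1 (Icc (0:ℝ) 1 ×ˢ {(0:ℝ)}) (({0, 1} : Set ℝ) ×ˢ {(0:ℝ)}) :=
    conBall_slc (conBall_Icc zero_lt_one) 0
  have h2 : Icc (0:ℝ) 1 ×ˢ {(0:ℝ)} ⊆ bR := by
    rintro ⟨a, t⟩ ⟨h3, h4⟩
    have h4' : t = 0 := h4
    subst h4'
    exact ⟨⟨h3, le_rfl, zero_le_one⟩, Or.inr (Or.inr (Or.inl rfl))⟩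
  have h3 := P073.PA644.conBall_compl (jordanSch_one (conBall_Rct).conSphere) h1 h2
  have e : (bR \ Icc (0:ℝ) 1 ×ˢ {(0:ℝ)}) ∪ ({0, 1} : Set ℝ) ×ˢ {(0:ℝ)} =
      ({0, 1} : Set ℝ) ×ˢ Icc (0:ℝ) 1 ∪ Icc (0:ℝ) 1 ×ˢ {1} := by
    ext ⟨a, t⟩
    simp only [bR, Rct, mem_union, Set.mem_sdiff, mem_ofPred_eq, mem_prod, mem_Icc,
      mem_singleton_iff, mem_insert_iff]
    constructor
    · rintro (⟨⟨⟨⟨h1, h2⟩, h3, h4⟩, h5⟩, h6⟩ | ⟨h1, h2⟩)
      · rcases h5 with h5 | h5 | h5 | h5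
        · exact Or.inl ⟨Or.inl h5, h3, h4⟩
        · exact Or.inl ⟨Or.inr h5, h3, h4⟩
        · exact absurd ⟨⟨h1, h2⟩, h5⟩ h6
        · exact Or.inr ⟨⟨h1, h2⟩, h5⟩
      · exact Or.inl ⟨h1, by rw [h2], by rw [h2]; exact zero_le_one⟩
    · rintro (⟨h1, h2, h3⟩ | ⟨⟨h1, h2⟩, h3⟩)
      · by_cases h4 : t = 0
        · exact Or.inr ⟨h1, h4⟩
        · refine Or.inl ⟨⟨⟨?_, h2, h3⟩, ?_⟩, fun h => h4 h.2⟩
          · rcases h1 with h1 | h1 <;> rw [h1] <;> norm_num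
          · rcases h1 with h1 | h1
            · exact Or.inl h1
            · exact Or.inr (Or.inl h1)
      · refine Or.inl ⟨⟨⟨⟨h1, h2⟩, by rw [h3]; exact zero_le_one, by rw [h3]⟩,
          Or.inr (Or.inr (Or.inr h3))⟩, fun h => ?_⟩
        rw [h3] at h; exact one_ne_zero h.2
  rwa [e] at h3

theorem bR_split : bR = Icc (0:ℝ) 1 ×ˢ {(0:ℝ)} ∪
    (({0, 1} : Set ℝ) ×ˢ Icc (0:ℝ) 1 ∪ Icc (0:ℝ) 1 ×ˢ {1}) := by
  ext ⟨a, t⟩
  simp only [bR, Rct, mem_union, mem_ofPred_eq, mem_prod, mem_Icc,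
    mem_singleton_iff, mem_insert_iff]
  constructor
  · rintro ⟨⟨⟨h1, h2⟩, h3, h4⟩, h5⟩
    rcases h5 with h5 | h5 | h5 | h5
    · exact Or.inr (Or.inl ⟨Or.inl h5, h3, h4⟩)
    · exact Or.inr (Or.inl ⟨Or.inr h5, h3, h4⟩)
    · exact Or.inl ⟨⟨h1, h2⟩, h5⟩
    · exact Or.inr (Or.inr ⟨⟨h1, h2⟩, h5⟩)
  · rintro (⟨⟨h1, h2⟩, h3⟩ | ⟨h1, h2, h3⟩ | ⟨⟨h1, h2⟩, h3⟩)
    · exact ⟨⟨⟨h1, h2⟩, by rw [h3], by rw [h3]; exact zero_le_one⟩, Or.inr (Or.inr (Or.inl h3))⟩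
    · refine ⟨⟨?_, h2, h3⟩, ?_⟩
      · rcases h1 with h1 | h1 <;> rw [h1] <;> norm_num
      · rcases h1 with h1 | h1
        · exact Or.inl h1
        · exact Or.inr (Or.inl h1)
    · exact ⟨⟨⟨h1, h2⟩, by rw [h3]; exact zero_le_one, by rw [h3]⟩, Or.inr (Or.inr (Or.inr h3))⟩

/-- **attaching a strip to a disc** -/
theorem conBall_Cu {T : Set E} {x0 x1 : E} (hC : ConBall 2 C B) (ϖ : ConHomeo (Icc (0:ℝ) 1) T)
    (h0 : ϖ.toFun 0 = x0) (h1 : ϖ.toFun 1 = x1) (hTB : T ⊆ B) :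
    ConBall 2 (Cu C T) (Bu B T x0 x1) := by
  have hT1 : ConBall 1 T {x0, x1} := by
    have := (conBall_Icc (zero_lt_one (α := ℝ))).image ϖ (Subset.refl _)
    rwa [ϖ.image_eq, image_pair, h0, h1] at this
  have hx01 : ({x0, x1} : Set E) ⊆ T := hT1.1
  -- the strip
  let Φ : ConHomeo (Icc (0:ℝ) 1 ×ˢ Icc (0:ℝ) 1) (T ×ˢ Icc (0:ℝ) 1) :=
    ϖ.prod (ConHomeo.refl (Convex.conicalSet (convex_Icc 0 1)))
  have hΦ : ∀ a t, Φ.toFun (a, t) = (ϖ.toFun a, t) := fun a t => rfl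
  have im : ∀ (X : Set ℝ) (Y : Set ℝ), Φ.toFun '' (X ×ˢ Y) = (ϖ.toFun '' X) ×ˢ Y := by
    intro X Y
    ext ⟨y, s⟩
    constructor
    · rintro ⟨⟨a, t⟩, ⟨ha, ht⟩, h⟩
      rw [hΦ, Prod.mk.injEq] at h
      exact ⟨⟨a, ha, h.1⟩, h.2 ▸ ht⟩
    · rintro ⟨⟨a, ha, h⟩, hs⟩
      exact ⟨(a, s), ⟨ha, hs⟩, by rw [hΦ, h]⟩
  have i01 : ϖ.toFun '' {0, 1} = {x0, x1} := by rw [image_pair, h0, h1]
  have hY := conBall_Rct.image Φ (Subset.refl _)
  have hY' : ConBall 2 (T ×ˢ Icc (0:ℝ) 1) (T ×ˢ {(0:ℝ)} ∪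
      (({x0, x1} : Set E) ×ˢ Icc (0:ℝ) 1 ∪ T ×ˢ {(1:ℝ)})) := by
    have e1 : Φ.toFun '' Rct = T ×ˢ Icc (0:ℝ) 1 := Φ.image_eq
    rw [e1, bR_split, image_union, image_union, im, im, im, ϖ.image_eq, i01] at hY
    exact hY
  have hB := conBall_three.image Φ (by
    rintro ⟨a, t⟩ (⟨h2, h3⟩ | ⟨h2, h3⟩)
    · refine ⟨?_, h3⟩
      rcases h2 with h2 | h2
      · rw [h2]; exact ⟨le_rfl, zero_le_one⟩
      · rw [mem_singleton_iff.1 h2]; exact ⟨zero_le_one, le_rfl⟩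
    · refine ⟨h2, ?_⟩
      rw [mem_singleton_iff.1 h3]; exact ⟨zero_le_one, le_rfl⟩)
  rw [image_union, im, im, im, ϖ.image_eq, i01] at hB
  have hA : ConBall 1 (((B \ T) ∪ {x0, x1}) ×ˢ {(0:ℝ)}) (({x0, x1} : Set E) ×ˢ {(0:ℝ)}) :=
    conBall_slc (P073.PA644.conBall_compl (jordanSch_one hC.conSphere) hT1 hTB) 0
  have hD : ConBall 1 (T ×ˢ {(0:ℝ)}) (({x0, x1} : Set E) ×ˢ {(0:ℝ)}) := conBall_slc hT1 0
  have hX : ConBall 2 (C ×ˢ {(0:ℝ)}) (T ×ˢ {(0:ℝ)} ∪ ((B \ T) ∪ {x0, x1}) ×ˢ {(0:ℝ)}) := by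
    have := conBall_slc hC 0
    have e : T ×ˢ {(0:ℝ)} ∪ ((B \ T) ∪ {x0, x1}) ×ˢ {(0:ℝ)} = B ×ˢ {(0:ℝ)} := by
      rw [← union_prod]
      congr 1
      ext x
      constructor
      · rintro (h | h | h)
        · exact hTB h
        · exact h.1
        · exact hTB (hx01 h)
      · intro h
        by_cases h2 : x ∈ T
        · exact Or.inl h2
        · exact Or.inr (Or.inl ⟨h, h2⟩)
    rwa [e]
  refine ConBall.union (n := 1) one_ne_zero hX hY' ?_ hA hB hD ?_ ?_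
  · ext ⟨y, s⟩
    constructor
    · rintro ⟨h2, h3⟩; exact ⟨h3.1, h2.2⟩
    · rintro ⟨h2, h3⟩
      exact ⟨⟨hC.1 (hTB h2), h3⟩, h2, by rw [mem_singleton_iff.1 h3]; exact ⟨le_rfl, zero_le_one⟩⟩
  · ext ⟨y, s⟩
    constructor
    · rintro ⟨h2, h3⟩
      refine ⟨?_, h2.2⟩
      rcases h3.1 with h4 | h4
      · exact absurd h2.1 h4.2
      · exact h4
    · rintro ⟨h2, h3⟩
      exact ⟨⟨hx01 h2, h3⟩, Or.inr h2, h3⟩
  · ext ⟨y, s⟩
    constructor
    · rintro ⟨h2, h3 | h3⟩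
      · exact ⟨h3.1, h2.2⟩
      · exfalso
        have e1 : s = 0 := h2.2
        have e2 : s = 1 := h3.2
        rw [e1] at e2; exact zero_ne_one e2
    · rintro ⟨h2, h3⟩
      refine ⟨⟨hx01 h2, h3⟩, Or.inl ⟨h2, ?_⟩⟩
      rw [mem_singleton_iff.1 h3]; exact ⟨le_rfl, zero_le_one⟩

/-- the boundary parametrisation of the enlarged disc -/
noncomputable def gu (γ : ℝ × ℝ → E) (x : ℝ × ℝ) : E × ℝ :=
  (γ (x.1, min 1 (2 * x.2)), max 0 (2 * x.2 - 1))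

theorem gu_mem {x : ℝ × ℝ} (hx : x ∈ bR) : ((x.1, min 1 (2 * x.2)) : ℝ × ℝ) ∈ bR := by
  obtain ⟨⟨h1, h2, h3⟩, h4⟩ := hx
  refine ⟨⟨h1, le_min zero_le_one (by linarith), min_le_left _ _⟩, ?_⟩
  rcases h4 with h4 | h4 | h4 | h4
  · exact Or.inl h4
  · exact Or.inr (Or.inl h4)
  · right; right; left; show min 1 (2 * x.2) = 0
    rw [h4, mul_zero]; exact min_eq_right zero_le_one
  · right; right; right; show min 1 (2 * x.2) = 1
    rw [h4]; norm_num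

theorem mem_triple {x0 x1 y : E} : y ∈ ({x0, x1} : Set E) ↔ y = x0 ∨ y = x1 := Iff.rfl

theorem cont_gu (hγ : ContinuousOn γ bR) : ContinuousOn (gu γ) bR := by
  refine ContinuousOn.prodMk (hγ.comp (f := fun x : ℝ × ℝ => (x.1, min 1 (2 * x.2)))
    (by fun_prop) fun x hx => gu_mem hx) ?_
  exact Continuous.continuousOn (by fun_prop)

theorem plc_g1 : PLc (fun x : ℝ × ℝ => ((x.1, min 1 (2 * x.2)) : ℝ × ℝ)) :=
  PLc.id.fst.prodMk ((PLc.const 1).min (PLc.id.snd.cmul 2))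

theorem plc_g2 : PLc (fun x : ℝ × ℝ => max 0 (2 * x.2 - 1)) :=
  (PLc.const 0).max ((PLc.id.snd.cmul 2).sub (PLc.const 1))

theorem conicalSet_bR : ConicalSet bR := conBall_Rct.conicalSet_bdry

theorem con_gu (hγ : ConicalOn γ bR) : ConicalOn (gu γ) bR := by
  refine ConicalOn.prodMk ?_ (plc_g2.kOn conicalSet_bR)
  exact hγ.comp (h := fun x : ℝ × ℝ => (x.1, min 1 (2 * x.2))) (plc_g1.kOn conicalSet_bR)
    (fun x hx => gu_mem hx) (plc_g1.contOn _)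

/-- points of `B` over the top arc -/
theorem Pat.mem_Tp (hP : Pat k A col C B fn γ) {x : ℝ × ℝ} (hx : x ∈ bR) :
    γ x ∈ Tp γ ↔ x.2 = 1 := by
  constructor
  · rintro ⟨a, ha, h⟩
    rcases hP.fib hx (top_bR ha.1 ha.2) h.symm with h2 | ⟨j, _, h2, _⟩
    · rw [h2]
    · exact h2
  · intro h
    refine ⟨x.1, hx.1.1, ?_⟩
    show γ (x.1, 1) = γ x
    rw [← h]

theorem gu_img (hP : Pat k A col C B fn γ) : gu γ '' bR = Bu B (Tp γ) (γ (0, 1)) (γ (1, 1)) := by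
  have m0 : ((0, 1) : ℝ × ℝ) ∈ bR := top_bR le_rfl zero_le_one
  have m1 : ((1, 1) : ℝ × ℝ) ∈ bR := top_bR zero_le_one le_rfl
  ext ⟨y, s⟩
  constructor
  · rintro ⟨⟨a, t⟩, hx, h⟩
    have e1 : γ (a, min 1 (2 * t)) = y := (Prod.ext_iff.1 h).1
    have e2 : max 0 (2 * t - 1) = s := (Prod.ext_iff.1 h).2
    have hm := gu_mem hx
    obtain ⟨⟨h1, h2, h3⟩, h4⟩ := id hx
    simp only at h2 h3 h4
    by_cases c1 : t = 1
    · subst c1
      refine Or.inr (Or.inr ⟨⟨a, h1, ?_⟩, ?_⟩)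
      · rw [← e1]; norm_num
      · rw [← e2]; norm_num
    rcases le_total (2 * t) 1 with c2 | c2
    · have e3 : s = 0 := by rw [← e2]; exact max_eq_left (by linarith)
      left
      refine ⟨?_, e3⟩
      by_cases c3 : 2 * t = 1
      · rw [c3, min_self] at e1
        right
        rcases h4 with h4 | h4 | h4 | h4
        · left; rw [← e1, h4]
        · right; show y = _; rw [← e1, h4]
        · exfalso; linarith
        · exact absurd h4 c1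
      · left
        refine ⟨by rw [← e1]; exact hP.inB hm, fun hT => c3 ?_⟩
        rw [← e1, hP.mem_Tp hm] at hT
        rw [min_eq_right c2] at hT
        exact hT
    · right; left
      have e3 : min 1 (2 * t) = 1 := min_eq_left c2
      rw [e3] at e1
      refine ⟨?_, by rw [← e2]; exact ⟨le_max_left _ _, max_le zero_le_one (by linarith)⟩⟩
      rcases h4 with h4 | h4 | h4 | h4
      · left; rw [← e1, h4]
      · right; show y = _; rw [← e1, h4]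
      · exfalso; linarith
      · exact absurd h4 c1
  · rintro (⟨h1 | h1, h2⟩ | ⟨h1, h2⟩ | ⟨h1, h2⟩)
    · obtain ⟨hyB, hyT⟩ := h1
      have h2' : s = 0 := h2
      rw [← hP.γi] at hyB
      obtain ⟨⟨a, t⟩, hx, rfl⟩ := hyB
      rw [hP.mem_Tp hx] at hyT
      simp only at hyT
      obtain ⟨⟨h3, h4, h5⟩, h6⟩ := hx
      simp only at h4 h5 h6
      refine ⟨(a, t / 2), ⟨⟨h3, by positivity, by linarith⟩, ?_⟩, ?_⟩
      · rcases h6 with h6 | h6 | h6 | h6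
        · exact Or.inl h6
        · exact Or.inr (Or.inl h6)
        · right; right; left; show t / 2 = 0; rw [h6, zero_div]
        · exact absurd h6 hyT
      · have e1 : 2 * (t / 2) = t := by ring
        show (γ (a, min 1 (2 * (t / 2))), max 0 (2 * (t / 2) - 1)) = _
        rw [e1, min_eq_right h5, max_eq_left (by linarith), h2']
    · have h2' : s = 0 := h2
      rcases h1 with h1 | h1
      · refine ⟨(0, 1 / 2), ⟨⟨⟨le_rfl, zero_le_one⟩, by norm_num, by norm_num⟩, Or.inl rfl⟩, ?_⟩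
        have h1' : y = γ (0, 1) := h1
        show (γ (0, min 1 (2 * (1 / 2))), max 0 (2 * (1 / 2) - 1)) = _
        rw [h1', h2']; norm_num
      · refine ⟨(1, 1 / 2), ⟨⟨⟨zero_le_one, le_rfl⟩, by norm_num, by norm_num⟩,
          Or.inr (Or.inl rfl)⟩, ?_⟩
        have h1' : y = γ (1, 1) := h1
        show (γ (1, min 1 (2 * (1 / 2))), max 0 (2 * (1 / 2) - 1)) = _
        rw [h1', h2']; norm_num
    · obtain ⟨h3, h4⟩ := h2
      simp only at h3 h4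
      have e1 : 2 * ((1 + s) / 2) = 1 + s := by ring
      have e2 : min 1 (2 * ((1 + s) / 2)) = 1 := by rw [e1]; exact min_eq_left (by linarith)
      have e3 : max 0 (2 * ((1 + s) / 2) - 1) = s := by
        rw [e1, add_sub_cancel_left]; exact max_eq_right h3
      rcases h1 with h1 | h1
      · refine ⟨(0, (1 + s) / 2), ⟨⟨⟨le_rfl, zero_le_one⟩, by positivity, by linarith⟩,
          Or.inl rfl⟩, ?_⟩
        have h1' : y = γ (0, 1) := h1
        show (γ (0, min 1 (2 * ((1 + s) / 2))), max 0 (2 * ((1 + s) / 2) - 1)) = _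
        rw [e2, e3, h1']
      · refine ⟨(1, (1 + s) / 2), ⟨⟨⟨zero_le_one, le_rfl⟩, by positivity, by linarith⟩,
          Or.inr (Or.inl rfl)⟩, ?_⟩
        have h1' : y = γ (1, 1) := h1
        show (γ (1, min 1 (2 * ((1 + s) / 2))), max 0 (2 * ((1 + s) / 2) - 1)) = _
        rw [e2, e3, h1']
    · obtain ⟨a, ha, h1⟩ := h1
      have h2' : s = 1 := h2
      refine ⟨(a, 1), top_bR ha.1 ha.2, ?_⟩
      have h1' : γ (a, 1) = y := h1
      show (γ (a, min 1 (2 * 1)), max 0 (2 * 1 - 1)) = _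
      rw [← h1', h2']; norm_num

theorem Tp_sub (hP : Pat k A col C B fn γ) : Tp γ ⊆ B := by
  rintro _ ⟨a, ha, rfl⟩
  exact hP.inB (top_bR ha.1 ha.2)

theorem mem_Cu_fst (hP : Pat k A col C B fn γ) {x : E × ℝ} (hx : x ∈ Cu C (Tp γ)) : x.1 ∈ C := by
  rcases hx with hx | hx
  · exact hx.1
  · exact hP.hC.1 (Tp_sub hP hx.1)

/-- the arcs in the enlarged disc -/
theorem Sa_Cu (hP : Pat k A col C B fn γ) {i : ℕ} (hi : i < k) :
    Sa (Cu C (Tp γ)) (fun i (x : E × ℝ) => fn i x.1) i =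
      Sa C fn i ×ˢ {0} ∪ (Sa C fn i ∩ B) ×ˢ Icc 0 1 := by
  ext ⟨y, s⟩
  constructor
  · rintro ⟨h1 | h1, h2⟩
    · exact Or.inl ⟨⟨h1.1, h2⟩, h1.2⟩
    · exact Or.inr ⟨⟨⟨hP.hC.1 (Tp_sub hP h1.1), h2⟩, Tp_sub hP h1.1⟩, h1.2⟩
  · rintro (⟨h1, h2⟩ | ⟨h1, h2⟩)
    · exact ⟨Or.inl ⟨h1.1, h2⟩, h1.2⟩
    · refine ⟨Or.inr ⟨?_, h2⟩, h1.1.2⟩
      have h3 := h1
      rw [hP.ends hi] at h3
      have mp := lf_mem (j := (i, false)) hP.pos hi (pI hP.pos.good hi)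
      have mq := lf_mem (j := (i, true)) hP.pos hi (qI hP.pos.good hi)
      rcases h3 with h3 | h3
      · rw [h3]; exact ⟨_, mp, rfl⟩
      · rw [mem_singleton_iff.1 h3]; exact ⟨_, mq, rfl⟩

/-- the corners are not on the arcs -/
theorem corner (hP : Pat k A col C B fn γ) {i : ℕ} (hi : i < k) {y : E}
    (hy : y = γ (0, 1) ∨ y = γ (1, 1)) : fn i y < 0 := by
  have g := hP.pos.good i hi
  rcases hy with rfl | rfl
  · exact hP.neg_out i hi _ (top_bR le_rfl zero_le_one) fun _ => Or.inl g.p0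
  · exact hP.neg_out i hi _ (top_bR zero_le_one le_rfl) fun _ => Or.inr g.q1

theorem Sa_Bu (hP : Pat k A col C B fn γ) {i : ℕ} (hi : i < k) :
    (Sa C fn i ×ˢ {0} ∪ (Sa C fn i ∩ B) ×ˢ Icc 0 1) ∩ Bu B (Tp γ) (γ (0, 1)) (γ (1, 1)) =
      (Sa C fn i ∩ B) ×ˢ ({1} : Set ℝ) := by
  have mp := lf_mem (j := (i, false)) hP.pos hi (pI hP.pos.good hi)
  have mq := lf_mem (j := (i, true)) hP.pos hi (qI hP.pos.good hi)
  have inT : ∀ y ∈ Sa C fn i ∩ B, y ∈ Tp γ := by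
    intro y hy
    rw [hP.ends hi] at hy
    rcases hy with h3 | h3
    · rw [h3]; exact ⟨_, mp, rfl⟩
    · rw [mem_singleton_iff.1 h3]; exact ⟨_, mq, rfl⟩
  have nc : ∀ y ∈ Sa C fn i, ¬ (y = γ (0, 1) ∨ y = γ (1, 1)) := fun y hy h =>
    (corner hP hi h).ne hy.2
  ext ⟨y, s⟩
  constructor
  · rintro ⟨h1, h2⟩
    have h3 : y ∈ Sa C fn i := by
      rcases h1 with h1 | h1
      · exact h1.1
      · exact h1.1.1
    rcases h2 with ⟨h2 | h2, _⟩ | ⟨h2, _⟩ | ⟨h2, h4⟩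
    · exact absurd (inT y ⟨h3, h2.1⟩) h2.2
    · exact absurd h2 (nc y h3)
    · exact absurd h2 (nc y h3)
    · exact ⟨⟨h3, Tp_sub hP h2⟩, h4⟩
  · rintro ⟨h1, h2⟩
    refine ⟨Or.inr ⟨h1, ?_⟩, Or.inr (Or.inr ⟨inT y h1, h2⟩)⟩
    rw [mem_singleton_iff.1 h2]; exact ⟨zero_le_one, le_rfl⟩

/-- **the enlarged pattern** -/
theorem Pat.up (hP : Pat k A col C B fn γ) :
    Pat k A col (Cu C (Tp γ)) (Bu B (Tp γ) (γ (0, 1)) (γ (1, 1)))
      (fun i (x : E × ℝ) => fn i x.1) (gu γ) := by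
  obtain ⟨ϖ, h0, h1⟩ := hP.exists_top
  have gtop : ∀ a : ℝ, gu γ (a, 1) = (γ (a, 1), 1) := by
    intro a
    show (γ (a, min 1 (2 * 1)), max 0 (2 * 1 - 1)) = _
    norm_num
  refine ⟨hP.pos, conBall_Cu hP.hC ϖ h0 h1 (Tp_sub hP), ?_, ?_, cont_gu hP.γc, con_gu hP.γk,
    gu_img hP, ?_, ?_, ?_, ?_, ?_, ?_, ?_, ?_, ?_, ?_⟩
  · intro i hi
    exact (hP.hfn i hi).comp continuousOn_fst fun x hx => mem_Cu_fst hP hx
  · intro i hi
    rw [Sa_Cu hP hi, Sa_Bu hP hi]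
    have hS := hP.hS i hi
    have hS0 := conBall_slc hS 0
    have hcon : ConicalSet (Sa C fn i ∩ B) := hS.conicalSet_bdry
    have := hS0.add_collar' (slc hcon 0) (ConHomeo.refl (hcon.prod (Convex.conicalSet (convex_Icc 0 1))))
      (fun y hy => rfl) (by
        rintro ⟨y, s⟩ ⟨h2, h3⟩
        exact ⟨h2.1, h3.2⟩)
    have e : (ConHomeo.refl (hcon.prod (Convex.conicalSet (convex_Icc (0:ℝ) 1)))).toFun ''
        ((Sa C fn i ∩ B) ×ˢ ({1} : Set ℝ)) = (Sa C fn i ∩ B) ×ˢ ({1} : Set ℝ) := image_id' _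
    rwa [e] at this
  · intro x hx y hy h
    have e1 : γ (x.1, min 1 (2 * x.2)) = γ (y.1, min 1 (2 * y.2)) := (Prod.ext_iff.1 h).1
    have e2 : max 0 (2 * x.2 - 1) = max 0 (2 * y.2 - 1) := (Prod.ext_iff.1 h).2
    rcases hP.fib (gu_mem hx) (gu_mem hy) e1 with h2 | ⟨⟨i, b⟩, hi, h2, h3, h4, h5⟩
    · left
      have h3 : x.1 = y.1 := (Prod.ext_iff.1 h2).1
      have h4 : min 1 (2 * x.2) = min 1 (2 * y.2) := (Prod.ext_iff.1 h2).2
      refine Prod.ext h3 ?_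
      rcases le_total (2 * x.2) 1 with c1 | c1 <;> rcases le_total (2 * y.2) 1 with c2 | c2
      · rw [min_eq_right c1, min_eq_right c2] at h4; linarith
      · rw [max_eq_left (by linarith), max_eq_right (by linarith)] at e2
        rw [min_eq_right c1, min_eq_left c2] at h4; linarith
      · rw [max_eq_right (by linarith), max_eq_left (by linarith)] at e2
        rw [min_eq_left c1, min_eq_right c2] at h4; linarith
      · rw [max_eq_right (by linarith), max_eq_right (by linarith)] at e2; linarith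
    · right
      have hb : ∀ z ∈ bR, min 1 (2 * z.2) = 1 → z.1 ∈ Icc (lf A (i, b)) (rt A (i, b)) →
          z.2 = 1 := by
        intro z hz hz1 hz2
        have g := hP.pos.good i hi
        have h0 := g.p0; have h1 := g.q1; have h2 := g.w0; have h3 := g.w0'; have h4 := g.pq
        have h6 : 0 < z.1 ∧ z.1 < 1 := by
          unfold lf rt at hz2
          cases b
          · simp only [Bool.false_eq_true, if_false, mem_Icc] at hz2
            exact ⟨by linarith, by linarith⟩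
          · simp only [if_true, mem_Icc] at hz2
            exact ⟨by linarith, by linarith⟩
        rcases hz.2 with h7 | h7 | h7 | h7
        · linarith
        · linarith
        · rw [h7, mul_zero, min_eq_right zero_le_one] at hz1; exact absurd hz1 (by norm_num)
        · exact h7
      have hx2 := hb x hx h2 h4
      have hy2 := hb y hy h3 h5
      refine ⟨i, hi, ?_⟩
      cases b
      · exact Or.inl ⟨⟨h4, hx2⟩, ⟨h5, hy2⟩⟩
      · exact Or.inr ⟨⟨h4, hx2⟩, ⟨h5, hy2⟩⟩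
  · rintro i hi ⟨a, t⟩ hx
    have ht : t = 1 := hx.2
    subst ht
    rw [gtop, gtop, hP.γL i hi _ hx]
  · rintro i hi ⟨a, t⟩ hx
    have ht : t = 1 := hx.2
    subst ht
    rw [gtop, gtop, hP.γR i hi _ hx]
  · intro i hi
    rw [gtop]; exact hP.zp i hi
  · intro i hi
    rw [gtop]; exact hP.zq i hi
  · intro i hi a h2 h3
    rw [gtop]; exact hP.pos_in i hi a h2 h3
  · intro i hi x hx h2
    refine hP.neg_out i hi _ (gu_mem hx) fun h3 => ?_
    have g := hP.pos.good i hi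
    simp only at h3
    rcases hx.2 with h4 | h4 | h4 | h4
    · left; show x.1 < _; rw [h4]; exact g.p0
    · right; show _ < x.1; rw [h4]; exact g.q1
    · exfalso
      rw [h4, mul_zero, min_eq_right zero_le_one] at h3; exact absurd h3 (by norm_num)
    · exact h2 h4
  · intro i hi j hj hij
    rw [Sa_Cu hP hi, Sa_Cu hP hj]
    have hdis : ∀ y, y ∈ Sa C fn i ∩ B → y ∈ Sa C fn j → False := by
      intro y hy hyj
      have hyi := hy
      rw [hP.ends hi] at hyi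
      have hyj' : y ∈ Sa C fn j ∩ B := ⟨hyj, hy.2⟩
      rw [hP.ends hj] at hyj'
      have n : ∀ (b b' : Bool) {c d : ℝ}, c ∈ Icc (lf A (i, b)) (rt A (i, b)) →
          d ∈ Icc (lf A (j, b')) (rt A (j, b')) → γ (c, 1) ≠ γ (d, 1) :=
        fun b b' c d h4 h5 => hP.ne_of (j := (i, b)) (j' := (j, b')) hi hj (by
          intro h; exact hij (Prod.ext_iff.1 h).1) h4 h5
      rcases hyi with h2 | h2 <;> rcases hyj' with h3 | h3
      · exact n false false (pI hP.pos.good hi) (pI hP.pos.good hj) (h2.symm.trans h3)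
      · exact n false true (pI hP.pos.good hi) (qI hP.pos.good hj) (h2.symm.trans h3)
      · exact n true false (qI hP.pos.good hi) (pI hP.pos.good hj) ((Eq.symm h2).trans h3)
      · exact n true true (qI hP.pos.good hi) (qI hP.pos.good hj) ((Eq.symm h2).trans h3)
    have aux : ∀ z : E × ℝ, z ∈ (Sa C fn i ×ˢ {0} ∪ (Sa C fn i ∩ B) ×ˢ Icc 0 1) ∩
        (Sa C fn j ×ˢ {0} ∪ (Sa C fn j ∩ B) ×ˢ Icc 0 1) →
        z.1 ∈ Sa C fn i ∩ Sa C fn j ∧ z.2 = 0 := by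
      rintro ⟨y, s⟩ ⟨h2, h3⟩
      have hj' : y ∈ Sa C fn j := by
        rcases h3 with h3 | h3
        · exact h3.1
        · exact h3.1.1
      rcases h2 with h2 | h2
      · exact ⟨⟨h2.1, hj'⟩, h2.2⟩
      · exact (hdis y h2.1 hj').elim
    intro z hz z' hz'
    obtain ⟨h2, h3⟩ := aux z hz
    obtain ⟨h2', h3'⟩ := aux z' hz'
    exact Prod.ext (hP.sub i hi j hj hij h2 h2') (h3.trans h3'.symm)
  · intro i hi j hj hij hc
    rw [Set.disjoint_left]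
    rintro z h2 h3
    have m2 : z.1 ∈ Sa C fn i := ⟨mem_Cu_fst hP h2.1, h2.2⟩
    have m3 : z.1 ∈ Sa C fn j := ⟨mem_Cu_fst hP h3.1, h3.2⟩
    exact Set.disjoint_left.1 (hP.dis i hi j hj hij hc) m2 m3
  · rintro i hi j hj hij ⟨z, h2, h3⟩
    exact hP.link i hi j hj hij ⟨z.1, ⟨mem_Cu_fst hP h2.1, h2.2⟩, ⟨mem_Cu_fst hP h3.1, h3.2⟩⟩

end P073.H31
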