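import Vale.Agent.P073.H761.SEnd12
import Vale.Agent.P073.H142.PS3
import Vale.Agent.P073.H142.Stage3F

/-!
# P073, H31, [SHARP-K3]: the sharp clauses from a local one-sided estimate

`LocEst`: the last map `g` increases locally at most as the clamped coordinates of the map `f`
before the hooks (the hooks only drop arcs), up to small errors.
`PlW`: the staircases on a plate, as they are used.
`PlW.bandEst`, `PlW.disp_le`, `PlW.tv_le`: the twins of H761 with an arbitrary last map `g`.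
-/

set_option linter.unusedSectionVars false

open Set Metric Topology Filter MeasureTheory
open scoped ENNReal

namespace P073.FW31

open P073 P073.Net P073.PA691 P073.H236 P073.H579 P073.H345 P073.H142 P073.H761.SE
open Vale.Agent.P073.St (V)
open Vale.Agent.P073.SQ (ev cube)
open Vale.Agent.P073.H471 Vale.Agent.P073.H267
open Vale.Agent.P073.H73 (Mesh sqr onSeg)
open Vale.Agent.P073.H193 (Edges Cyc edges)
open Vale.Agent.P073.H304 (IsEdge)

variable {Ω Λ : Set V} {v : V} {K : BoxCx Λ v} {S : Rad K} {W : Wid K S} {B : Boxes W}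
  {G : Geo B} {s : K.S}

/-- **the local one-sided estimate** of the last map `g` by the clamped coordinates of `f` -/
def LocEst (G : Geo B) (s : K.S) (X : Set V) (μ τ : ℝ) (f g : V → V) : Prop :=
  ∀ x ∈ X, ∀ᶠ x' in 𝓝[X] x, ∀ j,
    g x' j - g x j ≤ mx G s j (f x) (f x') + μ * sd G s (f x) (f x') + τ * ‖x' - x‖ ∧
    g x j - g x' j ≤ mx G s j (f x') (f x) + μ * sd G s (f x) (f x') + τ * ‖x' - x‖

theorem LocEst.mono {X X' : Set V} {μ τ : ℝ} {f g : V → V} (H : LocEst G s X μ τ f g)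
    (h : X' ⊆ X) : LocEst G s X' μ τ f g := fun x hx =>
  (H x (h hx)).filter_mono (nhdsWithin_mono _ h)

/-- the soft collapse satisfies the local estimate -/
theorem locEst_soft {R : Fac K} {Φ : ConHomeo Λ Λ} {μ : ℝ} (H : IsSoft1 B μ R Φ) (hμ : 0 ≤ μ)
    {α : Type*} {A : α → Set V} {N t : α → ℝ} {f : V → V} (HS : Small W R f A N t) {c : ℝ}
    (hc : 0 ≤ c) {k : α} {X : Set V} (hX : X ⊆ A k) (hf : ContinuousOn f X)
    (hpos : ∀ x ∈ X, f x ∈ G.PB c s ∧ |f x (K.nrm s) - K.slo s (K.nrm s)| < B.τ s)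
    (ht : 0 ≤ t k) : LocEst G s X μ (t k) f (fun x => Φ.toFun (f x)) := fun _ hx =>
  soft_face H hμ HS hc hX hf hpos ht hx

/-- **the staircases on the plate** `s`, as they are used: the map `fm` -/
structure PlW (G : Geo B) (s : K.S) (kk : Fin 3 → ℝ → ℝ) (L : Fin 3 → Finset ℝ)
    (lo hi om : Fin 3 → ℝ → ℝ) (om0 θ : ℝ) (fm : V → V) : Prop where
  pos : 0 < om0
  θ0 : 0 ≤ θ
  nrm : L (K.nrm s) = ∅
  wt : ∀ j, ∀ c ∈ L j, om j c = om0
  lip : ∀ y ∈ G.PB (7 / 8) s, ∀ y' ∈ G.PB (7 / 8) s, ∀ j, j ≠ K.nrm s →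
    |cw (wlo G s) (whi G s) j (fm y) - cw (wlo G s) (whi G s) j (fm y')| ≤
      bandJ L lo hi om j y y' + θ * ‖y - y'‖
  disp : ∀ yp ∈ G.PB (7 / 8) s, ∀ yq ∈ G.PB (7 / 8) s, ∀ zp zq : V, prodK kk yp = zp →
    prodK kk yq = zq → ∀ j, j ≠ K.nrm s → zp j ∉ L j → zq j ∉ L j →
    cw (wlo G s) (whi G s) j (fm yq) - cw (wlo G s) (whi G s) j (fm yp) ≤
      om0 * (((L j).filter fun c => zp j < c ∧ c < zq j).card : ℕ) + om0

/-- the staircases of `K2C` -/
theorem plw_of_pld {L : PLev G} {F : Bool → BFam 3 K.S Λ} {T : Bool → ConHomeo Λ Λ}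
    {om0 e0 θ : ℝ} (H : PlD L F T s om0 e0 θ) :
    PlW G s (L.kP s) (L.lv s) (L.loP s) (L.hiP s) (L.omP s) om0 θ (PS.map T) where
  pos := H.om0_pos
  θ0 := H.θ_nonneg
  nrm := L.lv_nrm s
  wt := fun j c hc => by
    by_cases hj : j = K.nrm s
    · subst hj
      rw [L.lv_nrm] at hc
      exact absurd hc (Finset.notMem_empty _)
    · obtain ⟨β, rfl⟩ := H.pls.cov hj
      exact H.pls.omj β c
  lip := fun y hy y' hy' j hj => H.cw_le hy hy' hj
  disp := fun yp hyp yq hyq zp zq hzp hzq j hj hpL hqL => by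
    have H' : PlD L F T s om0 (om0 / 2) θ := ⟨H.ps, H.om, fun β => by
      have h9 := (F β).heo s
      have h10 := H.pls.omb β
      unfold BFam.om at h10
      linarith, H.θ⟩
    have h9 := H'.pls.dispW (al_eq H.ps.B) (be_eq H.ps.B) hzp hzq hj hpL hqL (H.prd hyp)
      (H.prd hyq)
    have e : om0 * (((L.lv s j).filter fun c => zp j < c ∧ c < zq j).card : ℝ) + 2 * (om0 / 2) =
      om0 * (((L.lv s j).filter fun c => zp j < c ∧ c < zq j).card : ℝ) + om0 := by ring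
    rw [e] at h9
    exact h9

namespace PlW

variable {kk : Fin 3 → ℝ → ℝ} {L : Fin 3 → Finset ℝ} {lo hi om : Fin 3 → ℝ → ℝ} {om0 θ : ℝ}
  {fm : V → V} (H : PlW G s kk L lo hi om om0 θ fm)

include H

theorem sd_le {y y' : V} (hy : y ∈ G.PB (7 / 8) s) (hy' : y' ∈ G.PB (7 / 8) s) :
    sd G s (fm y) (fm y') ≤
      ∑ i ∈ Finset.univ.erase (K.nrm s), bandJ L lo hi om i y' y + 2 * (θ * ‖y' - y‖) := by
  have h1 : sd G s (fm y) (fm y') ≤ ∑ i ∈ Finset.univ.erase (K.nrm s),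
      (bandJ L lo hi om i y' y + θ * ‖y' - y‖) :=
    Finset.sum_le_sum fun i hi => H.lip y' hy' y hy i (Finset.ne_of_mem_erase hi)
  rw [Finset.sum_add_distrib, Finset.sum_const, card_erase, nsmul_eq_mul] at h1
  exact_mod_cast h1

theorem band_sum (y y' : V) :
    ∑ i ∈ Finset.univ.erase (K.nrm s), bandJ L lo hi om i y y' = bandD L lo hi om y y' := by
  rw [bandD_eq, ← Finset.sum_erase_add _ _ (Finset.mem_univ (K.nrm s))]
  have h0 : bandJ L lo hi om (K.nrm s) y y' = 0 := by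
    unfold bandJ
    rw [H.nrm]
    rfl
  rw [h0, add_zero]

variable {μ τ : ℝ} {h3 g : V → V} {Lam : ℝ}

/-- **the local estimate of the final map** -/
theorem bandEst (hμ : 0 ≤ μ) {a : V} {σ : ℝ}
    (HL : LocEst G s (sqr a (K.nrm s) σ) μ τ (fun x => fm (h3 x)) g)
    (hpos : ∀ x ∈ sqr a (K.nrm s) σ, h3 x ∈ G.PB (7 / 8) s)
    (hLam : ∀ x ∈ sqr a (K.nrm s) σ, ∀ y ∈ sqr a (K.nrm s) σ,
      ‖h3 x - h3 y‖ ≤ Lam * ‖x - y‖) :
    BandEst a (K.nrm s) σ L lo hi om μ ((1 + 2 * μ) * (θ * Lam) + τ) h3 g := by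
  have hθ := H.θ0
  intro x hx
  filter_upwards [HL x hx, self_mem_nhdsWithin] with x' h1 hx'
  have hP := hpos x hx
  have hP' := hpos x' hx'
  have hL := hLam x' hx' x hx
  have hθL : θ * ‖h3 x' - h3 x‖ ≤ θ * Lam * ‖x' - x‖ := by
    have := mul_le_mul_of_nonneg_left hL hθ
    linarith
  have hsd := H.sd_le hP hP'
  have hsd' : μ * sd G s (fm (h3 x)) (fm (h3 x')) ≤
      μ * ∑ i ∈ Finset.univ.erase (K.nrm s), bandJ L lo hi om i (h3 x') (h3 x) +
      μ * (2 * (θ * Lam * ‖x' - x‖)) := by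
    rw [← mul_add]
    refine mul_le_mul_of_nonneg_left (hsd.trans ?_) hμ
    linarith
  have habs : ∀ j, |g x' j - g x j| ≤
      (if j = K.nrm s then 0 else |cw (wlo G s) (whi G s) j (fm (h3 x')) -
        cw (wlo G s) (whi G s) j (fm (h3 x))|) +
      μ * sd G s (fm (h3 x)) (fm (h3 x')) + τ * ‖x' - x‖ := by
    intro j
    obtain ⟨h2, h3'⟩ := h1 j
    have h4 := mx_le G s j (fm (h3 x)) (fm (h3 x'))
    have h5 := mx_le G s j (fm (h3 x')) (fm (h3 x))
    rw [abs_sub_comm (cw _ _ _ (fm (h3 x)))] at h5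
    rw [abs_le]
    constructor <;> linarith
  have h50 : 0 ≤ θ * Lam * ‖x' - x‖ := by
    have := mul_nonneg hθ (norm_nonneg (h3 x' - h3 x))
    linarith
  refine ⟨fun j hj => ?_, ?_⟩
  · have h2 := habs j
    rw [if_neg hj] at h2
    have h4 := H.lip (h3 x') hP' (h3 x) hP j hj
    have e : ((1 + 2 * μ) * (θ * Lam) + τ) * ‖x' - x‖ =
        θ * Lam * ‖x' - x‖ + μ * (2 * (θ * Lam * ‖x' - x‖)) + τ * ‖x' - x‖ := by ring
    rw [e]
    linarith
  · have h2 := habs (K.nrm s)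
    rw [if_pos rfl] at h2
    have e : ((1 + 2 * μ) * (θ * Lam) + τ) * ‖x' - x‖ =
        θ * Lam * ‖x' - x‖ + μ * (2 * (θ * Lam * ‖x' - x‖)) + τ * ‖x' - x‖ := by ring
    rw [e]
    linarith

section side

variable {p q : V} {ι : Type*} {X : Finset ι} {s2 s3 : ι → ℝ}

/-- the increments on a side -/
theorem side_loc (HL : LocEst G s (segment ℝ p q) μ τ (fun x => fm (h3 x)) g)
    (hpos : ∀ x ∈ segment ℝ p q, h3 x ∈ G.PB (7 / 8) s)
    (hLam : ∀ x ∈ segment ℝ p q, ∀ y ∈ segment ℝ p q, ‖h3 x - h3 y‖ ≤ Lam * ‖x - y‖)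
    (hR : ∀ r ∈ Icc (0:ℝ) 1, ∀ r' ∈ Icc (0:ℝ) 1, r ≤ r' →
      bandD L lo hi om (h3 (AffineMap.lineMap p q r)) (h3 (AffineMap.lineMap p q r')) ≤
      om0 * (∑ x ∈ X, ramp (s2 x) (s3 x) r') - om0 * ∑ x ∈ X, ramp (s2 x) (s3 x) r)
    {r : ℝ} (hr : r ∈ Icc (0:ℝ) 1) :
    ∀ᶠ r' in 𝓝[Icc 0 1] r,
      (r ≤ r' → (sd G s (fm (h3 (AffineMap.lineMap p q r))) (fm (h3 (AffineMap.lineMap p q r'))) ≤
          om0 * (∑ x ∈ X, ramp (s2 x) (s3 x) r') - om0 * (∑ x ∈ X, ramp (s2 x) (s3 x) r) +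
            2 * (θ * Lam * ‖q - p‖) * (r' - r)) ∧
        ∀ j, g (AffineMap.lineMap p q r') j - g (AffineMap.lineMap p q r) j ≤
          mx G s j (fm (h3 (AffineMap.lineMap p q r))) (fm (h3 (AffineMap.lineMap p q r'))) +
          μ * sd G s (fm (h3 (AffineMap.lineMap p q r))) (fm (h3 (AffineMap.lineMap p q r'))) +
          τ * ‖q - p‖ * (r' - r) ∧
          g (AffineMap.lineMap p q r) j - g (AffineMap.lineMap p q r') j ≤
          mx G s j (fm (h3 (AffineMap.lineMap p q r'))) (fm (h3 (AffineMap.lineMap p q r))) +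
          μ * sd G s (fm (h3 (AffineMap.lineMap p q r))) (fm (h3 (AffineMap.lineMap p q r'))) +
          τ * ‖q - p‖ * (r' - r)) ∧
      (r' ≤ r → (sd G s (fm (h3 (AffineMap.lineMap p q r'))) (fm (h3 (AffineMap.lineMap p q r))) ≤
          om0 * (∑ x ∈ X, ramp (s2 x) (s3 x) r) - om0 * (∑ x ∈ X, ramp (s2 x) (s3 x) r') +
            2 * (θ * Lam * ‖q - p‖) * (r - r')) ∧
        ∀ j, g (AffineMap.lineMap p q r) j - g (AffineMap.lineMap p q r') j ≤
          mx G s j (fm (h3 (AffineMap.lineMap p q r'))) (fm (h3 (AffineMap.lineMap p q r))) +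
          μ * sd G s (fm (h3 (AffineMap.lineMap p q r'))) (fm (h3 (AffineMap.lineMap p q r))) +
          τ * ‖q - p‖ * (r - r') ∧
          g (AffineMap.lineMap p q r') j - g (AffineMap.lineMap p q r) j ≤
          mx G s j (fm (h3 (AffineMap.lineMap p q r))) (fm (h3 (AffineMap.lineMap p q r'))) +
          μ * sd G s (fm (h3 (AffineMap.lineMap p q r'))) (fm (h3 (AffineMap.lineMap p q r))) +
          τ * ‖q - p‖ * (r - r')) := by
  have hθ := H.θ0
  have hm : ∀ r ∈ Icc (0:ℝ) 1, AffineMap.lineMap p q r ∈ segment ℝ p q := fun r hr =>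
    lineMap_mem_segment' hr
  have hloc := HL _ (hm r hr)
  have htend : Tendsto (fun r : ℝ => AffineMap.lineMap p q r) (𝓝[Icc 0 1] r)
      (𝓝[segment ℝ p q] (AffineMap.lineMap p q r)) :=
    tendsto_nhdsWithin_of_tendsto_nhds_of_eventually_within _
      ((AffineMap.lineMap_continuous.tendsto r).mono_left nhdsWithin_le_nhds)
      (by filter_upwards [self_mem_nhdsWithin] with r' hr'; exact hm r' hr')
  have hnorm : ∀ r r' : ℝ, ‖(AffineMap.lineMap p q r' : V) - AffineMap.lineMap p q r‖ =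
      ‖q - p‖ * |r' - r| := by
    intro r r'
    have e : (AffineMap.lineMap p q r' : V) - AffineMap.lineMap p q r = (r' - r) • (q - p) := by
      rw [AffineMap.lineMap_apply_module', AffineMap.lineMap_apply_module', add_sub_add_right_eq_sub,
        ← sub_smul]
    rw [e, norm_smul, Real.norm_eq_abs, mul_comm]
  have key : ∀ r ∈ Icc (0:ℝ) 1, ∀ r' ∈ Icc (0:ℝ) 1, r ≤ r' →
      sd G s (fm (h3 (AffineMap.lineMap p q r))) (fm (h3 (AffineMap.lineMap p q r'))) ≤
          om0 * (∑ x ∈ X, ramp (s2 x) (s3 x) r') - om0 * (∑ x ∈ X, ramp (s2 x) (s3 x) r) +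
            2 * (θ * Lam * ‖q - p‖) * (r' - r) := by
    intro r hr r' hr' hrr
    have h1 := H.sd_le (hpos _ (hm r hr)) (hpos _ (hm r' hr'))
    rw [H.band_sum] at h1
    have h2 := hR r hr r' hr' hrr
    have h3' : bandD L lo hi om (h3 (AffineMap.lineMap p q r'))
        (h3 (AffineMap.lineMap p q r)) = bandD L lo hi om
          (h3 (AffineMap.lineMap p q r)) (h3 (AffineMap.lineMap p q r')) := by
      unfold bandD
      exact Finset.sum_congr rfl fun j _ => Finset.sum_congr rfl fun c _ => by rw [abs_sub_comm]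
    rw [h3'] at h1
    have h4 := hLam _ (hm r' hr') _ (hm r hr)
    rw [hnorm, abs_of_nonneg (by linarith : (0:ℝ) ≤ r' - r)] at h4
    have h5 := mul_le_mul_of_nonneg_left h4 hθ
    have e : 2 * (θ * Lam * ‖q - p‖) * (r' - r) = 2 * (θ * (Lam * (‖q - p‖ * (r' - r)))) := by
      ring
    rw [e]
    linarith
  filter_upwards [htend hloc, self_mem_nhdsWithin] with r' h1 hr'
  refine ⟨fun hle => ⟨key r hr r' hr' hle, fun j => ?_⟩,
    fun hle => ⟨key r' hr' r hr hle, fun j => ?_⟩⟩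
  · obtain ⟨h2, h4⟩ := h1 j
    rw [hnorm, abs_of_nonneg (by linarith : (0:ℝ) ≤ r' - r), ← mul_assoc] at h2 h4
    exact ⟨h2, h4⟩
  · obtain ⟨h2, h4⟩ := h1 j
    rw [hnorm, abs_of_nonpos (by linarith : r' - r ≤ 0), ← mul_assoc, neg_sub, sd_comm] at h2 h4
    exact ⟨h4, h2⟩

/-- **displacement** of the final map on a side -/
theorem disp_le (hμ : 0 ≤ μ) (HL : LocEst G s (segment ℝ p q) μ τ (fun x => fm (h3 x)) g)
    (hpos : ∀ x ∈ segment ℝ p q, h3 x ∈ G.PB (7 / 8) s)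
    (hLam : ∀ x ∈ segment ℝ p q, ∀ y ∈ segment ℝ p q, ‖h3 x - h3 y‖ ≤ Lam * ‖x - y‖)
    (hR : ∀ r ∈ Icc (0:ℝ) 1, ∀ r' ∈ Icc (0:ℝ) 1, r ≤ r' →
      bandD L lo hi om (h3 (AffineMap.lineMap p q r)) (h3 (AffineMap.lineMap p q r')) ≤
      om0 * (∑ x ∈ X, ramp (s2 x) (s3 x) r') - om0 * ∑ x ∈ X, ramp (s2 x) (s3 x) r)
    {i : Fin 3} (hi : i ≠ K.nrm s) :
    g q i - g p i ≤
      (cw (wlo G s) (whi G s) i (fm (h3 q)) - cw (wlo G s) (whi G s) i (fm (h3 p))) / 2 +
        (1 / 2 + μ) * (om0 * X.card) + ((1 + 2 * μ) * (θ * Lam) + τ) * ‖q - p‖ := by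
  have hom := H.pos
  have key := glob
    (D := fun r r' => g (AffineMap.lineMap p q r') i - g (AffineMap.lineMap p q r) i)
    (G := fun r => cw (wlo G s) (whi G s) i (fm (h3 (AffineMap.lineMap p q r))) / 2 +
      (1 / 2 + μ) * (om0 * ∑ x ∈ X, ramp (s2 x) (s3 x) r) +
      ((1 + 2 * μ) * (θ * Lam) + τ) * ‖q - p‖ * r)
    (fun a b c => by linarith)
    (fun r hr => by
      filter_upwards [H.side_loc HL hpos hLam hR hr] with r' h1
      have main : ∀ u u' : ℝ, u ≤ u' →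
          sd G s (fm (h3 (AffineMap.lineMap p q u))) (fm (h3 (AffineMap.lineMap p q u'))) ≤
            om0 * (∑ x ∈ X, ramp (s2 x) (s3 x) u') - om0 * (∑ x ∈ X, ramp (s2 x) (s3 x) u) +
              2 * (θ * Lam * ‖q - p‖) * (u' - u) →
          g (AffineMap.lineMap p q u') i - g (AffineMap.lineMap p q u) i ≤
            mx G s i (fm (h3 (AffineMap.lineMap p q u))) (fm (h3 (AffineMap.lineMap p q u'))) +
            μ * sd G s (fm (h3 (AffineMap.lineMap p q u))) (fm (h3 (AffineMap.lineMap p q u'))) +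
              τ * ‖q - p‖ * (u' - u) →
          g (AffineMap.lineMap p q u') i - g (AffineMap.lineMap p q u) i ≤
            (cw (wlo G s) (whi G s) i (fm (h3 (AffineMap.lineMap p q u'))) / 2 +
              (1 / 2 + μ) * (om0 * ∑ x ∈ X, ramp (s2 x) (s3 x) u') +
              ((1 + 2 * μ) * (θ * Lam) + τ) * ‖q - p‖ * u') -
            (cw (wlo G s) (whi G s) i (fm (h3 (AffineMap.lineMap p q u))) / 2 +
              (1 / 2 + μ) * (om0 * ∑ x ∈ X, ramp (s2 x) (s3 x) u) +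
              ((1 + 2 * μ) * (θ * Lam) + τ) * ‖q - p‖ * u) := by
        intro u u' huu h2 h4
        have h5 := term_le_sd G s (fm (h3 (AffineMap.lineMap p q u)))
          (fm (h3 (AffineMap.lineMap p q u'))) hi
        have h6 : mx G s i (fm (h3 (AffineMap.lineMap p q u)))
              (fm (h3 (AffineMap.lineMap p q u'))) ≤
            (cw (wlo G s) (whi G s) i (fm (h3 (AffineMap.lineMap p q u'))) -
              cw (wlo G s) (whi G s) i (fm (h3 (AffineMap.lineMap p q u)))) / 2 +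
            sd G s (fm (h3 (AffineMap.lineMap p q u)))
              (fm (h3 (AffineMap.lineMap p q u'))) / 2 := by
          unfold mx
          rw [if_neg hi]
          have h7 := abs_le.1 h5
          refine max_le ?_ ?_ <;> linarith
        have h7 : (1 / 2 + μ) * sd G s (fm (h3 (AffineMap.lineMap p q u)))
              (fm (h3 (AffineMap.lineMap p q u'))) ≤
            (1 / 2 + μ) * (om0 * (∑ x ∈ X, ramp (s2 x) (s3 x) u') -
              om0 * (∑ x ∈ X, ramp (s2 x) (s3 x) u) + 2 * (θ * Lam * ‖q - p‖) * (u' - u)) :=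
          mul_le_mul_of_nonneg_left h2 (by linarith)
        have e : ((1 + 2 * μ) * (θ * Lam) + τ) * ‖q - p‖ * u' -
            ((1 + 2 * μ) * (θ * Lam) + τ) * ‖q - p‖ * u =
            (1 / 2 + μ) * (2 * (θ * Lam * ‖q - p‖) * (u' - u)) + τ * ‖q - p‖ * (u' - u) := by
          ring
        linarith
      exact ⟨fun hle => main r r' hle (h1.1 hle).1 ((h1.1 hle).2 i).1,
        fun hle => main r' r hle (h1.2 hle).1 ((h1.2 hle).2 i).1⟩)
    (show (0:ℝ) ∈ Icc (0:ℝ) 1 from ⟨le_rfl, zero_le_one⟩)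
    (show (1:ℝ) ∈ Icc (0:ℝ) 1 from ⟨zero_le_one, le_rfl⟩) zero_le_one
  simp only [AffineMap.lineMap_apply_one, AffineMap.lineMap_apply_zero, mul_one, mul_zero,
    add_zero] at key
  have h8 := sum_ramp_le (s2 := s2) (s3 := s3) (X := X) hom.le (t := 0) (t' := 1)
  have h9 : (1 / 2 + μ) * (om0 * (∑ x ∈ X, ramp (s2 x) (s3 x) 1) -
      om0 * ∑ x ∈ X, ramp (s2 x) (s3 x) 0) ≤ (1 / 2 + μ) * (om0 * X.card) :=
    mul_le_mul_of_nonneg_left h8 (by linarith)
  linarith

/-- **total variation** of the final map on an edge in a plate -/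
theorem tv_le (hμ : 0 ≤ μ) (HL : LocEst G s (segment ℝ p q) μ τ (fun x => fm (h3 x)) g)
    (hpos : ∀ x ∈ segment ℝ p q, h3 x ∈ G.PB (7 / 8) s)
    (hLam : ∀ x ∈ segment ℝ p q, ∀ y ∈ segment ℝ p q, ‖h3 x - h3 y‖ ≤ Lam * ‖x - y‖)
    (hR : ∀ r ∈ Icc (0:ℝ) 1, ∀ r' ∈ Icc (0:ℝ) 1, r ≤ r' →
      bandD L lo hi om (h3 (AffineMap.lineMap p q r)) (h3 (AffineMap.lineMap p q r')) ≤
      om0 * (∑ x ∈ X, ramp (s2 x) (s3 x) r') - om0 * ∑ x ∈ X, ramp (s2 x) (s3 x) r) :
    Vale.Agent.P073.H239.tv g (p, q) Finset.univ ≤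
      ENNReal.ofReal ((1 + 3 * μ) * (om0 * X.card) +
        ((1 + 3 * μ) * (2 * (θ * Lam)) + 3 * τ) * ‖q - p‖) := by
  have hom := H.pos
  have hon : ∀ r : ℝ, onSeg g (p, q) r = g (AffineMap.lineMap p q r) := by
    intro r
    show g (p + r • (q - p)) = _
    rw [AffineMap.lineMap_apply_module', add_comm]
  unfold Vale.Agent.P073.H239.tv
  simp only [hon]
  have h8 := sum_ramp_le (s2 := s2) (s3 := s3) (X := X) hom.le (t := 0) (t' := 1)
  refine (sum_eVar_le (u := fun j r => g (AffineMap.lineMap p q r) j)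
    (G := fun r => (1 + 3 * μ) * (om0 * ∑ x ∈ X, ramp (s2 x) (s3 x) r) +
      ((1 + 3 * μ) * (2 * (θ * Lam)) + 3 * τ) * ‖q - p‖ * r) ?_).trans
    (ENNReal.ofReal_le_ofReal ?_)
  · intro r hr r' hr' hrr
    refine glob
      (D := fun r r' => ∑ j, |g (AffineMap.lineMap p q r') j - g (AffineMap.lineMap p q r) j|)
      (G := fun r => (1 + 3 * μ) * (om0 * ∑ x ∈ X, ramp (s2 x) (s3 x) r) +
        ((1 + 3 * μ) * (2 * (θ * Lam)) + 3 * τ) * ‖q - p‖ * r) ?_ ?_ hr hr' hrr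
    · intro a b c
      rw [← Finset.sum_add_distrib]
      refine Finset.sum_le_sum fun j _ => ?_
      have := abs_sub_le (g (AffineMap.lineMap p q c) j) (g (AffineMap.lineMap p q b) j)
        (g (AffineMap.lineMap p q a) j)
      linarith
    · intro r hr
      filter_upwards [H.side_loc HL hpos hLam hR hr] with r' h1
      have main : ∀ u u' : ℝ, u ≤ u' →
          (sd G s (fm (h3 (AffineMap.lineMap p q u))) (fm (h3 (AffineMap.lineMap p q u'))) ≤
            om0 * (∑ x ∈ X, ramp (s2 x) (s3 x) u') - om0 * (∑ x ∈ X, ramp (s2 x) (s3 x) u) +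
              2 * (θ * Lam * ‖q - p‖) * (u' - u)) →
          (∀ j, g (AffineMap.lineMap p q u') j - g (AffineMap.lineMap p q u) j ≤
            mx G s j (fm (h3 (AffineMap.lineMap p q u))) (fm (h3 (AffineMap.lineMap p q u'))) +
            μ * sd G s (fm (h3 (AffineMap.lineMap p q u))) (fm (h3 (AffineMap.lineMap p q u'))) +
              τ * ‖q - p‖ * (u' - u) ∧
            g (AffineMap.lineMap p q u) j - g (AffineMap.lineMap p q u') j ≤
            mx G s j (fm (h3 (AffineMap.lineMap p q u'))) (fm (h3 (AffineMap.lineMap p q u))) +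
            μ * sd G s (fm (h3 (AffineMap.lineMap p q u))) (fm (h3 (AffineMap.lineMap p q u'))) +
              τ * ‖q - p‖ * (u' - u)) →
          ∑ j, |g (AffineMap.lineMap p q u') j - g (AffineMap.lineMap p q u) j| ≤
            ((1 + 3 * μ) * (om0 * ∑ x ∈ X, ramp (s2 x) (s3 x) u') +
              ((1 + 3 * μ) * (2 * (θ * Lam)) + 3 * τ) * ‖q - p‖ * u') -
            ((1 + 3 * μ) * (om0 * ∑ x ∈ X, ramp (s2 x) (s3 x) u) +
              ((1 + 3 * μ) * (2 * (θ * Lam)) + 3 * τ) * ‖q - p‖ * u) := by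
        intro u u' huu h2 h4
        have h5 := sum_abs_le G s
          (c := μ * sd G s (fm (h3 (AffineMap.lineMap p q u)))
              (fm (h3 (AffineMap.lineMap p q u'))) + τ * ‖q - p‖ * (u' - u))
          (y := fm (h3 (AffineMap.lineMap p q u)))
          (y' := fm (h3 (AffineMap.lineMap p q u')))
          (z := g (AffineMap.lineMap p q u))
          (z' := g (AffineMap.lineMap p q u'))
          (fun j => ⟨by rw [← add_assoc]; exact (h4 j).1, by rw [← add_assoc]; exact (h4 j).2⟩)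
        have h7 : (1 + 3 * μ) * sd G s (fm (h3 (AffineMap.lineMap p q u)))
              (fm (h3 (AffineMap.lineMap p q u'))) ≤
            (1 + 3 * μ) * (om0 * (∑ x ∈ X, ramp (s2 x) (s3 x) u') -
              om0 * (∑ x ∈ X, ramp (s2 x) (s3 x) u) + 2 * (θ * Lam * ‖q - p‖) * (u' - u)) :=
          mul_le_mul_of_nonneg_left h2 (by linarith)
        linarith
      refine ⟨fun hle => main r r' hle (h1.1 hle).1 (h1.1 hle).2,
        fun hle => main r' r hle (h1.2 hle).1 fun j => ?_⟩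
      obtain ⟨h2, h4⟩ := (h1.2 hle).2 j
      exact ⟨h2, h4⟩
  · have h9 : (1 + 3 * μ) * (om0 * (∑ x ∈ X, ramp (s2 x) (s3 x) 1) -
        om0 * ∑ x ∈ X, ramp (s2 x) (s3 x) 0) ≤ (1 + 3 * μ) * (om0 * X.card) :=
      mul_le_mul_of_nonneg_left h8 (by linarith)
    linarith

end side

end PlW

end P073.FW31
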