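import Vale.Agent.P073.H31.SK8
import Vale.Agent.P073.H880.TopN
import Vale.Agent.P073.H761.AuxQ2
import Vale.Agent.P073.H523.TopP

/-!
# P073, H31, `K3C`, **[TopSh]**: the row of the sharp output in slots

`row_sharp`: one family of slots for all numbers of `sharp_row`; only the edges of the auxiliary map
are an input.
-/

set_option linter.unusedSectionVars false

open Set Metric Topology Filter MeasureTheory
open scoped ENNReal

namespace Vale.Agent.P073.H31.K3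

open _root_.P073 _root_.P073.Net _root_.P073.PA691 _root_.P073.H236 _root_.P073.H579
open _root_.P073.H142 _root_.P073.H429
open _root_.P073.H345 (PK PB_sub_PK PLev tg)
open _root_.P073.H880.RP
open _root_.P073.FW31
open Vale.Agent.P073.St (V)
open Vale.Agent.P073.SQ (ev)
open Vale.Agent.P073.H471 Vale.Agent.P073.H267 Vale.Agent.P073.H926
open Vale.Agent.P073.H267.K3
open Vale.Agent.P073.H73 (Mesh onSeg sqr)
open Vale.Agent.P073.H193 (Edges edges)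
open Vale.Agent.P073.H304 (Nb Zmax IsEdge)
open Vale.Agent.P073.H669 (wl wl_pos)
open Vale.Agent.P073.H233 (Small3 SoftQ Xp FQ Ev EdgeEst)
open Vale.Agent.P073.Top880

variable {c₀ n δ : ℝ} {j : ℕ} {Ω Λ : Set V} {v w : V} {ρ : V → ℝ} {M : Mesh Ω}
  {h : ConHomeo Ω Λ} {J₀ J : Set (ℕ × (Fin 3 → ℤ))} {P Z : Set M.ι} {K : BoxCx Λ w}

/-- **the row of the sharp output, in slots** (the slots do not depend on `D₁`, `Dq`) -/
theorem row_sharp (D : KIn3 c₀ n j δ v w ρ M h J₀ J P Z) (C : Cells ρ w K) {C₀ μT : ℝ}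
    (hC : 1 ≤ C₀) {Ys : Set M.κ} {sc : Sharp} {p μ r ν : ℝ} (N1 : FNum1 p μ r sc ν) (hnν : n ≤ ν)
    (hμT0 : 0 ≤ μT) (hμT : μT ≤ n / 128) {ε : M.κ → ℝ} (hε : ∀ k, 0 < ε k)
    {om εL : (edges M).ε → ℝ} {lam osc : M.ι → ℝ} (T : H233.Tol M h.toFun ε om εL lam osc)
    {D₀ : ℝ} (hD₀ : 1 ≤ D₀) :
    ∃ S : Slots D C C₀ μT Ys sc, ∀ {N : RTn M C J₀} {X : S1 D C C₀ μT} {Y₂ : S2 X}
      {Y₃ : S3 Y₂ Ys sc} {Y₄ : S4 Y₃} (Y₅ : S5 Y₄), Ok5 S N Y₅ →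
      ∀ {D₁ Dq : ℝ}, 84 * C₀ ≤ D₁ → 8192 ≤ D₁ → 160 * D₁ ≤ Dq → 8 * (1 + D₀) + 16 * D₁ ≤ Dq →
      (∀ k e, (edges M).seg e ⊆ M.F k → (∃ i ∈ P, (edges M).seg e ⊆ M.Q i) ∨
        Ev (D.B C) (Xp C J₀) (20 / (1 / μN n)) M Y₅.fq.toFun (.inl k)
          (EdgeEst h.toFun Y₅.fq.toFun D₀ (om e) e)) →
      ∃ t₀ : M.κ ⊕ M.ι → ℝ, (∀ a, 0 < t₀ a) ∧ ∀ (R : Fac K) (N t : M.κ ⊕ M.ι → ℝ)
        (Φ : ConHomeo Λ Λ), (∀ a, 0 < t a) → (∀ a, t a ≤ t₀ a) →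
        Small3 (D.W C) (Xp C J₀) R Y₅.f.toFun (FQ M) N t → SoftQ D C R Φ →
        H212.SharpOut3 p Dq c₀ δ μ r w ρ M h.toFun J₀ Ys ε (Y₅.f.trans Φ) := by
  have hn := D.pos
  have hn1 := D.nle
  have hn2 := D.le
  have hν0 := N1.ν0
  have hρ0 := N1.ρ0
  -- slot (1)
  obtain ⟨m1, hm1, H1⟩ := Vale.Agent.P073.H669.exists_le_of_finite
    (R := fun (e : (edges M).ε) k => (edges M).seg e ⊆ M.F k) (H233.finite_faces_edge M)
    (f := ε) hε
  -- slot (2)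
  have hw : ∀ (s : K.S) β, 0 < wl (D.G C) s β := fun s β => by
    have h1 := wl_pos (D.G C) s β
    have h2 := (D.G C).a_pos s
    linarith
  -- slot (3)
  obtain ⟨εE, hE0, -, HE, HE'⟩ := exists_eE3 M hε hρ0 (ε' := fun _ => 1) fun _ => one_pos
  choose dm hdm Hdm using fun X : S1 D C C₀ μT => exists_dm3 X (r := sc.ρ / 2) (half_pos hρ0)
  -- slots (6), (7)
  choose t4 ht4 H4 using fun (X : S1 D C C₀ μT) (Y₂ : S2 X) (Y₃ : S3 Y₂ Ys sc) =>
    exists_tolS4 Y₃ hε hν0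
  choose t5 ht5 H5 using fun (X : S1 D C C₀ μT) (Y₂ : S2 X) (Y₃ : S3 Y₂ Ys sc) (Y₄ : S4 Y₃) =>
    exists_tolS5 Y₄ hε hν0
  refine ⟨{ (Slots.one : Slots D C C₀ μT Ys sc) with
    εe := fun e => m1 e / 8
    εe0 := fun e => by have := hm1 e; positivity
    m := fun _ s => min ((D.G C).oS s / 2)
      (n / 256 * min (wl (D.G C) s false) (wl (D.G C) s true))
    m0 := fun _ s => lt_min (half_pos (oS_pos' D C s))
      (mul_pos (by positivity) (lt_min (hw s _) (hw s _)))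
    εE := fun _ => εE
    εE0 := fun _ => hE0
    dm := dm
    dm0 := hdm
    ν := fun _ => tauS M ε ν
    ν0 := fun _ => tauS_pos hε hν0
    e₁ := fun Y₂ _ _ _ s => n / 4096 * Y₂.Lw.om s.1 false
    e₁0 := fun Y₂ _ _ _ _ s => mul_pos (by positivity) (Y₂.Lw.om_pos s.1 false)
    tol4 := fun Y₃ _ _ => t4 _ _ Y₃
    tol40 := fun Y₃ _ _ => ht4 _ _ Y₃
    tol5 := fun Y₄ _ _ => t5 _ _ _ Y₄
    tol50 := fun Y₄ _ _ => ht5 _ _ _ Y₄ }, ?_⟩
  intro N X Y₂ Y₃ Y₄ Y₅ H D₁ Dq hD₁ hD₁' hDq hDq' hedge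
  have hμ0 : ∀ b : pG C J₀, 0 ≤ Y₅.μ b := fun b => by
    rw [H.μ5]
    exact (H212.K3.muT_pos D C b.1).le
  have hμ1 : ∀ b : pG C J₀, Y₅.μ b ≤ n / 1024 := fun b => by
    rw [H.μ5]
    exact H212.K3.muT_le D C b.1
  have hμu : ∀ b : pG C J₀, Y₅.μ b * (ebe (D.W C) b.1 - eal (D.W C) b.1) =
      n / 1024 * (D.G C).uT b.1 := fun b => by
    rw [H.μ5]
    exact H212.K3.muT_len D C b.1
  have hm : ∀ s, Y₂.muP s ≤ (D.G C).oS s / 2 := fun s => (H.muP s).trans (min_le_left _ _)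
  obtain ⟨-, -, -, hθ⟩ := Y₃.numP (fun s => by
    rw [H.J]
    have := D.ω3S_pos C s
    linarith) hm
  refine sharp_row Y₅ N1 hnν hμT0 hμT hμ0 (fun b => (hμ1 b).trans (by linarith))
    (fun b => (hμu b).le.trans (le_of_eq (by ring))) hε T hD₀ (by linarith) hDq hDq' ?_ ?_ H.η
    (fun k e he => ?_) (fun e => ?_) ?_ H.ν ?_ (fun s => (H.q4 s).ge) (fun s => (H.r4 s).ge)
    (H4 _ _ Y₃ Y₄ H.ε4) (H5 _ _ _ Y₄ Y₅ H.ε5)
    (Y₅.preQ hC hθ hμ0 (fun b => (hμ1 b).trans (by linarith)) (fun b => ?_) hD₁ hD₁' hedge)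
  · intro k e he
    have h1 := H.εe e
    have h2 := H1 e k he
    change X.εe e ≤ m1 e / 8 at h1
    linarith
  · intro s _ _ β
    have h1 : Y₂.muP s ≤ n / 256 * min (wl (D.G C) s false) (wl (D.G C) s true) :=
      (H.muP s).trans (min_le_right _ _)
    refine h1.trans (mul_le_mul_of_nonneg_left ?_ (by positivity))
    cases β
    · exact min_le_left _ _
    · exact min_le_right _ _
  · have h1 := H.εE e
    have h2 := HE k e he
    change Y₂.εE e ≤ εE e at h1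
    linarith
  · have h1 := H.εE e
    have h2 := HE' e
    change Y₂.εE e ≤ εE e at h1
    linarith
  · intro s k hk a σ hσ hF
    have h1 := Hdm X Y₂ H.dP s k hk a σ hσ hF
    linarith
  · intro β s
    exact H.e β s
  · rw [hμu b]
    have := (D.G C).uT_pos b.1
    nlinarith

end Vale.Agent.P073.H31.K3
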