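import Vale.Agent.P073.H31.SK10
import Vale.Agent.P073.H880.TopM

/-!
# P073, H31, `K3C`, **[TopSh]**: the row of the sharp output as a `RowP`
-/

set_option linter.unusedSectionVars false

open Set Metric Topology Filter MeasureTheory
open scoped ENNReal

namespace Vale.Agent.P073.Top880

open _root_.P073 _root_.P073.Net _root_.P073.PA691 _root_.P073.H236 _root_.P073.H579
open Vale.Agent.P073.St (V)
open Vale.Agent.P073.H471 Vale.Agent.P073.H267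
open Vale.Agent.P073.H73 (Mesh)
open Vale.Agent.P073.H193 (edges)
open Vale.Agent.P073.H926
open Vale.Agent.P073.H267.K3

variable {c₀ n δ : ℝ} {j : ℕ} {Ω Λ : Set V} {v w : V} {ρ : V → ℝ} {M : Mesh Ω}
  {h : ConHomeo Ω Λ} {J₀ J : Set (ℕ × (Fin 3 → ℤ))} {P Z : Set M.ι} {K : BoxCx Λ w}

/-- **the row of the sharp output**, from the estimate of the edges for the auxiliary map -/
theorem row_sharp (D : KIn3 c₀ n j δ v w ρ M h J₀ J P Z) (C : Cells ρ w K) {C₀ μT : ℝ}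
    (hC : 1 ≤ C₀) {Ys : Set M.κ} {sc : Sharp} {p μ r ν : ℝ} (N1 : H31.K3.FNum1 p μ r sc ν)
    (hnν : n ≤ ν) (hμT0 : 0 ≤ μT) (hμT : μT ≤ n / 128) {ε : M.κ → ℝ} (hε : ∀ k, 0 < ε k)
    {om εL : (edges M).ε → ℝ} {lam osc : M.ι → ℝ} (T : H233.Tol M h.toFun ε om εL lam osc)
    {D₀ : ℝ} (hD₀ : 1 ≤ D₀) :
    RowP D C C₀ μT Ys sc fun {_ _ _ _} Y₅ => EdgeF D C D₀ om Y₅.fq.toFun →
      ∀ D₁ Dq, max 8192 (84 * C₀) ≤ D₁ → 160 * D₁ ≤ Dq → 8 * (1 + D₀) + 16 * D₁ ≤ Dq →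
        SharpF p Dq μ r ε Y₅ := by
  obtain ⟨S, H⟩ := H31.K3.row_sharp D C (μT := μT) (Ys := Ys) hC N1 hnν hμT0 hμT hε T hD₀
  exact ⟨S, fun Y₅ h5 he D₁ Dq h1 h2 h3 =>
    H Y₅ h5 ((le_max_right _ _).trans h1) ((le_max_left _ _).trans h1) h2 h3 he⟩

end Vale.Agent.P073.Top880
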