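import Vale.Agent.P073.H31.SK1

/-!
# P073, H31, [SHARP-K3], part 2: the sharp faces from the local estimate

`plw_of_ps3`: the staircases of `K3C`.  `ramp_act`, `vert_act`: own edges and vertices of an active
face after an insertion step.  `shCond_act`: the conditions of a sharp face; `face_act`: **the
sharp clause for one face**, for any last map `g` with `LocEst`.
-/

set_option linter.unusedSectionVars false

open Set Metric Topology Filter MeasureTheory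
open scoped ENNReal

namespace P073.FW31

open P073 P073.Net P073.PA691 P073.H236 P073.H579 P073.H345 P073.H142 P073.H761.SE Gon
open P073.H237 (Ends ed)
open P073.H228 (jd)
open Vale.Agent.P073.St (V)
open Vale.Agent.P073.SQ (ev cube)
open Vale.Agent.P073.H471 Vale.Agent.P073.H267
open Vale.Agent.P073.H73 (Mesh sqr onSeg)
open Vale.Agent.P073.H193 (Edges Cyc edges)
open Vale.Agent.P073.H304 (IsEdge)
open Vale.Agent.P073.H239 (faceI)

variable {Ω Λ : Set V} {v : V} {K : BoxCx Λ v} {S : Rad K} {W : Wid K S} {B : Boxes W}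
  {G : Geo B}

/-! ### the staircases of `K3C` -/

section ps3

variable {L : PLev G} {S₀ : Set K.S} {F : Bool → BFam 3 S₀ Λ} {T : Bool → ConHomeo Λ Λ}
  {s : S₀} {om0 θ : ℝ}

/-- the data of a plate -/
theorem pls_of_ps3 (P : PS3 L S₀ F T) (hom : ∀ β, stp (L.N s.1 β)
      (K.slo s.1 (tg s.1 β) + G.a s.1) (K.shi s.1 (tg s.1 β) - G.a s.1) = om0)
    (hθ : ∀ β, (F β).e s ≤ θ * L.c s.1 β) :
    PlS F T s (K.nrm s.1) (L.kP s.1) (L.lv s.1) (L.loP s.1) (L.hiP s.1) (L.omP s.1) om0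
      (om0 / 2) θ := by
  have hj : ∀ β, ((F β).B s).j = tg s.1 β := fun β => (P.B β s).j
  have hc : ∀ β, ((F β).B s).c = L.c s.1 β := fun β => (P.B β s).c
  have homb : ∀ β, (F β).om s = om0 := fun β => by
    show stp ((F β).B s).N ((F β).B s).al ((F β).B s).be = om0
    rw [(P.B β s).N, (P.B β s).al, (P.B β s).be]
    exact hom β
  refine ⟨P.isS, ?_, fun β => ?_, L.ins1P s.1, L.lv_nrm s.1, fun β => ?_, fun β t => ?_,
    fun β t => ?_, fun β t => ?_, homb, fun β => ?_, fun β => ?_⟩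
  · rw [hj, hj]; exact (tg_ne_not s.1 true).symm
  · rw [hj]; exact tg_ne s.1 β
  · rw [hj, L.lv_tg]
    ext t
    rw [(L.lvs s.1 β).mem_L, ((F β).B s).lvs.mem_L, (P.B β s).N, (P.B β s).a]
    rfl
  · rw [hj, hc]
    show loQ (L.bx (bt s.1 (tg s.1 β)) s.1) (tg s.1 β) t = _
    rw [bt_tg]; rfl
  · rw [hj, hc]
    show hiQ (L.bx (bt s.1 (tg s.1 β)) s.1) (tg s.1 β) t = _
    rw [bt_tg]; rfl
  · rw [hj, L.omP_tg]; exact hom β
  · have h9 := (F β).heo s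
    have h10 := homb β
    unfold BFam.om at h10
    linarith
  · rw [hc]; exact hθ β

/-- **the staircases of `K3C` on a plate** -/
theorem plw_of_ps3 (P : PS3 L S₀ F T) (hom : ∀ β, stp (L.N s.1 β)
      (K.slo s.1 (tg s.1 β) + G.a s.1) (K.shi s.1 (tg s.1 β) - G.a s.1) = om0)
    (hθ : ∀ β, (F β).e s ≤ θ * L.c s.1 β) :
    PlW G s.1 (L.kP s.1) (L.lv s.1) (L.loP s.1) (L.hiP s.1) (L.omP s.1) om0 θ (PS.map T) := by
  have H := pls_of_ps3 P hom hθ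
  have hj : ∀ β, ((F β).B s).j = tg s.1 β := fun β => (P.B β s).j
  have hal : ∀ β, ((F β).B s).al = wlo G s.1 ((F β).B s).j := fun β => by
    rw [hj, (P.B β s).al]; rfl
  have hbe : ∀ β, ((F β).B s).be = whi G s.1 ((F β).B s).j := fun β => by
    rw [hj, (P.B β s).be]; rfl
  have hprd : ∀ y ∈ G.PB (7 / 8) s.1, Prd F T s (K.nrm s.1) y := fun y hy =>
    ⟨P.nrm hy, fun β => by rw [hj]; exact P.apply hy β⟩
  have hom0 : 0 < om0 := by
    rw [← hom true]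
    exact stp_pos (L.bx true s.1)
  refine ⟨hom0, ?_, L.lv_nrm s.1, fun j c hc => ?_, fun y hy y' hy' j hj => ?_,
    fun yp hyp yq hyq zp zq hzp hzq j hj hpL hqL => ?_⟩
  · have h1 := hθ true
    have h2 := (F true).he s
    have h3 := (L.lvs s.1 true).c0
    by_contra hcon
    push Not at hcon
    have : θ * L.c s.1 true < 0 := mul_neg_of_neg_of_pos hcon h3
    linarith
  · by_cases hj : j = K.nrm s.1
    · subst hj
      rw [L.lv_nrm] at hc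
      exact absurd hc (Finset.notMem_empty _)
    · obtain ⟨β, rfl⟩ := H.cov hj
      exact H.omj β c
  · have hθ0 : 0 ≤ θ := by
      have h1 := hθ true
      have h2 := (F true).he s
      have h3 := (L.lvs s.1 true).c0
      by_contra hcon
      push Not at hcon
      have : θ * L.c s.1 true < 0 := mul_neg_of_neg_of_pos hcon h3
      linarith
    have h1 := H.lipW hal hbe (hprd y hy) (hprd y' hy') hj
    have h2 := abs_apply_le (y - y') j
    rw [Pi.sub_apply] at h2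
    exact h1.trans (add_le_add_right (mul_le_mul_of_nonneg_left h2 hθ0) _)
  · have h9 := H.dispW hal hbe hzp hzq hj hpL hqL (hprd yp hyp) (hprd yq hyq)
    have e : om0 * (((L.lv s.1 j).filter fun c => zp j < c ∧ c < zq j).card : ℝ) +
      2 * (om0 / 2) =
      om0 * (((L.lv s.1 j).filter fun c => zp j < c ∧ c < zq j).card : ℝ) + om0 := by ring
    rw [e] at h9
    exact h9

end ps3

/-! ### an insertion step -/

variable {M : Mesh Ω} {E : Edges M} {κ : V → V} {Ak : K.S → M.κ → Prop}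
  {kP : K.S → Fin 3 → ℝ → ℝ} {LP : K.S → Fin 3 → Finset ℝ} {loP hiP omP : K.S → Fin 3 → ℝ → ℝ}
  {La We mu : E.ε → ℝ} {h2 h3 : ConHomeo Ω Λ} {Act : Set M.κ} {GF : M.κ → (V → V) → Prop}
  {s : K.S} {k : M.κ} {om0 θ : ℝ} {fm : V → V}

/-- the bands on an own edge of an active face, any orientation -/
theorem ramp_act (P : PAct M E h2 κ Λ Ak kP LP loP hiP omP) (hw : ∀ j, ∀ c ∈ LP s j,
      omP s j c = om0) (hom : 0 ≤ om0)
    (O : Out2 M E h2 κ Act (GEP E h2 Ak kP LP loP hiP omP La mu) GF h3)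
    (hAct : k ∈ Act) (hk : Ak s k) {e : E.ε} (he : E.seg e ⊆ M.F k)
    (hown : OwnE E Ak e) {p q : V} (hpq : E.seg e = segment ℝ p q) :
    ∃ (X : Finset V) (s2 s3 : V → ℝ), (∀ x, x ∈ X ↔ CrsPt p q h2.toFun (LP s) x) ∧
      ∀ r ∈ Icc (0:ℝ) 1, ∀ r' ∈ Icc (0:ℝ) 1, r ≤ r' →
      bandD (LP s) (loP s) (hiP s) (omP s) (h3.toFun (AffineMap.lineMap p q r))
        (h3.toFun (AffineMap.lineMap p q r')) ≤
      om0 * (∑ x ∈ X, ramp (s2 x) (s3 x) r') - om0 * ∑ x ∈ X, ramp (s2 x) (s3 x) r := by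
  have hsub := Vale.Agent.P073.H238.mesh_sub M k
  obtain ⟨f, h4, h5⟩ := O.edge k hAct e he
  obtain ⟨t1, t2, t3, t4, h6, h7⟩ := h4 s ⟨k, hk, he⟩
  obtain ⟨X, hX, -, haff⟩ := h7 hown
  have hun : ∀ x ∈ E.seg e, ∀ j j', h2.toFun x j ∈ LP s j → h2.toFun x j' ∈ LP s j' →
      j = j' := fun x hx j j' hj hj' => P.one s k hk e he x hx j j' hj hj'
  have hfc : ContinuousOn f (E.seg e) :=
    (h3.cont.mono (he.trans hsub)).congr fun x hx => (h5 hx).symm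
  have him : ∀ x ∈ E.seg e, prodK (kP s) (f x) ∈ h2.toFun '' E.seg e := by
    intro x hx
    have h7 : h3.toFun x ∈ Pre κ Λ h2 (E.seg e) := by
      rw [← O.img_edge]; exact mem_image_of_mem _ hx
    have h8 := (P.zone s k hk).z2 _ h7.1 (image_mono he h7.2)
    have h9 : κ (h3.toFun x) ∈ h2.toFun '' E.seg e := h7.2
    rw [h8] at h9
    rw [← h5 hx]
    exact h9
  have key : ∀ {a b : V} {t1 t2 t3 t4 : V → ℝ}, segment ℝ a b = E.seg e →
      EdgeNum a b h2.toFun (kP s) (LP s) (loP s) (hiP s) (omP s) (La e) f t1 t2 t3 t4 →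
      (∀ x ∈ X, AffAt a b h2.toFun f (LP s) (loP s) (hiP s) t2 t3 x) →
      ∀ r ∈ Icc (0:ℝ) 1, ∀ r' ∈ Icc (0:ℝ) 1, r ≤ r' →
      bandD (LP s) (loP s) (hiP s) (omP s) (h3.toFun (AffineMap.lineMap a b r))
        (h3.toFun (AffineMap.lineMap a b r')) ≤
      om0 * (∑ x ∈ X, ramp (t2 x) (t3 x) r') - om0 * ∑ x ∈ X, ramp (t2 x) (t3 x) r := by
    intro a b t1 t2 t3 t4 hab hN hA r hr r' hr' hrr
    have hm : ∀ u ∈ Icc (0:ℝ) 1, (AffineMap.lineMap a b u : V) ∈ E.seg e := fun u hu => by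
      rw [← hab]; exact lineMap_mem_segment' hu
    rw [h5 (hm r hr), h5 (hm r' hr')]
    refine band_ramp hN (P.ins s) (fun x hx => hun x (hab ▸ hx)) hw hom
      (fun x => (hX x).trans (crsPt_of_seg (hab : segment ℝ a b = segment ℝ (E.a e) (E.b e)) x))
      hA (hab.symm ▸ hfc) (fun x hx => ?_) hr hr' hrr
    rw [hab] at hx ⊢
    exact him x hx
  rcases seg_ends hpq with ⟨e1, e2⟩ | ⟨e1, e2⟩
  · refine ⟨X, t2, t3, fun x => ?_, ?_⟩
    · rw [hX x, e1, e2]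
    · rw [← e1, ← e2]
      exact key rfl h6 haff
  · refine ⟨X, fun x => 1 - t3 x, fun x => 1 - t2 x, fun x => ?_, ?_⟩
    · rw [hX x, e1, e2]
      exact (crsPt_of_seg (segment_symm ℝ p q) x)
    · rw [← e1, ← e2]
      exact key (segment_symm ℝ _ _) h6.symm
        fun x hx => affAt_symm (h6.a3 x ((hX x).1 hx)) (haff x hx)

/-- the vertices -/
theorem vert_act (P : PAct M E h2 κ Λ Ak kP LP loP hiP omP) {GE : E.ε → (V → V) → Prop}
    (O : Out2 M E h2 κ Act GE GF h3) (hk : Ak s k) {y : V} (hy : y ∈ E.verts)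
    (hyF : y ∈ M.F k) :
    prodK (kP s) (h3.toFun y) = h2.toFun y ∧ ∀ j, h2.toFun y j ∉ LP s j := by
  refine ⟨?_, P.vert s k hk y hy hyF⟩
  rw [← O.vert y hy]
  have h9 : h3.toFun y ∈ Pre κ Λ h2 (M.F k) := by
    rw [← O.img_face]; exact mem_image_of_mem _ hyF
  exact ((P.zone s k hk).z2 _ h9.1 h9.2).symm

variable {g : V → V} {a : V} {σ Lam r ρ₁ ρ μ τ : ℝ}

/-- **the sharp clause for one edge in a plate**: total variation of the last map `g` by the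
number of the crossing points of `h2` -/
theorem tv_act (P : PAct M E h2 κ Λ Ak kP LP loP hiP omP)
    (O : Out2 M E h2 κ Act (GEP E h2 Ak kP LP loP hiP omP La mu) GF h3)
    (H : PlW G s (kP s) (LP s) (loP s) (hiP s) (omP s) om0 θ fm)
    (hAct : k ∈ Act) (hk : Ak s k) {e : E.ε} (he : E.seg e ⊆ M.F k) (hown : OwnE E Ak e)
    (hμ : 0 ≤ μ) (HL : LocEst G s (E.seg e) μ τ (fun x => fm (h3.toFun x)) g)
    (hpos : ∀ x ∈ E.seg e, h3.toFun x ∈ G.PB (7 / 8) s)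
    (hLam : ∀ x ∈ E.seg e, ∀ y ∈ E.seg e, ‖h3.toFun x - h3.toFun y‖ ≤ Lam * ‖x - y‖)
    {p q : V} (hpq : E.seg e = segment ℝ p q) :
    ∃ X : Finset V, (∀ x, x ∈ X ↔ CrsPt p q h2.toFun (LP s) x) ∧
      Vale.Agent.P073.H239.tv g (p, q) Finset.univ ≤
        ENNReal.ofReal ((1 + 3 * μ) * (om0 * X.card) +
          ((1 + 3 * μ) * (2 * (θ * Lam)) + 3 * τ) * ‖q - p‖) := by
  obtain ⟨X, s2, s3, hX, hR⟩ := ramp_act P H.wt H.pos.le O hAct hk he hown hpq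
  refine ⟨X, hX, ?_⟩
  rw [hpq] at HL hpos hLam
  exact H.tv_le hμ HL hpos hLam hR

/-- **the conditions of a sharp face**, from the sides of the last map `g` -/
theorem shCond_act (P : PAct M E h2 κ Λ Ak kP LP loP hiP omP)
    (O : Out2 M E h2 κ Act (GEP E h2 Ak kP LP loP hiP omP La mu) GF h3)
    (hIE : ∀ p q, IsEdge M (p, q) → ∃ e : E.ε, E.seg e = segment ℝ p q)
    (H : PlW G s (kP s) (LP s) (loP s) (hiP s) (omP s) om0 θ fm)
    (hAct : k ∈ Act) (hk : Ak s k) (hown : ∀ e, E.seg e ⊆ M.F k → OwnE E Ak e)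
    (hσ : 0 < σ) (hF : M.F k = sqr a (K.nrm s) σ) (hμ : 0 ≤ μ) (hτ : 0 ≤ τ) (hr : 0 ≤ r)
    (HL : LocEst G s (M.F k) μ τ (fun x => fm (h3.toFun x)) g)
    (hpos : ∀ x ∈ M.F k, h3.toFun x ∈ G.PB (7 / 8) s)
    (hLam : ∀ x ∈ M.F k, ∀ y ∈ M.F k, ‖h3.toFun x - h3.toFun y‖ ≤ Lam * ‖x - y‖)
    (hside : ∀ i x, IsSide a (K.nrm s) σ i x → IsEdge M (x, x + (2 * σ) • ev i) ∧
      (1 - r) * (2 * σ) ≤ g (x + (2 * σ) • ev i) i - g x i ∧
      ∀ Y : Finset V, (∀ y ∈ Y, CrsPt x (x + (2 * σ) • ev i) h2.toFun (LP s) y) →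
        om0 * Y.card ≤ (1 + ρ₁) * (2 * σ))
    (hsm : om0 ≤ ρ₁ * (2 * σ))
    (num : (1 + 2 * μ) * (1 + ρ₁) + 2 * ((1 + 2 * μ) * (θ * Lam) + τ) + 2 * r + ρ₁ ≤ 1 + ρ) :
    ShCond M h2.toFun (LP s) (omP s) om0 ρ a (K.nrm s) σ := by
  have hom := H.pos
  have hθ := H.θ0
  have h2σ : 0 < 2 * σ := by linarith
  have hρ₁ : 0 < ρ₁ := by
    by_contra hcon
    push Not at hcon
    nlinarith
  -- the constant is nonnegative
  have hLam0 : 0 ≤ Lam := by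
    obtain ⟨⟨-, m0, m1, -⟩, -, -⟩ := side_ed (a := a) (l := K.nrm s) hσ 0
    rw [← hF] at m0 m1
    have h4 := hLam _ m1 _ m0
    have h5 : ‖sqf a (K.nrm s) σ (ed 0 0) + (2 * σ) • (ev (jd (d0 (K.nrm s)) (d1 (K.nrm s))
        (Ends.dir 0)) : V) - sqf a (K.nrm s) σ (ed 0 0)‖ = 2 * σ := by
      rw [add_sub_cancel_left, norm_smul, norm_ev31, mul_one, Real.norm_eq_abs,
        abs_of_pos h2σ]
    rw [h5] at h4
    have h6 := (norm_nonneg _).trans h4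
    exact nonneg_of_mul_nonneg_left h6 h2σ
  have hτ' : 0 ≤ (1 + 2 * μ) * (θ * Lam) + τ := by positivity
  have hρ : ρ₁ ≤ ρ := by
    have : 0 ≤ 2 * μ * (1 + ρ₁) := by positivity
    nlinarith
  refine ⟨hσ, H.nrm, H.wt, hsm.trans (mul_le_mul_of_nonneg_right hρ h2σ.le),
    ⟨fun i x hx => (hside i x hx).1, fun i x hx Y hY => ?_, fun i x hx => ?_⟩⟩
  · exact ((hside i x hx).2.2 Y hY).trans
      (mul_le_mul_of_nonneg_right (by linarith) h2σ.le)
  · obtain ⟨h4, h5, h6⟩ := hside i x hx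
    obtain ⟨e, he⟩ := hIE _ _ h4
    set q : V := x + (2 * σ) • ev i with hq
    have hi := hx.1
    have hxF : x ∈ M.F k := hF ▸ hx.2.1
    have hqF : q ∈ M.F k := hF ▸ hx.2.2.1
    have heF : E.seg e ⊆ M.F k := by
      rw [he, hF]
      exact (convex_sqr31 a (K.nrm s) σ).segment_subset hx.2.1 hx.2.2.1
    have hsegF : segment ℝ x q ⊆ M.F k := he ▸ heF
    obtain ⟨X, s2, s3, hX, hR⟩ := ramp_act P H.wt hom.le O hAct hk heF (hown e heF) he
    have h7 := H.disp_le hμ (HL.mono hsegF) (fun y hy => hpos y (hsegF hy))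
      (fun y hy z hz => hLam y (hsegF hy) z (hsegF hz)) hR hi
    have hnorm : ‖q - x‖ = 2 * σ := by
      rw [hq, add_sub_cancel_left, norm_smul, norm_ev31, mul_one, Real.norm_eq_abs,
        abs_of_pos h2σ]
    rw [hnorm] at h7
    have h8 := h6 X fun y hy => (hX y).1 hy
    -- the vertices
    have hxv : x ∈ E.verts ∧ q ∈ E.verts := by
      rcases seg_ends he with ⟨e1, e2⟩ | ⟨e1, e2⟩
      · exact ⟨e1 ▸ Or.inl ⟨e, rfl⟩, e2 ▸ Or.inr ⟨e, rfl⟩⟩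
      · exact ⟨e2 ▸ Or.inr ⟨e, rfl⟩, e1 ▸ Or.inl ⟨e, rfl⟩⟩
    obtain ⟨v1, v2⟩ := vert_act P O hk hxv.1 hxF
    obtain ⟨v3, v4⟩ := vert_act P O hk hxv.2 hqF
    have h10 := H.disp _ (hpos x hxF) _ (hpos q hqF) _ _ v1 v3 i hi (v2 i) (v4 i)
    have h11 : (1 / 2 + μ) * (om0 * X.card) ≤ (1 / 2 + μ) * ((1 + ρ₁) * (2 * σ)) :=
      mul_le_mul_of_nonneg_left h8 (by linarith)
    have h12 := mul_le_mul_of_nonneg_right num h2σ.le
    nlinarith

/-- **the sharp clause for one face**: any last map `g` with the local estimate `LocEst` -/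
theorem face_act {O' : M.κ → V} {r0 Rr : M.κ → ℝ} {Y : Set M.κ} {Ks es βs ρs : ℝ}
    (P : PAct M E h2 κ Λ Ak kP LP loP hiP omP)
    (O : Out2 M E h2 κ Act (GEP E h2 Ak kP LP loP hiP omP La mu)
      (GFY E h2 Ak LP loP hiP omP La We O' r0 Rr Y Ks es βs ρs) h3)
    (hIE : ∀ p q, IsEdge M (p, q) → ∃ e : E.ε, E.seg e = segment ℝ p q)
    (H : PlW G s (kP s) (LP s) (loP s) (hiP s) (omP s) om0 θ fm)
    (hAct : k ∈ Act) (hk : Ak s k) (hkY : k ∈ Y)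
    (hown : ∀ e, E.seg e ⊆ M.F k → OwnE E Ak e)
    (hσ : 0 < σ) (hF : M.F k = sqr a (K.nrm s) σ)
    {p μs μ₀ r₀ ν ε : ℝ} (hfc : FaceC p μ r₀ Ks es βs μ₀) (hρ0 : 0 < ρs) (hρ1 : ρs ≤ 1 / 2)
    (hr0 : 0 ≤ r) (hr1 : r ≤ r₀) (hr2 : r ≤ ρs / 16) (hμs : 0 ≤ μs) (hμs1 : μs ≤ μ₀) (hμs2 : μs ≤ ρs / 50)
    (hν : ν ≤ ρs / 16) (hν' : 4 * ν ≤ μ₀) (hε : 0 ≤ ε) (hτ : 0 ≤ τ) (hτ1 : τ ≤ ν)
    (HL : LocEst G s (M.F k) μs τ (fun x => fm (h3.toFun x)) g)
    (hpos : ∀ x ∈ M.F k, h3.toFun x ∈ G.PB (7 / 8) s)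
    (hLam : ∀ x ∈ M.F k, ∀ y ∈ M.F k, ‖h3.toFun x - h3.toFun y‖ ≤ Lam * ‖x - y‖)
    (hθ : θ * Lam ≤ ν) (hsm : om0 ≤ ρs / 4 * (2 * σ))
    (hside : ∀ i x, IsSide a (K.nrm s) σ i x → IsEdge M (x, x + (2 * σ) • ev i) ∧
      (1 - r) * (2 * σ) ≤ g (x + (2 * σ) • ev i) i - g x i ∧
      Vale.Agent.P073.H239.tv g (x, x + (2 * σ) • ev i) Finset.univ ≤
        ENNReal.ofReal ((1 + r) * (2 * σ)) ∧
      ∀ Y' : Finset V, (∀ y ∈ Y', CrsPt x (x + (2 * σ) • ev i) h2.toFun (LP s) y) →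
        om0 * Y'.card ≤ (1 + ρs / 4) * (2 * σ)) :
    faceI p g a (K.nrm s) σ ≤ ENNReal.ofReal ((μ + ε) * σ ^ 3) := by
  have hLam0 : 0 ≤ θ * Lam := by
    refine mul_nonneg H.θ0 ?_
    obtain ⟨⟨-, m0, m1, -⟩, -, -⟩ := side_ed (a := a) (l := K.nrm s) hσ 0
    rw [← hF] at m0 m1
    have h4 := hLam _ m1 _ m0
    have h5 : ‖sqf a (K.nrm s) σ (ed 0 0) + (2 * σ) • (ev (jd (d0 (K.nrm s)) (d1 (K.nrm s))
        (Ends.dir 0)) : V) - sqf a (K.nrm s) σ (ed 0 0)‖ = 2 * σ := by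
      rw [add_sub_cancel_left, norm_smul, norm_ev31, mul_one, Real.norm_eq_abs,
        abs_of_pos (by linarith)]
    rw [h5] at h4
    exact nonneg_of_mul_nonneg_left ((norm_nonneg _).trans h4) (by linarith)
  have hν0 : 0 ≤ ν := hLam0.trans hθ
  have hcond : ShCond M h2.toFun (LP s) (omP s) om0 ρs a (K.nrm s) σ := by
    refine shCond_act (ρ₁ := ρs / 4) (r := r) P O hIE H hAct hk hown hσ hF hμs hτ hr0 HL hpos
      hLam (fun i x hx => ?_) hsm ?_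
    · obtain ⟨h4, h5, -, h6⟩ := hside i x hx
      exact ⟨h4, h5, h6⟩
    · have h4 : (1 + 2 * μs) * (1 + ρs / 4) ≤ 1 + 295 / 1000 * ρs := by nlinarith
      have h5 : (1 + 2 * μs) * (θ * Lam) ≤ 51 / 50 * (ρs / 16) := by
        have h6 : 0 ≤ 1 + 2 * μs := by linarith
        refine (mul_le_mul_of_nonneg_left (hθ.trans hν) h6).trans ?_
        refine mul_le_mul_of_nonneg_right ?_ (by positivity)
        linarith
      linarith
  obtain ⟨Ψ, hΨ, hΨ3⟩ := O.face k hAct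
  have hsh : ShFace a (K.nrm s) σ (LP s) (loP s) (hiP s) (omP s) Ks es βs h3.toFun :=
    ShFace.congr (hΨ.2.2 s hk hkY hown a (K.nrm s) σ hF _ H.pos hcond)
      (by rw [← hF]; exact hΨ3)
  have hB := H.bandEst hμs (a := a) (σ := σ) (hF ▸ HL) (fun x hx => hpos x (hF ▸ hx))
    (fun x hx y hy => hLam x (hF ▸ hx) y (hF ▸ hy))
  refine hfc a (K.nrm s) σ hσ (LP s) (loP s) (hiP s) (omP s) r μs
    ((1 + 2 * μs) * (θ * Lam) + τ) ε hr0 hr1 hμs hμs1 ?_ ?_ hε h3.toFun g hsh hB ?_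
  · positivity
  · have h4 : (1 + 2 * μs) * (θ * Lam) ≤ 2 * ν := by
      refine mul_le_mul ?_ hθ hLam0 (by norm_num)
      linarith
    linarith
  · intro i hi x hx hx' hxj
    obtain ⟨-, h4, h5, -⟩ := hside i x ⟨hi, hx, hx', hxj⟩
    exact ⟨h4, h5⟩

end P073.FW31
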