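import Vale.Agent.P073.H31.SK3
import Vale.Agent.P073.H253.TubeTv
import Vale.Agent.P073.H267.K3St1

/-!
# P073, H31, `K3C`, **[FACES3]**, part 1: positions of the deep sets in the plates

`deep_plate3`: a subset `X` of the domain with a deep image; there is one processed square `s`, all
faces which meet `X` are peeled at `s`, the image of `X` after ROUND T is in the plate.
-/

set_option linter.unusedSectionVars false

open Set Metric Topology Filter MeasureTheory
open scoped ENNReal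

namespace Vale.Agent.P073.H31.K3

open _root_.P073 _root_.P073.Net _root_.P073.PA691 _root_.P073.H236 _root_.P073.TM
open _root_.P073.H345 (PK PB_sub_PK PK_sub_ss)
open _root_.P073.H579 (OwnE)
open _root_.P073.FW31 (LocEst L1Est PlW)
open Vale.Agent.P073.St (V)
open Vale.Agent.P073.H471 Vale.Agent.P073.H267 Vale.Agent.P073.H926
open Vale.Agent.P073.H73 (Mesh onSeg)
open Vale.Agent.P073.H193 (Edges edges)
open Vale.Agent.P073.H304 (Nb Zmax)

variable {c₀ n δ : ℝ} {j : ℕ} {Ω Λ : Set V} {v w : V} {ρ : V → ℝ} {M : Mesh Ω}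
  {h : ConHomeo Ω Λ} {J₀ J : Set (ℕ × (Fin 3 → ℤ))} {P Z : Set M.ι} {K : BoxCx Λ w}

/-- **positions**: a deep set in a plate; `h1` is close to `h` -/
theorem deep_plate3 (D : KIn3 c₀ n j δ v w ρ M h J₀ J P Z) (C : Cells ρ w K) {h1 : ConHomeo Ω Λ}
    (near : ∀ x ∈ Ω, ∀ q, h.toFun x ∈ K.cube q → ‖h1.toFun x - h.toFun x‖ ≤ (D.G C).om q)
    {X : Set V} (hX : X ⊆ Ω) {m : ℕ} {z : Fin 3 → ℤ} {l : Fin 3}
    (H : H239.Deep c₀ δ w ρ J₀ (Finset.univ.erase l) m z (h.toFun '' X)) :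
    ∃ s ∈ pS C J₀, K.nrm s = l ∧ C.sS s = 1 / 2 ^ m ∧ (∀ j, K.slo s j = w j + z j / 2 ^ m) ∧
      (∀ j, j ≠ l → K.shi s j = w j + (z j + 1) / 2 ^ m) ∧
      (∀ x ∈ X, h1.toFun x ∈ (D.G C).PB 2 s) ∧
      ∀ x ∈ X, ∀ k, x ∈ M.F k → (D.dat C).PkS (D.G C) h1 s k ∧
        ∀ y ∈ M.F k, ∀ b, h.toFun y ∉ (D.G C).TB false b := by
  obtain ⟨s, hs, hsS, hlo, hhi, hsJ, hball⟩ := D.deep_plate C H
  have h2m : (0:ℝ) < 1 / 2 ^ m := by positivity
  have hκm : κ3 n / 2 ^ m = κ3 n * (1 / 2 ^ m) := by ring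
  have hκ := κ3_pos D.pos
  have ho := o3_pos D.pos
  have eo : o3 n = κ3 n / 4000 := rfl
  have hδ0 := D.δpos
  have hδ1 := D.δle
  have hη : (0:ℝ) < 1 / 2 ^ j := by positivity
  have hoS : (D.G C).oS s = κ3 n / 1000 * (1 / 2 ^ m) := by
    show 4 * o3 n * C.sS s = _
    rw [hsS, eo]
    ring
  have hpos : ∀ x ∈ X, h1.toFun x ∈ (D.G C).PB 2 s := fun x hx => by
    obtain ⟨-, hb, -⟩ := hball _ ⟨x, hx, rfl⟩
    have hself : h.toFun x ∈ closedBall (h.toFun x) (κ3 n / 2 ^ m) :=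
      mem_closedBall_self (by positivity)
    obtain ⟨q, hq⟩ := K.cover _ (h.mapsTo (hX hx))
    have h5 := (near x (hX hx) q hq).trans ((D.G C).om_oS q s
      (Geo.tile_PB (by norm_num) (hb hself) hq))
    refine hb ?_
    rw [mem_closedBall, dist_eq_norm, hκm]
    rw [hoS] at h5
    nlinarith
  refine ⟨s, hsJ, hs, hsS, hlo, hhi, hpos, fun x hx k hk => ?_⟩
  obtain ⟨-, hb, -, hTB, -⟩ := hball _ ⟨x, hx, rfl⟩
  have hself : h.toFun x ∈ closedBall (h.toFun x) (κ3 n / 2 ^ m) :=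
    mem_closedBall_self (by positivity)
  have hxs : h.toFun x ∈ (D.G C).PB 2 s := hb hself
  have hPK : h.toFun x ∈ PK (D.G C) s := PB_sub_PK (by norm_num) s hxs
  have hnear : |h.toFun x (K.nrm s) - K.slo s (K.nrm s)| ≤ δ * (1 / 2 ^ m) := by
    have h5 := H.near _ ⟨x, hx, rfl⟩ l (Finset.notMem_erase l _)
    rw [← hlo l, ← hs] at h5
    refine h5.trans (le_of_eq ?_)
    ring
  -- the point is in no protected cell
  have hnP : ∀ i ∈ P, x ∉ M.Q i := by
    intro i hi hxi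
    obtain ⟨q, hqJ, hq⟩ := KIn3.interior_mid_sub D C (h1 := h) (fun _ _ => rfl) hi
    have h2 := (hq _).1 (mem_image_of_mem _ hxi)
    have hyP := PK_sub_PX s hPK
    have hyc := KIn3.mem_cube_of_mid C h2
    have h4 := (mid_iff_PX (G := D.G C) hyP hyc (D.η_κ C q)).1.1 h2
    obtain ⟨hqs, -⟩ := pos_PX (G := D.G C) hyP hyc
    have hsub : K.sq s ⊆ K.cube q := by
      rcases hqs with rfl | rfl
      · exact (TM.sq_subset K s).1
      · exact (TM.sq_subset K s).2
    have h5 := (C.sS_sT D.hρ hsub).1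
    rw [hsS] at h5
    have h6 : 1 / 2 ^ j / 2 * (1 / 2 ^ m) ≤ 1 / 2 ^ j / 2 * C.sT q :=
      mul_le_mul_of_nonneg_left h5 (by positivity)
    nlinarith
  have h6 : ω3S δ C s = 4 * (δ * (1 / 2 ^ m)) := by
    show 4 * δ * C.sS s = _
    rw [hsS]; ring
  -- the cells at the point are drawn
  have hZ : ∀ i, x ∈ M.Q i → i ∈ (D.dat C).Zd := by
    intro i hxi
    have hi : i ∉ P := fun hi => hnP i hi hxi
    refine ⟨hi, ?_⟩
    rintro _ ⟨y, hy, rfl⟩
    have h5 := D.osc_S C hsJ hi hxi hy (PK_sub_ss s hPK)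
    rw [h6] at h5
    obtain ⟨q, hq, hqs⟩ := exists_of_pS hsJ
    have hsub : K.sq s ⊆ K.cube q := by
      rcases hqs with rfl | rfl
      · exact (TM.sq_subset K s).1
      · exact (TM.sq_subset K s).2
    refine mem_Nb_of C hq ((mem_Nb_one C).2
      ⟨Function.update (h.toFun x) (K.nrm s) (K.slo s (K.nrm s)), sq_frontier hqs ?_, ?_⟩)
    · rw [Geo.mem_PB] at hxs
      have hp := Geo.p_pos (G := D.G C) s
      constructor <;> intro k'
      · by_cases hk' : k' = K.nrm s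
        · subst hk'; rw [Function.update_self]
        · rw [Function.update_of_ne hk']
          linarith [(hxs.1 k' hk').1]
      · by_cases hk' : k' = K.nrm s
        · subst hk'; rw [Function.update_self]; exact (slo_shi_nrm s).le
        · rw [Function.update_of_ne hk']
          linarith [(hxs.1 k' hk').2]
    · have h7 : ‖h.toFun x - Function.update (h.toFun x) (K.nrm s) (K.slo s (K.nrm s))‖ ≤
          δ * (1 / 2 ^ m) := by
        rw [pi_norm_le_iff_of_nonneg (by positivity)]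
        intro k'
        rw [Pi.sub_apply, Real.norm_eq_abs]
        by_cases hk' : k' = K.nrm s
        · subst hk'; rw [Function.update_self]; exact hnear
        · rw [Function.update_of_ne hk', sub_self, abs_zero]; positivity
      have h8 : ‖h.toFun y - Function.update (h.toFun x) (K.nrm s) (K.slo s (K.nrm s))‖ ≤
          5 * (δ * (1 / 2 ^ m)) := by
        rw [norm_sub_rev] at h5
        refine (norm_sub_le_norm_sub_add_norm_sub _ (h.toFun x) _).trans ?_
        linarith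
      refine h8.trans ?_
      have h9 := (C.sS_sT D.hρ hsub).1
      rw [hsS] at h9
      have h10 : 5 * (δ * (1 / 2 ^ m)) ≤ 2 / 2 ^ j * (1 / 2 ^ m) := by
        have e : (2:ℝ) / 2 ^ j = 2 * (1 / 2 ^ j) := by ring
        rw [e]
        nlinarith
      exact h10.trans (mul_le_mul_of_nonneg_left h9 (by positivity))
  obtain ⟨i, i', -, hii⟩ := M.two k
  have hki : M.F k ⊆ M.Q i := fun y hy => (hii hy).1
  refine ⟨⟨hsJ, ⟨⟨i, hZ i (hki hk), hki⟩, fun i' hi' hk' => hnP i' hi' (hk' hk)⟩, x, hk,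
    Vale.Agent.P073.H805.PB_mono (by norm_num) s (hpos x hx)⟩, fun y hy b => ?_⟩
  have h5 := D.osc_S C hsJ (hZ i (hki hk)).1 (hki hk) (hki hy) (PK_sub_ss s hPK)
  refine hTB _ ?_ b
  rw [h6] at h5
  rw [mem_closedBall, dist_eq_norm, norm_sub_rev, hκm]
  have h7 := D.η_le_κ
  nlinarith

/-! ### the soft collapse over a processed plate -/

section soft

variable {D : KIn3 c₀ n j δ v w ρ M h J₀ J P Z} {C : Cells ρ w K} {s : K.S} {y : V}

/-- the edges at a point of a processed plate are processed -/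
theorem pG_of_plate (hs : s ∈ pS C J₀) (hy : y ∈ PK (D.G C) s) {e : K.G}
    (he : y ∈ Ze (D.W C) e) : e ∈ pG C J₀ :=
  pG_of_pS hs (edge_subset_sq (PK_sub_ss s hy) he.1 (Ze_nJ he))

/-- the vertices at a point of a processed plate are processed -/
theorem pW_of_plate (hs : s ∈ pS C J₀) (hy : y ∈ PK (D.G C) s) {i : K.W}
    (hi : y ∈ Zv (D.W C) i) : i ∈ pW C J₀ := by
  refine pW_of_pS hs (w_mem_sq (PK_sub_ss s hy) ?_)
  have h1 := mem_closedBall.1 hi
  rw [dist_eq_norm] at h1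
  exact h1.trans ((D.W C).wv_le i)

/-- the reduction factors at the points of a processed plate -/
theorem small3_plate {α : Type*} {A : α → Set V} {N t : α → ℝ} {f : V → V} {R : Fac K}
    (HS : H233.Small3 (D.W C) (H233.Xp C J₀) R f A N t) (hs : s ∈ pS C J₀) {k : α} {x : V}
    (hx : x ∈ A k) (hK : f x ∈ PK (D.G C) s) :
    0 < N k * (1 + diam (A k)) ∧
    (f x ∈ Zs (D.W C) s → R.ρs s ≤ t k / 7 / (N k * (1 + diam (A k)))) ∧
    (∀ e, f x ∈ Ze (D.W C) e → R.ρe e ≤ t k / 7 / (N k * (1 + diam (A k)))) ∧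
    ∀ i, f x ∈ Zv (D.W C) i → R.ρv i ≤ t k / 7 / (N k * (1 + diam (A k))) := by
  have hN := HS.pos k
  have hD : 0 ≤ diam (A k) := diam_nonneg
  have hND : 0 < N k * (1 + diam (A k)) := by positivity
  have him : ∀ {Z : Set V}, f x ∈ Z → (f '' A k ∩ Z).Nonempty := fun h =>
    ⟨f x, mem_image_of_mem _ hx, h⟩
  refine ⟨hND, fun h => ?_, fun e h => ?_, fun i h => ?_⟩
  · rw [le_div_iff₀ hND]; exact HS.s k s hs (him h)
  · rw [le_div_iff₀ hND]; exact HS.e k e (pG_of_plate hs hK h) (him h)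
  · rw [le_div_iff₀ hND]; exact HS.v k i (pW_of_plate hs hK h) (him h)

/-- **the soft collapse satisfies the local estimate** over a processed plate -/
theorem locEst_soft3 {R : Fac K} {Φ : ConHomeo Λ Λ} {μ : ℝ} (H : IsSoft1 (D.B C) μ R Φ)
    (hμ : 0 ≤ μ) {α : Type*} {A : α → Set V} {N t : α → ℝ} {f : V → V}
    (HS : H233.Small3 (D.W C) (H233.Xp C J₀) R f A N t) (hs : s ∈ pS C J₀) {k : α} {X : Set V}
    (hX : X ⊆ A k) (hf : ContinuousOn f X)
    (hpos : ∀ x ∈ X, f x ∈ (D.G C).PB (7 / 8) s ∧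
      |f x (K.nrm s) - K.slo s (K.nrm s)| < (D.B C).τ s)
    (ht : 0 ≤ t k) : LocEst (D.G C) s X μ (t k) f (fun x => Φ.toFun (f x)) := by
  intro x hx
  have hPB := (hpos x hx).1
  obtain ⟨hND, q1, q2, q3⟩ := small3_plate HS hs (hX hx) (PB_sub_PK (by norm_num) s hPB)
  have hD : 0 ≤ diam (A k) := diam_nonneg
  have key := _root_.P073.H761.SE.soft_loc (G := D.G C) H hμ (c := 7 / 8) (by norm_num) hPB
    (hpos x hx).2 q1 q2 q3
  filter_upwards [(hf x hx).tendsto key, self_mem_nhdsWithin] with x' h1 hx' j'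
  have h2 := HS.lip k x' (hX hx') x (hX hx)
  have h3 : 7 * (t k / 7 / (N k * (1 + diam (A k))) * ‖f x' - f x‖) ≤ t k * ‖x' - x‖ := by
    have h4 : t k / 7 / (N k * (1 + diam (A k))) * ‖f x' - f x‖ ≤
        t k / 7 / (N k * (1 + diam (A k))) * (N k * ‖x' - x‖) :=
      mul_le_mul_of_nonneg_left h2 (by positivity)
    have h5 : t k / 7 / (N k * (1 + diam (A k))) * (N k * ‖x' - x‖) ≤
        t k / 7 * ‖x' - x‖ := by
      have h6 : t k / 7 / (N k * (1 + diam (A k))) * (N k * ‖x' - x‖) =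
          t k / 7 * ‖x' - x‖ * (1 / (1 + diam (A k))) := by
        have : N k ≠ 0 := (HS.pos k).ne'
        have : 1 + diam (A k) ≠ 0 := by positivity
        field_simp
      rw [h6]
      have h7 : 1 / (1 + diam (A k)) ≤ 1 := by
        rw [div_le_one (by positivity)]; linarith
      exact mul_le_of_le_one_right (by positivity) h7
    linarith
  obtain ⟨h4, h5⟩ := h1 j'
  constructor <;> linarith

end soft

end Vale.Agent.P073.H31.K3
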