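import Vale.Agent.P073.H31.SK5
import Vale.Agent.P073.H687.PL4C
import Vale.Agent.P073.H233.Tail3I

/-!
# P073, H31, `K3C`, **[FACES3]**, part 3: the sharp clauses from the local estimates

`ShIn`: the numbers of the stages; `cr_of_plw`: the crossings from the levels `PLw`;
`tvPlate3`: the sharp edges in the plates, from `L1Est`; `faces3`: **the sharp faces**, from
`L1Est` of the last map and `LocEst` of the map before the hooks.
-/

set_option linter.unusedSectionVars false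

open Set Metric Topology Filter MeasureTheory
open scoped ENNReal

namespace Vale.Agent.P073.H31.K3

open _root_.P073 _root_.P073.Net _root_.P073.PA691 _root_.P073.H236 _root_.P073.H579
open _root_.P073.H142
open _root_.P073.H345 (PK PB_sub_PK PLev tg)
open _root_.P073.H880.RP
open _root_.P073.FW31
open _root_.P073.Croft (varIn onS cross levs)
open Vale.Agent.P073.St (V)
open Vale.Agent.P073.SQ (ev)
open Vale.Agent.P073.H471 Vale.Agent.P073.H267 Vale.Agent.P073.H926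
open Vale.Agent.P073.H267.K3
open Vale.Agent.P073.H73 (Mesh onSeg sqr)
open Vale.Agent.P073.H193 (Edges edges)
open Vale.Agent.P073.H304 (Nb Zmax IsEdge)
open Vale.Agent.P073.H239 (tv)
open Vale.Agent.P073.H669 (wl)
open Vale.Agent.P073.H687 (PLw)
open Vale.Agent.P073.H233 (Small3 SoftQ Xp FQ)

variable {c₀ n δ : ℝ} {j : ℕ} {Ω Λ : Set V} {v w : V} {ρ : V → ℝ} {M : Mesh Ω}
  {h : ConHomeo Ω Λ} {J₀ J : Set (ℕ × (Fin 3 → ℤ))} {P Z : Set M.ι} {K : BoxCx Λ w}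
  {D : KIn3 c₀ n j δ v w ρ M h J₀ J P Z} {C : Cells ρ w K} {C₀ μT : ℝ}
  {X : S1 D C C₀ μT} {Y₂ : S2 X} {Ys : Set M.κ} {sc : Sharp} {s : K.S} {k : M.κ}

/-! ### the crossings of `h1` -/

/-- the crossings of `h1` on the edge `e` with the levels of the plate `s` -/
def Cr (Y₂ : S2 X) (om0 A εe : ℝ) (s : K.S) (e : (edges M).ε) : Prop :=
  ∀ β, ENNReal.ofReal om0 *
    cnt (Y₂.L.crP (edges M) X.h1 (fun q => PK (D.G C) q.1) e (s, β)) ≤
    ENNReal.ofReal A * varIn (onS X.h1.toFun ((edges M).a e) ((edges M).b e)) (tg s β)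
      (PK (D.G C) s) 0 1 + ENNReal.ofReal εe

/-- **the crossings from the levels**, on a plate without windows -/
theorem cr_of_plw {T : K.S → Bool → Finset (ℝ × ℝ)} {η r : ℝ} {τ : Type*} {Ft : τ → Set V}
    {Cs : Set ℝ} {εE : (edges M).ε → ℝ} {Wn : K.S → Bool → Set ℝ}
    {Jn : K.S → Bool → Finset (ℝ × ℝ)} {μ Bg δ' : K.S → ℝ}
    (Lw : PLw (D.G C) X.h1 T η r Ft Cs (edges M).a (edges M).b εE Wn Jn μ Bg δ')
    (hL : Y₂.L = Lw.lev) (hW : ∀ β, Wn s β = ∅) {c : ℝ} (hc0 : 0 ≤ c) (hc1 : c ≤ 1)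
    (hη : η ≤ c / 16) (hμ : ∀ β, μ s ≤ c / 4 * wl (D.G C) s β) (e : (edges M).ε) :
    Cr Y₂ (Lw.om s false) (1 + c) (2 * εE e) s e := by
  intro β
  have h1 := Lw.crs0 e s β (hW β)
  have e1 : Y₂.L.crP (edges M) X.h1 (fun q => PK (D.G C) q.1) e (s, β) =
      cross (onS X.h1.toFun ((edges M).a e) ((edges M).b e)) (tg s β)
        (levs (Lw.N s) (Lw.a s β)) (PK (D.G C) s) := by
    rw [hL]; rfl
  rw [e1]
  have h2 := Lw.om_le s β (c := c / 4) (by linarith) (by linarith) (hμ β)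
  rw [Lw.om_eq s β false] at h2
  have h3 : ENNReal.ofReal (Lw.om s false) ≤ ENNReal.ofReal (1 + c / 4) * ENNReal.ofReal (δ' s) := by
    rw [← ENNReal.ofReal_mul (by linarith)]
    exact ENNReal.ofReal_le_ofReal h2
  have hnum := H669.PLv.num_le hc0 hc1 (r := c / 4) (by linarith) le_rfl Lw.η0.le hη
  calc ENNReal.ofReal (Lw.om s false) * cnt (cross (onS X.h1.toFun ((edges M).a e) ((edges M).b e))
        (tg s β) (levs (Lw.N s) (Lw.a s β)) (PK (D.G C) s))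
      ≤ ENNReal.ofReal (1 + c / 4) * (ENNReal.ofReal (δ' s) *
        cnt (cross (onS X.h1.toFun ((edges M).a e) ((edges M).b e))
        (tg s β) (levs (Lw.N s) (Lw.a s β)) (PK (D.G C) s))) := by
        rw [← mul_assoc]
        exact mul_le_mul' h3 le_rfl
    _ ≤ ENNReal.ofReal (1 + c / 4) * (ENNReal.ofReal ((1 - 2 * η)⁻¹) *
          varIn (onS X.h1.toFun ((edges M).a e) ((edges M).b e)) (tg s β) (PK (D.G C) s) 0 1 +
          ENNReal.ofReal (εE e)) := mul_le_mul' le_rfl h1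
    _ = ENNReal.ofReal ((1 + c / 4) * (1 - 2 * η)⁻¹) *
          varIn (onS X.h1.toFun ((edges M).a e) ((edges M).b e)) (tg s β) (PK (D.G C) s) 0 1 +
          ENNReal.ofReal ((1 + c / 4) * εE e) := by
        rw [mul_add, ← mul_assoc, ← ENNReal.ofReal_mul (by linarith),
          ← ENNReal.ofReal_mul (by linarith)]
    _ ≤ _ := by
        refine add_le_add (mul_le_mul' (ENNReal.ofReal_le_ofReal hnum) le_rfl) ?_
        rcases le_total 0 (εE e) with h5 | h5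
        · exact ENNReal.ofReal_le_ofReal (by nlinarith)
        · rw [ENNReal.ofReal_of_nonpos (by nlinarith)]
          exact bot_le

/-! ### the numbers of the stages -/

/-- **the numbers for the sharp clauses**: `om0`: steps of the levels, `A`, `εE`: crossings on the
plates with `Dp`, `θ`: the rest terms of the staircases -/
structure ShIn (Y₃ : S3 Y₂ Ys sc) (Dp : K.S → Prop) (om0 : K.S → ℝ) (A : ℝ)
    (εE : (edges M).ε → ℝ) (θ : M.κ → ℝ) : Prop where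
  om : ∀ s ∈ pS C J₀, ∀ β, Y₂.L.om s β = om0 s
  A0 : 0 ≤ A
  εE0 : ∀ e, 0 ≤ εE e
  cr : ∀ s ∈ pS C J₀, Dp s → ∀ e, Cr Y₂ (om0 s) A (εE e) s e
  small : ∀ (s : K.S) (k : M.κ) (hk : (D.dat C).PkS (D.G C) X.h1 s k), ∃ Lam t : ℝ, 0 ≤ Lam ∧
    (∀ x ∈ M.F k, ∀ y ∈ M.F k, ‖Y₃.h3.toFun x - Y₃.h3.toFun y‖ ≤ Lam * ‖x - y‖) ∧
    (∀ β, (Y₃.F β).e ⟨s, hk.1⟩ ≤ t * Y₃.c s β) ∧ t * Lam ≤ θ k

/-- deep plates have the property `Dp` -/
def DeepIn (ρ : V → ℝ) (w : V) (K : BoxCx Λ w) (Dp : K.S → Prop) : Prop :=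
  ∀ (l : Fin 3) (m : ℕ) (z : Fin 3 → ℤ),
    (∀ z' : Fin 3 → ℤ, (∀ j, z j - 2 ≤ z' j ∧ z' j ≤ z j + 1) → IsTile ρ w m z') → ∀ s : K.S,
    K.nrm s = l → (∀ j, K.slo s j = w j + z j / 2 ^ m) →
    (∀ j, j ≠ l → K.shi s j = w j + (z j + 1) / 2 ^ m) → Dp s

theorem deepIn_true : DeepIn ρ w K fun _ => True := fun _ _ _ _ _ _ _ _ => trivial

/-- a deep set in a plate, with all conclusions -/
theorem deep3 {Dp : K.S → Prop} (hDp : DeepIn ρ w K Dp) (X : S1 D C C₀ μT) {A : Set V} (hA : A ⊆ Ω) {m : ℕ}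
    {z : Fin 3 → ℤ} {l : Fin 3}
    (H : H239.Deep c₀ δ w ρ J₀ (Finset.univ.erase l) m z (h.toFun '' A)) :
    ∃ s ∈ pS C J₀, K.nrm s = l ∧ C.sS s = 1 / 2 ^ m ∧ Dp s ∧
      ∀ x ∈ A, ∀ k, x ∈ M.F k → (D.dat C).PkS (D.G C) X.h1 s k ∧
        EqOn X.h1.toFun h.toFun (M.F k) := by
  obtain ⟨s, hs, h1, h2, h3, h4, -, h5⟩ := deep_plate3 D C X.out.near3 hA H
  refine ⟨s, hs, h1, h2, hDp l m z H.tile s h1 h3 h4, fun x hx k hk => ?_⟩
  obtain ⟨h6, h7⟩ := h5 x hx k hk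
  exact ⟨h6, X.out.off k fun y hy b _ => h7 y hy b⟩

/-! ### the sharp edges -/

/-- **the sharp edges in the plates**, from the `l1` estimate -/
theorem tvPlate3 {Y₃ : S3 Y₂ Ys sc} {Dp : K.S → Prop} {om0 : K.S → ℝ} {A : ℝ} {εE : (edges M).ε → ℝ}
    {θ : M.κ → ℝ} (IN : ShIn Y₃ Dp om0 A εE θ) (hDp : DeepIn ρ w K Dp) {g : V → V} {μs : ℝ}
    {τ : M.κ → ℝ} (hμs : 0 ≤ μs) (hμs1 : μs ≤ 1) (hτ : ∀ k, 0 ≤ τ k)
    (HL : ∀ s k, (D.dat C).PkS (D.G C) X.h1 s k →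
      L1Est (D.G C) s (M.F k) μs (τ k) (fun x => PS.map Y₃.T3 (Y₃.h3.toFun x)) g)
    (hnum : (1 + μs) * A ≤ 1 + c₀) {εk : M.κ → ℝ}
    (hεE : ∀ k e, (edges M).seg e ⊆ M.F k → 8 * εE e ≤ εk k)
    (hθ : ∀ k, (4 * θ k + τ k) * diam (M.F k) ≤ εk k / 2) :
    H253.Tube.TvPlate c₀ δ w ρ M h.toFun J₀ εk g := by
  intro k e he hk l m z hD
  have hsub : segment ℝ e.1 e.2 ⊆ Ω := hk.trans (Vale.Agent.P073.H193.mesh_sub M k)
  obtain ⟨s, hs, rfl, -, hH, h5⟩ := deep3 hDp X hsub hD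
  obtain ⟨e', he', htv⟩ := H212.exists_edge he
  rw [← he'] at hk h5
  have ha : (edges M).a e' ∈ (edges M).seg e' := left_mem_segment ℝ _ _
  obtain ⟨hPk, hoff⟩ := h5 _ ha k (hk ha)
  have hown : OwnE (edges M) ((D.dat C).PkS (D.G C) X.h1) e' := fun l' hl' =>
    ⟨s, (h5 _ ha l' (hl' ha)).1⟩
  obtain ⟨Lam, t, hLam0, hLam, ht, htL⟩ := IN.small s k hPk
  rw [htv g, htv h.toFun]
  have hd : ‖(edges M).b e' - (edges M).a e'‖ ≤ diam (M.F k) := by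
    have h1 := dist_le_diam_of_mem (H233.isCompact_FQ M (.inl k)).isBounded
      (hk (right_mem_segment ℝ _ _)) (hk ha)
    rwa [dist_eq_norm] at h1
  have hn := norm_nonneg ((edges M).b e' - (edges M).a e')
  have hε0 := IN.εE0 e'
  refine tv_plate3 Y₃ hPk hk hown (hoff.mono hk) (IN.om s hs) ht hμs (hτ k)
    ((HL s k hPk).mono hk) hLam0 (fun x hx y hy => hLam x (hk hx) y (hk hy)) hε0
    (IN.cr s hs hH e') hnum ?_
  have h1 := hεE k e' hk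
  have h2 := hθ k
  have h3 : (1 + μs) * (2 * εE e') ≤ 4 * εE e' := by nlinarith
  have hH' := plw Y₃ hPk.1 (IN.om s hs) ht
  have ht0 : 0 ≤ t * Lam := mul_nonneg hH'.θ0 hLam0
  have h4 : (1 + μs) * (2 * (t * Lam)) + τ k ≤ 4 * θ k + τ k := by nlinarith
  have h6 : ((1 + μs) * (2 * (t * Lam)) + τ k) * ‖(edges M).b e' - (edges M).a e'‖ ≤
      (4 * θ k + τ k) * diam (M.F k) := by
    refine mul_le_mul h4 hd hn ?_
    have := hτ k
    nlinarith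
  linarith

/-! ### the sharp faces -/

/-- **the sharp faces**, from `L1Est` of the last map `g` and `LocEst` of the map `q` -/
theorem faces3 {Y₃ : S3 Y₂ Ys sc} {Dp : K.S → Prop} {om0 : K.S → ℝ} {A : ℝ} {εE : (edges M).ε → ℝ}
    {θ : M.κ → ℝ} (IN : ShIn Y₃ Dp om0 A εE θ) (hDp : DeepIn ρ w K Dp) {p μ r ν : ℝ}
    (N : FNum1 p μ r sc ν) {g q : V → V} {μs μs' : ℝ} {τ τ' : M.κ → ℝ}
    (hμs : 0 ≤ μs) (hμs1 : μs ≤ ν) (hμs' : 0 ≤ μs') (hμs1' : μs' ≤ ν)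
    (hτ : ∀ k, 0 ≤ τ k) (hτ1 : ∀ k, τ k ≤ ν) (hτ' : ∀ k, 0 ≤ τ' k) (hτ1' : ∀ k, τ' k ≤ ν)
    (HLq : ∀ s k, (D.dat C).PkS (D.G C) X.h1 s k →
      LocEst (D.G C) s (M.F k) μs' (τ' k) (fun x => PS.map Y₃.T3 (Y₃.h3.toFun x)) q)
    (HLg : ∀ s k, (D.dat C).PkS (D.G C) X.h1 s k →
      L1Est (D.G C) s (M.F k) μs (τ k) (fun x => PS.map Y₃.T3 (Y₃.h3.toFun x)) g)
    (hθ : ∀ k, θ k ≤ ν)
    (hsm : ∀ s k, (D.dat C).PkS (D.G C) X.h1 s k → ∀ (a : V) (σ : ℝ), 0 < σ →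
      M.F k = sqr a (K.nrm s) σ → om0 s ≤ sc.ρ / 4 * (2 * σ))
    (hA : A ≤ 1 + sc.ρ / 64)
    (hεE : ∀ e, 2 * εE e ≤ sc.ρ / 64 * ‖(edges M).b e - (edges M).a e‖)
    {εk : M.κ → ℝ} (hεk : ∀ k, 0 ≤ εk k) :
    ∀ k ∈ Ys, ∀ (a : V) (l : Fin 3) (σ : ℝ), 0 < σ → M.F k = sqr a l σ →
    ∀ m z, H239.Deep c₀ δ w ρ J₀ (Finset.univ.erase l) m z (h.toFun '' M.F k) →
    (∀ i, i ≠ l → ∀ x : V, x ∈ sqr a l σ → x + (2 * σ) • ev i ∈ sqr a l σ →
      (∀ j, j ≠ i → j ≠ l → |x j - a j| = σ) →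
      IsEdge M (x, x + (2 * σ) • ev i) ∧ H212.MonSide r σ g i x ∧ H212.MonSide r σ q i x ∧
      H239.tv h.toFun (x, x + (2 * σ) • ev i) (Finset.univ.erase l) ≤
        ENNReal.ofReal ((1 + r) * (2 * σ))) →
    H239.faceI p g a l σ ≤ ENNReal.ofReal ((μ + εk k) * σ ^ 3) := by
  intro k hkY a l σ hσ hF m z hD hside
  have hsub : M.F k ⊆ Ω := Vale.Agent.P073.H193.mesh_sub M k
  obtain ⟨s, hs, rfl, -, hH, h5⟩ := deep3 hDp X hsub hD
  obtain ⟨x₀, hx₀⟩ := _root_.P073.H761.SE.face_nonempty M k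
  obtain ⟨hPk, hoff⟩ := h5 x₀ hx₀ k hx₀
  have hown : ∀ e, (edges M).seg e ⊆ M.F k →
      OwnE (edges M) ((D.dat C).PkS (D.G C) X.h1) e := fun e he l' hl' => by
    have ha : (edges M).a e ∈ (edges M).seg e := left_mem_segment ℝ _ _
    exact ⟨s, (h5 _ (he ha) l' (hl' ha)).1⟩
  obtain ⟨Lam, t, hLam0, hLam, ht, htL⟩ := IN.small s k hPk
  exact face3 Y₃ N hPk hkY hown hoff hσ hF (IN.om s hs) ht hμs hμs1 hμs' hμs1' (hτ k) (hτ1 k)
    (hτ' k) (hτ1' k) (HLq s k hPk) (HLg s k hPk) hLam (htL.trans (hθ k))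
    (hsm s k hPk a σ hσ hF) IN.A0 hA IN.εE0 (fun e _ => hεE e)
    (fun e _ => IN.cr s hs hH e) (hεk k) hside

end Vale.Agent.P073.H31.K3
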