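import Vale.Agent.P073.H31.PlPeel

/-!
# P073, H31, SHARP2: peeling arcs in a model disc with a collar chart, relative to a base

`Mdl M bM R' M' κ β`: `M = R' ∪ M'` is a disc with boundary `bM`, `κ : Rct → R'` a collar chart
whose top side lies on the boundary, `β : bM → bR` the chart of the boundary.
`Stp.stepM` is the step of the PEEL theorem in such a model, for an arbitrary IH.
-/

set_option linter.unusedSectionVars false

open Set Metric Topology Filter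

namespace P073.H31

open P073.H339 P073.GB200 P073.H341

variable {E : Type*} [NormedAddCommGroup E] [NormedSpace ℝ E]
variable {G : Type*} [NormedAddCommGroup G] [NormedSpace ℝ G]
variable {N k : ℕ} {A : ℕ → ArcD} {col : ℕ → Bool} {C B : Set E} {fn : ℕ → E → ℝ}
  {γ : ℝ × ℝ → E}

/-- a model disc with a collar chart -/
structure Mdl {M bM R' M' : Set G} (κ : ConHomeo Rct R') (β : ConHomeo bM bR) : Prop where
  cM' : IsCompact M'
  kM' : ConicalSet M'
  cov : R' ∪ M' = M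
  int : ∀ x ∈ Rct, κ.toFun x ∈ M' → x.1 = 0 ∨ x.1 = 1 ∨ x.2 = 0
  sub : bM ⊆ M
  top : ∀ a ∈ Icc (0:ℝ) 1, κ.toFun (a, 1) ∈ bM ∧ β.toFun (κ.toFun (a, 1)) = (a, 1)
  bint : ∀ x ∈ Rct, κ.toFun x ∈ bM → x.2 = 1 ∨ x.1 = 0 ∨ x.1 = 1 ∨ x.2 = 0

open Classical in
/-- the squeezing map of one layer in the model -/
noncomputable def TM {R' : Set G} (κ : ConHomeo Rct R') (h : ℝ) (A : ArcD) (x : G) : G :=
  if x ∈ R' then κ.toFun ((κ.invFun x).1, chi h (A.lam (κ.invFun x).1) (κ.invFun x).2) else x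

open Classical in
/-- the band coordinate of the last arc in the model -/
noncomputable def zlM {R' : Set G} (κ : ConHomeo Rct R') (h : ℝ) (A : ArcD) (x : G) : ℝ :=
  if x ∈ R' then zl h (A.lam (κ.invFun x).1) (κ.invFun x).2 else 0

/-- the model functions of one more arc -/
noncomputable def zS {R' : Set G} (κ : ConHomeo Rct R') (h : ℝ) (A : ArcD) (k : ℕ)
    (z : ℕ → G → ℝ) (i : ℕ) (x : G) : ℝ :=
  if i = k then zlM κ h A x else z i (TM κ h A x)

variable {M bM R' M' : Set G} {κ : ConHomeo Rct R'} {β : ConHomeo bM bR}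

theorem TM_of {h : ℝ} {A : ArcD} {q : ℝ × ℝ} (hq : q ∈ Rct) :
    TM κ h A (κ.toFun q) = κ.toFun (q.1, chi h (A.lam q.1) q.2) := by
  rw [TM, if_pos (κ.mapsTo hq), κ.left_inv hq]

theorem zlM_of {h : ℝ} {A : ArcD} {q : ℝ × ℝ} (hq : q ∈ Rct) :
    zlM κ h A (κ.toFun q) = zl h (A.lam q.1) q.2 := by
  rw [zlM, if_pos (κ.mapsTo hq), κ.left_inv hq]

theorem TM_off {h : ℝ} {A : ArcD} {x : G} (hx : x ∉ R') : TM κ h A x = x := by
  rw [TM, if_neg hx]

theorem zlM_off {h : ℝ} {A : ArcD} {x : G} (hx : x ∉ R') : zlM κ h A x = 0 := by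
  rw [zlM, if_neg hx]

/-- `chi` is the identity on the sides and on the bottom -/
theorem chi_side {h : ℝ} {A : ArcD} (h0 : 0 < h) (h1 : 2 * h < 1) (g : A.Good) {q : ℝ × ℝ}
    (hq : q ∈ Rct) (hs : q.1 ≤ A.p ∨ A.q ≤ q.1 ∨ q.2 = 0) : chi h (A.lam q.1) q.2 = q.2 ∧
      q ∈ Qr h A := by
  have k0 : 0 ≤ q.2 := hq.2.1
  have k1 : q.2 ≤ 1 := hq.2.2
  have hl0 := ArcD.lam_nonneg (A := A) q.1
  have hl2 := ArcD.lam_le_two (A := A) q.1
  have hl : A.lam q.1 = 0 ∨ q.2 = 0 := by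
    rcases hs with h3 | h3 | h3
    · exact Or.inl (g.lam_zero_left h3)
    · exact Or.inl (g.lam_zero_right h3)
    · exact Or.inr h3
  rcases hl with h3 | h3
  · have hle : q.2 ≤ q.2 / (1 - 2 * h) := by
      rw [le_div_iff₀ (by linarith)]; nlinarith
    refine ⟨?_, hq, ?_⟩
    · rw [h3]; unfold chi
      rw [mul_zero, add_zero, min_eq_left hle, min_eq_right k1]
    · show q.2 ≤ 1 - h * A.lam q.1
      rw [h3, mul_zero, sub_zero]; exact k1
  · refine ⟨?_, hq, ?_⟩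
    · rw [h3]; exact chi_zero h0.le hl0
    · show q.2 ≤ 1 - h * A.lam q.1
      rw [h3]; nlinarith

namespace Mdl

variable (hM : Mdl (M := M) (M' := M') κ β)
include hM

theorem cR : IsCompact R' := κ.isCompact_right isCompact_Rct

theorem cM : IsCompact M := hM.cov ▸ hM.cR.union hM.cM'

/-- the squeezing map as a conical homeomorphism -/
theorem exists_aM {h : ℝ} {A : ArcD} (h0 : 0 < h) (h1 : 2 * h < 1) (g : A.Good) :
    ∃ a : ConHomeo (κ.toFun '' Qr h A ∪ M') M,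
      (∀ q ∈ Qr h A, a.toFun (κ.toFun q) = κ.toFun (q.1, chi h (A.lam q.1) q.2)) ∧
      ∀ x ∈ M', a.toFun x = x := by
  have hQR : Qr h A ⊆ Rct := fun x hx => hx.1
  have hQk : ConicalSet (Qr h A) := (locCone_Qr h A).conicalSet
  let aQ : ConHomeo (κ.toFun '' Qr h A) R' :=
    (κ.restr hQk hQR).symm.trans ((psiQ h0 h1 A).trans κ)
  have e1 : ∀ q ∈ Qr h A, aQ.toFun (κ.toFun q) = κ.toFun (q.1, chi h (A.lam q.1) q.2) := by
    intro q hq
    show κ.toFun ((κ.invFun (κ.toFun q)).1, chi h (A.lam (κ.invFun (κ.toFun q)).1)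
      (κ.invFun (κ.toFun q)).2) = _
    rw [κ.left_inv (hQR hq)]
  have cQ : IsCompact (κ.toFun '' Qr h A) :=
    (isCompact_Rct.of_isClosed_subset (isClosed_Qr _ _) hQR).image_of_continuousOn
      (κ.cont.mono hQR)
  have key : ∀ q ∈ Rct, κ.toFun q ∈ M' → q ∈ Qr h A ∧ aQ.toFun (κ.toFun q) = κ.toFun q := by
    intro q hq hqM
    have hs : q.1 ≤ A.p ∨ A.q ≤ q.1 ∨ q.2 = 0 := by
      rcases hM.int q hq hqM with h3 | h3 | h3
      · left; rw [h3]; exact g.p0.le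
      · right; left; rw [h3]; exact g.q1.le
      · right; right; exact h3
    obtain ⟨h3, h4⟩ := chi_side h0 h1 g hq hs
    refine ⟨h4, ?_⟩
    rw [e1 q h4, h3]
  have hag : EqOn aQ.toFun (ConHomeo.refl hM.kM').toFun (κ.toFun '' Qr h A ∩ M') := by
    rintro _ ⟨⟨q, hq, rfl⟩, hqM⟩
    exact (key q (hQR hq) hqM).2
  have himg : R' ∩ M' ⊆ aQ.toFun '' (κ.toFun '' Qr h A ∩ M') := by
    rintro y ⟨hy, hyM⟩
    have hq := κ.mapsTo_inv hy
    have hy' := κ.right_inv hy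
    have h3 := key _ hq (by rw [hy']; exact hyM)
    refine ⟨y, ⟨⟨_, h3.1, hy'⟩, hyM⟩, ?_⟩
    rw [← hy']; exact h3.2
  let a := (ConHomeo.glue aQ (ConHomeo.refl hM.kM') cQ.isClosed hM.cM'.isClosed hM.cR.isClosed
    hM.cM'.isClosed hag himg).cast rfl hM.cov
  refine ⟨a, fun q hq => ?_, fun x hx => ?_⟩
  · rw [← e1 q hq]
    exact ConHomeo.glue_left aQ (ConHomeo.refl hM.kM') cQ.isClosed hM.cM'.isClosed hM.cR.isClosed
      hM.cM'.isClosed hag himg (mem_image_of_mem _ hq)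
  · exact ConHomeo.glue_right aQ (ConHomeo.refl hM.kM') cQ.isClosed hM.cM'.isClosed hM.cR.isClosed
      hM.cM'.isClosed hag himg hx

end Mdl

namespace Stp

variable {B₁ B₂ C₁ C₂ : Set E} (H : Stp k A col C B fn γ B₁ B₂ C₁ C₂)

include H

/-- **one step in the model** -/
theorem stepM (hM : Mdl (M := M) (M' := M') κ β) {h : ℝ} (hp : 0 < h) (h2 : 2 * h < 1)
    (hkN : k + 1 ≤ N) {z : ℕ → G → ℝ}
    (z1 : ∀ i < k, ∀ a ∈ Icc (0:ℝ) 1, z i (κ.toFun (a, 1)) = (A i).sig a)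
    (z2 : ∀ i, k ≤ i → ∀ x ∈ M, z i x = 0)
    (IH : ∀ γ' : ℝ × ℝ → E, Pat k A col C₁ (B₁ ∪ Sa C fn k) fn γ' →
      ∃ Φ : ConHomeo M (Fil N k C₁ fn),
        (∀ x ∈ M, ∀ i : Fin N, (Φ.toFun x).2 i = z i x) ∧
        (∀ x ∈ bM, (Φ.toFun x).1 = γ' (β.toFun x))) :
    ∃ Φ : ConHomeo M (Fil N (k + 1) C fn),
      (∀ x ∈ M, ∀ i : Fin N, (Φ.toFun x).2 i = zS κ h (A k) k z i x) ∧
      (∀ x ∈ bM, (Φ.toFun x).1 = γ (β.toFun x)) := by
  have g := H.gk
  obtain ⟨L, hL⟩ := H.exists_L (N := N) (by omega)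
  obtain ⟨Φ₁, Φz, Φb⟩ := IH _ (H.new_pat hL)
  obtain ⟨W, hW⟩ := H.exists_M hkN hL
  obtain ⟨aM, aM1, aM2⟩ := hM.exists_aM hp h2 g
  set e : Fin N := ⟨k, hkN⟩ with he
  have HhR : Hh h (A k) ⊆ Rct := by
    rw [← Rct_eq hp h2 g]; exact subset_union_right
  have HQR : Qr h (A k) ⊆ Rct := fun x hx => hx.1
  have kHh : ConicalSet (Hh h (A k)) := (locCone_Hh _ _).conicalSet
  let h₁ : ConHomeo (κ.toFun '' Qr h (A k) ∪ M') (Fil N k C₁ fn) := aM.trans Φ₁
  let h₂ : ConHomeo (κ.toFun '' Hh h (A k)) (FilD N k C C₂ fn) :=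
    (κ.restr kHh HhR).symm.trans ((psiH hp (A k)).trans ((LC g).trans W))
  have e₁ : ∀ q ∈ Qr h (A k), h₁.toFun (κ.toFun q) =
      Φ₁.toFun (κ.toFun (q.1, chi h ((A k).lam q.1) q.2)) := fun q hq => by
    show Φ₁.toFun (aM.toFun (κ.toFun q)) = _
    rw [aM1 q hq]
  have e₁' : ∀ x ∈ M', h₁.toFun x = Φ₁.toFun x := fun x hx => by
    show Φ₁.toFun (aM.toFun x) = _
    rw [aM2 x hx]
  have e₂ : ∀ q ∈ Hh h (A k), h₂.toFun (κ.toFun q) =
      L.toFun (ff (A k) (q.1, (1 - q.2) / h), yy (A k) (q.1, (1 - q.2) / h)) +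
      zz (A k) (q.1, (1 - q.2) / h) • ev E e := fun q hq => by
    show W.toFun ((LC g).toFun ((psiH hp (A k)).toFun (κ.invFun (κ.toFun q)))) = _
    rw [κ.left_inv (HhR hq)]
    exact hW _
  have hy : ∀ x ∈ Hh h (A k), (x.1, (1 - x.2) / h) ∈ Hy (A k) := fun x hx =>
    (psiH hp (A k)).mapsTo hx
  have dD : ∀ x ∈ Hh h (A k), (ff (A k) (x.1, (1 - x.2) / h), yy (A k) (x.1, (1 - x.2) / h)) ∈
      D0 (A k) := fun x hx => (lc_all g (hy x hx)).1.1
  -- components of `h₂`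
  have f1 : ∀ x ∈ Hh h (A k), (h₂.toFun (κ.toFun x)).1 = (L.toFun (ff (A k) (x.1, (1 - x.2) / h),
      yy (A k) (x.1, (1 - x.2) / h))).1 := fun x hx => by
    rw [e₂ x hx]
    show _ + _ • (0 : E) = _
    rw [smul_zero, add_zero]
  have f2 : ∀ x ∈ Hh h (A k), ∀ i : Fin N, (h₂.toFun (κ.toFun x)).2 i =
      if (i : ℕ) < k then (A i).sig x.1 else if i = e then zz (A k) (x.1, (1 - x.2) / h) else 0 := by
    intro x hx i
    rw [e₂ x hx]
    show (L.toFun (ff (A k) (x.1, (1 - x.2) / h), yy (A k) (x.1, (1 - x.2) / h))).2 i +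
      zz (A k) (x.1, (1 - x.2) / h) • (ev E e).2 i = _
    rw [hL.z _ (dD x hx) i]
    split_ifs with c1 c2
    · have : i ≠ e := fun hie => by rw [hie] at c1; exact lt_irrefl k c1
      rw [ev_ne this, smul_zero, add_zero]
      exact H.P.pos.sig_ff c1 (hy x hx)
    · rw [c2, ev_self, smul_eq_mul, mul_one, zero_add]
    · rw [ev_ne c2, smul_zero, add_zero]
  -- closedness
  have cHh : IsCompact (κ.toFun '' Hh h (A k)) :=
    (isCompact_Rct.of_isClosed_subset (isClosed_Hh _ _) HhR).image_of_continuousOn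
      (κ.cont.mono HhR)
  have cQh : IsCompact (κ.toFun '' Qr h (A k)) :=
    (isCompact_Rct.of_isClosed_subset (isClosed_Qr _ _) HQR).image_of_continuousOn
      (κ.cont.mono HQR)
  have cX1 : IsClosed (κ.toFun '' Qr h (A k) ∪ M') := (cQh.union hM.cM').isClosed
  have cF1 : IsClosed (Fil N k C₁ fn) := (Φ₁.isCompact_right hM.cM).isClosed
  have cF2 : IsClosed (FilD N k C C₂ fn) := (h₂.isCompact_right cHh).isClosed
  -- the region over the layer does not meet `M'`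
  have hHM : ∀ q ∈ Hh h (A k), κ.toFun q ∉ M' := by
    intro q hq hqM
    have hl2 := ArcD.lam_le_two (A := A k) q.1
    have q4 : 1 - h * (A k).lam q.1 ≤ q.2 := hq.2.2.2
    rcases hM.int q (HhR hq) hqM with h3 | h3 | h3
    · have := hq.1; have := g.p0; linarith
    · have := hq.2.1; have := g.q1; linarith
    · rw [h3] at q4; nlinarith
  have hXH : ∀ q ∈ Hh h (A k), κ.toFun q ∈ κ.toFun '' Qr h (A k) ∪ M' → q ∈ Qr h (A k) := by
    intro q hq hx
    rcases hx with ⟨q', hq', hqq⟩ | hx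
    · have := κ.injOn (HQR hq') (HhR hq) hqq
      rw [← this]; exact hq'
    · exact absurd hx (hHM q hq)
  have chiM : ∀ q ∈ Rct, κ.toFun (q.1, chi h ((A k).lam q.1) q.2) ∈ M := by
    intro q hq
    rw [← hM.cov]
    left
    apply κ.mapsTo
    exact ⟨hq.1, chi_nonneg hp.le h2 (ArcD.lam_nonneg _) hq.2.1, chi_le_one _ _ _⟩
  have topM : ∀ a ∈ Icc (0:ℝ) 1, κ.toFun (a, 1) ∈ M := fun a ha => hM.sub (hM.top a ha).1
  -- agreement
  have hag : EqOn h₁.toFun h₂.toFun ((κ.toFun '' Qr h (A k) ∪ M') ∩ κ.toFun '' Hh h (A k)) := by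
    rintro _ ⟨hx1, ⟨x, hxH, rfl⟩⟩
    have hxQ := hXH x hxH hx1
    obtain ⟨q1, q2, q3, q4⟩ := QH_inter.1 ⟨hxQ, hxH⟩
    have ey : (1 - x.2) / h = (A k).lam x.1 := by
      rw [q4]; field_simp; ring
    have echi : chi h ((A k).lam x.1) x.2 = 1 :=
      chi_of_ge hp h2 (ArcD.lam_le_two _) q4.ge
    have hX : ((x.1, 1) : ℝ × ℝ) ∈ X2 (A k) := ⟨⟨q2, q3⟩, rfl⟩
    have hbR := X2_bR g hX
    have ha : x.1 ∈ Icc (0:ℝ) 1 := q1.1
    obtain ⟨b1, b2⟩ := ff_bot g q2 q3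
    obtain ⟨t1, t2⟩ := hM.top x.1 ha
    refine Prod.ext ?_ ?_
    · rw [f1 x hxH, e₁ x hxQ, echi, Φb _ t1, t2, H.new2 hL hX, ey, b1]; rfl
    · funext i
      rw [f2 x hxH i, e₁ x hxQ, echi, Φz _ (topM _ ha) i, ey, b2]
      split_ifs with c1 c2
      · exact z1 i c1 _ ha
      · exact z2 _ (by rw [c2]) _ (topM _ ha)
      · exact z2 _ (by omega) _ (topM _ ha)
  have himg : Fil N k C₁ fn ∩ FilD N k C C₂ fn ⊆
      h₁.toFun '' ((κ.toFun '' Qr h (A k) ∪ M') ∩ κ.toFun '' Hh h (A k)) := by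
    rintro v ⟨hv1, hv2⟩
    obtain ⟨x, hxH, hx⟩ := h₂.mapsTo_inv hv2
    have hxv : h₂.toFun (κ.toFun x) = v := by rw [hx]; exact h₂.right_inv hv2
    have hz : zz (A k) (x.1, (1 - x.2) / h) = 0 := by
      have h3 := f2 x hxH e
      rw [if_neg (lt_irrefl k), if_pos rfl, hxv] at h3
      rw [← h3]
      exact (hv1.2 e).2.2.2 le_rfl
    have hle : (A k).lam x.1 ≤ (1 - x.2) / h := by
      by_contra hc
      rw [not_le] at hc
      have : 0 < zz (A k) (x.1, (1 - x.2) / h) :=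
        lt_max_of_lt_right (lt_min one_pos (sub_pos.2 hc))
      exact this.ne' hz
    have hQ : x ∈ Qr h (A k) := by
      refine ⟨HhR hxH, ?_⟩
      rw [le_div_iff₀ hp] at hle
      linarith
    have hm : κ.toFun x ∈ (κ.toFun '' Qr h (A k) ∪ M') ∩ κ.toFun '' Hh h (A k) :=
      ⟨Or.inl (mem_image_of_mem _ hQ), mem_image_of_mem _ hxH⟩
    exact ⟨_, hm, by rw [hag hm, hxv]⟩
  have eX : (κ.toFun '' Qr h (A k) ∪ M') ∪ κ.toFun '' Hh h (A k) = M := by
    rw [union_right_comm, ← image_union, Rct_eq hp h2 g, κ.image_eq, hM.cov]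
  have eY : Fil N k C₁ fn ∪ FilD N k C C₂ fn = Fil N (k + 1) C fn := by
    ext v
    constructor
    · rintro (hv | hv)
      · refine ⟨H.C₁C hv.1, fun i => ?_⟩
        obtain ⟨f1, f2, f3, f4⟩ := hv.2 i
        refine ⟨f1, fun h3 h4 => ?_, fun h3 h4 => ?_, fun h3 => f4 (by omega)⟩
        · by_cases hi : (i : ℕ) < k
          · exact f2 hi h4
          · exact f4 (by omega)
        · by_cases hi : (i : ℕ) < k
          · exact f3 hi h4
          · have hi' : (i : ℕ) = k := by omega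
            rw [hi'] at h4
            exact absurd ((H.mem₁ (H.C₁C hv.1)).1 hv.1) (not_le.2 h4)
      · exact hv.1
    · intro hv
      by_cases hc : v.1 ∈ C₂
      · exact Or.inr ⟨hv, hc⟩
      · left
        have hneg : fn k v.1 < 0 := by
          by_contra h3
          exact hc ((H.mem₂ hv.1).2 (not_lt.1 h3))
        refine ⟨(H.mem₁ hv.1).2 hneg.le, fun i => ?_⟩
        obtain ⟨f1, f2, f3, f4⟩ := hv.2 i
        refine ⟨f1, fun h3 => f2 (by omega), fun h3 => f3 (by omega), fun h3 => ?_⟩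
        by_cases hi : (i : ℕ) = k
        · exact f2 (by omega) (by rw [hi]; exact hneg)
        · exact f4 (by omega)
  let Φ := (ConHomeo.glue h₁ h₂ cX1 cHh.isClosed cF1 cF2 hag himg).cast eX eY
  have g1 : EqOn Φ.toFun h₁.toFun (κ.toFun '' Qr h (A k) ∪ M') :=
    ConHomeo.glue_left h₁ h₂ cX1 cHh.isClosed cF1 cF2 hag himg
  have g2 : EqOn Φ.toFun h₂.toFun (κ.toFun '' Hh h (A k)) :=
    ConHomeo.glue_right h₁ h₂ cX1 cHh.isClosed cF1 cF2 hag himg
  have gM' : ∀ x ∈ M', Φ.toFun x = Φ₁.toFun x := fun x hx => by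
    rw [g1 (Or.inr hx), e₁' x hx]
  refine ⟨Φ, ?_, ?_⟩
  · intro x hx i
    by_cases hxR : x ∈ R'
    · have hq := κ.mapsTo_inv hxR
      have hxq := κ.right_inv hxR
      set q := κ.invFun x with hq'
      rw [← hxq, zS, zlM_of hq, TM_of hq]
      have hq2 := hq
      rw [← Rct_eq hp h2 g] at hq2
      rcases hq2 with hQ | hH
      · rw [g1 (Or.inl (mem_image_of_mem _ hQ)), e₁ q hQ, Φz _ (chiM q hq) i]
        by_cases hi : (i : ℕ) = k
        · rw [if_pos hi, hi, z2 k le_rfl _ (chiM q hq)]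
          exact (zl_of_le hp hQ.2).symm
        · rw [if_neg hi]
      · rw [g2 (mem_image_of_mem _ hH), f2 q hH i]
        have echi : chi h ((A k).lam q.1) q.2 = 1 :=
          chi_of_ge hp h2 (ArcD.lam_le_two _) hH.2.2.2
        have ha : q.1 ∈ Icc (0:ℝ) 1 := hq.1
        rcases lt_trichotomy (i : ℕ) k with c1 | c1 | c1
        · rw [if_pos c1, if_neg c1.ne, echi]; exact (z1 i c1 _ ha).symm
        · rw [if_neg (by omega), if_pos (Fin.ext c1 : i = e), if_pos c1]; rfl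
        · have : i ≠ e := fun h3 => by rw [h3] at c1; exact lt_irrefl k c1
          rw [if_neg (by omega), if_neg this, if_neg (by omega), echi]
          exact (z2 _ (by omega) _ (topM _ ha)).symm
    · have hxM' : x ∈ M' := by
        rw [← hM.cov] at hx
        exact hx.resolve_left hxR
      rw [gM' x hxM', Φz x hx i, zS, zlM_off hxR, TM_off hxR]
      split_ifs with c1
      · exact z2 _ (by omega) _ hx
      · rfl
  · intro x hx
    -- off the top side the boundary chart is in `X1`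
    have hoff : ∀ x ∈ bM, (∀ a ∈ Icc (0:ℝ) 1, x ≠ κ.toFun (a, 1)) → β.toFun x ∈ X1 (A k) := by
      intro x hx hne
      have hb := β.mapsTo hx
      refine ⟨hb, ?_⟩
      have hb1 : (β.toFun x).2 ≠ 1 := by
        intro h3
        have ha : (β.toFun x).1 ∈ Icc (0:ℝ) 1 := hb.1.1
        obtain ⟨t1, t2⟩ := hM.top _ ha
        have h4 : β.toFun x = β.toFun (κ.toFun ((β.toFun x).1, 1)) := by
          rw [t2]; exact Prod.ext rfl h3
        exact hne _ ha (β.injOn hx t1 h4)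
      rcases hb.2 with h3 | h3 | h3 | h3
      · left; rw [h3]; exact g.p0.le
      · right; left; rw [h3]; exact g.q1.le
      · right; right; exact h3
      · exact absurd h3 hb1
    by_cases hxR : x ∈ R'
    · have hq := κ.mapsTo_inv hxR
      have hxq := κ.right_inv hxR
      set q := κ.invFun x with hq'
      have ha : q.1 ∈ Icc (0:ℝ) 1 := hq.1
      by_cases hq1 : q.2 = 1
      · have eq : q = (q.1, 1) := Prod.ext rfl hq1
        have hβ : β.toFun x = (q.1, 1) := by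
          rw [← hxq, eq]; exact (hM.top _ ha).2
        rw [hβ]
        by_cases hX : (A k).p ≤ q.1 ∧ q.1 ≤ (A k).q
        · have hH : q ∈ Hh h (A k) := by
            refine ⟨hX.1, hX.2, hq.2.2, ?_⟩
            have := mul_nonneg hp.le (ArcD.lam_nonneg (A := A k) q.1)
            rw [hq1]; linarith
          have ey : (1 - q.2) / h = 0 := by rw [hq1, sub_self, zero_div]
          rw [← hxq, g2 (mem_image_of_mem _ hH), f1 q hH, ey]
          obtain ⟨t1, t2⟩ := ff_top g hX.1 hX.2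
          rw [t1]
          have hw := g.w0; have hw' := g.w0'
          rcases t2 with ⟨t3, t4⟩ | ⟨t3, t4⟩ | ⟨t3, t4, t5⟩
          · rw [t4, hL.top _ ⟨le_rfl, g.pqs.le⟩]
            refine H.P.fib' (j := (k, false)) (by show k < k + 1; omega) H.ps_mem ?_
            simp only [lf, rt, Bool.false_eq_true, if_false, mem_Icc]
            exact ⟨hX.1, t3⟩
          · rw [t4, hL.top _ ⟨g.pqs.le, le_rfl⟩]
            refine H.P.fib' (j := (k, true)) (by show k < k + 1; omega) H.qs_mem ?_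
            simp only [lf, rt, if_true, mem_Icc]
            exact ⟨t3, hX.2⟩
          · rw [t5, hL.top _ ⟨t3, t4⟩]
        · have hs : q.1 ≤ (A k).p ∨ (A k).q ≤ q.1 := by
            by_contra hc
            push Not at hc
            exact hX ⟨hc.1.le, hc.2.le⟩
          obtain ⟨h3, h4⟩ := chi_side hp h2 g hq (hs.elim Or.inl fun h => Or.inr (Or.inl h))
          rw [← hxq, g1 (Or.inl (mem_image_of_mem _ h4)), e₁ q h4, h3]
          show (Φ₁.toFun (κ.toFun q)).1 = _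
          rw [hxq, Φb x hx, hβ]
          exact H.new1 hL ⟨top_bR ha.1 ha.2, hs.elim Or.inl fun h => Or.inr (Or.inl h)⟩
      · have hs : q.1 ≤ (A k).p ∨ (A k).q ≤ q.1 ∨ q.2 = 0 := by
          rcases hM.bint q hq (by rw [hxq]; exact hx) with h3 | h3 | h3 | h3
          · exact absurd h3 hq1
          · left; rw [h3]; exact g.p0.le
          · right; left; rw [h3]; exact g.q1.le
          · right; right; exact h3
        obtain ⟨h3, h4⟩ := chi_side hp h2 g hq hs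
        have hne : ∀ a ∈ Icc (0:ℝ) 1, x ≠ κ.toFun (a, 1) := by
          intro a ha' h5
          rw [← hxq] at h5
          have h6 := κ.injOn hq (top_bR ha'.1 ha'.2).1 h5
          exact hq1 (by rw [h6])
        have h5 := H.new1 hL (hoff x hx hne)
        rw [← h5, ← Φb x hx]
        nth_rewrite 1 [← hxq]
        rw [g1 (Or.inl (mem_image_of_mem _ h4)), e₁ q h4, h3]
        show (Φ₁.toFun (κ.toFun q)).1 = _
        rw [hxq]
    · have hxM' : x ∈ M' := by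
        have := hM.sub hx
        rw [← hM.cov] at this
        exact this.resolve_left hxR
      rw [gM' x hxM', Φb x hx]
      refine H.new1 hL (hoff x hx fun a ha h5 => hxR ?_)
      rw [h5]
      exact κ.mapsTo (top_bR ha.1 ha.2).1

end Stp

/-! ### All steps -/

/-- the model functions of the base and `n` further arcs -/
noncomputable def zM {R' : Set G} (κ : ConHomeo Rct R') (hs : ℕ → ℝ) (A : ℕ → ArcD) (k0 : ℕ)
    (z0 : ℕ → G → ℝ) : ℕ → ℕ → G → ℝ
  | 0 => z0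
  | n + 1 => zS κ (hs (k0 + n)) (A (k0 + n)) (k0 + n) (zM κ hs A k0 z0 n)

theorem zM_top {hs : ℕ → ℝ}
    (hp : ∀ i, 0 < hs i) (h2 : ∀ i, 2 * hs i < 1) {k0 : ℕ}
    {z0 : ℕ → G → ℝ} (z1 : ∀ i < k0, ∀ a ∈ Icc (0:ℝ) 1, z0 i (κ.toFun (a, 1)) = (A i).sig a) :
    ∀ n, ∀ i < k0 + n, ∀ a ∈ Icc (0:ℝ) 1,
      zM κ hs A k0 z0 n i (κ.toFun (a, 1)) = (A i).sig a := by
  intro n
  induction n with
  | zero => exact z1
  | succ n ih =>
    intro i hi a ha
    have hq : ((a, 1) : ℝ × ℝ) ∈ Rct := (top_bR ha.1 ha.2).1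
    rw [zM, zS, zlM_of hq, TM_of hq]
    split_ifs with c1
    · rw [c1]
      show zl _ _ 1 = _
      rw [zl, sub_self, zero_div, sub_zero]; rfl
    · show zM κ hs A k0 z0 n i (κ.toFun (a, chi _ _ 1)) = _
      rw [chi_one (hp _).le (h2 _) (ArcD.lam_nonneg a)]
      exact ih i (by omega) a ha

theorem TM_mem (hM : Mdl (M := M) (M' := M') κ β) {h : ℝ} {A : ArcD} (hp : 0 < h)
    (h2 : 2 * h < 1) {x : G} (hx : x ∈ M) : TM κ h A x ∈ M := by
  by_cases hxR : x ∈ R'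
  · have hq := κ.mapsTo_inv hxR
    rw [TM, if_pos hxR, ← hM.cov]
    left
    exact κ.mapsTo ⟨hq.1, chi_nonneg hp.le h2 (ArcD.lam_nonneg _) hq.2.1, chi_le_one _ _ _⟩
  · rw [TM_off hxR]; exact hx

theorem zM_zero (hM : Mdl (M := M) (M' := M') κ β) {hs : ℕ → ℝ}
    (hp : ∀ i, 0 < hs i) (h2 : ∀ i, 2 * hs i < 1) {k0 : ℕ}
    {z0 : ℕ → G → ℝ} (z2 : ∀ i, k0 ≤ i → ∀ x ∈ M, z0 i x = 0) :
    ∀ n, ∀ i, k0 + n ≤ i → ∀ x ∈ M, zM κ hs A k0 z0 n i x = 0 := by
  intro n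
  induction n with
  | zero => exact z2
  | succ n ih =>
    intro i hi x hx
    rw [zM, zS, if_neg (by omega)]
    exact ih i (by omega) _ (TM_mem hM (hp _) (h2 _) hx)

/-- **PEEL with a base, in a model disc** -/
theorem peelM (hM : Mdl (M := M) (M' := M') κ β) {hs : ℕ → ℝ} (hp : ∀ i, 0 < hs i)
    (h2 : ∀ i, 2 * hs i < 1) (N k0 : ℕ) (A : ℕ → ArcD) (col : ℕ → Bool) (fn : ℕ → E → ℝ)
    (z0 : ℕ → G → ℝ) (z1 : ∀ i < k0, ∀ a ∈ Icc (0:ℝ) 1, z0 i (κ.toFun (a, 1)) = (A i).sig a)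
    (z2 : ∀ i, k0 ≤ i → ∀ x ∈ M, z0 i x = 0)
    (base : ∀ (C B : Set E) (γ : ℝ × ℝ → E), Pat k0 A col C B fn γ →
      ∃ Φ : ConHomeo M (Fil N k0 C fn), (∀ x ∈ M, ∀ i : Fin N, (Φ.toFun x).2 i = z0 i x) ∧
        ∀ x ∈ bM, (Φ.toFun x).1 = γ (β.toFun x)) :
    ∀ n, k0 + n ≤ N → ∀ (C B : Set E) (γ : ℝ × ℝ → E), Pat (k0 + n) A col C B fn γ →
      ∃ Φ : ConHomeo M (Fil N (k0 + n) C fn),
        (∀ x ∈ M, ∀ i : Fin N, (Φ.toFun x).2 i = zM κ hs A k0 z0 n i x) ∧
        ∀ x ∈ bM, (Φ.toFun x).1 = γ (β.toFun x) := by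
  intro n
  induction n with
  | zero => exact fun _ => base
  | succ n ih =>
    intro hkN C B γ hP
    have hP' : Pat (k0 + n + 1) A col C B fn γ := hP
    obtain ⟨B₁, B₂, C₁, C₂, hc, hn, hpos⟩ := hP'.cut
    have H : Stp (k0 + n) A col C B fn γ B₁ B₂ C₁ C₂ := ⟨hP', hc, hn, hpos⟩
    exact H.stepM hM (hp (k0 + n)) (h2 (k0 + n)) (by omega)
      (zM_top hp h2 z1 n) (zM_zero hM hp h2 z2 n)
      fun γ' hP' => ih (by omega) C₁ _ γ' hP'

end P073.H31
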